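import Crest.Agent.R065.Growth_669

/-!
# Dimension and degree of prime ideals; asymptotics
-/

set_option autoImplicit false

open MvPolynomial Module Filter Topology
open scoped Pointwise Nat

namespace Crest.Agent.R065.HF669

/-! ### Elementary asymptotics of binomial coefficients -/

lemma pow_le_choose_mul (n r : ℕ) : (n + 1) ^ r ≤ (n + r).choose r * r ! := by
  have h1 := Nat.pow_sub_le_descFactorial (n + r) r
  have h2 : n + r + 1 - r = n + 1 := by omega
  rw [h2, Nat.descFactorial_eq_factorial_mul_choose, mul_comm] at h1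
  exact h1

lemma choose_mul_le_pow (n r : ℕ) : (n + r).choose r * r ! ≤ (n + r) ^ r := by
  have h1 := Nat.descFactorial_le_pow (n + r) r
  rwa [Nat.descFactorial_eq_factorial_mul_choose, mul_comm] at h1

lemma tendsto_add_div_one (a : ℕ) :
    Tendsto (fun m : ℕ => ((m : ℝ) + a) / m) atTop (𝓝 1) := by
  have h1 : Tendsto (fun m : ℕ => (1 : ℝ) + a / m) atTop (𝓝 (1 + 0)) :=
    tendsto_const_nhds.add (tendsto_const_div_atTop_nhds_zero_nat (a : ℝ))
  rw [add_zero] at h1
  refine h1.congr' ?_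
  filter_upwards [eventually_gt_atTop 0] with m hm
  have : (m : ℝ) ≠ 0 := by positivity
  field_simp

lemma tendsto_choose (r c : ℕ) :
    Tendsto (fun m : ℕ => (((m + c + r).choose r : ℕ) : ℝ) / (m : ℝ) ^ r) atTop
      (𝓝 (1 / (r ! : ℝ))) := by
  have hr : (0 : ℝ) < r ! := by exact_mod_cast Nat.factorial_pos r
  have h1 : Tendsto (fun m : ℕ => (((m : ℝ) + (c : ℕ)) / m) ^ r / (r ! : ℝ)) atTop
      (𝓝 (1 / (r ! : ℝ))) := by
    have := ((tendsto_add_div_one c).pow r).div_const (r ! : ℝ)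
    rwa [one_pow] at this
  have h2 : Tendsto (fun m : ℕ => (((m : ℝ) + (c + r : ℕ)) / m) ^ r / (r ! : ℝ)) atTop
      (𝓝 (1 / (r ! : ℝ))) := by
    have := ((tendsto_add_div_one (c + r)).pow r).div_const (r ! : ℝ)
    rwa [one_pow] at this
  refine tendsto_of_tendsto_of_tendsto_of_le_of_le' h1 h2 ?_ ?_
  · filter_upwards [eventually_gt_atTop 0] with m hm
    have hm' : (0 : ℝ) < (m : ℝ) ^ r := by positivity
    rw [div_pow, div_div, mul_comm, ← div_div, div_le_div_iff_of_pos_right hm',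
      div_le_iff₀ hr]
    have h3 := pow_le_choose_mul (m + c) r
    have h4 : (m + c) ^ r ≤ (m + c + 1) ^ r := Nat.pow_le_pow_left (by omega) r
    exact_mod_cast h4.trans h3
  · filter_upwards [eventually_gt_atTop 0] with m hm
    have hm' : (0 : ℝ) < (m : ℝ) ^ r := by positivity
    rw [div_pow, div_div, mul_comm, ← div_div, div_le_div_iff_of_pos_right hm',
      le_div_iff₀ hr]
    have h3 := choose_mul_le_pow (m + c) r
    rw [add_assoc m c r] at *
    exact_mod_cast h3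

/-- comparison of leading coefficients -/
lemma le_of_choose_le {δ₁ δ₂ r c₁ c₂ : ℕ}
    (h : ∀ᶠ m : ℕ in atTop, δ₁ * (m + c₁ + r).choose r ≤ δ₂ * (m + c₂ + r).choose r) :
    δ₁ ≤ δ₂ := by
  have hr : (0 : ℝ) < r ! := by exact_mod_cast Nat.factorial_pos r
  have h1 := (tendsto_choose r c₁).const_mul (δ₁ : ℝ)
  have h2 := (tendsto_choose r c₂).const_mul (δ₂ : ℝ)
  have h3 := le_of_tendsto_of_tendsto h1 h2 (by
    filter_upwards [h, eventually_gt_atTop 0] with m hm hm0
    have hm' : (0 : ℝ) < (m : ℝ) ^ r := by positivity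
    rw [← mul_div_assoc, ← mul_div_assoc, div_le_div_iff_of_pos_right hm']
    exact_mod_cast hm)
  have h4 : (δ₁ : ℝ) ≤ δ₂ := by
    rw [mul_one_div, mul_one_div, div_le_div_iff_of_pos_right hr] at h3
    exact h3
  exact_mod_cast h4

/-- comparison of exponents -/
lemma exp_le_of_choose_le {δ₁ δ₂ r₁ r₂ c₁ c₂ : ℕ} (h0 : 0 < δ₁)
    (h : ∀ᶠ m : ℕ in atTop, δ₁ * (m + c₁ + r₁).choose r₁ ≤ δ₂ * (m + c₂ + r₂).choose r₂) :
    r₁ ≤ r₂ := by
  by_contra hlt
  push Not at hlt
  have hr : (0 : ℝ) < r₁ ! := by exact_mod_cast Nat.factorial_pos r₁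
  have h1 := (tendsto_choose r₁ c₁).const_mul (δ₁ : ℝ)
  have h2 := (tendsto_choose r₂ c₂).const_mul (δ₂ : ℝ)
  have h5 : Tendsto (fun m : ℕ => ((m : ℝ) ^ (r₁ - r₂))⁻¹) atTop (𝓝 0) := by
    apply tendsto_inv_atTop_zero.comp
    exact (tendsto_pow_atTop (by omega)).comp tendsto_natCast_atTop_atTop
  have h6 := h2.mul h5
  rw [mul_zero] at h6
  have h3 := le_of_tendsto_of_tendsto h1 h6 (by
    filter_upwards [h, eventually_gt_atTop 0] with m hm hm0
    have hm' : (0 : ℝ) < (m : ℝ) := by exact_mod_cast hm0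
    have e : (m : ℝ) ^ r₁ = m ^ r₂ * m ^ (r₁ - r₂) := by rw [← pow_add]; congr 1; omega
    rw [e, ← mul_div_assoc, ← mul_div_assoc, ← div_eq_mul_inv, div_div,
      div_le_div_iff_of_pos_right (by positivity)]
    exact_mod_cast hm)
  have h4 : (0 : ℝ) < δ₁ * (1 / (r₁ ! : ℝ)) := by positivity
  linarith

end Crest.Agent.R065.HF669
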