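import Crest.Agent.R065.Base_348

/-!
# Row 65: pairs of points, null pairs = equal distances, the final reduction
-/

set_option autoImplicit false

open MvPolynomial Module

namespace Crest.Agent.R065.Top348

open Crest.Agent.R065.HF669 Crest.Agent.R065.Base348

variable {d : ℕ}

section alg

variable {k : Type*} [Field k]

/-- the point attached to a pair `(a, c)` -/
def zp (a c : Fin d → k) : Pt d k := (a + c, c - a)

lemma zp_injective [NeZero (2 : k)] : Function.Injective2 (zp : (Fin d → k) → (Fin d → k) → Pt d k) := by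
  intro a b c e h
  have h1 : a + c = b + e := congrArg Prod.fst h
  have h2 : c - a = e - b := congrArg Prod.snd h
  have ha : ∀ i, a i = b i := by
    intro i
    have h1' := congrFun h1 i
    have h2' := congrFun h2 i
    simp only [Pi.add_apply, Pi.sub_apply] at h1' h2'
    have : (2 : k) * a i = 2 * b i := by linear_combination h1' - h2'
    exact mul_left_cancel₀ (NeZero.ne _) this
  have hab : a = b := funext ha
  refine ⟨hab, ?_⟩
  subst hab
  exact add_left_cancel h1

lemma q_zp_sub (a c b e : Fin d → k) :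
    q (zp a c - zp b e) = ∑ i, (c i - e i) ^ 2 - ∑ i, (a i - b i) ^ 2 := by
  unfold q zp
  rw [← Finset.sum_sub_distrib]
  refine Finset.sum_congr rfl fun i _ => ?_
  simp only [Prod.fst_sub, Prod.snd_sub, Pi.sub_apply, Pi.add_apply]
  ring

lemma null_zp (a c b e : Fin d → k) :
    Null (zp a c) (zp b e) ↔ ∑ i, (a i - b i) ^ 2 = ∑ i, (c i - e i) ^ 2 := by
  unfold Null
  rw [q_zp_sub, sub_eq_zero]
  exact eq_comm

end alg

/-- the complex point attached to a pair of points of Euclidean space -/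
noncomputable def zc (a c : EuclideanSpace ℝ (Fin d)) : Pt d ℂ :=
  zp (fun i => (a i : ℂ)) (fun i => (c i : ℂ))

lemma zc_injective {a b c e : EuclideanSpace ℝ (Fin d)} (h : zc a c = zc b e) :
    a = b ∧ c = e := by
  obtain ⟨h1, h2⟩ := zp_injective h
  constructor
  · ext i
    have := congrFun h1 i
    exact_mod_cast this
  · ext i
    have := congrFun h2 i
    exact_mod_cast this

lemma null_zc (a c b e : EuclideanSpace ℝ (Fin d)) :
    Null (zc a c) (zc b e) ↔ dist a b = dist c e := by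
  unfold zc
  rw [null_zp]
  have key : ∀ u v : EuclideanSpace ℝ (Fin d),
      (∑ i, ((u i : ℂ) - (v i : ℂ)) ^ 2 : ℂ) = ((dist u v ^ 2 : ℝ) : ℂ) := by
    intro u v
    rw [EuclideanSpace.dist_eq, Real.sq_sqrt (Finset.sum_nonneg fun _ _ => by positivity)]
    push_cast
    refine Finset.sum_congr rfl fun i _ => ?_
    rw [Real.dist_eq]
    have : ((|u i - v i| : ℝ) ^ 2 : ℝ) = (u i - v i) ^ 2 := sq_abs _
    have h2 : (((|u i - v i| : ℝ) ^ 2 : ℝ) : ℂ) = ((u i - v i) ^ 2 : ℝ) := by rw [this]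
    push_cast at h2
    exact h2.symm
  rw [key, key]
  constructor
  · intro h
    have h' : dist a b ^ 2 = dist c e ^ 2 := by exact_mod_cast h
    exact (sq_eq_sq₀ dist_nonneg dist_nonneg).1 h'
  · intro h
    rw [h]

/-! ### the final reduction -/

/-- the number of distinct nonzero distances -/
noncomputable def nd (P : Finset (EuclideanSpace ℝ (Fin d))) : ℕ :=
  {t : ℝ | ∃ p ∈ P, ∃ q ∈ P, p ≠ q ∧ dist p q = t}.ncard

/-- `S0087` from `n² ≤ (A t)^d` -/
theorem result_of_bound (hd : 1 ≤ d) (A : ℝ) (hA : 0 < A)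
    (H : ∀ P : Finset (EuclideanSpace ℝ (Fin d)), 2 ≤ P.card →
      (P.card : ℝ) ^ 2 ≤ (A * (nd P : ℝ)) ^ d) :
    ∃ c : ℝ, 0 < c ∧ ∀ P : Finset (EuclideanSpace ℝ (Fin d)), 2 ≤ P.card →
      c * (P.card : ℝ) ^ ((2 : ℝ) / d) ≤
        ({t : ℝ | ∃ p ∈ P, ∃ q ∈ P, p ≠ q ∧ dist p q = t}.ncard : ℝ) := by
  refine ⟨A⁻¹, inv_pos.2 hA, fun P hP => ?_⟩
  have h := H P hP
  change A⁻¹ * _ ≤ (nd P : ℝ)
  rw [inv_mul_le_iff₀ hA]
  have hd' : (0 : ℝ) < d := by exact_mod_cast hd
  have h0 : (0 : ℝ) ≤ P.card := Nat.cast_nonneg _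
  have h1 : (P.card : ℝ) ^ ((2 : ℝ) / d) = ((P.card : ℝ) ^ 2) ^ ((1 : ℝ) / d) := by
    rw [← Real.rpow_natCast, ← Real.rpow_mul h0]
    congr 1
    push_cast
    ring
  rw [h1]
  have h2 : 0 ≤ A * (nd P : ℝ) := by positivity
  calc ((P.card : ℝ) ^ 2) ^ ((1 : ℝ) / d) ≤ ((A * (nd P : ℝ)) ^ d) ^ ((1 : ℝ) / d) :=
        Real.rpow_le_rpow (by positivity) h (by positivity)
    _ = A * (nd P : ℝ) := by
        rw [← Real.rpow_natCast, ← Real.rpow_mul h2]
        rw [mul_one_div_cancel hd'.ne', Real.rpow_one]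

end Crest.Agent.R065.Top348
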