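import Crest.Agent.R065.STc_397
import Crest.Agent.R065.Top_348

/-!
# Row 65: the planar bound `nd P ≥ c |P|^(2/3)`
-/

set_option autoImplicit false

namespace Crest.Agent.R065.Plane275

open Finset Crest.Agent.R065.ST397 Crest.Agent.R065.Top348

abbrev E2 : Type := EuclideanSpace ℝ (Fin 2)

/-- sheared coordinates -/
noncomputable def ph (s : ℝ) (p : E2) : ℝ × ℝ := (p 0 + s * p 1, p 1)

lemma ph_inj (s : ℝ) : Function.Injective (ph s) := by
  intro p q h
  have h1 : p 0 + s * p 1 = q 0 + s * q 1 := congrArg Prod.fst h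
  have h2 : p 1 = q 1 := congrArg Prod.snd h
  rw [h2] at h1
  ext i
  fin_cases i
  · simpa using h1
  · exact h2

lemma dist_eq_iff (a p q : E2) : dist a p = dist a q ↔
    2 * (q 0 - p 0) * a 0 + 2 * (q 1 - p 1) * a 1 = (q 0 ^ 2 + q 1 ^ 2) - (p 0 ^ 2 + p 1 ^ 2) := by
  rw [EuclideanSpace.dist_eq, EuclideanSpace.dist_eq,
    Real.sqrt_inj (Finset.sum_nonneg fun _ _ => by positivity)
      (Finset.sum_nonneg fun _ _ => by positivity), Fin.sum_univ_two, Fin.sum_univ_two]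
  simp only [Real.dist_eq, sq_abs]
  constructor
  · intro h; linear_combination h
  · intro h; linear_combination h

/-- the denominator of the bisector -/
noncomputable def De (s : ℝ) (p q : E2) : ℝ := 2 * (q 1 - p 1) - s * (2 * (q 0 - p 0))

/-- the bisector in the sheared coordinates -/
noncomputable def ln (s : ℝ) (p q : E2) : ℝ × ℝ :=
  (-(2 * (q 0 - p 0)) / De s p q, ((q 0 ^ 2 + q 1 ^ 2) - (p 0 ^ 2 + p 1 ^ 2)) / De s p q)

lemma on_ln {s : ℝ} {p q : E2} (h : De s p q ≠ 0) (a : E2) :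
    On (ph s a) (ln s p q) ↔ dist a p = dist a q := by
  rw [dist_eq_iff]
  unfold On ph ln
  simp only
  rw [div_mul_eq_mul_div, ← add_div, eq_div_iff h]
  unfold De
  constructor
  · intro h; linear_combination h
  · intro h; linear_combination h

lemma ln_inj {s : ℝ} {p q q' : E2} (h : De s p q ≠ 0) (h' : De s p q' ≠ 0)
    (he : ln s p q = ln s p q') (hpq : p ≠ q) : q = q' := by
  have h1 := congrArg Prod.fst he
  have h2 := congrArg Prod.snd he
  unfold ln at h1 h2
  simp only at h1 h2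
  rw [div_eq_div_iff h h'] at h1 h2
  -- write `u = q - p`, `u' = q' - p`
  set u0 := q 0 - p 0 with hu0
  set u1 := q 1 - p 1 with hu1
  set v0 := q' 0 - p 0 with hv0
  set v1 := q' 1 - p 1 with hv1
  have hD : De s p q = 2 * u1 - s * (2 * u0) := rfl
  have hD' : De s p q' = 2 * v1 - s * (2 * v0) := rfl
  have e0 : q 0 = p 0 + u0 := by rw [hu0]; ring
  have e1 : q 1 = p 1 + u1 := by rw [hu1]; ring
  have f0 : q' 0 = p 0 + v0 := by rw [hv0]; ring
  have f1 : q' 1 = p 1 + v1 := by rw [hv1]; ring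
  rw [e0, e1, f0, f1] at h2
  set D := De s p q with hDD
  set D' := De s p q' with hDD'
  have k0 : u0 * D' = v0 * D := by linear_combination (-1 / 2 : ℝ) * h1
  have k1 : u1 * D' = v1 * D := by
    have : (2 * u1) * D' = (2 * v1) * D := by
      have a1 : 2 * u1 = D + s * (2 * u0) := by rw [hD]; ring
      have a2 : 2 * v1 = D' + s * (2 * v0) := by rw [hD']; ring
      rw [a1, a2]
      linear_combination 2 * s * k0
    linarith
  have k2 : (u0 ^ 2 + u1 ^ 2) * D' = (v0 ^ 2 + v1 ^ 2) * D := by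
    linear_combination h2 - 2 * (p 0) * k0 - 2 * (p 1) * k1
  have k3 : (u0 ^ 2 + u1 ^ 2) * D' * D = (u0 ^ 2 + u1 ^ 2) * D' * D' := by
    have : (u0 ^ 2 + u1 ^ 2) * D' * D = (v0 * D) ^ 2 + (v1 * D) ^ 2 := by
      rw [k2]; ring
    rw [this, ← k0, ← k1]; ring
  have hn : u0 ^ 2 + u1 ^ 2 ≠ 0 := by
    intro h0
    have a0 : u0 = 0 := by nlinarith [sq_nonneg u0, sq_nonneg u1]
    have a1 : u1 = 0 := by nlinarith [sq_nonneg u0, sq_nonneg u1]
    apply hpq
    ext i
    fin_cases i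
    · show p 0 = q 0
      rw [e0, a0, add_zero]
    · show p 1 = q 1
      rw [e1, a1, add_zero]
  have hDD2 : D = D' := mul_left_cancel₀ (mul_ne_zero hn h') k3
  rw [← hDD2] at k0 k1
  have a0 : u0 = v0 := mul_right_cancel₀ h k0
  have a1 : u1 = v1 := mul_right_cancel₀ h k1
  ext i
  fin_cases i
  · show q 0 = q' 0
    rw [e0, f0, a0]
  · show q 1 = q' 1
    rw [e1, f1, a1]

/-- a generic shear -/
lemma exists_shear (P : Finset E2) : ∃ s : ℝ, (∀ u ∈ P, ∀ v ∈ P, (ph s u).1 = (ph s v).1 → u = v) ∧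
    ∀ p ∈ P, ∀ q ∈ P, p ≠ q → De s p q ≠ 0 := by
  classical
  let B : Finset ℝ := (P ×ˢ P).image (fun x => -(x.1 0 - x.2 0) / (x.1 1 - x.2 1)) ∪
    (P ×ˢ P).image (fun x => (x.2 1 - x.1 1) / (x.2 0 - x.1 0))
  obtain ⟨s, hs⟩ := Infinite.exists_notMem_finset B
  refine ⟨s, ?_, ?_⟩
  · intro u hu v hv h
    have h' : u 0 + s * u 1 = v 0 + s * v 1 := h
    by_cases h1 : u 1 - v 1 = 0
    · have h2 : u 1 = v 1 := by linarith
      rw [h2] at h'
      ext i
      fin_cases i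
      · simpa using h'
      · exact h2
    · exfalso
      apply hs
      apply Finset.mem_union_left
      rw [Finset.mem_image]
      refine ⟨(u, v), Finset.mem_product.2 ⟨hu, hv⟩, ?_⟩
      simp only
      rw [div_eq_iff h1]
      linear_combination -h'
  · intro p hp q hq hne h
    unfold De at h
    by_cases h1 : q 0 - p 0 = 0
    · rw [h1] at h
      have h2 : q 1 = p 1 := by linarith
      apply hne
      ext i
      fin_cases i
      · show p 0 = q 0
        linarith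
      · exact h2.symm
    · apply hs
      apply Finset.mem_union_right
      rw [Finset.mem_image]
      refine ⟨(p, q), Finset.mem_product.2 ⟨hp, hq⟩, ?_⟩
      simp only
      rw [div_eq_iff h1]
      linarith

open scoped Classical in
/-- the isosceles triples with a given base -/
noncomputable def apex (P : Finset E2) (p q : E2) : Finset E2 := P.filter fun a => dist a p = dist a q

/-- upper bound for the number of isosceles triangles -/
theorem iso_le (P : Finset E2) (k : ℕ) (hk : 2 ≤ k) (hk3 : P.card ≤ k ^ 3) (M : ℕ)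
    (hM : 23887872 * P.card ^ 4 ≤ M ^ 3) (hM1 : 6 * P.card ≤ M) :
    ∑ x ∈ P.offDiag, (apex P x.1 x.2).card ≤ k * P.card ^ 2 + 2 * P.card * M := by
  classical
  obtain ⟨s, hs1, hs2⟩ := exists_shear P
  set n := P.card with hn
  set Q : Finset (ℝ × ℝ) := P.image (ph s) with hQ
  have hQc : Q.card = n := Finset.card_image_of_injective _ (ph_inj s)
  have hinj : ∀ u ∈ Q, ∀ v ∈ Q, u.1 = v.1 → u = v := by
    intro u hu v hv h
    rw [hQ, Finset.mem_image] at hu hv
    obtain ⟨u', hu', rfl⟩ := hu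
    obtain ⟨v', hv', rfl⟩ := hv
    rw [hs1 u' hu' v' hv' h]
  have hap : ∀ x ∈ P.offDiag, (apex P x.1 x.2).card = (inc Q (ln s x.1 x.2)).card := by
    intro x hx
    rw [Finset.mem_offDiag] at hx
    have hD := hs2 x.1 hx.1 x.2 hx.2.1 hx.2.2
    have : inc Q (ln s x.1 x.2) = (apex P x.1 x.2).image (ph s) := by
      ext u
      rw [mem_inc, hQ, Finset.mem_image, Finset.mem_image]
      constructor
      · rintro ⟨⟨a, ha, rfl⟩, h⟩
        refine ⟨a, ?_, rfl⟩
        unfold apex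
        rw [Finset.mem_filter]
        exact ⟨ha, (on_ln hD a).1 h⟩
      · rintro ⟨a, ha, rfl⟩
        unfold apex at ha
        rw [Finset.mem_filter] at ha
        exact ⟨⟨a, ha.1, rfl⟩, (on_ln hD a).2 ha.2⟩
    rw [this, Finset.card_image_of_injective _ (ph_inj s)]
  rw [Finset.sum_congr rfl hap]
  set f : E2 × E2 → ℝ × ℝ := fun x => ln s x.1 x.2 with hf
  have hoff : P.offDiag.card ≤ n ^ 2 := by
    rw [Finset.offDiag_card, sq]; exact Nat.sub_le _ _
  -- multiplicity of a line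
  have hmult : ∀ l, (P.offDiag.filter fun x => f x = l).card ≤ n := by
    intro l
    rw [hn]
    refine Finset.card_le_card_of_injOn Prod.fst ?_ ?_
    · intro x hx
      have hx' := Finset.mem_filter.1 (Finset.mem_coe.1 hx)
      exact (Finset.mem_offDiag.1 hx'.1).1
    · intro x hx y hy hxy
      have hx' := Finset.mem_filter.1 (Finset.mem_coe.1 hx)
      have hy' := Finset.mem_filter.1 (Finset.mem_coe.1 hy)
      have hx2 := Finset.mem_offDiag.1 hx'.1
      have hy2 := Finset.mem_offDiag.1 hy'.1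
      refine Prod.ext hxy ?_
      have e1 : ln s x.1 x.2 = ln s x.1 y.2 := by
        have a1 : ln s x.1 x.2 = l := hx'.2
        have a2 : ln s y.1 y.2 = l := hy'.2
        rw [a1, hxy, a2]
      have hy3 : De s x.1 y.2 ≠ 0 := by
        rw [hxy]; exact hs2 _ hy2.1 _ hy2.2.1 hy2.2.2
      exact ln_inj (hs2 _ hx2.1 _ hx2.2.1 hx2.2.2) hy3 e1 hx2.2.2
  -- rich lines
  set R : Finset (ℝ × ℝ) := (P.offDiag.image f).filter fun l => k ≤ (inc Q l).card with hR
  have hRk : ∀ l ∈ R, k ≤ (inc Q l).card := fun l hl => (Finset.mem_filter.1 hl).2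
  rcases Nat.eq_zero_or_pos n with hn0 | hnpos
  · have : P = ∅ := Finset.card_eq_zero.1 hn0
    simp [this]
  have hRc : R.card ≤ 576 * n := by
    rcases rich_lines hinj R hk hRk with h | h
    · rw [hQc] at h
      have : R.card ≤ k * R.card := Nat.le_mul_of_pos_left _ (by omega)
      omega
    · rw [hQc] at h
      have h1 : n * R.card ≤ k ^ 3 * R.card := Nat.mul_le_mul_right _ hk3
      have h2 : n * R.card ≤ n * (576 * n) := by
        calc n * R.card ≤ 576 * n ^ 2 := h1.trans h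
          _ = n * (576 * n) := by ring
      exact Nat.le_of_mul_le_mul_left h2 hnpos
  have hI : ∑ l ∈ R, ((inc Q l).card - 1) ≤ M := by
    rcases szemeredi_trotter hinj R with h | h
    · rw [hQc] at h
      exact h.trans hM1
    · rw [hQc] at h
      have h1 : (∑ l ∈ R, ((inc Q l).card - 1)) ^ 3 ≤ M ^ 3 := by
        calc _ ≤ 72 * n ^ 2 * R.card ^ 2 := h
          _ ≤ 72 * n ^ 2 * (576 * n) ^ 2 := Nat.mul_le_mul_left _ (Nat.pow_le_pow_left hRc 2)
          _ = 23887872 * n ^ 4 := by ring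
          _ ≤ M ^ 3 := hM
      exact (Nat.pow_le_pow_iff_left (by norm_num)).1 h1
  have hI2 : ∑ l ∈ R, (inc Q l).card ≤ 2 * M := by
    calc ∑ l ∈ R, (inc Q l).card ≤ ∑ l ∈ R, 2 * ((inc Q l).card - 1) := by
          refine Finset.sum_le_sum fun l hl => ?_
          have := hRk l hl
          omega
      _ = 2 * ∑ l ∈ R, ((inc Q l).card - 1) := by rw [Finset.mul_sum]
      _ ≤ 2 * M := Nat.mul_le_mul_left _ hI
  -- splitting
  rw [← Finset.sum_filter_add_sum_filter_not P.offDiag (fun x => k ≤ (inc Q (f x)).card)]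
  rw [add_comm]
  refine Nat.add_le_add ?_ ?_
  · calc ∑ x ∈ P.offDiag with ¬ k ≤ (inc Q (f x)).card, (inc Q (ln s x.1 x.2)).card
        ≤ ∑ x ∈ P.offDiag with ¬ k ≤ (inc Q (f x)).card, k := by
          refine Finset.sum_le_sum fun x hx => ?_
          have := (Finset.mem_filter.1 hx).2
          exact (not_le.1 this).le
      _ = (P.offDiag.filter fun x => ¬ k ≤ (inc Q (f x)).card).card * k := by
          rw [Finset.sum_const, smul_eq_mul]
      _ ≤ n ^ 2 * k := Nat.mul_le_mul_right _ ((Finset.card_filter_le _ _).trans hoff)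
      _ = k * n ^ 2 := by ring
  · have e1 : ∑ x ∈ P.offDiag with k ≤ (inc Q (f x)).card, (inc Q (ln s x.1 x.2)).card =
        ∑ l ∈ (P.offDiag.filter fun x => k ≤ (inc Q (f x)).card).image f,
          ((P.offDiag.filter fun x => k ≤ (inc Q (f x)).card).filter fun x => f x = l).card •
            (inc Q l).card :=
      Finset.sum_comp (fun l => (inc Q l).card) f
    rw [e1]
    have e2 : (P.offDiag.filter fun x => k ≤ (inc Q (f x)).card).image f ⊆ R := by
      intro l hl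
      rw [Finset.mem_image] at hl
      obtain ⟨x, hx, rfl⟩ := hl
      rw [Finset.mem_filter] at hx
      rw [hR, Finset.mem_filter]
      exact ⟨Finset.mem_image_of_mem _ hx.1, hx.2⟩
    calc _ ≤ ∑ l ∈ (P.offDiag.filter fun x => k ≤ (inc Q (f x)).card).image f,
          n * (inc Q l).card := by
          refine Finset.sum_le_sum fun l _ => ?_
          rw [smul_eq_mul]
          refine Nat.mul_le_mul_right _ ((Finset.card_le_card ?_).trans (hmult l))
          intro x hx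
          rw [Finset.mem_filter] at hx ⊢
          exact ⟨(Finset.mem_filter.1 hx.1).1, hx.2⟩
      _ ≤ ∑ l ∈ R, n * (inc Q l).card :=
          Finset.sum_le_sum_of_subset e2
      _ = n * ∑ l ∈ R, (inc Q l).card := by rw [Finset.mul_sum]
      _ ≤ n * (2 * M) := Nat.mul_le_mul_left _ hI2
      _ = 2 * n * M := by ring


/-! ### the lower bound -/

open scoped Classical in
noncomputable def Ds (P : Finset E2) : Finset ℝ := P.offDiag.image fun x => dist x.1 x.2

lemma nd_eq (P : Finset E2) : nd P = (Ds P).card := by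
  classical
  unfold nd
  rw [← Set.ncard_coe_finset]
  congr 1
  ext t
  simp only [Ds, Finset.coe_image, Set.mem_setOf_eq, Set.mem_image, Finset.mem_coe,
    Finset.mem_offDiag]
  constructor
  · rintro ⟨p, hp, q, hq, hne, h⟩
    exact ⟨(p, q), ⟨hp, hq, hne⟩, h⟩
  · rintro ⟨x, ⟨hp, hq, hne⟩, h⟩
    exact ⟨x.1, hp, x.2, hq, hne, h⟩

open scoped Classical in
lemma iso_at (P : Finset E2) {a : E2} (ha : a ∈ P) :
    (P.card - 1) ^ 2 ≤ (Ds P).card *
      ((P.offDiag.filter fun x => dist a x.1 = dist a x.2).card + (P.card - 1)) := by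
  set F : ℝ → Finset E2 := fun r => (P.erase a).filter fun p => dist a p = r with hF
  have hsum : ∑ r ∈ Ds P, (F r).card = P.card - 1 := by
    rw [← Finset.card_erase_of_mem ha]
    symm
    refine Finset.card_eq_sum_card_fiberwise ?_
    intro p hp
    have hp' := Finset.mem_erase.1 (Finset.mem_coe.1 hp)
    unfold Ds
    rw [Finset.mem_coe, Finset.mem_image]
    exact ⟨(a, p), Finset.mem_offDiag.2 ⟨ha, hp'.2, hp'.1.symm⟩, rfl⟩
  have hCS : (∑ r ∈ Ds P, (F r).card) ^ 2 ≤ (Ds P).card * ∑ r ∈ Ds P, (F r).card ^ 2 :=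
    sq_sum_le_card_mul_sum_sq
  rw [hsum] at hCS
  refine hCS.trans (Nat.mul_le_mul_left _ ?_)
  have h1 : ∑ r ∈ Ds P, (F r).card ^ 2 =
      ∑ r ∈ Ds P, (F r).offDiag.card + ∑ r ∈ Ds P, (F r).card := by
    rw [← Finset.sum_add_distrib]
    refine Finset.sum_congr rfl fun r _ => ?_
    rw [Finset.offDiag_card, sq]
    have : (F r).card ≤ (F r).card * (F r).card := Nat.le_mul_self _
    omega
  rw [h1, hsum]
  refine Nat.add_le_add_right ?_ _
  have hdis : ∀ r ∈ Ds P, ∀ r' ∈ Ds P, r ≠ r' → Disjoint (F r).offDiag (F r').offDiag := by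
    intro r _ r' _ hne
    rw [Finset.disjoint_left]
    intro x h1 h2
    rw [Finset.mem_offDiag] at h1 h2
    have e1 : dist a x.1 = r := (Finset.mem_filter.1 h1.1).2
    have e2 : dist a x.1 = r' := (Finset.mem_filter.1 h2.1).2
    exact hne (e1.symm.trans e2)
  rw [← Finset.card_biUnion hdis]
  refine Finset.card_le_card ?_
  intro x hx
  rw [Finset.mem_biUnion] at hx
  obtain ⟨r, _, hx⟩ := hx
  rw [Finset.mem_offDiag] at hx
  have e1 := Finset.mem_filter.1 hx.1
  have e2 := Finset.mem_filter.1 hx.2.1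
  rw [Finset.mem_filter, Finset.mem_offDiag]
  exact ⟨⟨Finset.mem_of_mem_erase e1.1, Finset.mem_of_mem_erase e2.1, hx.2.2⟩,
    e1.2.trans e2.2.symm⟩

theorem iso_ge (P : Finset E2) : P.card * (P.card - 1) ^ 2 ≤ (Ds P).card *
    (∑ x ∈ P.offDiag, (apex P x.1 x.2).card + P.card * (P.card - 1)) := by
  classical
  have h1 : ∑ x ∈ P.offDiag, (apex P x.1 x.2).card =
      ∑ a ∈ P, (P.offDiag.filter fun x => dist a x.1 = dist a x.2).card := by
    simp only [apex, Finset.card_filter]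
    rw [Finset.sum_comm]
  rw [h1]
  calc P.card * (P.card - 1) ^ 2 = ∑ _a ∈ P, (P.card - 1) ^ 2 := by
        rw [Finset.sum_const, smul_eq_mul]
    _ ≤ ∑ a ∈ P, (Ds P).card *
          ((P.offDiag.filter fun x => dist a x.1 = dist a x.2).card + (P.card - 1)) :=
        Finset.sum_le_sum fun a ha => iso_at P ha
    _ = _ := by
        rw [← Finset.mul_sum, Finset.sum_add_distrib, Finset.sum_const, smul_eq_mul]

/-- **the planar bound** -/
theorem plane_bound : ∃ c : ℝ, 0 < c ∧ ∀ P : Finset (EuclideanSpace ℝ (Fin 2)), 2 ≤ P.card →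
    c * (P.card : ℝ) ^ ((2 : ℝ) / 3) ≤ (nd P : ℝ) := by
  refine ⟨1 / 10000, by norm_num, fun P hP => ?_⟩
  rw [nd_eq]
  set n := P.card with hn
  set t := (Ds P).card with ht
  set x : ℝ := (n : ℝ) ^ ((1 : ℝ) / 3) with hx
  have hn1 : (1 : ℝ) ≤ n := by exact_mod_cast (by omega : 1 ≤ n)
  have hn0 : (0 : ℝ) < n := by linarith
  have hx3 : x ^ 3 = n := by
    rw [hx, ← Real.rpow_natCast, ← Real.rpow_mul hn0.le]; norm_num
  have hx1 : 1 ≤ x := Real.one_le_rpow hn1 (by norm_num)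
  have hx2 : (n : ℝ) ^ ((2 : ℝ) / 3) = x ^ 2 := by
    rw [hx, ← Real.rpow_natCast, ← Real.rpow_mul hn0.le]; norm_num
  rw [hx2]
  -- parameters
  obtain ⟨k, hk⟩ : ∃ k : ℕ, k = ⌈x⌉₊ + 1 := ⟨_, rfl⟩
  have hkx : x ≤ k := by
    rw [hk]; push_cast; linarith [Nat.le_ceil x]
  have hkx2 : (k : ℝ) ≤ 3 * x := by
    rw [hk]; push_cast; linarith [Nat.ceil_lt_add_one (by linarith : (0 : ℝ) ≤ x)]
  have hk2 : 2 ≤ k := by
    have : 1 ≤ ⌈x⌉₊ := Nat.one_le_ceil_iff.2 (by linarith)
    omega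
  have hk3 : n ≤ k ^ 3 := by
    have : (n : ℝ) ≤ (k : ℝ) ^ 3 := by
      rw [← hx3]; exact pow_le_pow_left₀ (by linarith) hkx 3
    exact_mod_cast this
  obtain ⟨M, hM⟩ : ∃ M : ℕ, M = ⌈288 * x ^ 4⌉₊ := ⟨_, rfl⟩
  have hx4 : 1 ≤ x ^ 4 := one_le_pow₀ hx1
  have hM1 : 288 * x ^ 4 ≤ M := by rw [hM]; exact Nat.le_ceil _
  have hM2 : (M : ℝ) ≤ 289 * x ^ 4 := by
    rw [hM]; linarith [Nat.ceil_lt_add_one (by positivity : (0 : ℝ) ≤ 288 * x ^ 4)]
  have hM3 : 23887872 * n ^ 4 ≤ M ^ 3 := by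
    have : (23887872 * (n : ℝ) ^ 4) ≤ (M : ℝ) ^ 3 := by
      calc 23887872 * (n : ℝ) ^ 4 = (288 * x ^ 4) ^ 3 := by rw [← hx3]; ring
        _ ≤ (M : ℝ) ^ 3 := pow_le_pow_left₀ (by positivity) hM1 3
    exact_mod_cast this
  have hM4 : 6 * n ≤ M := by
    have : 6 * (n : ℝ) ≤ M := by
      have : (n : ℝ) ≤ x ^ 4 := by
        rw [← hx3]; exact pow_le_pow_right₀ hx1 (by norm_num)
      linarith
    exact_mod_cast this
  have hU := iso_le P k hk2 hk3 M hM3 hM4
  have hL := iso_ge P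
  set T := ∑ x ∈ P.offDiag, (apex P x.1 x.2).card with hT
  have hU' : (T : ℝ) ≤ 3 * x * (n : ℝ) ^ 2 + 2 * n * (289 * x ^ 4) := by
    have h1 : (T : ℝ) ≤ (k : ℝ) * (n : ℝ) ^ 2 + 2 * (n : ℝ) * M := by exact_mod_cast hU
    have h2 : (k : ℝ) * (n : ℝ) ^ 2 ≤ 3 * x * (n : ℝ) ^ 2 :=
      mul_le_mul_of_nonneg_right hkx2 (by positivity)
    have h3 : 2 * (n : ℝ) * M ≤ 2 * n * (289 * x ^ 4) :=
      mul_le_mul_of_nonneg_left hM2 (by positivity)
    linarith
  have hL' : (n : ℝ) * ((n : ℝ) - 1) ^ 2 ≤ t * (T + n * ((n : ℝ) - 1)) := by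
    have h1 : ((n * (n - 1) ^ 2 : ℕ) : ℝ) ≤ ((t * (T + n * (n - 1)) : ℕ) : ℝ) := by
      exact_mod_cast hL
    push_cast [Nat.cast_sub (show 1 ≤ n by omega)] at h1
    exact h1
  -- arithmetic
  have hU2 : (T : ℝ) ≤ 581 * x ^ 7 := by
    have e1 : 3 * x * (n : ℝ) ^ 2 + 2 * n * (289 * x ^ 4) = 581 * x ^ 7 := by
      rw [← hx3]; ring
    linarith
  have hn2 : (n : ℝ) / 2 ≤ (n : ℝ) - 1 := by
    have : (2 : ℝ) ≤ n := by exact_mod_cast hP
    linarith
  have ht0 : (0 : ℝ) ≤ t := Nat.cast_nonneg _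
  have h5 : (n : ℝ) * ((n : ℝ) - 1) ≤ x ^ 7 := by
    have : (n : ℝ) * ((n : ℝ) - 1) ≤ (n : ℝ) ^ 2 := by nlinarith
    refine this.trans ?_
    rw [← hx3, ← pow_mul]
    exact pow_le_pow_right₀ hx1 (by norm_num)
  have h6 : (n : ℝ) * ((n : ℝ) / 2) ^ 2 ≤ t * (582 * x ^ 7) := by
    calc (n : ℝ) * ((n : ℝ) / 2) ^ 2 ≤ n * ((n : ℝ) - 1) ^ 2 := by
          refine mul_le_mul_of_nonneg_left ?_ hn0.le
          exact pow_le_pow_left₀ (by linarith) hn2 2
      _ ≤ _ := hL'
      _ ≤ t * (582 * x ^ 7) := mul_le_mul_of_nonneg_left (by linarith) ht0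
  have h7 : x ^ 7 * x ^ 2 ≤ x ^ 7 * (2328 * t) := by
    have : (n : ℝ) * ((n : ℝ) / 2) ^ 2 = x ^ 9 / 4 := by rw [← hx3]; ring
    rw [this] at h6
    nlinarith [h6]
  have h8 : x ^ 2 ≤ 2328 * t := le_of_mul_le_mul_left h7 (by positivity)
  linarith

end Crest.Agent.R065.Plane275
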