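import Crest.Agent.R065.Main4_348
import Crest.Agent.R065.Plane_275

/-!
# Row 65: final assembly of `S0087` from `d = 3`, LEVEL-0 and L1'
-/

set_option autoImplicit false

namespace Crest.Agent.R065.Final348

open Crest.Agent.R065.Base348 Crest.Agent.R065.Top348 Crest.Agent.R065.Pins348
open Crest.Agent.R065.Engine348 Crest.Agent.R065.Hyp348

/-- the bound in dimension `d` -/
def Bd (d : ℕ) : Prop :=
  ∃ A : ℝ, 0 < A ∧ ∀ P : Finset (EuclideanSpace ℝ (Fin d)), 2 ≤ P.card →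
    (P.card : ℝ) ^ 2 ≤ (A * (nd P : ℝ)) ^ d

/-- the bound in dimension `d` for sets without rich hyperplanes -/
def BdN (d : ℕ) : Prop :=
  ∃ A : ℝ, 0 < A ∧ ∀ P : Finset (EuclideanSpace ℝ (Fin d)), 2 ≤ P.card → NoHyp P →
    (P.card : ℝ) ^ 2 ≤ (A * (nd P : ℝ)) ^ d

/-- `d = 3` needs only sets without rich planes -/
theorem bd_three (h : BdN 3) : Bd 3 := by
  refine hyp_reduction (e := 2) ?_ h
  obtain ⟨c, hc, h2⟩ := Plane275.plane_bound
  refine ⟨c, hc, fun Q hQ => ?_⟩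
  have := h2 Q hQ
  norm_num at this ⊢
  exact this

/-- induction step -/
theorem bd_succ {e : ℕ} (he : 1 ≤ e) (hprev : Bd e) (h : BdN (e + 1)) : Bd (e + 1) := by
  refine hyp_reduction ?_ h
  obtain ⟨A, hA, hb⟩ := hprev
  obtain ⟨c, hc, hcQ⟩ := result_of_bound he A hA hb
  refine ⟨c, hc, fun Q hQ => ?_⟩
  refine le_trans ?_ (hcQ Q hQ)
  have h1 : (1 : ℝ) ≤ Q.card := by exact_mod_cast (by omega : 1 ≤ Q.card)
  have he' : (0 : ℝ) < e := by exact_mod_cast he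
  gcongr
  exact Nat.le_succ e

/-- **final assembly** -/
theorem final (H3 : Bd 3) (hL0 : ∀ d, 4 ≤ d → L0 d) (hL1 : ∀ d, 4 ≤ d → L1 d) :
    ∀ d : ℕ, 3 ≤ d → ∃ c : ℝ, 0 < c ∧ ∀ P : Finset (EuclideanSpace ℝ (Fin d)), 2 ≤ P.card →
      c * (P.card : ℝ) ^ ((2 : ℝ) / d) ≤
        ({t : ℝ | ∃ p ∈ P, ∃ q ∈ P, p ≠ q ∧ dist p q = t}.ncard : ℝ) := by
  have key : ∀ d, 3 ≤ d → Bd d := by
    intro d hd
    induction d, hd using Nat.le_induction with
    | base => exact H3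
    | succ e he ih =>
      exact bd_succ (by omega) ih
        (Main4348.bound_noHyp (by omega) (hL0 _ (by omega)) (hL1 _ (by omega)))
  intro d hd
  obtain ⟨A, hA, hb⟩ := key d hd
  exact result_of_bound (by omega) A hA hb

end Crest.Agent.R065.Final348
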