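import Mathlib

/-!
# Row 65, d = 3, definitions

Null pairs `Nul`, `T(Z)` = `TT Nul Z` = number of ordered null pairs, `s(Z)` = `ss Z` =
`|pr₁ Z| + |pr₂ Z|`, regular configurations `Reg`, block systems `Blocks`.
-/

set_option autoImplicit false

namespace Crest.Agent.R065.D3

open Finset

variable {α β : Type*}

open scoped Classical in
/-- neighbours of `z` in `Z` -/
noncomputable def nb (r : α × β → α × β → Prop) (Z : Finset (α × β)) (z : α × β) :
    Finset (α × β) := Z.filter fun w => r z w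

lemma mem_nb {r : α × β → α × β → Prop} {Z : Finset (α × β)} {z w : α × β} :
    w ∈ nb r Z z ↔ w ∈ Z ∧ r z w := by
  classical
  simp [nb]

/-- degree -/
noncomputable def deg (r : α × β → α × β → Prop) (Z : Finset (α × β)) (z : α × β) : ℕ :=
  (nb r Z z).card

/-- number of related pairs in `A × B` -/
noncomputable def EE (r : α × β → α × β → Prop) (A B : Finset (α × β)) : ℕ :=
  ∑ z ∈ A, deg r B z

/-- number of ordered related pairs -/
noncomputable def TT (r : α × β → α × β → Prop) (Z : Finset (α × β)) : ℕ := EE r Z Z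

open scoped Classical in
/-- size of the two projections -/
noncomputable def ss (Z : Finset (α × β)) : ℕ := (Z.image Prod.fst).card + (Z.image Prod.snd).card

section basic

variable {r : α × β → α × β → Prop}

lemma deg_mono {Y Z : Finset (α × β)} (h : Y ⊆ Z) (z : α × β) : deg r Y z ≤ deg r Z z := by
  refine card_le_card fun w hw => ?_
  rw [mem_nb] at *
  exact ⟨h hw.1, hw.2⟩

lemma deg_le_card (Z : Finset (α × β)) (z : α × β) : deg r Z z ≤ Z.card := by
  refine card_le_card fun w hw => ?_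
  exact (mem_nb.1 hw).1

lemma EE_mono {A A' B B' : Finset (α × β)} (h : A ⊆ A') (h' : B ⊆ B') : EE r A B ≤ EE r A' B' :=
  (sum_le_sum fun z _ => deg_mono h' z).trans (sum_le_sum_of_subset h)

lemma TT_mono {Y Z : Finset (α × β)} (h : Y ⊆ Z) : TT r Y ≤ TT r Z := EE_mono h h

lemma TT_le (Z : Finset (α × β)) : TT r Z ≤ Z.card ^ 2 := by
  unfold TT EE
  calc ∑ z ∈ Z, deg r Z z ≤ ∑ _z ∈ Z, Z.card := sum_le_sum fun z _ => deg_le_card Z z
    _ = Z.card ^ 2 := by rw [sum_const, smul_eq_mul, sq]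

lemma ss_mono {Y Z : Finset (α × β)} (h : Y ⊆ Z) : ss Y ≤ ss Z := by
  classical
  unfold ss
  exact add_le_add (card_le_card (image_subset_image h)) (card_le_card (image_subset_image h))

lemma ss_le (Z : Finset (α × β)) : ss Z ≤ 2 * Z.card := by
  classical
  unfold ss
  have h1 := card_image_le (s := Z) (f := Prod.fst)
  have h2 := card_image_le (s := Z) (f := Prod.snd)
  omega

lemma card_le_ss_sq (Z : Finset (α × β)) : Z.card ≤ ss Z ^ 2 := by
  classical
  have h1 : Z ⊆ (Z.image Prod.fst) ×ˢ (Z.image Prod.snd) := by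
    intro z hz
    rw [mem_product]
    exact ⟨mem_image_of_mem _ hz, mem_image_of_mem _ hz⟩
  have h2 := card_le_card h1
  rw [card_product] at h2
  unfold ss
  refine h2.trans ?_
  nlinarith [Nat.zero_le (Z.image Prod.fst).card, Nat.zero_le (Z.image Prod.snd).card]

lemma ss_pos {Z : Finset (α × β)} (h : Z.Nonempty) : 0 < ss Z := by
  classical
  unfold ss
  have : 0 < (Z.image Prod.fst).card := card_pos.2 (h.image _)
  omega

/-- double counting for symmetric relations -/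
lemma EE_comm (hs : ∀ z w, r z w → r w z) (A B : Finset (α × β)) : EE r A B = EE r B A := by
  classical
  unfold EE deg nb
  simp only [card_filter]
  rw [sum_comm]
  refine sum_congr rfl fun w _ => sum_congr rfl fun z _ => ?_
  by_cases h : r z w
  · simp [h, hs _ _ h]
  · have : ¬ r w z := fun h' => h (hs _ _ h')
    simp [h, this]

lemma deg_union [DecidableEq (α × β)] {A B : Finset (α × β)} (h : Disjoint A B) (z : α × β) :
    deg r (A ∪ B) z = deg r A z + deg r B z := by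
  classical
  unfold deg nb
  rw [filter_union, card_union_of_disjoint (disjoint_filter_filter h)]

lemma EE_union_right [DecidableEq (α × β)] {A B C : Finset (α × β)} (h : Disjoint B C) :
    EE r A (B ∪ C) = EE r A B + EE r A C := by
  unfold EE
  rw [← sum_add_distrib]
  exact sum_congr rfl fun z _ => deg_union h z

lemma EE_union_left [DecidableEq (α × β)] {A B C : Finset (α × β)} (h : Disjoint A B) :
    EE r (A ∪ B) C = EE r A C + EE r B C := by
  unfold EE
  exact sum_union h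

lemma TT_union [DecidableEq (α × β)] (hs : ∀ z w, r z w → r w z) {A B : Finset (α × β)}
    (h : Disjoint A B) : TT r (A ∪ B) = TT r A + 2 * EE r A B + TT r B := by
  unfold TT
  rw [EE_union_left h, EE_union_right h, EE_union_right h, EE_comm hs B A]
  ring

end basic

/-- regular configuration -/
structure Reg (r : α × β → α × β → Prop) (C0 B : ℝ) (Z : Finset (α × β)) (L : ℝ) : Prop where
  ne : Z.Nonempty
  L_pos : 0 < L
  deg_ge : ∀ z ∈ Z, L ≤ deg r Z z
  deg_le : ∀ z ∈ Z, (deg r Z z : ℝ) ≤ C0 * L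
  fst_ge : ∀ (a : α) (F : Finset (α × β)), (∀ z, z ∈ F ↔ z ∈ Z ∧ z.1 = a) → F.Nonempty →
    L * Z.card ≤ C0 * ss Z * EE r F Z
  snd_ge : ∀ (a : β) (F : Finset (α × β)), (∀ z, z ∈ F ↔ z ∈ Z ∧ z.2 = a) → F.Nonempty →
    L * Z.card ≤ C0 * ss Z * EE r F Z
  sub : ∀ Y ⊆ Z, ∀ y : ℝ, 0 ≤ y → (Y.card : ℝ) ≤ y ^ 6 * Z.card →
    (TT r Y : ℝ) * ss Z ≤ C0 * y * Y.card * L * ss Y
  big : B * Z.card * (ss Z : ℝ) ^ 2 ≤ L ^ 3


/-- points of `E³ × E³` -/
abbrev PP := EuclideanSpace ℝ (Fin 3) × EuclideanSpace ℝ (Fin 3)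

/-- null pairs -/
def Nul (z w : PP) : Prop := dist z.1 w.1 = dist z.2 w.2 ∧ z.1 ≠ w.1

lemma Nul.symm {z w : PP} (h : Nul z w) : Nul w z := by
  refine ⟨?_, h.2.symm⟩
  rw [dist_comm, h.1, dist_comm]

lemma Nul.ne_snd {z w : PP} (h : Nul z w) : z.2 ≠ w.2 := by
  intro h2
  have h1 := h.1
  rw [h2, dist_self] at h1
  exact h.2 (dist_eq_zero.1 h1)

lemma nul_symm (z w : PP) : Nul z w → Nul w z := Nul.symm

/-- a block system `SS` on `Z`.  (B1) all distances in a block agree,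
(B2) two different blocks meet in a set with collinear first coordinates. -/
structure Blocks (Z : Finset PP) (SS : Finset (Finset PP)) : Prop where
  sub : ∀ X ∈ SS, X ⊆ Z
  iso : ∀ X ∈ SS, ∀ u ∈ X, ∀ v ∈ X, dist u.1 v.1 = dist u.2 v.2
  col : ∀ X ∈ SS, ∀ X' ∈ SS, X ≠ X' →
    Collinear ℝ {a : EuclideanSpace ℝ (Fin 3) | ∃ u, u ∈ X ∧ u ∈ X' ∧ u.1 = a}

open scoped Classical in
/-- the null pairs of `Z` which are not in a common block with at least `k` elements -/
noncomputable def uncov (Z : Finset PP) (SS : Finset (Finset PP)) (k : ℝ) : Finset (PP × PP) :=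
  (Z ×ˢ Z).filter fun p => Nul p.1 p.2 ∧ ∀ X ∈ SS, p.1 ∈ X → p.2 ∈ X → (X.card : ℝ) < k

/-- output of STEP A -/
def StepA (C0 : ℝ) : Prop :=
  ∀ ε : ℝ, 0 < ε → ∃ c B0 : ℝ, 0 < c ∧ ∀ (Z : Finset PP) (L B : ℝ), B0 ≤ B → Reg Nul C0 B Z L →
    ∃ SS : Finset (Finset PP), Blocks Z SS ∧
      ((uncov Z SS (c * L ^ 2 / Z.card)).card : ℝ) ≤ ε * L * Z.card

/-- output of STEP B -/
def StepB (C0 : ℝ) : Prop :=
  ∃ ε : ℝ, 0 < ε ∧ ∀ c : ℝ, 0 < c → ∃ B0 : ℝ, ∀ (Z : Finset PP) (L B : ℝ), B0 ≤ B →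
    Reg Nul C0 B Z L → ∀ SS : Finset (Finset PP), Blocks Z SS →
      ¬ ((uncov Z SS (c * L ^ 2 / Z.card)).card : ℝ) ≤ ε * L * Z.card

/-- the main inequality for d = 3 -/
def MainD3 : Prop :=
  ∃ B : ℕ, ∀ Z : Finset PP, TT Nul Z ^ 6 ≤ B * (Z.card ^ 7 * ss Z ^ 6)

end Crest.Agent.R065.D3
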