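import Crest.Agent.R065.Top_348

/-!
# Row 65: pins (O1) — a constant fraction of a set of pairs whose members are seen on one of the
`τ` richest spheres by a quarter of the pins is separated in degree `4 (d+1) τ`.
-/

set_option autoImplicit false

open MvPolynomial Module

namespace Crest.Agent.R065.Pins348

open Crest.Agent.R065.HF669 Crest.Agent.R065.Base348 Crest.Agent.R065.Top348

variable {d : ℕ}

/-- a pair of vectors as one vector -/
def toFn {k : Type*} (z : Pt d k) : Fin d ⊕ Fin d → k := Sum.elim z.1 z.2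

lemma toFn_injective {k : Type*} : Function.Injective (toFn : Pt d k → _) := by
  intro z w h
  refine Prod.ext (funext fun i => ?_) (funext fun i => ?_)
  · exact congrFun h (Sum.inl i)
  · exact congrFun h (Sum.inr i)

section pins

variable (P : Finset (EuclideanSpace ℝ (Fin d)))

open Classical in
/-- richness of the sphere around `p` through `b` -/
noncomputable def Rc (p b : EuclideanSpace ℝ (Fin d)) : ℕ :=
  (P.filter fun q => dist p q = dist p b).card

open Classical in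
/-- the pins seeing `b` on a sphere with at least `n/τ` points -/
noncomputable def pinsOf (τ : ℕ) (b : EuclideanSpace ℝ (Fin d)) :
    Finset (EuclideanSpace ℝ (Fin d)) :=
  P.filter fun p => P.card ≤ τ * Rc P p b

/-- a quarter of the pins see `b` on a sphere with at least `n/τ` points -/
def Good (τ : ℕ) (b : EuclideanSpace ℝ (Fin d)) : Prop :=
  P.card ≤ 4 * (pinsOf P τ b).card

open Classical in
/-- no hyperplane contains more than `n/8` points -/
def NoHyp : Prop :=
  ∀ (g : EuclideanSpace ℝ (Fin d) →ₗ[ℝ] ℝ) (c : ℝ), g ≠ 0 →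
    8 * (P.filter fun p => g p = c).card ≤ P.card

open Classical in
/-- affinely independent tuples of pins -/
noncomputable def tup (A : Finset (EuclideanSpace ℝ (Fin d))) (j : ℕ) :
    Finset (Fin j → EuclideanSpace ℝ (Fin d)) :=
  (Fintype.piFinset fun _ : Fin j => A).filter fun v =>
    LinearIndependent ℝ (fun i => ((1 : ℝ), v i))

variable {P}

lemma mem_tup {A : Finset (EuclideanSpace ℝ (Fin d))} {j : ℕ}
    {v : Fin j → EuclideanSpace ℝ (Fin d)} :
    v ∈ tup A j ↔ (∀ i, v i ∈ A) ∧ LinearIndependent ℝ (fun i => ((1 : ℝ), v i)) := by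
  simp [tup]

open Classical in
/-- few points in a proper subspace -/
lemma few_in_subspace (hP : NoHyp P) (V : Submodule ℝ (ℝ × EuclideanSpace ℝ (Fin d)))
    (hV : V < ⊤) : 8 * (P.filter fun x => ((1 : ℝ), x) ∈ V).card ≤ P.card := by
  obtain ⟨f, hf0, hf⟩ := Submodule.exists_le_ker_of_lt_top V hV
  set g : EuclideanSpace ℝ (Fin d) →ₗ[ℝ] ℝ := f ∘ₗ LinearMap.inr ℝ ℝ _ with hg
  have hfx : ∀ (s : ℝ) x, f (s, x) = s * f (1, 0) + g x := by
    intro s x
    have : ((s, x) : ℝ × EuclideanSpace ℝ (Fin d)) = s • (1, 0) + (0, x) := by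
      ext <;> simp
    rw [this, map_add, map_smul, smul_eq_mul]
    rfl
  have hsub : (P.filter fun x => ((1 : ℝ), x) ∈ V) ⊆ P.filter fun x => g x = -f (1, 0) := by
    intro x hx
    rw [Finset.mem_filter] at hx ⊢
    refine ⟨hx.1, ?_⟩
    have h1 : f (1, x) = 0 := hf hx.2
    rw [hfx] at h1
    linarith
  by_cases hg0 : g = 0
  · have h1 : f (1, 0) ≠ 0 := by
      intro h1
      apply hf0
      ext1
      · ext; simp [h1]
      · change f ∘ₗ LinearMap.inr ℝ ℝ _ = _
        rw [← hg, hg0]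
        simp
    have : (P.filter fun x => ((1 : ℝ), x) ∈ V) = ∅ := by
      apply Finset.eq_empty_of_forall_notMem
      intro x hx
      have := (Finset.mem_filter.1 (hsub hx)).2
      rw [hg0] at this
      apply h1
      have h2 : (0 : ℝ) = -f (1, 0) := this
      linarith
    rw [this]; simp
  · exact (Nat.mul_le_mul_left 8 (Finset.card_le_card hsub)).trans (hP g _ hg0)

open Classical in
lemma tup_card (hP : NoHyp P) {A : Finset (EuclideanSpace ℝ (Fin d))} (hA : A ⊆ P)
    (hc : P.card ≤ 4 * A.card) : ∀ j ≤ d + 1, P.card ^ j ≤ 8 ^ j * (tup A j).card := by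
  intro j
  induction j with
  | zero =>
    intro _
    have : (Fin.elim0 : Fin 0 → EuclideanSpace ℝ (Fin d)) ∈ tup A 0 := by
      rw [mem_tup]
      exact ⟨fun i => i.elim0, linearIndependent_empty_type⟩
    have := Finset.card_pos.2 ⟨_, this⟩
    simpa using this
  | succ j ih =>
    intro hj
    have ih' := ih (by omega)
    -- the extensions
    have hext : ∀ v ∈ tup A j, P.card ≤ 8 * (A.filter fun x =>
        ((1 : ℝ), x) ∉ Submodule.span ℝ (Set.range fun i => ((1 : ℝ), v i))).card := by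
      intro v hv
      set V := Submodule.span ℝ (Set.range fun i => ((1 : ℝ), v i)) with hVdef
      have hlt : V < ⊤ := by
        rw [lt_top_iff_ne_top]
        intro htop
        have h1 : finrank ℝ V ≤ Fintype.card (Fin j) := finrank_range_le_card _
        rw [htop, finrank_top] at h1
        simp only [finrank_prod, finrank_self, finrank_euclideanSpace, Fintype.card_fin] at h1
        omega
      have h1 := few_in_subspace hP V hlt
      have h2 : (A.filter fun x => ((1 : ℝ), x) ∈ V).card ≤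
          (P.filter fun x => ((1 : ℝ), x) ∈ V).card :=
        Finset.card_le_card (Finset.filter_subset_filter _ hA)
      have h3 := Finset.card_filter_add_card_filter_not (s := A) (fun x => ((1 : ℝ), x) ∈ V)
      omega
    have hcard : ∑ v ∈ tup A j, (A.filter fun x =>
        ((1 : ℝ), x) ∉ Submodule.span ℝ (Set.range fun i => ((1 : ℝ), v i))).card ≤
        (tup A (j + 1)).card := by
      rw [← Finset.card_sigma]
      refine Finset.card_le_card_of_injOn (fun p => Fin.cons p.2 p.1) ?_ ?_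
      · rintro ⟨v, x⟩ hp
        simp only [Finset.coe_sigma, Set.mem_sigma_iff, Finset.mem_coe, Finset.mem_filter] at hp
        rw [mem_tup] at hp
        rw [Finset.mem_coe, mem_tup]
        refine ⟨?_, ?_⟩
        · intro i
          refine Fin.cases ?_ (fun i => ?_) i
          · simpa using hp.2.1
          · simpa using hp.1.1 i
        · have : (fun i => ((1 : ℝ), (Fin.cons x v : Fin (j + 1) → _) i)) =
              (Fin.cons ((1 : ℝ), x) (fun i => ((1 : ℝ), v i)) : Fin (j + 1) → _) := by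
            funext i
            refine Fin.cases ?_ (fun i => ?_) i <;> simp
          rw [this, linearIndependent_finCons]
          exact ⟨hp.1.2, hp.2.2⟩
      · rintro ⟨v, x⟩ _ ⟨v', x'⟩ _ h
        simp only at h
        have h1 := Fin.cons_inj.1 h
        obtain ⟨rfl, rfl⟩ := h1
        rfl
    calc P.card ^ (j + 1) = P.card ^ j * P.card := pow_succ _ _
      _ ≤ (8 ^ j * (tup A j).card) * P.card := Nat.mul_le_mul_right _ ih'
      _ = 8 ^ j * ∑ v ∈ tup A j, P.card := by rw [Finset.sum_const, smul_eq_mul]; ring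
      _ ≤ 8 ^ j * ∑ v ∈ tup A j, 8 * (A.filter fun x =>
            ((1 : ℝ), x) ∉ Submodule.span ℝ (Set.range fun i => ((1 : ℝ), v i))).card :=
          Nat.mul_le_mul_left _ (Finset.sum_le_sum hext)
      _ = 8 ^ (j + 1) * ∑ v ∈ tup A j, (A.filter fun x =>
            ((1 : ℝ), x) ∉ Submodule.span ℝ (Set.range fun i => ((1 : ℝ), v i))).card := by
          rw [← Finset.mul_sum, pow_succ]; ring
      _ ≤ 8 ^ (j + 1) * (tup A (j + 1)).card := Nat.mul_le_mul_left _ hcard

/-- `d+1` affinely independent pins determine the point -/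
lemma eq_of_dist_eq {v : Fin (d + 1) → EuclideanSpace ℝ (Fin d)}
    (hv : LinearIndependent ℝ (fun i => ((1 : ℝ), v i))) {x y : EuclideanSpace ℝ (Fin d)}
    (h : ∀ i, dist (v i) x = dist (v i) y) : x = y := by
  have hspan : Submodule.span ℝ (Set.range fun i => ((1 : ℝ), v i)) = ⊤ := by
    apply hv.span_eq_top_of_card_eq_finrank'
    simp [finrank_prod, add_comm]
  -- the functional
  let φ : ℝ × EuclideanSpace ℝ (Fin d) →ₗ[ℝ] ℝ :=
    (innerₛₗ ℝ (y - x)) ∘ₗ LinearMap.snd ℝ ℝ _ -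
      ((‖y‖ ^ 2 - ‖x‖ ^ 2) / 2) • LinearMap.fst ℝ ℝ _
  have hφ : φ = 0 := by
    rw [← LinearMap.ker_eq_top, eq_top_iff, ← hspan, Submodule.span_le]
    rintro _ ⟨i, rfl⟩
    change φ (1, v i) = 0
    have hi := h i
    rw [dist_eq_norm, dist_eq_norm] at hi
    have h1 : ‖v i - x‖ ^ 2 = ‖v i - y‖ ^ 2 := by rw [hi]
    rw [@norm_sub_sq_real, @norm_sub_sq_real] at h1
    simp only [φ, LinearMap.sub_apply, LinearMap.comp_apply, LinearMap.snd_apply,
      LinearMap.smul_apply, LinearMap.fst_apply, innerₛₗ_apply_apply, smul_eq_mul, mul_one]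
    rw [inner_sub_left, real_inner_comm, real_inner_comm (v i) x]
    linarith
  have h1 : φ (0, y - x) = 0 := by rw [hφ]; rfl
  simp only [φ, LinearMap.sub_apply, LinearMap.comp_apply, LinearMap.snd_apply,
      LinearMap.smul_apply, LinearMap.fst_apply, innerₛₗ_apply_apply, smul_eq_mul, mul_zero,
      sub_zero] at h1
  have := inner_self_eq_zero.1 h1
  exact (sub_eq_zero.1 this).symm

/-! ### separation of the pairs seen by two tuples of pins -/

open Classical in
/-- the rich radii of a pin -/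
noncomputable def radii (P : Finset (EuclideanSpace ℝ (Fin d))) (τ : ℕ)
    (p : EuclideanSpace ℝ (Fin d)) : Finset ℝ :=
  (P.filter fun q => P.card ≤ τ * Rc P p q).image fun q => dist p q

lemma card_radii (τ : ℕ) (p : EuclideanSpace ℝ (Fin d)) : (radii P τ p).card ≤ τ := by
  classical
  rcases P.eq_empty_or_nonempty with h | h
  · subst h; simp [radii]
  have hn : 0 < P.card := Finset.card_pos.2 h
  have h1 : (radii P τ p).card * P.card ≤ τ * P.card := by
    calc (radii P τ p).card * P.card = ∑ r ∈ radii P τ p, P.card := by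
          rw [Finset.sum_const, smul_eq_mul]
      _ ≤ ∑ r ∈ radii P τ p, τ * (P.filter fun q => dist p q = r).card := by
          refine Finset.sum_le_sum fun r hr => ?_
          obtain ⟨q, hq, rfl⟩ := Finset.mem_image.1 hr
          exact (Finset.mem_filter.1 hq).2
      _ = τ * ∑ r ∈ radii P τ p, (P.filter fun q => dist p q = r).card := by
          rw [Finset.mul_sum]
      _ ≤ τ * P.card := by
          refine Nat.mul_le_mul_left _ ?_
          rw [← Finset.card_biUnion]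
          · exact Finset.card_le_card (Finset.biUnion_subset.2 fun r _ => Finset.filter_subset _ _)
          · intro r _ r' _ hrr'
            rw [Function.onFun, Finset.disjoint_left]
            intro q hq hq'
            exact hrr' ((Finset.mem_filter.1 hq).2.symm.trans (Finset.mem_filter.1 hq').2)
  exact Nat.le_of_mul_le_mul_right h1 hn

/-- squared distance to a pin as a polynomial; `s = 1` for the second member of the pair and
`s = -1` for the first -/
noncomputable def QP (s : ℂ) (p : EuclideanSpace ℝ (Fin d)) :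
    MvPolynomial (Fin d ⊕ Fin d) ℂ :=
  ∑ i, (C (1 / 2) * X (Sum.inl i) + C (s / 2) * X (Sum.inr i) - C ((p i : ℝ) : ℂ)) ^ 2

lemma QP_mem_W (s : ℂ) (p : EuclideanSpace ℝ (Fin d)) :
    QP s p ∈ W ℂ (Fin d ⊕ Fin d) 2 := by
  refine Submodule.sum_mem _ fun i _ => ?_
  refine pow_mem_W (a := 1) ?_ 2
  refine Submodule.sub_mem _ (Submodule.add_mem _ ?_ ?_) (C_mem_W _ _)
  · have := mul_mem_W (C_mem_W (σ := Fin d ⊕ Fin d) (1 / 2 : ℂ) 0) (X_mem_W (k := ℂ) (Sum.inl i) le_rfl)
    simpa using this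
  · have := mul_mem_W (C_mem_W (σ := Fin d ⊕ Fin d) (s / 2 : ℂ) 0) (X_mem_W (k := ℂ) (Sum.inr i) le_rfl)
    simpa using this

lemma sum_sq_cast (u v : EuclideanSpace ℝ (Fin d)) :
    (∑ i, ((u i : ℂ) - (v i : ℂ)) ^ 2 : ℂ) = ((dist v u ^ 2 : ℝ) : ℂ) := by
  rw [dist_comm, EuclideanSpace.dist_eq, Real.sq_sqrt (Finset.sum_nonneg fun _ _ => by positivity)]
  push_cast
  refine Finset.sum_congr rfl fun i _ => ?_
  rw [Real.dist_eq]
  have : ((|u i - v i| : ℝ) ^ 2 : ℝ) = (u i - v i) ^ 2 := sq_abs _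
  have h2 : (((|u i - v i| : ℝ) ^ 2 : ℝ) : ℂ) = ((u i - v i) ^ 2 : ℝ) := by rw [this]
  push_cast at h2
  exact h2.symm

lemma eval_QP_neg (p b e : EuclideanSpace ℝ (Fin d)) :
    eval (toFn (zc b e)) (QP (-1) p) = ((dist p b ^ 2 : ℝ) : ℂ) := by
  rw [← sum_sq_cast]
  unfold QP
  rw [map_sum]
  refine Finset.sum_congr rfl fun i _ => ?_
  simp only [map_pow, map_sub, map_add, map_mul, eval_C, eval_X, toFn, zc, zp, Sum.elim_inl,
    Sum.elim_inr, Pi.add_apply, Pi.sub_apply]
  ring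

lemma eval_QP_pos (p b e : EuclideanSpace ℝ (Fin d)) :
    eval (toFn (zc b e)) (QP 1 p) = ((dist p e ^ 2 : ℝ) : ℂ) := by
  rw [← sum_sq_cast]
  unfold QP
  rw [map_sum]
  refine Finset.sum_congr rfl fun i _ => ?_
  simp only [map_pow, map_sub, map_add, map_mul, eval_C, eval_X, toFn, zc, zp, Sum.elim_inl,
    Sum.elim_inr, Pi.add_apply, Pi.sub_apply]
  ring

/-- product over the radii different from `r₀` -/
noncomputable def PQ (s : ℂ) (D : Finset ℝ) (p : EuclideanSpace ℝ (Fin d)) (r₀ : ℝ) :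
    MvPolynomial (Fin d ⊕ Fin d) ℂ :=
  ∏ r ∈ D.erase r₀, (QP s p - C (((r ^ 2 : ℝ)) : ℂ))

lemma PQ_mem_W (s : ℂ) {D : Finset ℝ} {τ : ℕ} (hD : D.card ≤ τ)
    (p : EuclideanSpace ℝ (Fin d)) (r₀ : ℝ) : PQ s D p r₀ ∈ W ℂ (Fin d ⊕ Fin d) (2 * τ) := by
  unfold PQ
  have := prod_mem_W (k := ℂ) (D.erase r₀) (fun r => QP s p - C (((r ^ 2 : ℝ)) : ℂ))
    (fun _ => 2) (fun r _ => Submodule.sub_mem _ (QP_mem_W s p) (C_mem_W _ _))
  refine W_mono ?_ this
  rw [Finset.sum_const, smul_eq_mul, mul_comm]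
  exact Nat.mul_le_mul_left 2 ((Finset.card_le_card (Finset.erase_subset _ _)).trans hD)

lemma eval_PQ_ne_zero {s : ℂ} {D : Finset ℝ} (hD : ∀ r ∈ D, 0 ≤ r)
    {p : EuclideanSpace ℝ (Fin d)} {r₀ : ℝ} (h0 : 0 ≤ r₀) {w : Fin d ⊕ Fin d → ℂ}
    (hw : eval w (QP s p) = ((r₀ ^ 2 : ℝ) : ℂ)) : eval w (PQ s D p r₀) ≠ 0 := by
  unfold PQ
  rw [map_prod, Finset.prod_ne_zero_iff]
  intro r hr
  rw [Finset.mem_erase] at hr
  rw [map_sub, hw, eval_C, sub_ne_zero]
  intro h
  have h' : r₀ ^ 2 = r ^ 2 := by exact_mod_cast h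
  exact hr.1 ((sq_eq_sq₀ h0 (hD r hr.2)).1 h').symm

lemma eval_PQ_eq_zero {s : ℂ} {D : Finset ℝ} {p : EuclideanSpace ℝ (Fin d)} {r₀ r₁ : ℝ}
    (h1 : r₁ ∈ D) (hne : r₁ ≠ r₀) {w : Fin d ⊕ Fin d → ℂ}
    (hw : eval w (QP s p) = ((r₁ ^ 2 : ℝ) : ℂ)) : eval w (PQ s D p r₀) = 0 := by
  unfold PQ
  rw [map_prod]
  refine Finset.prod_eq_zero (Finset.mem_erase.2 ⟨hne, h1⟩) ?_
  rw [map_sub, hw, eval_C, sub_self]

/-- pairs all seen on rich spheres by two affinely independent tuples are separated -/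
theorem sep_of_pins (τ : ℕ) {u v : Fin (d + 1) → EuclideanSpace ℝ (Fin d)}
    (hu : LinearIndependent ℝ (fun i => ((1 : ℝ), u i)))
    (hv : LinearIndependent ℝ (fun i => ((1 : ℝ), v i)))
    (Z : Finset (EuclideanSpace ℝ (Fin d) × EuclideanSpace ℝ (Fin d)))
    (hZ : ∀ z ∈ Z, z.1 ∈ P ∧ z.2 ∈ P ∧ (∀ i, P.card ≤ τ * Rc P (u i) z.1) ∧
      ∀ i, P.card ≤ τ * Rc P (v i) z.2) :
    HF669.Sep ((fun z : EuclideanSpace ℝ (Fin d) × EuclideanSpace ℝ (Fin d) =>
      toFn (zc z.1 z.2)) '' (Z : Set _)) (4 * (d + 1) * τ) := by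
  classical
  have hD0 : ∀ p, ∀ r ∈ radii P τ p, 0 ≤ r := by
    intro p r hr
    obtain ⟨q, _, rfl⟩ := Finset.mem_image.1 hr
    exact dist_nonneg
  apply sep_of_ne_zero
  rintro _ ⟨⟨b, e⟩, hz, rfl⟩
  refine ⟨(∏ i, PQ (-1) (radii P τ (u i)) (u i) (dist (u i) b)) *
    ∏ i, PQ 1 (radii P τ (v i)) (v i) (dist (v i) e), ?_, ?_, ?_⟩
  · rw [← mem_W]
    have h1 : ∏ i, PQ (-1) (radii P τ (u i)) (u i) (dist (u i) b) ∈
        W ℂ (Fin d ⊕ Fin d) (∑ _i : Fin (d + 1), 2 * τ) :=
      prod_mem_W _ _ _ fun i _ => PQ_mem_W _ (card_radii τ _) _ _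
    have h2 : ∏ i, PQ 1 (radii P τ (v i)) (v i) (dist (v i) e) ∈
        W ℂ (Fin d ⊕ Fin d) (∑ _i : Fin (d + 1), 2 * τ) :=
      prod_mem_W _ _ _ fun i _ => PQ_mem_W _ (card_radii τ _) _ _
    refine W_mono ?_ (mul_mem_W h1 h2)
    simp only [Finset.sum_const, Finset.card_univ, Fintype.card_fin, smul_eq_mul]
    apply le_of_eq; ring
  · rw [map_mul, map_prod, map_prod]
    refine mul_ne_zero (Finset.prod_ne_zero_iff.2 fun i _ => ?_)
      (Finset.prod_ne_zero_iff.2 fun i _ => ?_)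
    · exact eval_PQ_ne_zero (hD0 _) dist_nonneg (eval_QP_neg _ _ _)
    · exact eval_PQ_ne_zero (hD0 _) dist_nonneg (eval_QP_pos _ _ _)
  · rintro _ ⟨⟨b', e'⟩, hz', rfl⟩ hne
    obtain ⟨hb', he', hub', hve'⟩ := hZ _ hz'
    rw [map_mul, map_prod, map_prod]
    by_cases hb : b' = b
    · have he : e' ≠ e := by
        rintro rfl
        subst hb
        exact hne rfl
      have : ∃ i, dist (v i) e' ≠ dist (v i) e := by
        by_contra hcon
        push Not at hcon
        exact he (eq_of_dist_eq hv hcon)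
      obtain ⟨i, hi⟩ := this
      refine mul_eq_zero_of_right _ (Finset.prod_eq_zero (Finset.mem_univ i) ?_)
      refine eval_PQ_eq_zero ?_ hi (eval_QP_pos _ _ _)
      exact Finset.mem_image.2 ⟨e', Finset.mem_filter.2 ⟨he', hve' i⟩, rfl⟩
    · have : ∃ i, dist (u i) b' ≠ dist (u i) b := by
        by_contra hcon
        push Not at hcon
        exact hb (eq_of_dist_eq hu hcon)
      obtain ⟨i, hi⟩ := this
      refine mul_eq_zero_of_left (Finset.prod_eq_zero (Finset.mem_univ i) ?_) _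
      refine eval_PQ_eq_zero ?_ hi (eval_QP_neg _ _ _)
      exact Finset.mem_image.2 ⟨b', Finset.mem_filter.2 ⟨hb', hub' i⟩, rfl⟩

/-- **Pins (O1).** -/
theorem pins (hP : NoHyp P) (τ : ℕ)
    (Z : Finset (EuclideanSpace ℝ (Fin d) × EuclideanSpace ℝ (Fin d)))
    (hZ : ∀ z ∈ Z, z.1 ∈ P ∧ z.2 ∈ P ∧ Good P τ z.1 ∧ Good P τ z.2) :
    ∃ Z₂ ⊆ Z, Z.card ≤ 64 ^ (d + 1) * Z₂.card ∧
      HF669.Sep ((fun z : EuclideanSpace ℝ (Fin d) × EuclideanSpace ℝ (Fin d) =>
        toFn (zc z.1 z.2)) '' (Z₂ : Set _)) (4 * (d + 1) * τ) := by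
  classical
  rcases Z.eq_empty_or_nonempty with hZe | ⟨z₀, hz₀⟩
  · refine ⟨∅, by simp, by simp [hZe], ?_⟩
    intro a ha
    simp at ha
  have hn : 0 < P.card := Finset.card_pos.2 ⟨_, (hZ z₀ hz₀).1⟩
  set T : Finset ((Fin (d + 1) → EuclideanSpace ℝ (Fin d)) ×
    (Fin (d + 1) → EuclideanSpace ℝ (Fin d))) :=
    (Fintype.piFinset fun _ : Fin (d + 1) => P) ×ˢ (Fintype.piFinset fun _ : Fin (d + 1) => P)
    with hT
  set S : ((Fin (d + 1) → EuclideanSpace ℝ (Fin d)) ×
    (Fin (d + 1) → EuclideanSpace ℝ (Fin d))) →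
    Finset (EuclideanSpace ℝ (Fin d) × EuclideanSpace ℝ (Fin d)) := fun p =>
    Z.filter fun z => p.1 ∈ tup (pinsOf P τ z.1) (d + 1) ∧ p.2 ∈ tup (pinsOf P τ z.2) (d + 1)
    with hS
  have hTcard : T.card = P.card ^ (d + 1) * P.card ^ (d + 1) := by
    rw [hT, Finset.card_product, Fintype.card_piFinset]; simp
  have hsub : ∀ b, pinsOf P τ b ⊆ P := fun b => Finset.filter_subset _ _
  have htupsub : ∀ b, tup (pinsOf P τ b) (d + 1) ⊆ Fintype.piFinset fun _ : Fin (d + 1) => P := by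
    intro b v hv
    rw [Fintype.mem_piFinset]
    exact fun i => hsub b ((mem_tup.1 hv).1 i)
  -- double counting
  have hdc : Z.card * T.card ≤ ∑ p ∈ T, 64 ^ (d + 1) * (S p).card := by
    rw [← Finset.mul_sum]
    have h1 : ∑ p ∈ T, (S p).card = ∑ z ∈ Z, ((tup (pinsOf P τ z.1) (d + 1)) ×ˢ
        (tup (pinsOf P τ z.2) (d + 1))).card := by
      simp only [hS, Finset.card_filter]
      rw [Finset.sum_comm]
      refine Finset.sum_congr rfl fun z _ => ?_
      rw [← Finset.card_filter]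
      congr 1
      ext p
      simp only [Finset.mem_filter, Finset.mem_product, hT]
      constructor
      · rintro ⟨_, h⟩; exact h
      · intro h; exact ⟨⟨htupsub _ h.1, htupsub _ h.2⟩, h⟩
    rw [h1, Finset.mul_sum, ← smul_eq_mul, ← Finset.sum_const]
    refine Finset.sum_le_sum fun z hz => ?_
    obtain ⟨_, _, g1, g2⟩ := hZ z hz
    have t1 := tup_card hP (hsub z.1) g1 (d + 1) le_rfl
    have t2 := tup_card hP (hsub z.2) g2 (d + 1) le_rfl
    rw [hTcard, Finset.card_product]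
    calc P.card ^ (d + 1) * P.card ^ (d + 1) ≤
        (8 ^ (d + 1) * (tup (pinsOf P τ z.1) (d + 1)).card) *
        (8 ^ (d + 1) * (tup (pinsOf P τ z.2) (d + 1)).card) := Nat.mul_le_mul t1 t2
      _ = 64 ^ (d + 1) * ((tup (pinsOf P τ z.1) (d + 1)).card *
        (tup (pinsOf P τ z.2) (d + 1)).card) := by
        rw [show (64 : ℕ) = 8 * 8 by norm_num, mul_pow]; ring
  have hTne : T.Nonempty := by
    rw [← Finset.card_pos, hTcard]; positivity
  obtain ⟨p, hp, hle⟩ : ∃ p ∈ T, Z.card ≤ 64 ^ (d + 1) * (S p).card := by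
    by_contra hcon
    push Not at hcon
    have := Finset.sum_lt_sum_of_nonempty hTne hcon
    rw [Finset.sum_const, smul_eq_mul, mul_comm] at this
    exact absurd hdc (not_le.2 this)
  have hpos : (S p).Nonempty := by
    rw [← Finset.card_pos]
    rcases Nat.eq_zero_or_pos (S p).card with h0 | h0
    · rw [h0, mul_zero] at hle
      have := Finset.card_pos.2 ⟨_, hz₀⟩
      omega
    · exact h0
  obtain ⟨z₁, hz₁⟩ := hpos
  have hz₁' := (Finset.mem_filter.1 hz₁).2
  refine ⟨S p, Finset.filter_subset _ _, hle, ?_⟩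
  refine sep_of_pins (P := P) τ (mem_tup.1 hz₁'.1).2 (mem_tup.1 hz₁'.2).2 _ ?_
  intro z hz
  have h1 := Finset.mem_filter.1 hz
  obtain ⟨m1, m2, _, _⟩ := hZ z h1.1
  exact ⟨m1, m2, fun i => (Finset.mem_filter.1 ((mem_tup.1 h1.2.1).1 i)).2,
    fun i => (Finset.mem_filter.1 ((mem_tup.1 h1.2.2).1 i)).2⟩

end pins

end Crest.Agent.R065.Pins348
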