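import Crest.Agent.R065.Mult_496c
import Mathlib.RingTheory.Smooth.Field

/-!
# Row 65: Zariski--Nagata in characteristic zero

`zariski_nagata` : if all iterated partial derivatives of order `< n` of `f` lie in the prime `Q`
of `k[x]`, `char k = 0`, then `f ∈ 𝔪 ^ n` in the local ring at `Q`.
-/

set_option autoImplicit false

open MvPolynomial Module IsLocalRing

namespace Crest.Agent.R065.Wt639

open Crest.Agent.R065.Mult496

variable {k : Type*} [Field k] {σ : Type*}

/-- iterated partial derivative -/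
noncomputable def Dl (l : List σ) (h : MvPolynomial σ k) : MvPolynomial σ k :=
  l.foldr (fun i f => pderiv i f) h

@[simp] lemma Dl_nil (h : MvPolynomial σ k) : Dl [] h = h := rfl

@[simp] lemma Dl_cons (i : σ) (l : List σ) (h : MvPolynomial σ k) :
    Dl (i :: l) h = pderiv i (Dl l h) := rfl

lemma Dl_append (l l' : List σ) (h : MvPolynomial σ k) : Dl (l ++ l') h = Dl l (Dl l' h) := by
  simp [Dl, List.foldr_append]

/-- first order Taylor expansion modulo a square zero ideal -/
lemma taylor_one [Fintype σ] {B : Type*} [CommRing B] [Algebra k B] {I : Ideal B}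
    (hI : ∀ a ∈ I, ∀ b ∈ I, a * b = 0) (φ ψ : MvPolynomial σ k →ₐ[k] B)
    (h : ∀ f, φ f - ψ f ∈ I) (f : MvPolynomial σ k) :
    φ f - ψ f = ∑ j, φ (pderiv j f) * (φ (X j) - ψ (X j)) := by
  classical
  induction f using MvPolynomial.induction_on with
  | C a =>
    have h1 : φ (C a) = ψ (C a) := by
      rw [← algebraMap_eq, AlgHom.commutes, AlgHom.commutes]
    rw [h1]; simp
  | add p q hp hq =>
    have : φ (p + q) - ψ (p + q) = (φ p - ψ p) + (φ q - ψ q) := by
      rw [map_add, map_add]; ring
    rw [this, hp, hq, ← Finset.sum_add_distrib]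
    refine Finset.sum_congr rfl fun j _ => ?_
    rw [map_add, map_add]; ring
  | mul_X p i hp =>
    have h1 : (φ p - ψ p) * (φ (X i) - ψ (X i)) = 0 := hI _ (h p) _ (h _)
    have h2 : ∑ j, φ (pderiv j (p * X i)) * (φ (X j) - ψ (X j)) =
        (∑ j, φ (pderiv j p) * (φ (X j) - ψ (X j))) * φ (X i) +
          φ p * (φ (X i) - ψ (X i)) := by
      rw [Finset.sum_mul]
      have h3 : ∀ j, φ (pderiv j (p * X i)) * (φ (X j) - ψ (X j)) =
          φ (pderiv j p) * (φ (X j) - ψ (X j)) * φ (X i) +
            (if j = i then φ p * (φ (X i) - ψ (X i)) else 0) := by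
        intro j
        rw [Derivation.leibniz, smul_eq_mul, smul_eq_mul, map_add, map_mul, map_mul, pderiv_X]
        by_cases hij : j = i
        · subst hij; simp; ring
        · rw [if_neg hij, Pi.single_eq_of_ne (Ne.symm hij)]; simp; ring
      rw [Finset.sum_congr rfl fun j _ => h3 j, Finset.sum_add_distrib]
      simp
    rw [h2, ← hp, map_mul, map_mul]
    linear_combination (-1 : B) * h1

section local_ring

variable (Q : Ideal (MvPolynomial σ k)) [hQ : Q.IsPrime]
  (A : Type*) [CommRing A] [IsLocalRing A] [Algebra (MvPolynomial σ k) A]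
  [IsLocalization.AtPrime A Q] [Algebra k A] [IsScalarTower k (MvPolynomial σ k) A]

/-- **the Euler vector** at a prime -/
theorem exists_euler [CharZero k] [Fintype σ] :
    ∃ e : σ → A, (∀ j, e j ∈ maximalIdeal A) ∧
      ∀ t ∈ Q, algebraMap (MvPolynomial σ k) A t -
        ∑ j, e j * algebraMap (MvPolynomial σ k) A (pderiv j t) ∈ maximalIdeal A ^ 2 := by
  have hle : maximalIdeal A ^ 2 ≤ maximalIdeal A := Ideal.pow_le_self two_ne_zero
  let g : (A ⧸ maximalIdeal A ^ 2) →ₐ[k] (A ⧸ maximalIdeal A) := Ideal.Quotient.factorₐ k hle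
  have hg : Function.Surjective g := Ideal.Quotient.factor_surjective hle
  let _ : Field (A ⧸ maximalIdeal A) := Ideal.Quotient.field (maximalIdeal A)
  have _ : Algebra.EssFiniteType (MvPolynomial σ k) A :=
    Algebra.EssFiniteType.of_isLocalization A Q.primeCompl
  have _ : Algebra.EssFiniteType k A := Algebra.EssFiniteType.comp k (MvPolynomial σ k) A
  have _ : Algebra.EssFiniteType k (A ⧸ maximalIdeal A) := inferInstance
  have _ : Algebra.FormallySmooth k (A ⧸ maximalIdeal A) :=
    Algebra.FormallySmooth.of_perfectField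
  have hker : ∀ x, g x = 0 → ∃ y ∈ maximalIdeal A,
      Ideal.Quotient.mk (maximalIdeal A ^ 2) y = x := by
    intro x hx
    obtain ⟨y, rfl⟩ := Ideal.Quotient.mk_surjective x
    refine ⟨y, ?_, rfl⟩
    have : g (Ideal.Quotient.mk (maximalIdeal A ^ 2) y) =
      Ideal.Quotient.mk (maximalIdeal A) y := rfl
    rw [this] at hx
    exact Ideal.Quotient.eq_zero_iff_mem.1 hx
  have hsq : ∀ a ∈ RingHom.ker g, ∀ b ∈ RingHom.ker g, a * b = 0 := by
    intro a ha b hb
    obtain ⟨a, ha', rfl⟩ := hker a ha
    obtain ⟨b, hb', rfl⟩ := hker b hb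
    rw [← map_mul]
    refine Ideal.Quotient.eq_zero_iff_mem.2 ?_
    rw [pow_two]
    exact Ideal.mul_mem_mul ha' hb'
  have hnil : IsNilpotent (RingHom.ker (g : (A ⧸ maximalIdeal A ^ 2) →+* (A ⧸ maximalIdeal A))) := by
    refine ⟨2, ?_⟩
    have h2 : RingHom.ker (g : (A ⧸ maximalIdeal A ^ 2) →+* (A ⧸ maximalIdeal A)) *
        RingHom.ker (g : (A ⧸ maximalIdeal A ^ 2) →+* (A ⧸ maximalIdeal A)) ≤ ⊥ := by
      rw [Ideal.mul_le]
      intro a ha b hb
      exact (Ideal.mem_bot).2 (hsq a ha b hb)
    exact (sq _).trans (le_bot_iff.1 h2)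
  let s : (A ⧸ maximalIdeal A) →ₐ[k] (A ⧸ maximalIdeal A ^ 2) :=
    Algebra.FormallySmooth.liftOfSurjective (AlgHom.id k (A ⧸ maximalIdeal A)) g hg hnil
  have hs : ∀ x, g (s x) = x := fun x =>
    Algebra.FormallySmooth.liftOfSurjective_apply (AlgHom.id k (A ⧸ maximalIdeal A)) g hg hnil x
  let ι : MvPolynomial σ k →ₐ[k] A := IsScalarTower.toAlgHom k (MvPolynomial σ k) A
  let φ : MvPolynomial σ k →ₐ[k] (A ⧸ maximalIdeal A ^ 2) :=
    (Ideal.Quotient.mkₐ k (maximalIdeal A ^ 2)).comp ι
  let ψ : MvPolynomial σ k →ₐ[k] (A ⧸ maximalIdeal A ^ 2) :=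
    s.comp ((Ideal.Quotient.mkₐ k (maximalIdeal A)).comp ι)
  have hφψ : ∀ f, φ f - ψ f ∈ RingHom.ker g := by
    intro f
    rw [RingHom.mem_ker, map_sub]
    have h1 : g (ψ f) = Ideal.Quotient.mk (maximalIdeal A) (ι f) := hs _
    have h2 : g (φ f) = Ideal.Quotient.mk (maximalIdeal A) (ι f) := rfl
    rw [h1, h2, sub_self]
  choose e he1 he2 using fun j => hker (φ (X j) - ψ (X j)) (hφψ (X j))
  refine ⟨e, he1, fun t ht => ?_⟩
  have h1 := taylor_one hsq φ ψ hφψ t
  have h2 : ψ t = 0 := by
    have h3 : Ideal.Quotient.mk (maximalIdeal A) (ι t) = 0 := by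
      refine Ideal.Quotient.eq_zero_iff_mem.2 ?_
      exact (IsLocalization.AtPrime.to_map_mem_maximal_iff A Q t).2 ht
    change s (Ideal.Quotient.mk (maximalIdeal A) (ι t)) = 0
    rw [h3, map_zero]
  rw [h2, sub_zero] at h1
  refine Ideal.Quotient.eq_zero_iff_mem.1 ?_
  rw [map_sub, map_sum, sub_eq_zero]
  refine h1.trans (Finset.sum_congr rfl fun j _ => ?_)
  rw [map_mul, he2, mul_comm]
  rfl

variable {Q A}

/-- the Euler field acts on `Q ^ n` as multiplication by `n` modulo `𝔪 ^ (n + 1)` -/
lemma euler_pow [Fintype σ] {e : σ → A}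
    (he : ∀ j, e j ∈ maximalIdeal A)
    (he' : ∀ t ∈ Q, algebraMap (MvPolynomial σ k) A t -
        ∑ j, e j * algebraMap (MvPolynomial σ k) A (pderiv j t) ∈
          maximalIdeal A ^ 2) (n : ℕ) :
    ∀ f ∈ Q ^ n, (n : A) *
        algebraMap (MvPolynomial σ k) A f -
        ∑ j, e j * algebraMap (MvPolynomial σ k) A (pderiv j f) ∈
          maximalIdeal A ^ (n + 1) := by
  have hmem : ∀ (n : ℕ) (f : MvPolynomial σ k), f ∈ Q ^ n →
      algebraMap (MvPolynomial σ k) A f ∈ maximalIdeal A ^ n := by
    intro n f hf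
    rw [← IsLocalization.AtPrime.map_eq_maximalIdeal Q A, ← Ideal.map_pow]
    exact Ideal.mem_map_of_mem _ hf
  induction n with
  | zero =>
    intro f _
    rw [Nat.cast_zero, zero_mul, zero_sub, zero_add, pow_one]
    exact neg_mem (Ideal.sum_mem _ fun j _ => Ideal.mul_mem_right _ _ (he j))
  | succ n ih =>
    intro f hf
    rw [pow_succ'] at hf
    induction hf using Submodule.mul_induction_on' with
    | mem_mul_mem a ha b hb =>
      have h1 := ih b hb
      have h2 := he' a ha
      have h3 : ((n + 1 : ℕ) : A) * algebraMap (MvPolynomial σ k) A (a * b) -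
          ∑ j, e j * algebraMap (MvPolynomial σ k) A (pderiv j (a * b)) =
          algebraMap (MvPolynomial σ k) A a * ((n : A) *
            algebraMap (MvPolynomial σ k) A b -
            ∑ j, e j * algebraMap (MvPolynomial σ k) A (pderiv j b)) +
          (algebraMap (MvPolynomial σ k) A a -
            ∑ j, e j * algebraMap (MvPolynomial σ k) A (pderiv j a)) *
              algebraMap (MvPolynomial σ k) A b := by
        have h4 : ∑ j, e j * algebraMap (MvPolynomial σ k) A (pderiv j (a * b)) =
            algebraMap (MvPolynomial σ k) A a *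
              (∑ j, e j * algebraMap (MvPolynomial σ k) A (pderiv j b)) +
            (∑ j, e j * algebraMap (MvPolynomial σ k) A (pderiv j a)) *
              algebraMap (MvPolynomial σ k) A b := by
          rw [Finset.mul_sum, Finset.sum_mul, ← Finset.sum_add_distrib]
          refine Finset.sum_congr rfl fun j _ => ?_
          rw [Derivation.leibniz, smul_eq_mul, smul_eq_mul, map_add, map_mul, map_mul]
          ring
        rw [h4, map_mul]
        push_cast
        ring
      rw [h3]
      refine add_mem ?_ ?_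
      · have h5 := Ideal.mul_mem_mul (hmem 1 a (by rwa [pow_one])) h1
        rwa [← pow_add, add_comm 1 (n + 1)] at h5
      · have h5 := Ideal.mul_mem_mul h2 (hmem n b hb)
        rwa [← pow_add, show 2 + n = n + 1 + 1 by ring] at h5
    | add x _ y _ hx hy =>
      have h3 : ((n + 1 : ℕ) : A) * algebraMap (MvPolynomial σ k) A (x + y) -
          ∑ j, e j * algebraMap (MvPolynomial σ k) A (pderiv j (x + y)) =
          (((n + 1 : ℕ) : A) * algebraMap (MvPolynomial σ k) A x -
            ∑ j, e j * algebraMap (MvPolynomial σ k) A (pderiv j x)) +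
          (((n + 1 : ℕ) : A) * algebraMap (MvPolynomial σ k) A y -
            ∑ j, e j * algebraMap (MvPolynomial σ k) A (pderiv j y)) := by
        have h4 : ∑ j, e j * algebraMap (MvPolynomial σ k) A (pderiv j (x + y)) =
            (∑ j, e j * algebraMap (MvPolynomial σ k) A (pderiv j x)) +
            ∑ j, e j * algebraMap (MvPolynomial σ k) A (pderiv j y) := by
          rw [← Finset.sum_add_distrib]
          refine Finset.sum_congr rfl fun j _ => ?_
          rw [map_add, map_add]; ring
        rw [h4, map_add]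
        ring
      rw [h3]
      exact add_mem hx hy

/-- **Zariski--Nagata** (characteristic zero) -/
theorem zariski_nagata [CharZero k] [Fintype σ] (n : ℕ) (f : MvPolynomial σ k)
    (hf : ∀ l : List σ, l.length < n → Dl l f ∈ Q) :
    algebraMap (MvPolynomial σ k) A f ∈ maximalIdeal A ^ n := by
  obtain ⟨e, he, he'⟩ := exists_euler Q A
  have h𝔪Q : maximalIdeal A = Q.map (algebraMap (MvPolynomial σ k) A) :=
    (IsLocalization.AtPrime.map_eq_maximalIdeal Q A).symm
  have hunit : ∀ s ∉ Q, IsUnit (algebraMap (MvPolynomial σ k) A s) := fun s hs =>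
    IsLocalization.map_units A (⟨s, hs⟩ : Q.primeCompl)
  -- clearing denominators
  have hclear : ∀ (n : ℕ) (x : MvPolynomial σ k),
      algebraMap (MvPolynomial σ k) A x ∈ maximalIdeal A ^ n → ∃ s ∉ Q, s * x ∈ Q ^ n := by
    intro n x hx
    rw [h𝔪Q, ← Ideal.map_pow,
      IsLocalization.algebraMap_mem_map_algebraMap_iff Q.primeCompl] at hx
    obtain ⟨s, hs, hs'⟩ := hx
    exact ⟨s, hs, hs'⟩
  induction n generalizing f with
  | zero => simp
  | succ n ih =>
    have h1 := ih f fun l hl => hf l (by omega)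
    have h2 : ∀ j, algebraMap (MvPolynomial σ k) A (pderiv j f) ∈ maximalIdeal A ^ n := by
      intro j
      refine ih _ fun l hl => ?_
      have := hf (l ++ [j]) (by rw [List.length_append, List.length_singleton]; omega)
      rwa [Dl_append] at this
    rcases Nat.eq_zero_or_pos n with rfl | hn
    · rw [zero_add, pow_one]
      exact (IsLocalization.AtPrime.to_map_mem_maximal_iff A Q f).2 (by simpa using hf [] (by simp))
    obtain ⟨s0, hs0, hs0'⟩ := hclear n f h1
    choose s hs hs' using fun j => hclear n _ (h2 j)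
    set t := s0 * ∏ j, s j with ht
    have htQ : t ∉ Q := by
      intro h
      rcases hQ.mem_or_mem h with h | h
      · exact hs0 h
      · rw [hQ.prod_mem_iff] at h
        obtain ⟨j, -, hj⟩ := h
        exact hs j hj
    have ht1 : t * f ∈ Q ^ n := by
      have : t * f = (∏ j, s j) * (s0 * f) := by rw [ht]; ring
      rw [this]; exact Ideal.mul_mem_left _ _ hs0'
    have ht2 : ∀ j, t * pderiv j f ∈ Q ^ n := by
      intro j
      obtain ⟨c, hc⟩ := Finset.dvd_prod_of_mem s (Finset.mem_univ j)
      have : t * pderiv j f = (s0 * c) * (s j * pderiv j f) := by rw [ht, hc]; ring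
      rw [this]; exact Ideal.mul_mem_left _ _ (hs' j)
    have hg : t ^ 2 * f ∈ Q ^ n := by
      have : t ^ 2 * f = t * (t * f) := by ring
      rw [this]; exact Ideal.mul_mem_left _ _ ht1
    have hg2 : ∀ j, pderiv j (t ^ 2 * f) ∈ Q ^ n := by
      intro j
      have : pderiv j (t ^ 2 * f) = t * (t * pderiv j f) + (2 * pderiv j t) * (t * f) := by
        rw [Derivation.leibniz, pow_two, Derivation.leibniz]
        simp only [smul_eq_mul]
        ring
      rw [this]
      exact add_mem (Ideal.mul_mem_left _ _ (ht2 j)) (Ideal.mul_mem_left _ _ ht1)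
    have h3 := euler_pow he he' n _ hg
    have h4 : ∑ j, e j * algebraMap (MvPolynomial σ k) A (pderiv j (t ^ 2 * f)) ∈
        maximalIdeal A ^ (n + 1) := by
      refine Ideal.sum_mem _ fun j _ => ?_
      rw [pow_succ']
      refine Ideal.mul_mem_mul (he j) ?_
      rw [h𝔪Q, ← Ideal.map_pow]
      exact Ideal.mem_map_of_mem _ (hg2 j)
    have h5 : (n : A) * algebraMap (MvPolynomial σ k) A (t ^ 2 * f) ∈
        maximalIdeal A ^ (n + 1) := by
      have := add_mem h3 h4
      rwa [sub_add_cancel] at this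
    have hu : IsUnit ((n : A) * algebraMap (MvPolynomial σ k) A (t ^ 2)) := by
      refine IsUnit.mul ?_ ?_
      · have h6 : (n : A) = algebraMap (MvPolynomial σ k) A (n : MvPolynomial σ k) := by simp
        rw [h6]
        exact hunit _ (natCast_notMem hQ n hn.ne')
      · rw [map_pow]
        exact (hunit t htQ).pow 2
    rw [map_mul, ← mul_assoc] at h5
    exact (Ideal.unit_mul_mem_iff_mem _ hu).1 h5

end local_ring

end Crest.Agent.R065.Wt639
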