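import Crest.Agent.R065.Cut_477
import Crest.Agent.R065.Flags_669
import Crest.Agent.R065.Wt_639

/-!
# Row 65: the extremal variety

`h ≠ 0` of degree `≤ m` vanishing at the points `p i`, `i ∈ Sg`.  There is a prime `P ∋ h` and a
degree `Dd` with `m ≤ Dd`, `flagTop P ≤ Dd ≤ C m` such that every polynomial of degree `≤ Ce * Dd`
vanishing on a `1/q` fraction of the points on `P` lies in `P`, and
`|Sg| μ(P) deg P ≤ C |Sg_P| m^{codim P}`.
-/

set_option autoImplicit false

open MvPolynomial Module Finset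

namespace Crest.Agent.R065.Extr477

open Crest.Agent.R065.HF669 Crest.Agent.R065.Cut477 Crest.Agent.R065.Wt639

section upper

variable {k : Type*} [Field k] [Infinite k] {σ : Type*} [Fintype σ]

/-- Bezout chain: the degree of a prime between `P_{≤ flag P l}` and `P` of codimension `l` -/
theorem degP_le_flags {P Q : Ideal (MvPolynomial σ k)} [P.IsPrime] [hQp : Q.IsPrime] (hQP : Q ≤ P)
    {l : ℕ} (hl : dimP P + l ≤ Fintype.card σ)
    (hQ : ∀ f ∈ P, f.totalDegree ≤ flag P l → f ∈ Q) (hdim : dimP Q + l = Fintype.card σ) :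
    degP Q ≤ ∏ i ∈ range l, flag P (i + 1) := by
  have key : ∀ j ≤ l, ∃ Q' : Ideal (MvPolynomial σ k), Q'.IsPrime ∧ Q' ≤ Q ∧
      dimP Q' + j = Fintype.card σ ∧ degP Q' ≤ ∏ i ∈ range j, flag P (i + 1) := by
    intro j
    induction j with
    | zero =>
      intro _
      exact ⟨⊥, inferInstance, bot_le, by rw [dimP_bot, add_zero], by rw [degP_bot]; simp⟩
    | succ j ih =>
      intro hj
      obtain ⟨Q', hQ'p, hQ'Q, hd, hdeg⟩ := ih (by omega)
      have hex : ∃ f ∈ P, f.totalDegree ≤ flag P (j + 1) ∧ f ∉ Q' := by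
        by_contra hcon
        push Not at hcon
        have := cod_flag (P := P) (l := j + 1) (by omega) Q' hQ'p (hQ'Q.trans hQP)
          (fun f hf hf' => hcon f hf hf')
        omega
      obtain ⟨f, hfP, hfd, hfQ'⟩ := hex
      have hfQ : f ∈ Q := hQ f hfP (hfd.trans (flag_mono hj hl))
      obtain ⟨S, h1, h2, _, h4⟩ := exists_cut hfQ' hfd
      obtain ⟨Q'', hQ''S, hle⟩ := h2 Q hQp hQ'Q hfQ
      refine ⟨Q'', (h1 Q'' hQ''S).1, hle, ?_, ?_⟩
      · have := (h1 Q'' hQ''S).2.2.2; omega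
      · rw [prod_range_succ]
        calc degP Q'' ≤ ∑ Q ∈ S, degP Q :=
              single_le_sum (f := degP) (fun _ _ => Nat.zero_le _) hQ''S
          _ ≤ flag P (j + 1) * degP Q' := h4
          _ ≤ _ := by rw [mul_comm]; exact Nat.mul_le_mul_right _ hdeg
  obtain ⟨Q', hp, hle, hd, hdeg⟩ := key l le_rfl
  have : Q' = Q := eq_of_le_of_dimP_le hle (by omega)
  rwa [this] at hdeg

end upper

section extr

variable {k : Type*} [Field k] [Infinite k] {σ : Type*} [Fintype σ] {ι : Type*}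

/-- weights on primes satisfying the cut inequality -/
structure Weight (μ : Ideal (MvPolynomial σ k) → ℕ) (m : ℕ) : Prop where
  one_le : ∀ V : Ideal (MvPolynomial σ k), V.IsPrime → 1 ≤ μ V
  bot : μ ⊥ = 1
  mono : ∀ Q V : Ideal (MvPolynomial σ k), Q.IsPrime → V.IsPrime → Q ≤ V → μ Q ≤ μ V
  cut : ∀ P : Ideal (MvPolynomial σ k), P.IsPrime → ∀ g : MvPolynomial σ k, g ∉ P → ∀ D : ℕ,
    g.totalDegree ≤ D → ∀ S : Finset (Ideal (MvPolynomial σ k)),
    (∀ V ∈ S, V.IsPrime ∧ P ≤ V ∧ g ∈ V ∧ dimP V + 1 = dimP P) →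
      ∑ V ∈ S, μ V * degP V ≤ (D + m) * (μ P * degP P)

open scoped Classical in
/-- the indices of the points on `V` -/
noncomputable def on (p : ι → σ → k) (Sg : Finset ι) (V : Ideal (MvPolynomial σ k)) : Finset ι :=
  Sg.filter fun i => p i ∈ ZV V

variable {p : ι → σ → k} {Sg : Finset ι}

omit [Infinite k] [Fintype σ] in
lemma mem_on {V : Ideal (MvPolynomial σ k)} {i : ι} : i ∈ on p Sg V ↔ i ∈ Sg ∧ p i ∈ ZV V := by
  classical
  simp [on]

omit [Infinite k] [Fintype σ] in
lemma on_subset (V : Ideal (MvPolynomial σ k)) : on p Sg V ⊆ Sg := fun _ h => (mem_on.1 h).1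

omit [Infinite k] [Fintype σ] in
lemma on_anti {Q V : Ideal (MvPolynomial σ k)} (h : Q ≤ V) : on p Sg V ⊆ on p Sg Q := by
  intro i hi
  rw [mem_on] at *
  exact ⟨hi.1, ZV_anti h hi.2⟩

/-- product of the scales above the codimension of `V` -/
noncomputable def BB (R : ℕ → ℕ) (V : Ideal (MvPolynomial σ k)) : ℕ :=
  ∏ j ∈ Ico (Fintype.card σ - dimP V) (Fintype.card σ), R (j + 1)

lemma BB_pos {R : ℕ → ℕ} (hR : ∀ j, 1 ≤ R j) (V : Ideal (MvPolynomial σ k)) : 1 ≤ BB R V :=
  Nat.succ_le_of_lt (prod_pos fun _ _ => hR _)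

/-- near maximiser of the potential -/
lemma exists_max {μ : Ideal (MvPolynomial σ k) → ℕ} {m : ℕ} (hμ : Weight μ m) {R : ℕ → ℕ}
    (hR : ∀ j, 1 ≤ R j) {h : MvPolynomial σ k}
    (hne : ∃ V : Ideal (MvPolynomial σ k), V.IsPrime ∧ h ∈ V ∧ (on p Sg V).Nonempty) :
    ∃ P : Ideal (MvPolynomial σ k), P.IsPrime ∧ h ∈ P ∧ (on p Sg P).Nonempty ∧
      ∀ V : Ideal (MvPolynomial σ k), V.IsPrime → h ∈ V →
        (on p Sg V).card * (μ P * degP P * BB R P) ≤
          2 * (on p Sg P).card * (μ V * degP V * BB R V) := by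
  set F : Ideal (MvPolynomial σ k) → ℝ :=
    fun V => ((on p Sg V).card : ℝ) / (μ V * degP V * BB R V : ℕ) with hF
  set A : Set ℝ := {x | ∃ V : Ideal (MvPolynomial σ k), V.IsPrime ∧ h ∈ V ∧ F V = x} with hA
  have hden : ∀ V : Ideal (MvPolynomial σ k), V.IsPrime → 1 ≤ μ V * degP V * BB R V := by
    intro V hV
    have h1 := hμ.one_le V hV
    have h2 := degP_pos V
    have h3 := BB_pos hR V
    exact Nat.mul_pos (Nat.mul_pos h1 h2) h3
  have hbdd : BddAbove A := by
    refine ⟨Sg.card, ?_⟩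
    rintro x ⟨V, hV, hhV, rfl⟩
    have h1 : (1 : ℝ) ≤ (μ V * degP V * BB R V : ℕ) := by exact_mod_cast hden V hV
    rw [hF]
    refine (div_le_self (Nat.cast_nonneg _) h1).trans ?_
    exact_mod_cast card_le_card (on_subset V)
  obtain ⟨V1, hV1, hhV1, hne1⟩ := hne
  have hpos : 0 < sSup A := by
    have h1 : (0 : ℝ) < F V1 := by
      have h2 : (0 : ℝ) < (μ V1 * degP V1 * BB R V1 : ℕ) := by exact_mod_cast hden V1 hV1
      have h3 : (0 : ℝ) < (on p Sg V1).card := by exact_mod_cast card_pos.2 hne1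
      exact div_pos h3 h2
    exact lt_of_lt_of_le h1 (le_csSup hbdd ⟨V1, hV1, hhV1, rfl⟩)
  have hAne : A.Nonempty := ⟨F V1, V1, hV1, hhV1, rfl⟩
  obtain ⟨x, ⟨P, hP, hhP, rfl⟩, hx⟩ := exists_lt_of_lt_csSup hAne (half_lt_self hpos)
  have hdP : (0 : ℝ) < (μ P * degP P * BB R P : ℕ) := by exact_mod_cast hden P hP
  have hFP : 0 < F P := lt_trans (half_pos hpos) hx
  refine ⟨P, hP, hhP, ?_, ?_⟩
  · rw [← card_pos]
    by_contra hcon
    have h0 : (on p Sg P).card = 0 := by omega
    rw [hF] at hFP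
    simp only [h0, Nat.cast_zero, zero_div, lt_irrefl] at hFP
  · intro V hV hhV
    have hdV : (0 : ℝ) < (μ V * degP V * BB R V : ℕ) := by exact_mod_cast hden V hV
    have h1 : F V ≤ sSup A := le_csSup hbdd ⟨V, hV, hhV, rfl⟩
    have h2 : F V ≤ 2 * F P := by linarith
    rw [hF] at h2
    simp only at h2
    rw [div_le_iff₀ hdV, mul_comm 2, mul_assoc, div_mul_eq_mul_div, le_div_iff₀ hdP] at h2
    have h3 : (((on p Sg V).card * (μ P * degP P * BB R P) : ℕ) : ℝ) ≤
        ((2 * (on p Sg P).card * (μ V * degP V * BB R V) : ℕ) : ℝ) := by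
      push_cast at h2 ⊢
      linarith
    exact_mod_cast h3

/-- density: a polynomial outside `P` of small degree vanishes at few points of `P` -/
lemma density {μ : Ideal (MvPolynomial σ k) → ℕ} {m : ℕ} (hμ : Weight μ m) {R : ℕ → ℕ}
    (hR : ∀ j, 1 ≤ R j) {h : MvPolynomial σ k} {P : Ideal (MvPolynomial σ k)} [hP : P.IsPrime]
    (hhP : h ∈ P)
    (hmax : ∀ V : Ideal (MvPolynomial σ k), V.IsPrime → h ∈ V →
        (on p Sg V).card * (μ P * degP P * BB R P) ≤
          2 * (on p Sg P).card * (μ V * degP V * BB R V))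
    {g : MvPolynomial σ k} (hg : g ∉ P) {D : ℕ} (hD : g.totalDegree ≤ D) {G : Finset ι}
    (hG : ∀ i ∈ G, i ∈ on p Sg P ∧ eval (p i) g = 0) :
    G.card * R (Fintype.card σ - dimP P + 1) ≤ 2 * (on p Sg P).card * (D + m) ∨ G = ∅ := by
  classical
  obtain ⟨S, h1, _, h3, _⟩ := exists_cut hg hD
  have hsub : G ⊆ S.biUnion fun Q => on p Sg Q := by
    intro i hi
    obtain ⟨hi1, hi2⟩ := hG i hi
    obtain ⟨Q, hQ, hQ2⟩ := h3 (p i) (mem_on.1 hi1).2 hi2
    rw [mem_biUnion]
    exact ⟨Q, hQ, mem_on.2 ⟨(mem_on.1 hi1).1, hQ2⟩⟩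
  rcases Nat.eq_zero_or_pos (dimP P) with h0 | h0
  · right
    have : S = ∅ := by
      rw [eq_empty_iff_forall_notMem]
      intro Q hQ
      have := (h1 Q hQ).2.2.2
      omega
    rw [this, biUnion_empty] at hsub
    exact subset_empty.1 hsub
  left
  have hdc := dimP_le_card P
  set N := Fintype.card σ with hN
  set c := N - dimP P with hc
  -- the products
  have hBB : ∀ Q ∈ S, BB R P = R (c + 1) * BB R Q := by
    intro Q hQ
    have hd := (h1 Q hQ).2.2.2
    unfold BB
    have e1 : Fintype.card σ - dimP P = c := rfl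
    have e2 : Fintype.card σ - dimP Q = c + 1 := by omega
    rw [e1, e2]
    exact prod_eq_prod_Ico_succ_bot (by omega) _
  have hcard : G.card ≤ ∑ Q ∈ S, (on p Sg Q).card := (card_le_card hsub).trans card_biUnion_le
  have hcut := hμ.cut P hP g hg D hD S h1
  have hμP := hμ.one_le P hP
  have hδP := degP_pos P
  -- all `BB R Q` are equal
  obtain ⟨b, hb⟩ : ∃ b, ∀ Q ∈ S, BB R Q = b := by
    refine ⟨∏ j ∈ Ico (c + 1) N, R (j + 1), fun Q hQ => ?_⟩
    have hd := (h1 Q hQ).2.2.2
    unfold BB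
    have e2 : Fintype.card σ - dimP Q = c + 1 := by omega
    rw [e2]
  rcases S.eq_empty_or_nonempty with hS | ⟨Q0, hQ0⟩
  · rw [hS, sum_empty] at hcard
    have : G.card = 0 := by omega
    rw [this, zero_mul]; exact Nat.zero_le _
  have hb1 : 1 ≤ b := by rw [← hb Q0 hQ0]; exact BB_pos hR Q0
  have hBP : BB R P = R (c + 1) * b := by rw [hBB Q0 hQ0, hb Q0 hQ0]
  have hkey : G.card * (μ P * degP P * BB R P) ≤
      2 * (on p Sg P).card * ((D + m) * (μ P * degP P) * b) := by
    calc G.card * (μ P * degP P * BB R P) ≤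
        (∑ Q ∈ S, (on p Sg Q).card) * (μ P * degP P * BB R P) := Nat.mul_le_mul_right _ hcard
      _ = ∑ Q ∈ S, (on p Sg Q).card * (μ P * degP P * BB R P) := by rw [sum_mul]
      _ ≤ ∑ Q ∈ S, 2 * (on p Sg P).card * (μ Q * degP Q * BB R Q) :=
          sum_le_sum fun Q hQ => hmax Q (h1 Q hQ).1 ((h1 Q hQ).2.1 hhP)
      _ = 2 * (on p Sg P).card * ((∑ Q ∈ S, μ Q * degP Q) * b) := by
          rw [sum_mul, mul_sum]
          refine sum_congr rfl fun Q hQ => ?_
          rw [hb Q hQ]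
      _ ≤ _ := by
          apply Nat.mul_le_mul_left
          exact Nat.mul_le_mul_right _ hcut
  rw [hBP] at hkey
  have h5 : 0 < μ P * degP P * b := Nat.mul_pos (Nat.mul_pos hμP hδP) hb1
  refine Nat.le_of_mul_le_mul_right (c := μ P * degP P * b) ?_ h5
  calc G.card * R (c + 1) * (μ P * degP P * b) = G.card * (μ P * degP P * (R (c + 1) * b)) := by
        ring
    _ ≤ _ := hkey
    _ = _ := by ring

/-- the last flag degree of the extremal prime -/
lemma flagTop_le {μ : Ideal (MvPolynomial σ k) → ℕ} {m : ℕ} (hμ : Weight μ m) {R : ℕ → ℕ}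
    (hR : ∀ j, 1 ≤ R j) (hRm : ∀ j, m ≤ R j) (hRmono : Monotone R) {h : MvPolynomial σ k}
    (hh : h ≠ 0) (hm : h.totalDegree ≤ m) {P : Ideal (MvPolynomial σ k)} [hP : P.IsPrime]
    (hhP : h ∈ P) (hne : (on p Sg P).Nonempty)
    (hmax : ∀ V : Ideal (MvPolynomial σ k), V.IsPrime → h ∈ V →
        (on p Sg V).card * (μ P * degP P * BB R P) ≤
          2 * (on p Sg P).card * (μ V * degP V * BB R V)) :
    flagTop P ≤ (2 * KA (Fintype.card σ) ^ (Fintype.card σ + 2) + 1) *
      R (Fintype.card σ - dimP P) := by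
  classical
  have hdc := dimP_le_card P
  have hflagProd := flagProd_le_degP (P := P)
  unfold flagTop
  unfold flagProd at hflagProd
  set N := Fintype.card σ with hN
  set K1 := KA N ^ (N + 2) with hK1
  have hK1pos : 1 ≤ K1 := Nat.one_le_pow _ _ (one_le_KA N)
  set K0 := 2 * K1 + 1 with hK0
  set c := N - dimP P with hc
  have hc1 : 1 ≤ c := by
    have hne' : P ≠ ⊥ := by
      rintro rfl
      exact hh (by simpa using hhP)
    have : dimP P ≠ N := by
      intro hd
      apply hne'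
      exact (eq_of_le_of_dimP_le (P := ⊥) (Q := P) bot_le (by rw [dimP_bot, hd])).symm
    omega
  by_contra hcon
  push Not at hcon
  -- `flag P 1 ≤ m`
  have hf1 : flag P 1 ≤ m := by
    refine flag_le ?_
    intro Q hQ hQP hQm
    have hhQ : h ∈ Q := hQm h hhP hm
    have hd := dimP_le_card Q
    have : dimP Q ≠ N := by
      intro hd'
      have : (⊥ : Ideal (MvPolynomial σ k)) = Q :=
        eq_of_le_of_dimP_le bot_le (by rw [dimP_bot, hd'])
      rw [← this] at hhQ
      exact hh (by simpa using hhQ)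
    omega
  -- choose `l`
  obtain ⟨l, hl1, hlc, hlR, hlj⟩ : ∃ l, 1 ≤ l ∧ l < c ∧ flag P l ≤ K0 * R l ∧
      ∀ j, l < j → j ≤ c → K0 * R j < flag P j := by
    set Pr : ℕ → Prop := fun l => flag P l ≤ K0 * R l with hPr
    have h1 : Pr 1 := by
      calc flag P 1 ≤ m := hf1
        _ ≤ R 1 := hRm 1
        _ ≤ K0 * R 1 := Nat.le_mul_of_pos_left _ (by omega)
    set l := Nat.findGreatest Pr c with hl
    have hl1 : 1 ≤ l := Nat.le_findGreatest hc1 h1
    have hPl : Pr l := Nat.findGreatest_spec (P := Pr) hc1 h1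
    have hlc : l ≤ c := Nat.findGreatest_le c
    have hlc' : l ≠ c := by
      intro heq
      rw [heq] at hPl
      exact absurd hPl (not_le.2 hcon)
    refine ⟨l, hl1, by omega, hPl, fun j hj hjc => ?_⟩
    have := Nat.findGreatest_is_greatest (P := Pr) (n := c) (k := j) hj hjc
    exact not_le.1 this
  have hlN : dimP P + l ≤ N := by omega
  have hflt : flag P l < flag P (l + 1) := by
    calc flag P l ≤ K0 * R l := hlR
      _ ≤ K0 * R (l + 1) := Nat.mul_le_mul_left _ (hRmono (by omega))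
      _ < flag P (l + 1) := hlj (l + 1) (by omega) (by omega)
  obtain ⟨Q, hQp, hQP, hQm, hQd⟩ := exists_between (P := P) (l := l) (m := flag P (l + 1) - 1) hlN
    (by omega) (Or.inr (by omega))
  have hhQ : h ∈ Q := by
    refine hQm h hhP ?_
    have h1 := hlj (l + 1) (by omega) (by omega)
    have h2 : m ≤ K0 * R (l + 1) := (hRm (l + 1)).trans (Nat.le_mul_of_pos_left _ (by omega))
    omega
  -- upper bound for `degP Q`
  have hup : degP Q ≤ ∏ i ∈ range l, flag P (i + 1) :=
    degP_le_flags hQP hlN (fun f hf hfd => hQm f hf (by omega)) hQd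
  -- lower bound for `degP P`
  have hlow : (∏ i ∈ range l, flag P (i + 1)) * ∏ i ∈ Ico l c, flag P (i + 1) ≤ K1 * degP P := by
    rw [prod_range_mul_prod_Ico _ hlc.le]
    exact hflagProd
  -- extremality
  have hex := hmax Q hQp hhQ
  have hBQ : BB R Q = (∏ j ∈ Ico l c, R (j + 1)) * BB R P := by
    unfold BB
    have e1 : Fintype.card σ - dimP Q = l := by omega
    have e2 : Fintype.card σ - dimP P = c := rfl
    rw [e1, e2, prod_Ico_consecutive _ hlc.le (by omega)]
  have hcardQ : (on p Sg P).card ≤ (on p Sg Q).card := card_le_card (on_anti hQP)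
  have hμQ : μ Q ≤ μ P := hμ.mono Q P hQp hP hQP
  have hcpos : 0 < (on p Sg P).card := card_pos.2 hne
  have hμP := hμ.one_le P hP
  have hBP := BB_pos hR P
  set A := ∏ j ∈ Ico l c, R (j + 1) with hA
  have h1 : degP P ≤ 2 * degP Q * A := by
    have h2 : (on p Sg P).card * (μ P * degP P * BB R P) ≤
        2 * (on p Sg P).card * (μ P * degP Q * (A * BB R P)) := by
      calc (on p Sg P).card * (μ P * degP P * BB R P) ≤
          (on p Sg Q).card * (μ P * degP P * BB R P) := Nat.mul_le_mul_right _ hcardQ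
        _ ≤ 2 * (on p Sg P).card * (μ Q * degP Q * BB R Q) := hex
        _ ≤ 2 * (on p Sg P).card * (μ P * degP Q * BB R Q) := by
            apply Nat.mul_le_mul_left
            apply Nat.mul_le_mul_right
            exact Nat.mul_le_mul_right _ hμQ
        _ = _ := by rw [hBQ]
    have h3 : 0 < (on p Sg P).card * (μ P * BB R P) := Nat.mul_pos hcpos (Nat.mul_pos hμP hBP)
    refine Nat.le_of_mul_le_mul_right (c := (on p Sg P).card * (μ P * BB R P)) ?_ h3
    calc degP P * ((on p Sg P).card * (μ P * BB R P)) =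
        (on p Sg P).card * (μ P * degP P * BB R P) := by ring
      _ ≤ _ := h2
      _ = _ := by ring
  -- comparison
  set F := ∏ i ∈ range l, flag P (i + 1) with hF
  have hFpos : 0 < F := by
    refine prod_pos fun i hi => ?_
    rw [mem_range] at hi
    exact flag_pos (by omega) (by omega)
  have h4 : ∏ i ∈ Ico l c, flag P (i + 1) ≤ 2 * K1 * A := by
    refine Nat.le_of_mul_le_mul_left (c := F) ?_ hFpos
    calc F * ∏ i ∈ Ico l c, flag P (i + 1) ≤ K1 * degP P := hlow
      _ ≤ K1 * (2 * degP Q * A) := Nat.mul_le_mul_left _ h1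
      _ ≤ K1 * (2 * F * A) :=
          Nat.mul_le_mul_left _ (Nat.mul_le_mul_right _ (Nat.mul_le_mul_left _ hup))
      _ = _ := by ring
  have h5 : K0 ^ (c - l) * A ≤ ∏ i ∈ Ico l c, flag P (i + 1) := by
    rw [hA, ← Nat.card_Ico, ← prod_const, ← prod_mul_distrib]
    refine prod_le_prod' fun i hi => ?_
    rw [mem_Ico] at hi
    exact (hlj (i + 1) (by omega) (by omega)).le
  have h6 : K0 ≤ K0 ^ (c - l) := Nat.le_self_pow (by omega) _
  have hApos : 0 < A := prod_pos fun _ _ => hR _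
  have h7 : K0 * A ≤ 2 * K1 * A := (Nat.mul_le_mul_right _ h6).trans (h5.trans h4)
  have h8 : K0 ≤ 2 * K1 := Nat.le_of_mul_le_mul_right h7 hApos
  omega

/-- covering of the points by the components of `h = 0` -/
lemma cover {μ : Ideal (MvPolynomial σ k) → ℕ} {m : ℕ} (hμ : Weight μ m) {h : MvPolynomial σ k}
    (hh : h ≠ 0) (hm : h.totalDegree ≤ m) (h0 : ∀ i ∈ Sg, eval (p i) h = 0) :
    ∃ S : Finset (Ideal (MvPolynomial σ k)),
      (∀ V ∈ S, V.IsPrime ∧ h ∈ V ∧ dimP V + 1 = Fintype.card σ) ∧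
      Sg.card ≤ ∑ V ∈ S, (on p Sg V).card ∧ ∑ V ∈ S, μ V * degP V ≤ 2 * m := by
  classical
  have hnot : h ∉ (⊥ : Ideal (MvPolynomial σ k)) := by simpa using hh
  obtain ⟨S, h1, _, h3, _⟩ := exists_cut hnot hm
  refine ⟨S, fun V hV => ⟨(h1 V hV).1, (h1 V hV).2.2.1, ?_⟩, ?_, ?_⟩
  · have := (h1 V hV).2.2.2
    rwa [dimP_bot] at this
  · refine (card_le_card (t := S.biUnion fun V => on p Sg V) ?_).trans card_biUnion_le
    intro i hi
    obtain ⟨Q, hQ, hQ2⟩ := h3 (p i) (by
      intro f hf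
      rw [Submodule.mem_bot] at hf
      rw [hf, map_zero]) (h0 i hi)
    rw [mem_biUnion]
    exact ⟨Q, hQ, mem_on.2 ⟨hi, hQ2⟩⟩
  · have := hμ.cut ⊥ inferInstance h hnot m hm S h1
    rw [hμ.bot, degP_bot] at this
    omega

/-- **The extremal variety**, general weights. -/
theorem extr_w (q Ce : ℕ) : ∃ C : ℕ, ∀ (μ : Ideal (MvPolynomial σ k) → ℕ) (m : ℕ), Weight μ m →
    ∀ h : MvPolynomial σ k, h ≠ 0 → 1 ≤ m → h.totalDegree ≤ m →
    ∀ (p : ι → σ → k) (Sg : Finset ι), Sg.Nonempty → (∀ i ∈ Sg, eval (p i) h = 0) →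
    ∃ P : Ideal (MvPolynomial σ k), P.IsPrime ∧ h ∈ P ∧ (on p Sg P).Nonempty ∧
      ∃ Dd : ℕ, m ≤ Dd ∧ flagTop P ≤ Dd ∧ Dd ≤ C * m ∧
      (∀ g : MvPolynomial σ k, g.totalDegree ≤ Ce * Dd → ∀ G : Finset ι,
        (∀ i ∈ G, i ∈ on p Sg P ∧ eval (p i) g = 0) → (on p Sg P).card ≤ q * G.card → g ∈ P) ∧
      Sg.card * (μ P * degP P) ≤
        C * (on p Sg P).card * m ^ (Fintype.card σ - dimP P) := by
  classical
  set N := Fintype.card σ with hN
  set K0 := 2 * KA N ^ (N + 2) + 1 with hK0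
  set Θ := 2 * q * (Ce * K0 + 1) + 1 with hΘ
  have hΘ1 : 1 ≤ Θ := by omega
  refine ⟨K0 * Θ ^ N + 4 * Θ ^ (N * N), ?_⟩
  intro μ m hμ h hh hm1 hm p Sg hSg h0
  set R : ℕ → ℕ := fun j => Θ ^ j * m with hRdef
  have hΘj : ∀ j, 1 ≤ Θ ^ j := fun j => Nat.one_le_pow _ _ hΘ1
  have hRm : ∀ j, m ≤ R j := fun j => Nat.le_mul_of_pos_left _ (hΘj j)
  have hR : ∀ j, 1 ≤ R j := fun j => hm1.trans (hRm j)
  have hRmono : Monotone R := fun i j hij => Nat.mul_le_mul_right _ (Nat.pow_le_pow_right hΘ1 hij)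
  obtain ⟨S, hS1, hS2, hS3⟩ := cover (p := p) (Sg := Sg) hμ hh hm h0
  have hne : ∃ V : Ideal (MvPolynomial σ k), V.IsPrime ∧ h ∈ V ∧ (on p Sg V).Nonempty := by
    by_contra hcon
    push Not at hcon
    have : ∑ V ∈ S, (on p Sg V).card = 0 := by
      refine sum_eq_zero fun V hV => ?_
      rw [card_eq_zero]
      exact hcon V (hS1 V hV).1 (hS1 V hV).2.1
    rw [this] at hS2
    have := card_pos.2 hSg
    omega
  obtain ⟨P, hP, hhP, hneP, hmax⟩ := exists_max hμ hR hne
  have hflag := flagTop_le hμ hR hRm hRmono hh hm hhP hneP hmax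
  have hdc := dimP_le_card P
  set c := N - dimP P with hc
  have hcN : c ≤ N := Nat.sub_le _ _
  have hc1 : 1 ≤ c := by
    have hne' : P ≠ ⊥ := by
      rintro rfl
      exact hh (by simpa using hhP)
    have : dimP P ≠ N := by
      intro hd
      apply hne'
      exact (eq_of_le_of_dimP_le (P := ⊥) (Q := P) bot_le (by rw [dimP_bot, hd])).symm
    omega
  refine ⟨P, hP, hhP, hneP, K0 * R c, ?_, hflag, ?_, ?_, ?_⟩
  · exact (hRm c).trans (Nat.le_mul_of_pos_left _ (by omega))
  · calc K0 * R c = K0 * Θ ^ c * m := by rw [hRdef]; ring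
      _ ≤ (K0 * Θ ^ N + 4 * Θ ^ (N * N)) * m := by
          apply Nat.mul_le_mul_right
          refine le_trans ?_ (Nat.le_add_right _ _)
          exact Nat.mul_le_mul_left _ (Nat.pow_le_pow_right hΘ1 hcN)
  · intro g hgd G hG hGcard
    by_contra hg
    have hposP := card_pos.2 hneP
    rcases density hμ hR hhP hmax hg hgd hG with h1 | h1
    · have e1 : R (Fintype.card σ - dimP P + 1) = Θ * R c := by
        rw [hRdef]
        change Θ ^ (c + 1) * m = Θ * (Θ ^ c * m)
        rw [pow_succ]; ring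
      rw [e1] at h1
      have h2 : Ce * (K0 * R c) + m ≤ (Ce * K0 + 1) * R c := by
        have := hRm c
        calc Ce * (K0 * R c) + m ≤ Ce * (K0 * R c) + R c := Nat.add_le_add_left this _
          _ = _ := by ring
      have hGpos : 0 < G.card := by
        by_contra hc0
        have : G.card = 0 := by omega
        rw [this] at hGcard
        omega
      have h3 : G.card * (Θ * R c) ≤ G.card * (2 * q * (Ce * K0 + 1) * R c) := by
        calc G.card * (Θ * R c) ≤ 2 * (on p Sg P).card * (Ce * (K0 * R c) + m) := h1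
          _ ≤ 2 * (q * G.card) * ((Ce * K0 + 1) * R c) := by
              exact Nat.mul_le_mul (Nat.mul_le_mul_left _ hGcard) h2
          _ = _ := by ring
      have h4 : Θ * R c ≤ 2 * q * (Ce * K0 + 1) * R c := Nat.le_of_mul_le_mul_left h3 hGpos
      have h5 : Θ ≤ 2 * q * (Ce * K0 + 1) := Nat.le_of_mul_le_mul_right h4 (hR c)
      omega
    · rw [h1, card_empty] at hGcard
      omega
  · -- the lower bound
    have hμP := hμ.one_le P hP
    have hBP := BB_pos hR P
    obtain ⟨b, hb⟩ : ∃ b, ∀ V ∈ S, BB R V = b := by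
      refine ⟨∏ j ∈ Ico 1 N, R (j + 1), fun V hV => ?_⟩
      have hd := (hS1 V hV).2.2
      unfold BB
      have e2 : Fintype.card σ - dimP V = 1 := by omega
      rw [e2]
    rcases S.eq_empty_or_nonempty with hS | ⟨V0, hV0⟩
    · rw [hS, sum_empty] at hS2
      have : Sg.card = 0 := by omega
      rw [this, zero_mul]; exact Nat.zero_le _
    have hbval : b ≤ Θ ^ (N * N) * m ^ (c - 1) * BB R P := by
      rw [← hb V0 hV0]
      have hd := (hS1 V0 hV0).2.2
      unfold BB
      have e1 : Fintype.card σ - dimP V0 = 1 := by omega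
      have e2 : Fintype.card σ - dimP P = c := rfl
      rw [e1, e2, ← prod_Ico_consecutive _ hc1 hcN]
      apply Nat.mul_le_mul_right
      calc ∏ j ∈ Ico 1 c, R (j + 1) ≤ ∏ _j ∈ Ico 1 c, Θ ^ N * m := by
            refine prod_le_prod' fun j hj => ?_
            rw [mem_Ico] at hj
            exact Nat.mul_le_mul_right _ (Nat.pow_le_pow_right hΘ1 (by omega))
        _ = (Θ ^ N * m) ^ (c - 1) := by rw [prod_const, Nat.card_Ico]
        _ = Θ ^ (N * (c - 1)) * m ^ (c - 1) := by rw [mul_pow, ← pow_mul]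
        _ ≤ Θ ^ (N * N) * m ^ (c - 1) := by
            apply Nat.mul_le_mul_right
            exact Nat.pow_le_pow_right hΘ1 (Nat.mul_le_mul_left _ (by omega))
    have hkey : Sg.card * (μ P * degP P * BB R P) ≤
        2 * (on p Sg P).card * (2 * m * b) := by
      calc Sg.card * (μ P * degP P * BB R P) ≤
          (∑ V ∈ S, (on p Sg V).card) * (μ P * degP P * BB R P) := Nat.mul_le_mul_right _ hS2
        _ = ∑ V ∈ S, (on p Sg V).card * (μ P * degP P * BB R P) := by rw [sum_mul]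
        _ ≤ ∑ V ∈ S, 2 * (on p Sg P).card * (μ V * degP V * BB R V) :=
            sum_le_sum fun V hV => hmax V (hS1 V hV).1 (hS1 V hV).2.1
        _ = 2 * (on p Sg P).card * ((∑ V ∈ S, μ V * degP V) * b) := by
            rw [sum_mul, mul_sum]
            refine sum_congr rfl fun V hV => ?_
            rw [hb V hV]
        _ ≤ _ := by
            apply Nat.mul_le_mul_left
            exact Nat.mul_le_mul_right _ hS3
    refine Nat.le_of_mul_le_mul_right (c := BB R P) ?_ hBP
    calc Sg.card * (μ P * degP P) * BB R P = Sg.card * (μ P * degP P * BB R P) := by ring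
      _ ≤ 2 * (on p Sg P).card * (2 * m * b) := hkey
      _ ≤ 2 * (on p Sg P).card * (2 * m * (Θ ^ (N * N) * m ^ (c - 1) * BB R P)) := by
          apply Nat.mul_le_mul_left
          exact Nat.mul_le_mul_left _ hbval
      _ = 4 * Θ ^ (N * N) * (on p Sg P).card * (m ^ (c - 1) * m) * BB R P := by ring
      _ = 4 * Θ ^ (N * N) * (on p Sg P).card * m ^ c * BB R P := by
          rw [← pow_succ, Nat.sub_add_cancel hc1]
      _ ≤ (K0 * Θ ^ N + 4 * Θ ^ (N * N)) * (on p Sg P).card * m ^ c * BB R P := by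
          apply Nat.mul_le_mul_right
          apply Nat.mul_le_mul_right
          apply Nat.mul_le_mul_right
          exact Nat.le_add_left _ _

/-- the trivial weight -/
lemma weight_one (m : ℕ) : Weight (fun _ : Ideal (MvPolynomial σ k) => 1) m where
  one_le := fun _ _ => le_rfl
  bot := rfl
  mono := fun _ _ _ _ _ => le_rfl
  cut := by
    intro P hP g hg D hD S hS
    have := cut hg hD S hS
    simp only [one_mul]
    refine this.trans (Nat.mul_le_mul_right _ (Nat.le_add_right _ _))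

/-- the weight `1 + ordP V h` -/
lemma weight_ord [CharZero k] {h : MvPolynomial σ k} (hh : h ≠ 0) {m : ℕ}
    (hm : h.totalDegree ≤ m) :
    Weight (fun V : Ideal (MvPolynomial σ k) => 1 + ordP V h) m where
  one_le := fun _ _ => Nat.le_add_right _ _
  bot := by
    have h1 : ¬ 0 < ordP (⊥ : Ideal (MvPolynomial σ k)) h := by
      rw [ordP_pos_iff bot_ne_top hh]
      simpa using hh
    omega
  mono := fun Q V _ hV hQV => Nat.add_le_add_left (ordP_mono hV.ne_top hQV hh) _
  cut := by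
    intro P hP g hg D hD S hS
    refine (weighted_cut hh hg S hS).trans ?_
    rw [← mul_assoc]
    apply Nat.mul_le_mul_right
    calc g.totalDegree * (1 + ordP P h) + (h.totalDegree - ordP P h) ≤
        D * (1 + ordP P h) + m * 1 := by
          refine Nat.add_le_add (Nat.mul_le_mul_right _ hD) ?_
          omega
      _ ≤ D * (1 + ordP P h) + m * (1 + ordP P h) := by
          apply Nat.add_le_add_left
          exact Nat.mul_le_mul_left _ (Nat.le_add_right _ _)
      _ = _ := by ring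

/-- **The extremal variety** with the weight `1 + ordP P h`. -/
theorem extr [CharZero k] (q Ce : ℕ) : ∃ C : ℕ, ∀ (h : MvPolynomial σ k) (m : ℕ), h ≠ 0 → 1 ≤ m →
    h.totalDegree ≤ m →
    ∀ (p : ι → σ → k) (Sg : Finset ι), Sg.Nonempty → (∀ i ∈ Sg, eval (p i) h = 0) →
    ∃ P : Ideal (MvPolynomial σ k), P.IsPrime ∧ h ∈ P ∧ (on p Sg P).Nonempty ∧
      ∃ Dd : ℕ, m ≤ Dd ∧ flagTop P ≤ Dd ∧ Dd ≤ C * m ∧
      (∀ g : MvPolynomial σ k, g.totalDegree ≤ Ce * Dd → ∀ G : Finset ι,
        (∀ i ∈ G, i ∈ on p Sg P ∧ eval (p i) g = 0) → (on p Sg P).card ≤ q * G.card → g ∈ P) ∧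
      Sg.card * ((1 + ordP P h) * degP P) ≤
        C * (on p Sg P).card * m ^ (Fintype.card σ - dimP P) := by
  obtain ⟨C, hC⟩ := extr_w (k := k) (σ := σ) (ι := ι) q Ce
  exact ⟨C, fun h m hh hm1 hm p Sg hSg h0 => hC _ m (weight_ord hh hm) h hh hm1 hm p Sg hSg h0⟩

end extr

end Crest.Agent.R065.Extr477

#print axioms Crest.Agent.R065.Extr477.extr
#print axioms Crest.Agent.R065.Extr477.extr_w
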