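import Crest.Agent.R065.Prime_669
import Crest.Agent.R065.Pins_348

/-!
# Row 65, `d ≥ 4` (272's bipartite extremal scheme): the literal inputs of the master

Everything lives in `Z = P ×ˢ P : Finset (E d × E d)`; the point of `z` is
`zR Q R z = zc (Q z.1) (R z.2)` with generic linear isometries `Q`, `R`.
-/

set_option autoImplicit false

open MvPolynomial Module Finset

namespace Crest.Agent.R065.M4

open Crest.Agent.R065.HF669 Crest.Agent.R065.Base348 Crest.Agent.R065.Top348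
  Crest.Agent.R065.Pins348

/-- Euclidean space -/
abbrev E (d : ℕ) : Type := EuclideanSpace ℝ (Fin d)

variable {d : ℕ}

/-- null pairs of different points -/
def Nl (z w : E d × E d) : Prop := dist z.1 w.1 = dist z.2 w.2 ∧ z ≠ w

lemma Nl.symm {z w : E d × E d} (h : Nl z w) : Nl w z :=
  ⟨by rw [dist_comm, h.1, dist_comm], h.2.symm⟩

/-- the point of a pair, after isometries of both coordinates -/
noncomputable def zR (Q R : E d ≃ₗᵢ[ℝ] E d) (z : E d × E d) : Pt d ℂ := zc (Q z.1) (R z.2)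

/-- `f ∈ I_m(Om)` -/
def IsI (m : ℕ) (Om : Finset (Pt d ℂ)) (f : MvPolynomial (Pr d ⊕ Fin d) ℂ) : Prop :=
  f.totalDegree ≤ m ∧ ∀ w ∈ Om, res w f = 0

/-- `z` is bad for `Om` -/
def IsBad (m : ℕ) (Om : Finset (Pt d ℂ)) (z : Pt d ℂ) : Prop :=
  ∀ f : MvPolynomial (Pr d ⊕ Fin d) ℂ, IsI m Om f → res z f = 0

/-- pairwise null subsets of `S` have at most `ν` elements -/
def NullLe (S : Finset (Pt d ℂ)) (ν : ℝ) : Prop :=
  ∀ Y ⊆ S, (∀ w ∈ Y, ∀ w' ∈ Y, Null w w') → (Y.card : ℝ) ≤ ν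

open scoped Classical in
/-- the points of `Sg` in the zero set of `P` -/
noncomputable def onP (Sg : Finset (Pt d ℂ)) (P : Ideal (MvPolynomial (Fin d ⊕ Fin d) ℂ)) :
    Finset (Pt d ℂ) :=
  Sg.filter fun w => ∀ g ∈ P, eval (toFn w) g = 0

/-- INPUT `L0(d)` in the abstract form -/
def L0inD (d : ℕ) : Prop :=
  ∃ C : ℝ, 0 < C ∧ ∀ (m : ℕ) (f : MvPolynomial (Pr d ⊕ Fin d) ℂ) (Sg : Finset (Pt d ℂ))
    (τ : ℕ → ℝ) (ν : ℝ), 1 ≤ m → f ≠ 0 → f.totalDegree ≤ m → (∀ w ∈ Sg, res w f = 0) →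
    (∀ r, 1 ≤ τ r) → 1 ≤ ν →
    (∀ P : Ideal (MvPolynomial (Fin d ⊕ Fin d) ℂ), P.IsPrime → dimP P < d →
      ((onP Sg P).card : ℝ) ≤ τ (dimP P) * degP P) →
    NullLe Sg ν →
    (Sg.card : ℝ) ≤ C * (∑ r ∈ range d, (m : ℝ) ^ (d - r) * τ r + m * ν)

/-- INPUT: the rank lemma, general `d` (855's `RankIn` with the clique conclusion; all
coordinates of the `x`-parts are different) -/
def RankD (d : ℕ) : Prop :=
  ∃ (o : ℕ → Finset (Pt d ℂ) → Pt d ℂ → Pt d ℂ → ℕ∞) (C : ℝ), 0 < C ∧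
    ∀ (m : ℕ) (Om : Finset (Pt d ℂ)) (z : Pt d ℂ) (ν : ℝ), 1 ≤ m → 1 ≤ ν → ¬ IsBad m Om z →
      ∀ Sg ⊆ Om,
      (∀ w ∈ Sg, Null z w ∧ (∀ i, w.1 i ≠ z.1 i) ∧
        o m (Om.erase w) w z ≤ o m (Om.erase w) z w) →
      NullLe Sg ν → (Sg.card : ℝ) ≤ C * ((m : ℝ) ^ (d - 1) + m * ν)

end Crest.Agent.R065.M4
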