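import Crest.Agent.R065.Cod1defs_649

/-!
# Row 65: codimension one, CASE G: all coefficients of `E_{p,j}` lie in `P`

Conclusion: `f` has degree one and all points of `Sig` are pairwise null.
-/

set_option autoImplicit false

open MvPolynomial Module

namespace Crest.Agent.R065.Cod1

open Crest.Agent.R065.HF669 Crest.Agent.R065.Base348 Crest.Agent.R065.Cramer234

/-! ### one variable lemmas -/

section uni

variable {K : Type*} [Field K] [CharZero K]

open Polynomial in
lemma X_pow_succ_dvd_of_derivative {φ : Polynomial K} {k : ℕ} (h0 : φ.coeff 0 = 0)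
    (h : (Polynomial.X : Polynomial K) ^ k ∣ derivative φ) :
    (Polynomial.X : Polynomial K) ^ (k + 1) ∣ φ := by
  rw [X_pow_dvd_iff] at h ⊢
  intro d hd
  rcases d with _ | d
  · exact h0
  · have h1 := h d (by omega)
    rw [coeff_derivative] at h1
    rcases mul_eq_zero.1 h1 with h2 | h2
    · exact h2
    · exact absurd h2 (Nat.cast_add_one_ne_zero d)

open Polynomial in
omit [CharZero K] in
lemma X_pow_dvd_derivative {φ : Polynomial K} {k : ℕ}
    (h : (Polynomial.X : Polynomial K) ^ (k + 1) ∣ φ) :
    (Polynomial.X : Polynomial K) ^ k ∣ derivative φ := by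
  rw [X_pow_dvd_iff] at h ⊢
  intro d hd
  rw [coeff_derivative, h (d + 1) (by omega), zero_mul]

open Polynomial in
/-- `ν(0) ≠ 0`, `w(0) = 0`, `X^k ∣ ν w' - w ν'` imply `X^(k+1) ∣ w` -/
lemma X_pow_dvd_of_wronskian {ν w : Polynomial K} {k : ℕ} (hν : ν.coeff 0 ≠ 0)
    (hw : w.coeff 0 = 0)
    (h : (Polynomial.X : Polynomial K) ^ k ∣ ν * derivative w - w * derivative ν) :
    (Polynomial.X : Polynomial K) ^ (k + 1) ∣ w := by
  have key : ∀ s, s ≤ k → (Polynomial.X : Polynomial K) ^ (s + 1) ∣ w := by
    intro s
    induction s with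
    | zero =>
      intro _
      rw [zero_add, pow_one, X_dvd_iff]; exact hw
    | succ s ih =>
      intro hs
      obtain ⟨u, hu⟩ := ih (by omega)
      have h1 : (Polynomial.X : Polynomial K) ^ (s + 1) ∣
          ν * derivative w - w * derivative ν := (pow_dvd_pow _ hs).trans h
      have h2 : ν * derivative w - w * derivative ν =
          Polynomial.X ^ s * (((s + 1 : ℕ) : Polynomial K) * u * ν + Polynomial.X * (derivative u * ν -
            u * derivative ν)) := by
        rw [hu, derivative_mul, derivative_X_pow]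
        simp only [Nat.add_sub_cancel, map_natCast]
        ring
      rw [h2, pow_succ] at h1
      have h3 : (Polynomial.X : Polynomial K) ∣ (((s + 1 : ℕ) : Polynomial K) * u * ν + Polynomial.X *
          (derivative u * ν - u * derivative ν)) :=
        (mul_dvd_mul_iff_left (pow_ne_zero _ Polynomial.X_ne_zero)).1 h1
      have h4 : (Polynomial.X : Polynomial K) ∣ ((s + 1 : ℕ) : Polynomial K) * u * ν := by
        have := dvd_sub h3 (dvd_mul_right Polynomial.X (derivative u * ν - u * derivative ν))
        simpa using this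
      rw [X_dvd_iff] at h4
      rw [mul_coeff_zero, mul_coeff_zero, coeff_natCast_ite, if_pos rfl] at h4
      have h5 : u.coeff 0 = 0 := by
        rcases mul_eq_zero.1 h4 with h6 | h6
        · rcases mul_eq_zero.1 h6 with h7 | h7
          · exact absurd h7 (Nat.cast_ne_zero.2 (by omega))
          · exact h7
        · exact absurd h6 hν
      obtain ⟨u', hu'⟩ := X_dvd_iff.2 h5
      exact ⟨u', by rw [hu, hu']; ring⟩
  exact key k le_rfl

end uni

/-! ### restriction to a line -/

section line

variable {e : ℕ} {K : Type*} [Field K]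

/-- restriction to the line `p + t v` -/
noncomputable def ln (p v : Fin e → K) : MvPolynomial (Fin e) K →ₐ[K] Polynomial K :=
  aeval fun i => Polynomial.C (p i) + Polynomial.C (v i) * Polynomial.X

lemma eval_ln (p v : Fin e → K) (t : K) (g : MvPolynomial (Fin e) K) :
    (ln p v g).eval t = eval (fun i => p i + v i * t) g := by
  induction g using MvPolynomial.induction_on with
  | C a => simp [ln]
  | add p q hp hq => rw [map_add, Polynomial.eval_add, hp, hq, map_add]
  | mul_X q i hq =>
    rw [map_mul, Polynomial.eval_mul, hq, map_mul]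
    simp [ln]

lemma coeff_zero_ln (p v : Fin e → K) (g : MvPolynomial (Fin e) K) :
    (ln p v g).coeff 0 = eval p g := by
  rw [Polynomial.coeff_zero_eq_eval_zero, eval_ln]; simp

lemma derivative_ln (p v : Fin e → K) (g : MvPolynomial (Fin e) K) :
    Polynomial.derivative (ln p v g) = ∑ i, Polynomial.C (v i) * ln p v (pderiv i g) := by
  classical
  induction g using MvPolynomial.induction_on with
  | C a => simp [ln]
  | add g h hg hh =>
    simp only [map_add, hg, hh, mul_add, Finset.sum_add_distrib]
  | mul_X g i hg =>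
    rw [map_mul, Polynomial.derivative_mul, hg]
    have h1 : Polynomial.derivative (ln p v (X i)) = Polynomial.C (v i) := by
      simp [ln]
    rw [h1]
    have h2 : ∀ j, Polynomial.C (v j) * ln p v (pderiv j (g * X i)) =
        Polynomial.C (v j) * ln p v (pderiv j g) * ln p v (X i) +
          if j = i then ln p v g * Polynomial.C (v j) else 0 := by
      intro j
      rw [pderiv_mul, map_add, map_mul, map_mul]
      split_ifs with h
      · subst h; rw [pderiv_X_self, map_one]; ring
      · rw [pderiv_X_of_ne (Ne.symm h), map_zero]; ring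
    simp only [h2, Finset.sum_add_distrib, Finset.sum_ite_eq', Finset.mem_univ, if_true,
      Finset.sum_mul]

end line

/-! ### (HYP): `f` has degree one -/

section hyp

variable {e : ℕ} {K : Type*} [Field K]

/-- `q2` for arbitrary ordered pairs -/
lemma q2_gen {f : MvPolynomial (Fin e) K} {a : Fin e} {P : Ideal (MvPolynomial (Fin e) K)}
    (h : ∀ p j, q2 f a p j ∈ P) (r s j : Fin e) :
    pderiv a f * (pderiv s f * pderiv r (pderiv j f) - pderiv r f * pderiv s (pderiv j f)) -
      pderiv j f * (pderiv s f * pderiv r (pderiv a f) - pderiv r f * pderiv s (pderiv a f)) ∈ P := by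
  have key : ∀ p : Pr e, pderiv a f * (pderiv p.1.2 f * pderiv p.1.1 (pderiv j f) -
      pderiv p.1.1 f * pderiv p.1.2 (pderiv j f)) - pderiv j f * (pderiv p.1.2 f *
      pderiv p.1.1 (pderiv a f) - pderiv p.1.1 f * pderiv p.1.2 (pderiv a f)) ∈ P := by
    intro p
    have h1 := h p j
    have h2 : ∀ G, NN f p G = pderiv p.1.2 f * pderiv p.1.1 G - pderiv p.1.1 f * pderiv p.1.2 G := by
      intro G
      unfold NN
      simp only [act_single, sub_mul, ite_mul, zero_mul, Finset.sum_sub_distrib,
        Finset.sum_ite_eq', Finset.mem_univ, if_true]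
    unfold q2 at h1
    rwa [h2, h2] at h1
  rcases lt_trichotomy r s with hrs | hrs | hrs
  · exact key ⟨(r, s), hrs⟩
  · subst hrs
    have : pderiv a f * (pderiv r f * pderiv r (pderiv j f) - pderiv r f * pderiv r (pderiv j f)) -
      pderiv j f * (pderiv r f * pderiv r (pderiv a f) - pderiv r f * pderiv r (pderiv a f)) = 0 := by
      ring
    rw [this]; exact P.zero_mem
  · have h1 := P.neg_mem (key ⟨(s, r), hrs⟩)
    convert h1 using 1
    simp only
    ring

variable [CharZero K]

/-- `f` vanishes on all tangent lines at a smooth point -/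
lemma ln_eq_zero {f : MvPolynomial (Fin e) K} {a : Fin e}
    (h : ∀ r s j : Fin e, f ∣ pderiv a f * (pderiv s f * pderiv r (pderiv j f) -
      pderiv r f * pderiv s (pderiv j f)) - pderiv j f * (pderiv s f * pderiv r (pderiv a f) -
      pderiv r f * pderiv s (pderiv a f)))
    {p : Fin e → K} (hp : eval p f = 0) (ha : eval p (pderiv a f) ≠ 0) {v : Fin e → K}
    (hv : ∑ j, v j * eval p (pderiv j f) = 0) : ln p v f = 0 := by
  classical
  set φ := ln p v f with hφ
  set ν : Fin e → Polynomial K := fun j => ln p v (pderiv j f) with hν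
  set ψ := ∑ j, Polynomial.C (v j) * ν j with hψ
  have hder : Polynomial.derivative φ = ψ := derivative_ln p v f
  have hν0 : ∀ j, (ν j).coeff 0 = eval p (pderiv j f) := fun j => coeff_zero_ln _ _ _
  have hνd : ∀ j, Polynomial.derivative (ν j) =
      ∑ i, Polynomial.C (v i) * ln p v (pderiv i (pderiv j f)) := fun j => derivative_ln _ _ _
  -- the main induction
  have key : ∀ k : ℕ, (Polynomial.X : Polynomial K) ^ (k + 1) ∣ φ := by
    intro k
    induction k with
    | zero =>
      rw [zero_add, pow_one, Polynomial.X_dvd_iff, hφ, coeff_zero_ln, hp]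
    | succ k ih =>
      have hψ1 : (Polynomial.X : Polynomial K) ^ k ∣ ψ := by
        rw [← hder]; exact X_pow_dvd_derivative ih
      -- the Wronskian
      have hw : ∀ j, (Polynomial.X : Polynomial K) ^ k ∣
          ν a * Polynomial.derivative (ν j) - ν j * Polynomial.derivative (ν a) := by
        intro j
        have h1 : (Polynomial.X : Polynomial K) ^ (k + 1) ∣ ∑ i, Polynomial.C (v i) *
            ln p v (pderiv a f * (pderiv a f * pderiv i (pderiv j f) -
              pderiv i f * pderiv a (pderiv j f)) - pderiv j f * (pderiv a f *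
              pderiv i (pderiv a f) - pderiv i f * pderiv a (pderiv a f))) := by
          refine Finset.dvd_sum fun i _ => Dvd.dvd.mul_left (ih.trans ?_) _
          exact map_dvd (ln p v) (h i a j)
        have h2 : ∑ i, Polynomial.C (v i) *
            ln p v (pderiv a f * (pderiv a f * pderiv i (pderiv j f) -
              pderiv i f * pderiv a (pderiv j f)) - pderiv j f * (pderiv a f *
              pderiv i (pderiv a f) - pderiv i f * pderiv a (pderiv a f))) =
            ν a * (ν a * Polynomial.derivative (ν j) - ν j * Polynomial.derivative (ν a)) -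
              ψ * (ν a * ln p v (pderiv a (pderiv j f)) -
                ν j * ln p v (pderiv a (pderiv a f))) := by
          rw [hνd, hνd, hψ]
          simp only [map_sub, map_mul, mul_sub, Finset.mul_sum, Finset.sum_mul,
            Finset.sum_sub_distrib]
          simp only [← Finset.sum_sub_distrib]
          refine Finset.sum_congr rfl fun i _ => ?_
          simp only [hν]
          ring
        rw [h2] at h1
        have h3 : (Polynomial.X : Polynomial K) ^ k ∣
            ν a * (ν a * Polynomial.derivative (ν j) - ν j * Polynomial.derivative (ν a)) := by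
          have h4 := ((pow_dvd_pow (Polynomial.X : Polynomial K) (Nat.le_succ k)).trans h1)
          have h5 := dvd_add h4 (hψ1.mul_right (ν a * ln p v (pderiv a (pderiv j f)) -
            ν j * ln p v (pderiv a (pderiv a f))))
          simpa using h5
        have hcop : IsCoprime ((Polynomial.X : Polynomial K) ^ k) (ν a) := by
          apply IsCoprime.pow_left
          rw [Polynomial.irreducible_X.coprime_iff_not_dvd, Polynomial.X_dvd_iff, hν0]
          exact ha
        exact hcop.dvd_of_dvd_mul_left h3
      -- all `ν j` are proportional to `ν a` up to order `k+1`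
      have hprop : ∀ j, (Polynomial.X : Polynomial K) ^ (k + 1) ∣
          Polynomial.C (eval p (pderiv a f)) * ν j - Polynomial.C (eval p (pderiv j f)) * ν a := by
        intro j
        refine X_pow_dvd_of_wronskian (ν := ν a) (by rw [hν0]; exact ha) ?_ ?_
        · rw [Polynomial.coeff_sub, Polynomial.coeff_C_mul, Polynomial.coeff_C_mul, hν0, hν0]
          ring
        · have h1 : ν a * Polynomial.derivative (Polynomial.C (eval p (pderiv a f)) * ν j -
              Polynomial.C (eval p (pderiv j f)) * ν a) - (Polynomial.C (eval p (pderiv a f)) *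
              ν j - Polynomial.C (eval p (pderiv j f)) * ν a) * Polynomial.derivative (ν a) =
              Polynomial.C (eval p (pderiv a f)) * (ν a * Polynomial.derivative (ν j) -
                ν j * Polynomial.derivative (ν a)) := by
            simp only [Polynomial.derivative_sub, Polynomial.derivative_mul,
              Polynomial.derivative_C, zero_mul, zero_add]
            ring
          rw [h1]
          exact (hw j).mul_left _
      have hψ2 : (Polynomial.X : Polynomial K) ^ (k + 1) ∣ ψ := by
        have h1 : Polynomial.C (eval p (pderiv a f)) * ψ = ∑ j, Polynomial.C (v j) *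
            (Polynomial.C (eval p (pderiv a f)) * ν j - Polynomial.C (eval p (pderiv j f)) * ν a) := by
          have h2 : ∑ j, Polynomial.C (v j) * (Polynomial.C (eval p (pderiv j f)) * ν a) = 0 := by
            have h3 : ∑ j, Polynomial.C (v j) * (Polynomial.C (eval p (pderiv j f)) * ν a) =
                Polynomial.C (∑ j, v j * eval p (pderiv j f)) * ν a := by
              rw [map_sum, Finset.sum_mul]
              exact Finset.sum_congr rfl fun j _ => by rw [map_mul]; ring
            rw [h3, hv, map_zero, zero_mul]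
          simp only [mul_sub, Finset.sum_sub_distrib, h2, sub_zero, hψ, Finset.mul_sum]
          exact Finset.sum_congr rfl fun j _ => by ring
        have h2 : (Polynomial.X : Polynomial K) ^ (k + 1) ∣
            Polynomial.C (eval p (pderiv a f)) * ψ := by
          rw [h1]
          exact Finset.dvd_sum fun j _ => (hprop j).mul_left _
        have hu : IsUnit (Polynomial.C (eval p (pderiv a f))) :=
          Polynomial.isUnit_C.2 (isUnit_iff_ne_zero.2 ha)
        exact (hu.dvd_mul_left).1 h2
      refine X_pow_succ_dvd_of_derivative ?_ (by rw [hder]; exact hψ2)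
      rw [hφ, coeff_zero_ln, hp]
  by_contra hne
  have h1 := key φ.natDegree
  have h2 := Polynomial.natDegree_le_of_dvd h1 hne
  rw [Polynomial.natDegree_X_pow] at h2
  omega

/-- **(HYP)** -/
theorem totalDegree_le_one {P : Ideal (MvPolynomial (Fin e) K)} [hPp : P.IsPrime]
    {f : MvPolynomial (Fin e) K} (hfP : f ∈ P) (hP : ∀ g ∈ P, f ∣ g)
    (hmin : ∀ g ∈ P, g.totalDegree < f.totalDegree → g = 0) {a : Fin e}
    (hq2 : ∀ p j, q2 f a p j ∈ P)
    {p : Fin e → K} (hp : eval p f = 0) (ha : eval p (pderiv a f) ≠ 0) :
    f.totalDegree ≤ 1 := by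
  classical
  have hinf : Infinite K := inferInstance
  have hf0 : f ≠ 0 := by
    rintro rfl
    simp at ha
  have hline : ∀ v : Fin e → K, ∑ j, v j * eval p (pderiv j f) = 0 →
      eval (fun i => p i + v i) f = 0 := by
    intro v hv
    have h1 := ln_eq_zero (fun r s j => hP _ (q2_gen hq2 r s j)) hp ha hv
    have h2 := eval_ln p v 1 f
    rw [h1, Polynomial.eval_zero] at h2
    simpa using h2.symm
  -- the linear polynomial
  set L : MvPolynomial (Fin e) K := ∑ j, C (eval p (pderiv j f)) * (X j - C (p j)) with hL
  have hLdeg : L.totalDegree ≤ 1 := by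
    refine totalDegree_finsetSum_le fun j _ => ?_
    refine (totalDegree_mul _ _).trans ?_
    rw [totalDegree_C, zero_add]
    refine (totalDegree_sub _ _).trans (max_le ?_ ?_)
    · exact (totalDegree_X j).le
    · rw [totalDegree_C]; exact Nat.zero_le _
  have hLa : pderiv a L = C (eval p (pderiv a f)) := by
    rw [hL, map_sum, Finset.sum_eq_single a]
    · rw [pderiv_C_mul, map_sub, pderiv_X_self, pderiv_C, sub_zero]; simp
    · intro j _ hj
      rw [pderiv_C_mul, map_sub, pderiv_X_of_ne hj, pderiv_C, sub_zero]; simp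
    · simp
  have hL0 : L ≠ 0 := by
    intro h
    rw [h, map_zero] at hLa
    exact ha (by rw [← C_eq_zero (σ := Fin e), ← hLa])
  -- projection to the hyperplane `L = 0`
  set s : MvPolynomial (Fin e) K →ₐ[K] MvPolynomial (Fin e) K :=
    aeval fun i => if i = a then X i - C (eval p (pderiv a f))⁻¹ * L else X i with hs
  have hsf : s f = 0 := by
    apply MvPolynomial.funext
    intro x
    rw [map_zero]
    have h1 : eval x (s f) = eval (fun i => p i + (x i - p i - (if i = a then
        (eval p (pderiv a f))⁻¹ * eval x L else 0))) f := by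
      rw [hs]
      rw [← MvPolynomial.coe_aeval_eq_eval, ← MvPolynomial.coe_aeval_eq_eval]
      have h2 : ((aeval x : MvPolynomial (Fin e) K →ₐ[K] K).comp (aeval fun i => if i = a then
          X i - C (eval p (pderiv a f))⁻¹ * L else X i)) = aeval (fun i => p i + (x i - p i -
          (if i = a then (eval p (pderiv a f))⁻¹ * eval x L else 0))) := by
        apply MvPolynomial.algHom_ext
        intro i
        rw [AlgHom.comp_apply, aeval_X, aeval_X]
        split_ifs with h
        · have h5 : ∀ g : MvPolynomial (Fin e) K, (aeval x : MvPolynomial (Fin e) K →ₐ[K] K) g =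
              eval x g := fun g => rfl
          rw [map_sub, map_mul, aeval_X, h5, h5, eval_C]
          ring
        · rw [aeval_X]; ring
      have h3 := DFunLike.congr_fun h2 f
      rw [AlgHom.comp_apply] at h3
      exact h3
    rw [h1]
    apply hline
    have h4 : eval x L = ∑ j, eval p (pderiv j f) * (x j - p j) := by
      rw [hL, map_sum]
      exact Finset.sum_congr rfl fun j _ => by simp
    simp only [sub_mul, Finset.sum_sub_distrib, ite_mul, zero_mul, Finset.sum_ite_eq',
      Finset.mem_univ, if_true]
    rw [h4]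
    have h5 : (eval p (pderiv a f))⁻¹ * (∑ j, eval p (pderiv j f) * (x j - p j)) *
        eval p (pderiv a f) = ∑ j, eval p (pderiv j f) * (x j - p j) := by
      field_simp
    rw [h5]
    simp only [mul_sub, Finset.sum_sub_distrib]
    rw [sub_eq_zero]
    congr 1 <;> exact Finset.sum_congr rfl fun j _ => by ring
  have hcong : ∀ g : MvPolynomial (Fin e) K, L ∣ s g - g := by
    intro g
    induction g using MvPolynomial.induction_on with
    | C c => rw [hs]; simp
    | add g h hg hh =>
      rw [map_add]
      have := dvd_add hg hh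
      convert this using 1; ring
    | mul_X g i hg =>
      rw [map_mul]
      have h1 : L ∣ s (X i) - X i := by
        rw [hs, aeval_X]
        split_ifs with h
        · exact ⟨-C (eval p (pderiv a f))⁻¹, by ring⟩
        · simp
      have h2 : s g * s (X i) - g * X i = (s g - g) * s (X i) + g * (s (X i) - X i) := by ring
      rw [h2]
      exact dvd_add (hg.mul_right _) (h1.mul_left _)
  have hLf : L ∣ f := by
    have := hcong f
    rw [hsf, zero_sub] at this
    exact (dvd_neg).1 this
  obtain ⟨g, hg⟩ := hLf
  have hg0 : g ≠ 0 := by rintro rfl; exact hf0 (by rw [hg, mul_zero])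
  have hLdeg1 : 1 ≤ L.totalDegree := by
    by_contra hlt
    have h0 : L.totalDegree = 0 := by omega
    rw [totalDegree_eq_zero_iff_eq_C] at h0
    rw [h0, pderiv_C] at hLa
    exact ha (by rw [← C_eq_zero (σ := Fin e), ← hLa])
  have hdeg : f.totalDegree = L.totalDegree + g.totalDegree := by
    rw [hg]; exact totalDegree_mul_of_isDomain hL0 hg0
  rcases hPp.mem_or_mem (hg ▸ hfP : L * g ∈ P) with h1 | h1
  · by_contra hlt
    exact hL0 (hmin L h1 (by omega))
  · exact absurd (hmin g h1 (by omega)) hg0

end hyp

/-! ### (ISO): the points are pairwise null -/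

section iso

variable {e : ℕ} {K : Type*} [Field K]

lemma pderiv_cD (δ : Derivation ℤ K K) (k : Fin e) (p : MvPolynomial (Fin e) K) :
    pderiv k (cD δ p) = cD δ (pderiv k p) := by
  classical
  ext s
  rw [coeff_pderiv, coeff_cD, coeff_cD, coeff_pderiv, Derivation.leibniz]
  have h1 : δ ((s k : K) + 1) = 0 := by
    have : ((s k : K) + 1) = ((s k + 1 : ℕ) : K) := by push_cast; ring
    rw [this]
    exact Derivation.map_natCast _ _
  rw [h1, smul_zero, zero_add, smul_eq_mul, mul_comm]

lemma pderiv_cc (δ : Pr e → Derivation ℤ K K) {f : MvPolynomial (Fin e) K} {ν : Fin e → K}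
    (hν : ∀ j, pderiv j f = C (ν j)) (k a b : Fin e) :
    pderiv k (cc δ f a b) = C (sk (fun p => δ p (ν k)) a b) := by
  unfold cc sk
  split_ifs
  · rw [pderiv_cD, hν, cD_C]
  · rw [map_neg, pderiv_cD, hν, cD_C, map_neg]
  · rw [map_zero, map_zero]

variable [CharZero K]

/-- an affine polynomial -/
lemma eval_sub_eval {g : MvPolynomial (Fin e) K} {μ : Fin e → K}
    (hμ : ∀ j, pderiv j g = C (μ j)) (x y : Fin e → K) :
    eval x g - eval y g = ∑ j, μ j * (x j - y j) := by
  classical
  obtain ⟨c, hc⟩ := eq_C_of_pderiv_eq_zero (p := g - ∑ j, C (μ j) * X j) (by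
    intro j
    rw [map_sub, hμ, map_sum, Finset.sum_eq_single j]
    · rw [pderiv_C_mul, pderiv_X_self, mul_one, sub_self]
    · intro i _ hi
      rw [pderiv_C_mul, pderiv_X_of_ne hi, mul_zero]
    · simp)
  have h1 : g = C c + ∑ j, C (μ j) * X j := by rw [← hc]; ring
  rw [h1]
  simp only [map_add, map_sum, map_mul, eval_C, eval_X, mul_sub, Finset.sum_sub_distrib]
  ring

/-- **CASE G** -/
theorem null_of_all_mem {δ : Pr e → Derivation ℤ K K} {S : Pr e → K} (hS : DS δ S)
    {P : Ideal (MvPolynomial (Fin e) K)} [hPp : P.IsPrime]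
    {f : MvPolynomial (Fin e) K} (hfP : f ∈ P) (hP : ∀ g ∈ P, f ∣ g)
    (hmin : ∀ g ∈ P, g.totalDegree < f.totalDegree → g = 0) {a : Fin e}
    (hq2 : ∀ p j, q2 f a p j ∈ P) (hq1 : ∀ p j, q1 δ f a p j ∈ P)
    {Sig : Set (Pt e K)} (hx : ∀ z ∈ Sig, Cst δ z.1) (hy : ∀ z ∈ Sig, Cst δ z.2)
    (hf : ∀ z ∈ Sig, eval (th S z) f = 0)
    (ha : ∃ z ∈ Sig, eval (th S z) (pderiv a f) ≠ 0) :
    ∀ z ∈ Sig, ∀ w ∈ Sig, Null z w := by
  classical
  obtain ⟨z0, hz0, ha⟩ := ha
  have hdeg := totalDegree_le_one hfP hP hmin hq2 (hf z0 hz0) ha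
  have hν' : ∀ j, ∃ c, pderiv j f = C c := by
    intro j
    refine ⟨coeff 0 (pderiv j f), ?_⟩
    rw [← totalDegree_eq_zero_iff_eq_C]
    have := totalDegree_pderiv_le j f
    omega
  choose ν hν using hν'
  have hνa : ν a ≠ 0 := by
    rw [hν, eval_C] at ha; exact ha
  set D : Fin e → Fin e → Fin e → K := fun r s k => sk (fun p => δ p (ν k)) r s with hD
  -- (★) for `r < s`
  have hstar0 : ∀ (p : Pr e) (j : Fin e), ν a * δ p (ν j) - ν j * δ p (ν a) =
      ν p.1.2 * D a j p.1.1 - ν p.1.1 * D a j p.1.2 := by
    intro p j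
    have hNN : ∀ G : MvPolynomial (Fin e) K, NN f p G =
        C (ν p.1.2) * pderiv p.1.1 G - C (ν p.1.1) * pderiv p.1.2 G := by
      intro G
      unfold NN
      simp only [act_single, sub_mul, ite_mul, zero_mul, Finset.sum_sub_distrib,
        Finset.sum_ite_eq', Finset.mem_univ, if_true, hν]
    have hMM : ∀ c : K, MM δ f a p (C c) = C (ν a * δ p c) := by
      intro c
      unfold MM
      simp only [cD_C, pderiv_C, mul_zero, Finset.sum_const_zero, sub_zero, hν, C_mul]
    have h1 : q1 δ f a p j = C (ν a * (ν a * δ p (ν j) - ν j * δ p (ν a) -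
        (ν p.1.2 * D a j p.1.1 - ν p.1.1 * D a j p.1.2))) := by
      unfold q1
      rw [hν j, hν a, hMM, hMM, hNN, hNN, pderiv_cc δ hν, pderiv_cc δ hν]
      simp only [pderiv_C, mul_zero, sub_zero, add_zero, hD, C_mul, C_sub]
      ring
    have h2 := hq1 p j
    rw [h1] at h2
    have h3 : ν a * (ν a * δ p (ν j) - ν j * δ p (ν a) -
        (ν p.1.2 * D a j p.1.1 - ν p.1.1 * D a j p.1.2)) = 0 := by
      by_contra hne
      apply hPp.ne_top
      rw [Ideal.eq_top_iff_one]
      have := P.mul_mem_left (C (ν a * (ν a * δ p (ν j) - ν j * δ p (ν a) -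
        (ν p.1.2 * D a j p.1.1 - ν p.1.1 * D a j p.1.2)))⁻¹) h2
      rwa [← C_mul, inv_mul_cancel₀ hne, C_1] at this
    have h4 := (mul_eq_zero.1 h3).resolve_left hνa
    exact sub_eq_zero.1 h4
  -- (★)
  have hstar : ∀ r s j : Fin e, ν a * D r s j - ν j * D r s a = ν s * D a j r - ν r * D a j s := by
    intro r s j
    rcases lt_trichotomy r s with hrs | hrs | hrs
    · have := hstar0 ⟨(r, s), hrs⟩ j
      have h1 : ∀ k, D r s k = δ ⟨(r, s), hrs⟩ (ν k) := fun k => sk_of_lt _ ⟨(r, s), hrs⟩
      rw [h1, h1]; exact this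
    · subst hrs
      have h1 : ∀ k, D r r k = 0 := fun k => sk_self _ _
      rw [h1, h1]; ring
    · have := hstar0 ⟨(s, r), hrs⟩ j
      have h1 : ∀ k, D r s k = -δ ⟨(s, r), hrs⟩ (ν k) := fun k => by
        rw [hD]; simp only; rw [sk_swap]; congr 1; exact sk_of_lt _ ⟨(s, r), hrs⟩
      rw [h1, h1]
      simp only at this
      linear_combination -this
  intro z hz w hw
  set π : Fin e → K := fun j => th S z j - th S w j with hπ
  have hνπ : ∑ j, ν j * π j = 0 := by
    have := eval_sub_eval hν (th S z) (th S w)
    rw [hf z hz, hf w hw, sub_zero] at this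
    exact this.symm
  have hδ : ∀ j, ν a * (z.1 j - w.1 j) = (z.1 a - w.1 a) * ν j - ∑ k, D a j k * π k := by
    intro j
    have h1 := eval_X_eq hS (hx z hz) (hy z hz) (hf z hz) a j
    have h2 := eval_X_eq hS (hx w hw) (hy w hw) (hf w hw) a j
    have h3 := eval_sub_eval (fun k => pderiv_cc δ hν k a j) (th S z) (th S w)
    rw [hν a, hν j, eval_C, eval_C] at h1 h2
    linear_combination h1 - h2 - h3
  have hB : ν a * ∑ j, ∑ k, D a j k * π j * π k = 0 := by
    have h1 : ∀ j k, ν a * (D a k j + D a j k) = ν j * D a k a + ν k * D a j a := by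
      intro j k
      have := hstar a k j
      linear_combination this
    have h2 : ∑ j, ∑ k, D a k j * π j * π k = ∑ j, ∑ k, D a j k * π j * π k := by
      rw [Finset.sum_comm]
      exact Finset.sum_congr rfl fun j _ => Finset.sum_congr rfl fun k _ => by ring
    have h3 : ∑ j, ∑ k, (ν j * D a k a + ν k * D a j a) * π j * π k = 0 := by
      have h4 : ∑ j, ∑ k, (ν j * D a k a + ν k * D a j a) * π j * π k =
          (∑ j, ν j * π j) * (∑ k, D a k a * π k) + (∑ j, D a j a * π j) * (∑ k, ν k * π k) := by
        rw [Finset.sum_mul_sum, Finset.sum_mul_sum, ← Finset.sum_add_distrib]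
        refine Finset.sum_congr rfl fun j _ => ?_
        rw [← Finset.sum_add_distrib]
        exact Finset.sum_congr rfl fun k _ => by ring
      rw [h4, hνπ]; ring
    have h5 : 2 * (ν a * ∑ j, ∑ k, D a j k * π j * π k) = 0 := by
      rw [← h3]
      have h6 : ∑ j, ∑ k, (ν j * D a k a + ν k * D a j a) * π j * π k =
          ν a * ∑ j, ∑ k, D a k j * π j * π k + ν a * ∑ j, ∑ k, D a j k * π j * π k := by
        simp only [Finset.mul_sum]
        rw [← Finset.sum_add_distrib]
        refine Finset.sum_congr rfl fun j _ => ?_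
        rw [← Finset.sum_add_distrib]
        refine Finset.sum_congr rfl fun k _ => ?_
        rw [← h1]; ring
      rw [h6, h2]; ring
    exact (mul_eq_zero.1 h5).resolve_left two_ne_zero
  have hdot : ∑ j, (z.1 j - w.1 j) * π j = 0 := by
    have h1 : ν a * ∑ j, (z.1 j - w.1 j) * π j = 0 := by
      have h2 : ν a * ∑ j, (z.1 j - w.1 j) * π j = (z.1 a - w.1 a) * ∑ j, ν j * π j -
          ∑ j, ∑ k, D a j k * π j * π k := by
        rw [Finset.mul_sum, Finset.mul_sum, ← Finset.sum_sub_distrib]
        refine Finset.sum_congr rfl fun j _ => ?_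
        have h3 : ∑ k, D a j k * π j * π k = π j * ∑ k, D a j k * π k := by
          rw [Finset.mul_sum]; exact Finset.sum_congr rfl fun k _ => by ring
        rw [h3]
        linear_combination (π j) * hδ j
      rw [h2, hνπ, (mul_eq_zero.1 hB).resolve_left hνa]; ring
    exact (mul_eq_zero.1 h1).resolve_left hνa
  -- conclusion
  unfold Null q
  have h1 := dot_act_self S (z.1 - w.1)
  have h2 : ∑ i, (z - w).1 i * (z - w).2 i = ∑ j, (z.1 j - w.1 j) * π j -
      ∑ i, (z.1 - w.1) i * act S (z.1 - w.1) i := by
    rw [← Finset.sum_sub_distrib]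
    refine Finset.sum_congr rfl fun j _ => ?_
    rw [act_sub_right]
    simp only [hπ, th, Prod.fst_sub, Prod.snd_sub, Pi.sub_apply, Pi.add_apply]
    ring
  rw [h2, hdot, h1, sub_zero]

end iso

end Crest.Agent.R065.Cod1
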