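import Crest.Agent.R065.SplDefs_795

/-!
# Row 65: the swept theorem, from the set form to the index form (helper795)
-/

set_option autoImplicit false

open MvPolynomial Module

namespace Crest.Agent.R065.Glue795

open Crest.Agent.R065.HF669 Crest.Agent.R065.Base348 Crest.Agent.R065.Wt639

/-- SWEPT THEOREM in codimension one, SET form -/
def Swept1Set (k : Type*) [Field k] [Infinite k] (K : Type*) [Field K] [Infinite K] (e : ℕ)
    [Algebra (MvPolynomial (Pr e) k) K] [Algebra k K] : Prop :=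
  ∃ C1 : ℕ, ∀ (P : Ideal (MvPolynomial (Fin e) K)), P.IsPrime → dimP P + 1 = e →
    ∀ (Sig : Set (Pt e k)) (Dd : ℕ), Sig.Nonempty → 1 ≤ Dd →
    (∀ z ∈ Sig, ∀ g ∈ P, eval (thz k K z) g = 0) → flagTop P ≤ Dd →
    (∀ g : MvPolynomial (Fin e) K, g.totalDegree ≤ C1 * Dd →
      (∀ z ∈ Sig, eval (thz k K z) g = 0) → g ∈ P) →
    ((∃ l ∈ P, l ≠ 0 ∧ l.totalDegree ≤ 1) ∧ ∀ z ∈ Sig, ∀ w ∈ Sig, Null z w) ∨
    ∃ B : MvPolynomial (Fin e) K, B ∉ P ∧ B.totalDegree ≤ C1 * Dd ∧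
      ∃ Q₁ Q₂ : Ideal (MvPolynomial (Fin e ⊕ Fin e) k),
        (Q₁.IsPrime ∧ dimP Q₁ = dimP P ∧ degP Q₁ ≤ 2 * degP P) ∧
        (Q₂.IsPrime ∧ dimP Q₂ = dimP P ∧ degP Q₂ ≤ 2 * degP P) ∧
        ∀ z ∈ Sig, eval (thz k K z) B ≠ 0 →
          (∀ q ∈ Q₁, eval (Pins348.toFn z) q = 0) ∨ (∀ q ∈ Q₂, eval (Pins348.toFn z) q = 0)

open scoped Classical in
/-- counting step: `B` vanishes at few indices, the others are on `Q₁` or `Q₂` -/
lemma popular {ι : Type} (Sg : Finset ι) (b : ι → Prop) (a1 a2 : ι → Prop)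
    (hb : ¬ (Sg.card ≤ 8 * (Sg.filter b).card)) (h : ∀ i ∈ Sg, ¬ b i → a1 i ∨ a2 i) :
    Sg.card ≤ 4 * (Sg.filter a1).card ∨ Sg.card ≤ 4 * (Sg.filter a2).card := by
  have h1 : Sg ⊆ Sg.filter b ∪ (Sg.filter a1 ∪ Sg.filter a2) := by
    intro i hi
    simp only [Finset.mem_union, Finset.mem_filter]
    by_cases hbi : b i
    · exact Or.inl ⟨hi, hbi⟩
    · rcases h i hi hbi with h2 | h2
      · exact Or.inr (Or.inl ⟨hi, h2⟩)
      · exact Or.inr (Or.inr ⟨hi, h2⟩)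
  have h2 := Finset.card_le_card h1
  have h3 := Finset.card_union_le (Sg.filter b) (Sg.filter a1 ∪ Sg.filter a2)
  have h4 := Finset.card_union_le (Sg.filter a1) (Sg.filter a2)
  omega

section main

variable {k : Type*} [Field k] {e : ℕ}
  {K : Type*} [Field K] [Algebra (MvPolynomial (Pr e) k) K]
  [IsFractionRing (MvPolynomial (Pr e) k) K] [Algebra k K]
  [IsScalarTower k (MvPolynomial (Pr e) k) K]

open scoped Classical in
/-- **SWEPT THEOREM, index form** -/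
theorem sweptP_of [CharZero k] [Infinite k] [CharZero K] [Infinite K]
    (h1 : Swept1Set k K e) : SweptP k K e := by
  obtain ⟨C1, h1⟩ := h1
  refine ⟨max C1 (CS e), ?_⟩
  intro P hP hP0 ι Sg ω Dd hne hDd hSg hflag hgap
  have hle : dimP P + 1 ≤ e := by
    have h2 : dimP P < Fintype.card (Fin e) := by
      rw [← dimP_bot (k := K) (σ := Fin e)]
      exact dimP_lt (P := (⊥ : Ideal (MvPolynomial (Fin e) K))) (Q := P)
        (bot_lt_iff_ne_bot.2 hP0)
    rw [Fintype.card_fin] at h2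
    omega
  -- the set of points
  set Sig : Set (Pt e k) := ω '' (Sg : Set ι) with hSig
  have hSigP : ∀ z ∈ Sig, ∀ g ∈ P, eval (thz k K z) g = 0 := by
    rintro _ ⟨i, hi, rfl⟩ g hg
    exact hSg i hi g hg
  have hD : ∀ g : MvPolynomial (Fin e) K, g.totalDegree ≤ max C1 (CS e) * Dd →
      (∀ z ∈ Sig, eval (thz k K z) g = 0) → g ∈ P := by
    intro g hg hg'
    refine hgap g hg ?_
    have h3 : zeI Sg (fun i => thz k K (ω i)) g = Sg := by
      unfold zeI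
      rw [Finset.filter_true_of_mem]
      intro i hi
      exact hg' _ ⟨i, hi, rfl⟩
    rw [h3]
    omega
  have hB : ∀ B : MvPolynomial (Fin e) K, B ∉ P → B.totalDegree ≤ max C1 (CS e) * Dd →
      ¬ (Sg.card ≤ 8 * (Sg.filter fun i => eval (thz k K (ω i)) B = 0).card) := by
    intro B hB hBd hc
    exact hB (hgap B hBd hc)
  rcases Nat.lt_or_ge (dimP P + 1) e with hlt | hge
  · right
    obtain ⟨B, hBP, hBd, Q, hQ, hQd, hQdeg, hQz⟩ := swept2 (k := k) (K := K) (P := P) (by omega)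
      hSigP hflag (fun g hg => hD g (hg.trans (Nat.mul_le_mul_right _ (le_max_right _ _))))
    refine ⟨Q, hQ, hQd, by omega, ?_⟩
    rcases popular Sg (fun i => eval (thz k K (ω i)) B = 0)
      (fun i => ∀ q ∈ Q, eval (Pins348.toFn (ω i)) q = 0)
      (fun i => ∀ q ∈ Q, eval (Pins348.toFn (ω i)) q = 0)
      (hB B hBP (hBd.trans (Nat.mul_le_mul_right _ (le_max_right _ _))))
      (fun i hi hb => Or.inl (hQz _ ⟨i, hi, rfl⟩ hb)) with h | h <;> exact h
  · have hdim : dimP P + 1 = e := le_antisymm hle hge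
    rcases h1 P hP hdim Sig Dd (by
        obtain ⟨i, hi⟩ := hne
        exact ⟨_, i, hi, rfl⟩) hDd hSigP hflag
        (fun g hg => hD g (hg.trans (Nat.mul_le_mul_right _ (le_max_left _ _)))) with
      ⟨hl, hnull⟩ | ⟨B, hBP, hBd, Q₁, Q₂, ⟨hQ1, hQ1d, hQ1g⟩, ⟨hQ2, hQ2d, hQ2g⟩, hz⟩
    · left
      exact ⟨hdim, hl, fun i hi j hj => hnull _ ⟨i, hi, rfl⟩ _ ⟨j, hj, rfl⟩⟩
    · right
      rcases popular Sg (fun i => eval (thz k K (ω i)) B = 0)
        (fun i => ∀ q ∈ Q₁, eval (Pins348.toFn (ω i)) q = 0)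
        (fun i => ∀ q ∈ Q₂, eval (Pins348.toFn (ω i)) q = 0)
        (hB B hBP (hBd.trans (Nat.mul_le_mul_right _ (le_max_left _ _))))
        (fun i hi hb => hz _ ⟨i, hi, rfl⟩ hb) with h | h
      · exact ⟨Q₁, hQ1, hQ1d, hQ1g, h⟩
      · exact ⟨Q₂, hQ2, hQ2d, hQ2g, h⟩

end main

end Crest.Agent.R065.Glue795
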