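import Crest.Agent.R065.Mblk_474
import Crest.Agent.R065.Prime_669

/-!
# Row 65: the constant variety, final bound   (helper474)

`M_main`: the Hilbert function of the constant variety `M` (over `k`) is bounded by
`[F : K(θ)] * deg P * C(m + dim P, dim P)`, `P = ker (K[θ] → F)`.
-/

set_option autoImplicit false

open MvPolynomial Module Filter

namespace Crest.Agent.R065.Mblk474

open Crest.Agent.R065.HF669 Crest.Agent.R065.Base348

section gen

variable {K : Type*} [Field K] {F : Type*} [Field F] [Algebra K F] {σ : Type*}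

lemma U_comp_equiv {τ : Type*} (e : τ ≃ σ) (z : σ → F) (q : ℕ) : U K (z ∘ e) q = U K z q := by
  apply le_antisymm
  · exact U_le_U (fun i => self_mem_U z (e i)) q
  · refine U_le_U (fun i => ?_) q
    have := self_mem_U (k := K) (z ∘ e) (e.symm i)
    simpa using this

open scoped IntermediateField.algebraAdjoinAdjoin in
/-- transcendence degree bound for the Hilbert function -/
lemma exists_growth_bound [Infinite K] [Fintype σ] (z : σ → F) {d : ℕ} (θ : Fin d → F)
    [hfd : FiniteDimensional (IntermediateField.adjoin K (Set.range θ)) F]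
    (hdep : ¬ AlgebraicIndependent K θ) :
    ∃ j δ, j + 1 ≤ d ∧ ∀ m, finrank K (U K z m) ≤ δ * (m + j).choose j := by
  classical
  let e := (Fintype.equivFin σ).symm
  obtain ⟨j, y, B, hj, hy1, hy, hB, -, hBU⟩ := noether_normalisation (k := K)
    (Fintype.card σ) (z ∘ e)
  have halg : Algebra.IsAlgebraic (Algebra.adjoin K (Set.range θ)) F := by
    have h1 : Algebra.IsAlgebraic (IntermediateField.adjoin K (Set.range θ)) F := inferInstance
    exact (IsFractionRing.comap_isAlgebraic_iff (A := Algebra.adjoin K (Set.range θ))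
      (K := IntermediateField.adjoin K (Set.range θ)) (C := F)).2 h1
  have htr : Algebra.trdeg K F < d := by
    by_contra hcon
    push Not at hcon
    apply hdep
    refine (Algebra.IsAlgebraic.isTranscendenceBasis_of_lift_le_trdeg_of_finite K θ ?_).1
    simpa using hcon
  refine ⟨j, hB.toFinset.card, ?_, ?_⟩
  · have h1 := hy.lift_cardinalMk_le_trdeg
    rw [Cardinal.mk_fin] at h1
    have h2 : (j : Cardinal) ≤ Algebra.trdeg K F := by simpa using h1
    have h3 : (j : Cardinal) < d := lt_of_le_of_lt h2 htr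
    exact_mod_cast h3
  · intro m
    have h1 := hBU m
    rw [U_comp_equiv] at h1
    have hspanfin : Module.Finite K (Submodule.span K B) := Module.Finite.span_of_finite K hB
    obtain ⟨h2, h3⟩ := finrank_mul_le' (Submodule.span K B) (U K y m)
    refine (Submodule.finrank_mono h1).trans (h3.trans ?_)
    refine Nat.mul_le_mul ?_ ?_
    · have : Submodule.span K B = Submodule.span K (hB.toFinset : Set F) := by simp
      rw [this]
      exact finrank_span_finset_le_card _
    · rw [← HF_ker_aeval]
      refine (HF_le_choose _ m).trans ?_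
      rw [Fintype.card_fin]

/-- common denominators -/
lemma exists_common {d s : ℕ} (θ : Fin d → F) (w : Fin s → F)
    (hw : ∀ x : F, ∃ g : F, g ≠ 0 ∧ ∃ q, g ∈ U K θ q ∧ ∃ c : Fin s → F,
      (∀ i, c i ∈ U K θ q) ∧ g * x = ∑ i, c i * w i) (B : Finset F) :
    ∃ g : F, g ≠ 0 ∧ ∃ q, g ∈ U K θ q ∧ ∀ x ∈ B, ∃ c : Fin s → F,
      (∀ i, c i ∈ U K θ q) ∧ g * x = ∑ i, c i * w i := by
  classical
  induction B using Finset.induction_on with
  | empty => exact ⟨1, one_ne_zero, 0, one_mem_U θ 0, by simp⟩
  | insert b B hb ih =>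
    obtain ⟨g, hg0, q, hgq, hg⟩ := ih
    obtain ⟨g', hg'0, q', hg'q, c', hc', hgc'⟩ := hw b
    refine ⟨g * g', mul_ne_zero hg0 hg'0, q + q', mul_mem_U hgq hg'q, ?_⟩
    intro x hx
    rcases Finset.mem_insert.1 hx with rfl | hx
    · refine ⟨fun i => g * c' i, fun i => mul_mem_U hgq (hc' i), ?_⟩
      rw [mul_assoc, hgc', Finset.mul_sum]
      exact Finset.sum_congr rfl fun i _ => by ring
    · obtain ⟨c, hc, hgc⟩ := hg x hx
      refine ⟨fun i => c i * g', fun i => mul_mem_U (hc i) hg'q, ?_⟩
      rw [mul_right_comm, hgc, Finset.sum_mul]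
      exact Finset.sum_congr rfl fun i _ => by ring

/-- comparison of the filtrations of `z` and `θ` -/
lemma exists_compare {d s : ℕ} [Finite σ] (z : σ → F) (θ : Fin d → F) (w : Fin s → F)
    (hw : ∀ x : F, ∃ g : F, g ≠ 0 ∧ ∃ q, g ∈ U K θ q ∧ ∃ c : Fin s → F,
      (∀ i, c i ∈ U K θ q) ∧ g * x = ∑ i, c i * w i) (B : Set F) (hB : B.Finite)
    (hU : ∀ q, U K z q ≤ Submodule.span K B * U K θ q) :
    ∃ c, ∀ m, finrank K (U K z m) ≤ s * finrank K (U K θ (m + c)) := by
  classical
  obtain ⟨g, hg0, q, -, hg⟩ := exists_common θ w hw hB.toFinset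
  refine ⟨q, fun m => ?_⟩
  let Φ : (Fin s → U K θ (m + q)) →ₗ[K] F :=
    { toFun := fun c => ∑ i, (c i : F) * w i
      map_add' := by
        intro a b
        simp [add_mul, Finset.sum_add_distrib]
      map_smul' := by
        intro r a
        simp [Finset.smul_sum] }
  have h1 : (U K z m).map (LinearMap.mulLeft K g) ≤ LinearMap.range Φ := by
    refine (Submodule.map_mono (hU m)).trans ?_
    rw [Submodule.map_le_iff_le_comap, Submodule.mul_le]
    intro u hu v hv
    rw [Submodule.mem_comap, LinearMap.mulLeft_apply]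
    induction hu using Submodule.span_induction with
    | mem b hb =>
      obtain ⟨c, hc, hgc⟩ := hg b (by simpa using hb)
      refine ⟨fun i => ⟨v * c i, mul_mem_U hv (hc i)⟩, ?_⟩
      change ∑ i, (v * c i) * w i = g * (b * v)
      rw [← mul_assoc, hgc, Finset.sum_mul]
      exact Finset.sum_congr rfl fun i _ => by ring
    | zero => rw [zero_mul, mul_zero]; exact Submodule.zero_mem _
    | add x y _ _ hx hy => rw [add_mul, mul_add]; exact Submodule.add_mem _ hx hy
    | smul a x _ hx =>
      rw [smul_mul_assoc, mul_smul_comm]; exact Submodule.smul_mem _ _ hx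
  have hinj : Function.Injective (LinearMap.mulLeft K g) := by
    intro x y hxy
    exact mul_left_cancel₀ hg0 hxy
  calc finrank K (U K z m) = finrank K ((U K z m).map (LinearMap.mulLeft K g)) :=
        (finrank_map_of_injective _ hinj _).symm
    _ ≤ finrank K (LinearMap.range Φ) := Submodule.finrank_mono h1
    _ ≤ finrank K (Fin s → U K θ (m + q)) := LinearMap.finrank_range_le Φ
    _ = s * finrank K (U K θ (m + q)) := by
        rw [Module.finrank_pi_fintype]; simp

/-- degree bound from a finite extension -/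
lemma exists_basis_data {d : ℕ} (θ : Fin d → F)
    [hfd : FiniteDimensional (IntermediateField.adjoin K (Set.range θ)) F] :
    ∃ w : Fin (finrank (IntermediateField.adjoin K (Set.range θ)) F) → F,
      ∀ x : F, ∃ g : F, g ≠ 0 ∧ ∃ q, g ∈ U K θ q ∧
        ∃ c : Fin (finrank (IntermediateField.adjoin K (Set.range θ)) F) → F,
        (∀ i, c i ∈ U K θ q) ∧ g * x = ∑ i, c i * w i := by
  classical
  set L := IntermediateField.adjoin K (Set.range θ) with hL
  let b := Module.finBasis L F
  refine ⟨b, fun x => ?_⟩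
  have h1 : ∀ i, ∃ r s : MvPolynomial (Fin d) K,
      ((b.repr x i : L) : F) = aeval θ r / aeval θ s := fun i =>
    (IntermediateField.mem_adjoin_range_iff K θ _).1 (b.repr x i).2
  -- remove zero denominators
  have h2 : ∀ i, ∃ r s : MvPolynomial (Fin d) K, aeval θ s ≠ 0 ∧
      ((b.repr x i : L) : F) * aeval θ s = aeval θ r := by
    intro i
    obtain ⟨r, s, hrs⟩ := h1 i
    by_cases h0 : aeval θ s = 0
    · refine ⟨0, 1, by simp, ?_⟩
      rw [hrs, h0, div_zero]; simp
    · exact ⟨r, s, h0, by rw [hrs, div_mul_cancel₀ _ h0]⟩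
  choose r s hs hrs using h2
  set N := (∑ i, (r i).totalDegree) + ∑ i, (s i).totalDegree with hN
  refine ⟨∏ i, aeval θ (s i), Finset.prod_ne_zero_iff.2 fun i _ => hs i, N, ?_,
    fun i => aeval θ (r i) * ∏ l ∈ Finset.univ.erase i, aeval θ (s l), ?_, ?_⟩
  · refine U_mono θ (by omega) (prod_mem_U _ _ (fun i => (s i).totalDegree)
      fun i _ => aeval_mem_U le_rfl)
  · intro i
    have h3 : ∑ l ∈ Finset.univ.erase i, (s l).totalDegree ≤ ∑ l, (s l).totalDegree :=
      Finset.sum_le_sum_of_subset (Finset.erase_subset _ _)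
    have h4 : (r i).totalDegree ≤ ∑ l, (r l).totalDegree :=
      Finset.single_le_sum (f := fun l => (r l).totalDegree) (fun _ _ => Nat.zero_le _)
        (Finset.mem_univ i)
    refine U_mono θ ?_ (mul_mem_U (aeval_mem_U (le_refl (r i).totalDegree))
      (prod_mem_U _ _ (fun l => (s l).totalDegree) fun l _ => aeval_mem_U le_rfl))
    omega
  · have h5 : x = ∑ i, ((b.repr x i : L) : F) * b i := by
      conv_lhs => rw [← b.sum_repr x]
      exact Finset.sum_congr rfl fun i _ => by rw [IntermediateField.smul_def, smul_eq_mul]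
    conv_lhs => rw [h5]
    rw [Finset.mul_sum]
    refine Finset.sum_congr rfl fun i _ => ?_
    simp only []
    rw [← hrs i, ← Finset.mul_prod_erase Finset.univ (fun i => aeval θ (s i)) (Finset.mem_univ i)]
    ring

end gen

section main

variable {k : Type*} [Field k] {d : ℕ}
  {K : Type*} [Field K] [Algebra (MvPolynomial (Pr d) k) K]
  [IsFractionRing (MvPolynomial (Pr d) k) K]
  {F : Type*} [Field F] [Algebra K F] [Algebra k F] [Algebra k K] [IsScalarTower k K F]
  [IsScalarTower k (MvPolynomial (Pr d) k) K]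

/-- **(M3)** the Hilbert function of the constant variety. -/
theorem M_main [CharZero k] [Infinite K] (D : Pr d → Derivation ℤ F F)
    (hD : ∀ p (g : MvPolynomial (Pr d) k),
      D p (algebraMap K F (algebraMap (MvPolynomial (Pr d) k) K g)) =
        algebraMap K F (algebraMap (MvPolynomial (Pr d) k) K (pderiv p g)))
    (ξ η θ : Fin d → F) (hθ : ∀ i, θ i = η i + act (sF k K F) ξ i)
    (hξ : ∀ i p, D p (ξ i) = 0) (hη : ∀ i p, D p (η i) = 0)
    [hfd : FiniteDimensional (IntermediateField.adjoin K (Set.range θ)) F]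
    (hdep : ¬ AlgebraicIndependent K θ)
    (P : Ideal (MvPolynomial (Fin d) K)) (hP : P = RingHom.ker (aeval θ : _ →ₐ[K] F)) (m : ℕ) :
    finrank k (U k (Sum.elim ξ η : Fin d ⊕ Fin d → F) m) ≤
      finrank (IntermediateField.adjoin K (Set.range θ)) F * degP P *
        (m + dimP P).choose (dimP P) := by
  classical
  obtain rfl : θ = fun i => η i + act (sF k K F) ξ i := funext hθ
  set θ : Fin d → F := fun i => η i + act (sF k K F) ξ i with hθdef
  set z : Fin d ⊕ Fin d → F := Sum.elim ξ η with hz
  set s := finrank (IntermediateField.adjoin K (Set.range θ)) F with hs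
  have hzc : ∀ i p, D p (z i) = 0 := by
    rintro (i | i) p
    · exact hξ i p
    · exact hη i p
  have hkK : ∀ m, finrank k (U k z m) = finrank K (U K z m) := finrank_U_eq D hD z hzc
  obtain ⟨j, δ, hjd, hδ⟩ := exists_growth_bound (K := K) z θ hdep
  obtain ⟨N, hN⟩ := exists_forall_pow_mem (k := k) (K := K) ξ η (r := j) (δ := δ) hjd
    (fun m => by rw [hkK]; exact hδ m)
  have hU := U_le_span_mul (k := k) ξ η hN
  obtain ⟨w, hw⟩ := exists_basis_data (K := K) θ
  obtain ⟨c, hc⟩ := exists_compare z θ w hw (BB ξ N) (Set.finite_range _) hU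
  -- primes
  let Q : Ideal (MvPolynomial (Fin d ⊕ Fin d) K) := RingHom.ker (aeval z : _ →ₐ[K] F)
  have hQp : Q.IsPrime := RingHom.ker_isPrime _
  have hPp : P.IsPrime := by rw [hP]; exact RingHom.ker_isPrime _
  have hHQ : ∀ m, HF Q m = finrank K (U K z m) := HF_ker_aeval z
  have hHP : ∀ m, HF P m = finrank K (U K θ m) := fun m => by rw [hP]; exact HF_ker_aeval θ m
  have hθz : ∀ q, U K θ q ≤ U K z q := by
    refine U_le_U fun i => ?_
    exact Submodule.add_mem _ (self_mem_U z (Sum.inr i))
      (act_mem_U (fun i => self_mem_U z (Sum.inl i)) i)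
  have h1 : dimP P ≤ dimP Q := (isDimDeg P).dim_le (c := 0) (C := 1) (isDimDeg Q)
    (Eventually.of_forall fun m => by
      rw [hHP, hHQ, one_mul]
      exact Submodule.finrank_mono (hθz m))
  have h2 : dimP Q ≤ dimP P := (isDimDeg Q).dim_le (c := c) (C := s) (isDimDeg P)
    (Eventually.of_forall fun m => by
      rw [hHP, hHQ]
      exact hc m)
  have h3 : dimP Q = dimP P := le_antisymm h2 h1
  have h4 : degP Q ≤ s * degP P := by
    obtain ⟨b, hb⟩ := (isDimDeg Q).ge
    refine le_of_choose_le (r := dimP P) (c₁ := 0) (c₂ := b + c) ?_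
    refine Eventually.of_forall fun m => ?_
    have h5 := hb m
    have h6 := hc (m + b)
    have h7 := (isDimDeg P).le (m + b + c)
    rw [hHP] at h7
    rw [hHQ, h3] at h5
    calc degP Q * (m + 0 + dimP P).choose (dimP P) ≤ finrank K (U K z (m + b)) := by
          simpa using h5
      _ ≤ s * finrank K (U K θ (m + b + c)) := h6
      _ ≤ s * (degP P * (m + b + c + dimP P).choose (dimP P)) := Nat.mul_le_mul_left _ h7
      _ = s * degP P * (m + (b + c) + dimP P).choose (dimP P) := by
          rw [mul_assoc, add_assoc m b c]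
  rw [hkK, ← hHQ]
  refine ((isDimDeg Q).le m).trans ?_
  rw [h3]
  exact Nat.mul_le_mul_right _ h4

end main

end Crest.Agent.R065.Mblk474
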