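import Mathlib

/-!
# Derivations and primes: the filtration `K_n = {u | E^i u ∈ P for i < n}` (row 65)

If `E` is a derivation of `R` and `E P ⊄ P` for the prime `P` (with `R/P` of characteristic `0`) then
`K_n < ... < K_1 = P < K_0 = R` is a chain whose steps have colon ideals `≤ P`.
-/

set_option autoImplicit false

namespace Crest.Agent.R065.Der496

open Finset

variable {R : Type*} [CommRing R]

/-- Leibniz formula for iterated derivations -/
theorem iterate_mul (E : Derivation ℤ R R) (n : ℕ) (p q : R) :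
    E^[n] (p * q) = ∑ i ∈ range n.succ, (n.choose i) • (E^[n - i] p * E^[i] q) := by
  induction n with
  | zero => simp
  | succ n IH =>
    have hmap : ∀ (s : Finset ℕ) (g : ℕ → R), E (∑ i ∈ s, g i) = ∑ i ∈ s, E (g i) :=
      fun s g => map_sum E g s
    calc
      E^[n + 1] (p * q) =
          E (∑ k ∈ range n.succ, n.choose k • (E^[n - k] p * E^[k] q)) := by
        rw [Function.iterate_succ_apply', IH]
      _ = (∑ k ∈ range n.succ, n.choose k • (E^[n - k + 1] p * E^[k] q)) +
          ∑ k ∈ range n.succ, n.choose k • (E^[n - k] p * E^[k + 1] q) := by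
        rw [hmap, ← sum_add_distrib]
        refine sum_congr rfl fun i _ => ?_
        have h1 : E (n.choose i • (E^[n - i] p * E^[i] q)) =
            n.choose i • E (E^[n - i] p * E^[i] q) := map_nsmul E _ _
        rw [h1, Derivation.leibniz, ← smul_add]
        congr 1
        rw [Function.iterate_succ_apply', Function.iterate_succ_apply', smul_eq_mul, smul_eq_mul]
        ring
      _ = (∑ k ∈ range n.succ, n.choose k.succ • (E^[n - k] p * E^[k + 1] q)) +
            1 • (E^[n + 1] p * E^[0] q) +
          ∑ k ∈ range n.succ, n.choose k • (E^[n - k] p * E^[k + 1] q) :=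
        ?_
      _ = ((∑ k ∈ range n.succ, n.choose k • (E^[n - k] p * E^[k + 1] q)) +
            ∑ k ∈ range n.succ, n.choose k.succ • (E^[n - k] p * E^[k + 1] q)) +
          1 • (E^[n + 1] p * E^[0] q) := by
        rw [add_comm, add_assoc]
      _ = (∑ i ∈ range n.succ, (n + 1).choose (i + 1) •
          (E^[n + 1 - (i + 1)] p * E^[i + 1] q)) +
            1 • (E^[n + 1] p * E^[0] q) := by
        simp_rw [Nat.choose_succ_succ, Nat.succ_sub_succ, add_smul, sum_add_distrib]
      _ = ∑ k ∈ range n.succ.succ,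
            n.succ.choose k • (E^[n.succ - k] p * E^[k] q) := by
        rw [sum_range_succ' _ n.succ, Nat.choose_zero_right, tsub_zero]
    congr
    refine (sum_range_succ' _ _).trans (congr_arg₂ (· + ·) ?_ ?_)
    · rw [sum_range_succ, Nat.choose_succ_self, zero_smul, add_zero]
      refine sum_congr rfl fun k hk => ?_
      rw [mem_range] at hk
      congr
      lia
    · rw [Nat.choose_zero_right, tsub_zero]

/-- `K E P n = {u | E^i u ∈ P for all i < n}` -/
def K (E : Derivation ℤ R R) (P : Ideal R) (n : ℕ) : Ideal R where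
  carrier := {u | ∀ i < n, E^[i] u ∈ P}
  zero_mem' := by
    intro i _
    have : ∀ i, E^[i] (0 : R) = 0 := by
      intro i
      induction i with
      | zero => rfl
      | succ i ih => rw [Function.iterate_succ_apply', ih, map_zero]
    rw [this]; exact P.zero_mem
  add_mem' := by
    intro a b ha hb i hi
    have : ∀ i, E^[i] (a + b) = E^[i] a + E^[i] b := by
      intro i
      induction i with
      | zero => rfl
      | succ i ih => simp only [Function.iterate_succ_apply', ih, map_add]
    rw [this]; exact P.add_mem (ha i hi) (hb i hi)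
  smul_mem' := by
    intro c x hx i hi
    rw [smul_eq_mul, iterate_mul]
    refine P.sum_mem fun j hj => ?_
    rw [mem_range] at hj
    exact P.smul_of_tower_mem _ (P.mul_mem_left _ (hx j (by omega)))

lemma mem_K {E : Derivation ℤ R R} {P : Ideal R} {n : ℕ} {u : R} :
    u ∈ K E P n ↔ ∀ i < n, E^[i] u ∈ P := Iff.rfl

lemma K_zero (E : Derivation ℤ R R) (P : Ideal R) : K E P 0 = ⊤ := by
  rw [Ideal.eq_top_iff_one, mem_K]
  intro i hi; omega

lemma K_one (E : Derivation ℤ R R) (P : Ideal R) : K E P 1 = P := by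
  ext u
  rw [mem_K]
  constructor
  · intro h; exact h 0 (by omega)
  · intro h i hi
    have : i = 0 := by omega
    rw [this]; exact h

lemma K_anti (E : Derivation ℤ R R) (P : Ideal R) {m n : ℕ} (h : m ≤ n) : K E P n ≤ K E P m :=
  fun _ hu i hi => hu i (by omega)

/-- elements outside `P` are nonzerodivisors modulo `K_n` -/
lemma mem_K_of_mul_mem {E : Derivation ℤ R R} {P : Ideal R} (hP : P.IsPrime) {n : ℕ} {g u : R}
    (hg : g ∉ P) (h : g * u ∈ K E P n) : u ∈ K E P n := by
  rw [mem_K] at h ⊢
  intro i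
  induction i using Nat.strong_induction_on with
  | _ i ih =>
    intro hi
    have h1 := h i hi
    rw [iterate_mul, sum_range_succ] at h1
    have h2 : ∑ j ∈ range i, (i.choose j) • (E^[i - j] g * E^[j] u) ∈ P := by
      refine P.sum_mem fun j hj => ?_
      rw [mem_range] at hj
      exact P.smul_of_tower_mem _ (P.mul_mem_left _ (ih j hj (by omega)))
    have h3 := (P.add_mem_iff_right h2).1 h1
    rw [Nat.choose_self, one_smul, Nat.sub_self] at h3
    exact (hP.mem_or_mem h3).resolve_left hg

lemma mul_mem_K {E : Derivation ℤ R R} {P : Ideal R} {a b : ℕ} {u v : R} (hu : u ∈ K E P a)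
    (hv : v ∈ K E P b) : u * v ∈ K E P (a + b) := by
  intro n hn
  rw [iterate_mul]
  refine P.sum_mem fun j hj => ?_
  rw [mem_range] at hj
  refine P.smul_of_tower_mem _ ?_
  by_cases h : j < b
  · exact P.mul_mem_left _ (hv j h)
  · exact P.mul_mem_right _ (hu (n - j) (by omega))

/-- the leading terms multiply -/
lemma iterate_mul_sub_mem {E : Derivation ℤ R R} {P : Ideal R} {a b : ℕ} {u v : R}
    (hu : u ∈ K E P a) (hv : v ∈ K E P b) :
    E^[a + b] (u * v) - (a + b).choose b • (E^[a] u * E^[b] v) ∈ P := by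
  rw [iterate_mul, ← Finset.add_sum_erase _ _ (a := b) (mem_range.2 (by omega))]
  have e1 : a + b - b = a := by omega
  rw [e1, add_sub_cancel_left]
  refine P.sum_mem fun j hj => ?_
  rw [mem_erase, mem_range] at hj
  refine P.smul_of_tower_mem _ ?_
  by_cases h : j < b
  · exact P.mul_mem_left _ (hv j h)
  · exact P.mul_mem_right _ (hu (a + b - j) (by omega))

lemma pow_mem_K {E : Derivation ℤ R R} {P : Ideal R} {w : R} (hw : w ∈ P) (n : ℕ) :
    w ^ n ∈ K E P n := by
  induction n with
  | zero => rw [K_zero]; trivial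
  | succ n ih =>
    rw [pow_succ]
    exact mul_mem_K ih (by rw [K_one]; exact hw)

lemma iterate_pow_notMem {E : Derivation ℤ R R} {P : Ideal R} (hP : P.IsPrime)
    (hch : ∀ n : ℕ, n ≠ 0 → (n : R) ∉ P) {w : R} (hw : w ∈ P) (hEw : E w ∉ P) (n : ℕ) :
    E^[n] (w ^ n) ∉ P := by
  induction n with
  | zero =>
    rw [pow_zero]
    exact fun h => hP.ne_top ((Ideal.eq_top_iff_one _).2 h)
  | succ n ih =>
    intro h
    rw [pow_succ] at h
    have h1 := iterate_mul_sub_mem (E := E) (P := P) (a := n) (b := 1) (pow_mem_K hw n)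
      (by rw [K_one]; exact hw)
    have h2 := (P.sub_mem_iff_right h).1 h1
    rw [Nat.choose_one_right, nsmul_eq_mul] at h2
    rcases hP.mem_or_mem h2 with h3 | h3
    · exact hch _ (by omega) h3
    · rcases hP.mem_or_mem h3 with h4 | h4
      · exact ih h4
      · exact hEw h4

/-- the chain `J i = K_{n-i}` -/
def J (E : Derivation ℤ R R) (P : Ideal R) (n : ℕ) (i : ℕ) : Ideal R := K E P (n - i)

/-- if `E P ⊄ P`, then `K_n < K_{n-1} < ... < K_0` with colon ideals `≤ P` -/
lemma J_chain {E : Derivation ℤ R R} {P : Ideal R} (hP : P.IsPrime)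
    (hch : ∀ n : ℕ, n ≠ 0 → (n : R) ∉ P) {w : R} (hw : w ∈ P) (hEw : E w ∉ P) (n : ℕ) :
    ∀ i < n, J E P n i ≤ J E P n (i + 1) ∧
      ∃ u ∈ J E P n (i + 1), ∀ g, u * g ∈ J E P n i → g ∈ P := by
  intro i hi
  refine ⟨K_anti E P (by omega), w ^ (n - (i + 1)), pow_mem_K hw _, fun g hg => ?_⟩
  by_contra hgP
  rw [mul_comm] at hg
  have h1 := mem_K_of_mul_mem hP hgP hg
  exact iterate_pow_notMem hP hch hw hEw _ (h1 (n - (i + 1)) (by omega))

end Crest.Agent.R065.Der496
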