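import Crest.Agent.R065.Mult_496a
import Crest.Agent.R065.Der_496

/-!
# Multiplicity through lengths, and the derivation lemma (row 65)
-/

set_option autoImplicit false

open MvPolynomial Module

namespace Crest.Agent.R065.Mult496

open Crest.Agent.R065.HF669

section chain

variable {R : Type*} [CommRing R]

/-- an ideal `I` of `R_P` with `length (R_P / I) ≥ N` gives a `P`-chain of length `N` starting from
the contraction of `I` -/
lemma exists_PChain (P : Ideal R) [P.IsPrime] (I : Ideal (Localization.AtPrime P)) {N : ℕ}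
    (hN : (N : ℕ∞) ≤ Module.length (Localization.AtPrime P) (Localization.AtPrime P ⧸ I)) :
    ∃ K : ℕ → Ideal R, K 0 = I.comap (algebraMap R (Localization.AtPrime P)) ∧ PChain P K N := by
  rw [Module.length_quotient] at hN
  obtain ⟨p, hp0, hpN⟩ := Order.exists_series_of_le_coheight I hN
  refine ⟨fun i => if h : i < p.length + 1 then
    (p ⟨i, h⟩ : Ideal (Localization.AtPrime P)).comap (algebraMap R (Localization.AtPrime P))
    else ⊤, ?_, ?_⟩
  · simp only [Nat.zero_lt_succ, dite_true]
    rw [← hp0]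
    rfl
  · intro i hi
    have h1 : i < p.length + 1 := by omega
    have h2 : i + 1 < p.length + 1 := by omega
    simp only [h1, h2, dite_true]
    have hlt : (p ⟨i, h1⟩ : Ideal (Localization.AtPrime P)) < p ⟨i + 1, h2⟩ :=
      p.strictMono (by simp [Fin.lt_def])
    refine ⟨Ideal.comap_mono hlt.le, ?_⟩
    obtain ⟨x, hx1, hx2⟩ := SetLike.exists_of_lt hlt
    obtain ⟨⟨a, s⟩, hs⟩ := IsLocalization.surj P.primeCompl x
    simp only at hs
    have hu : IsUnit (algebraMap R (Localization.AtPrime P) s) :=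
      IsLocalization.map_units _ s
    refine ⟨a, ?_, fun g hg => ?_⟩
    · rw [Ideal.mem_comap, ← hs]
      exact Ideal.mul_mem_right _ _ hx1
    · by_contra hgP
      have hg' : IsUnit (algebraMap R (Localization.AtPrime P) g) :=
        IsLocalization.map_units (Localization.AtPrime P) (⟨g, hgP⟩ : P.primeCompl)
      rw [Ideal.mem_comap, map_mul, ← hs] at hg
      have h3 : x * algebraMap R (Localization.AtPrime P) s ∈
          (p ⟨i, h1⟩ : Ideal (Localization.AtPrime P)) :=
        (Ideal.mul_unit_mem_iff_mem _ hg').1 hg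
      exact hx2 ((Ideal.mul_unit_mem_iff_mem _ hu).1 h3)

end chain

variable {k : Type*} [Field k] {σ : Type*}

/-- **Multiplicity bound, length form.** -/
theorem RegChain.length_mul_le_prod [Fintype σ] {J : ℕ → Ideal (MvPolynomial σ k)}
    {f : ℕ → MvPolynomial σ k} {d : ℕ → ℕ} {c : ℕ} (h : RegChain J f d c)
    {P : Ideal (MvPolynomial σ k)} [P.IsPrime] {δ r b : ℕ} (hcr : Fintype.card σ ≤ r + c)
    (hδ : ∀ m, δ * (m + r).choose r ≤ HF P (m + b)) (I : Ideal (Localization.AtPrime P))
    (hI : J c ≤ I.comap (algebraMap (MvPolynomial σ k) (Localization.AtPrime P))) {N : ℕ}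
    (hN : (N : ℕ∞) ≤ Module.length (Localization.AtPrime P) (Localization.AtPrime P ⧸ I)) :
    N * δ ≤ ∏ j ∈ Finset.range c, d j := by
  obtain ⟨K, hK0, hK⟩ := exists_PChain P I hN
  exact h.chain_le_prod hcr hδ hK (hK0 ▸ hI)

/-- finiteness of the length, and the bound in `ℕ∞` -/
theorem RegChain.length_mul_le_prod' [Fintype σ] {J : ℕ → Ideal (MvPolynomial σ k)}
    {f : ℕ → MvPolynomial σ k} {d : ℕ → ℕ} {c : ℕ} (h : RegChain J f d c)
    {P : Ideal (MvPolynomial σ k)} [P.IsPrime] {δ r b : ℕ} (hδ0 : 0 < δ)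
    (hcr : Fintype.card σ ≤ r + c)
    (hδ : ∀ m, δ * (m + r).choose r ≤ HF P (m + b)) (I : Ideal (Localization.AtPrime P))
    (hI : J c ≤ I.comap (algebraMap (MvPolynomial σ k) (Localization.AtPrime P))) :
    ∃ N : ℕ, Module.length (Localization.AtPrime P) (Localization.AtPrime P ⧸ I) = N ∧
      N * δ ≤ ∏ j ∈ Finset.range c, d j := by
  have hfin : Module.length (Localization.AtPrime P) (Localization.AtPrime P ⧸ I) ≠ ⊤ := by
    intro htop
    have h1 := h.length_mul_le_prod hcr hδ I hI (N := (∏ j ∈ Finset.range c, d j) + 1)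
      (by rw [htop]; exact le_top)
    have h2 : (∏ j ∈ Finset.range c, d j) + 1 ≤ ((∏ j ∈ Finset.range c, d j) + 1) * δ :=
      Nat.le_mul_of_pos_right _ hδ0
    omega
  obtain ⟨N, hN⟩ := ENat.ne_top_iff_exists.1 hfin
  exact ⟨N, hN.symm, h.length_mul_le_prod hcr hδ I hI (by rw [hN])⟩

/-! ### The derivation lemma -/

/-- `E^i f ∈ P` for `i ≤ n` if `E (P_{≤ D' + n D}) ⊆ P` and `deg f ≤ D'` -/
lemma mem_K_of_deg {P : Ideal (MvPolynomial σ k)}
    (E : Derivation ℤ (MvPolynomial σ k) (MvPolynomial σ k)) {D D' n : ℕ}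
    (hE : ∀ g, (E g).totalDegree ≤ g.totalDegree + D)
    (hP : ∀ g ∈ P, g.totalDegree ≤ D' + n * D → E g ∈ P) {f : MvPolynomial σ k} (hf : f ∈ P)
    (hdeg : f.totalDegree ≤ D') : f ∈ Der496.K E P (n + 2) := by
  have key : ∀ i, i ≤ n + 1 → E^[i] f ∈ P ∧ (E^[i] f).totalDegree ≤ D' + i * D := by
    intro i
    induction i with
    | zero => intro _; exact ⟨hf, by simpa using hdeg⟩
    | succ i ih =>
      intro hi
      obtain ⟨h1, h2⟩ := ih (by omega)
      rw [Function.iterate_succ_apply']
      have h3 : i * D ≤ n * D := Nat.mul_le_mul_right _ (by omega)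
      refine ⟨hP _ h1 (by omega), (hE _).trans ?_⟩
      have : (i + 1) * D = i * D + D := by ring
      omega
  intro i hi
  exact (key i (by omega)).1

/-- **Derivation lemma, chain form.**  Let `f_0, ..., f_{c-1} ∈ P` be a regular sequence of degrees
`≤ d_j` such that `J c` is generated by the `f_j` locally at `P`.  If `E^i f_j ∈ P` for `i < n`, and
`∏ d_j < n * δ`, then `E P ⊆ P`. -/
theorem RegChain.derivation_mem [Fintype σ] {J : ℕ → Ideal (MvPolynomial σ k)}
    {f : ℕ → MvPolynomial σ k} {d : ℕ → ℕ} {c : ℕ} (h : RegChain J f d c)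
    {P : Ideal (MvPolynomial σ k)} (hP : P.IsPrime) {δ r b : ℕ}
    (hch : ∀ n : ℕ, n ≠ 0 → (n : MvPolynomial σ k) ∉ P)
    (hcr : Fintype.card σ ≤ r + c) (hδ : ∀ m, δ * (m + r).choose r ≤ HF P (m + b))
    (hJ : ∀ u ∈ J c, ∃ g, g ∉ P ∧ g * u ∈ Ideal.span (f '' {j | j < c}))
    (E : Derivation ℤ (MvPolynomial σ k) (MvPolynomial σ k)) {n : ℕ}
    (hn : ∏ j ∈ Finset.range c, d j < n * δ)
    (hE : ∀ j < c, ∀ i < n, E^[i] (f j) ∈ P) : ∀ w ∈ P, E w ∈ P := by
  intro w hw
  by_contra hEw
  have h1 := h.chain_le_prod hcr hδ (K := Der496.J E P n) (N := n)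
    (Der496.J_chain hP hch hw hEw n) (by
      intro u hu
      obtain ⟨g, hg, hgu⟩ := hJ u hu
      change u ∈ Der496.K E P (n - 0)
      rw [Nat.sub_zero]
      refine Der496.mem_K_of_mul_mem hP hg ?_
      refine Ideal.span_le.2 ?_ hgu
      rintro _ ⟨j, hj, rfl⟩
      exact hE j hj)
  omega

/-- **Derivation lemma, length form.** If `length (R_P / (P_{≤ D'}) R_P) ≤ L` and
`E (P_{≤ D' + L D}) ⊆ P`, then `E P ⊆ P`. -/
theorem derivation_mem_of_length {P : Ideal (MvPolynomial σ k)} [hP : P.IsPrime]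
    (hch : ∀ n : ℕ, n ≠ 0 → (n : MvPolynomial σ k) ∉ P)
    (E : Derivation ℤ (MvPolynomial σ k) (MvPolynomial σ k)) {D D' L : ℕ}
    (hE : ∀ g, (E g).totalDegree ≤ g.totalDegree + D)
    (hL : Module.length (Localization.AtPrime P) (Localization.AtPrime P ⧸
      (Ideal.span {g | g ∈ P ∧ g.totalDegree ≤ D'}).map
        (algebraMap (MvPolynomial σ k) (Localization.AtPrime P))) ≤ L)
    (hP' : ∀ g ∈ P, g.totalDegree ≤ D' + L * D → E g ∈ P) : ∀ w ∈ P, E w ∈ P := by
  intro w hw
  by_contra hEw
  -- the chain `I i = K_{L+1-i} A`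
  let A := Localization.AtPrime P
  let I : ℕ → Ideal A := fun i => (Der496.K E P (L + 1 - i)).map (algebraMap _ A)
  have hcomap : ∀ i, (I i).comap (algebraMap (MvPolynomial σ k) A) =
      Der496.K E P (L + 1 - i) := by
    intro i
    apply le_antisymm
    · intro u hu
      rw [Ideal.mem_comap, IsLocalization.mem_map_algebraMap_iff P.primeCompl] at hu
      obtain ⟨⟨a, s⟩, has⟩ := hu
      simp only at has
      rw [← map_mul] at has
      obtain ⟨c, hc⟩ := (IsLocalization.eq_iff_exists P.primeCompl A).1 has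
      have h1 : (c * s : MvPolynomial σ k) * u ∈ Der496.K E P (L + 1 - i) := by
        have : (c * s : MvPolynomial σ k) * u = c * a := by
          rw [← hc]; ring
        rw [this]
        exact Ideal.mul_mem_left _ _ a.2
      exact Der496.mem_K_of_mul_mem hP (g := (c * s : MvPolynomial σ k))
        (fun hcs => (P.primeCompl.mul_mem c.2 s.2) hcs) h1
    · exact Ideal.le_comap_map
  have hlt : ∀ i < L + 1, I i < I (i + 1) := by
    intro i hi
    refine lt_of_le_of_ne (Ideal.map_mono (Der496.K_anti E P (by omega))) ?_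
    intro heq
    have h1 := congrArg (fun I => Ideal.comap (algebraMap (MvPolynomial σ k) A) I) heq
    simp only [hcomap] at h1
    have h2 : w ^ (L - i) ∈ Der496.K E P (L + 1 - i) := by
      rw [h1]
      have : L + 1 - (i + 1) = L - i := by omega
      rw [this]
      exact Der496.pow_mem_K hw _
    exact Der496.iterate_pow_notMem hP hch hw hEw (L - i) (h2 (L - i) (by omega))
  have hI0 : (Ideal.span {g | g ∈ P ∧ g.totalDegree ≤ D'}).map
      (algebraMap (MvPolynomial σ k) A) ≤ I 0 := by
    refine Ideal.map_mono ?_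
    rw [Ideal.span_le]
    rintro g ⟨hg, hgd⟩
    exact Der496.K_anti E P (by omega) (mem_K_of_deg E hE hP' hg hgd)
  have hlen : ((L + 1 : ℕ) : ℕ∞) ≤ Order.coheight (I 0) := by
    have key : ∀ j ≤ L + 1, ((j : ℕ) : ℕ∞) ≤ Order.coheight (I (L + 1 - j)) := by
      intro j
      induction j with
      | zero => intro _; simp
      | succ j ih =>
        intro hj
        have h1 := ih (by omega)
        have h2 : I (L + 1 - (j + 1)) < I (L + 1 - j) := by
          have := hlt (L + 1 - (j + 1)) (by omega)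
          have e : L + 1 - (j + 1) + 1 = L + 1 - j := by omega
          rwa [e] at this
        have h3 := Order.coheight_add_one_le h2
        refine le_trans ?_ h3
        push_cast
        exact add_le_add h1 le_rfl
    have := key (L + 1) le_rfl
    rwa [Nat.sub_self] at this
  rw [Module.length_quotient] at hL
  have h4 := hlen.trans ((Order.coheight_anti hI0).trans hL)
  have h5 : L + 1 ≤ L := by exact_mod_cast h4
  omega

end Crest.Agent.R065.Mult496
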