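import Crest.Agent.R065.DimDeg_669
import Crest.Agent.R065.Mult_496b
import Crest.Agent.R003.Kr576

/-!
# Dimension and degree of a prime of a polynomial ring (row 65)

`DegData P r δ b`: the Hilbert function of `R/P` is between `δ C(m-b+r,r)` and `δ C(m+r,r)`.
Such data exist for every prime (`k` infinite), and `height P + r = dim R`.
-/

set_option autoImplicit false

open MvPolynomial Module

namespace Crest.Agent.R065.Mult496

open Crest.Agent.R065.HF669

variable {k : Type*} [Field k] {σ : Type*}

/-- dimension `r` and degree `δ` of `P` through the Hilbert function -/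
structure DegData (P : Ideal (MvPolynomial σ k)) (r δ b : ℕ) : Prop where
  pos : 0 < δ
  le : ∀ m, HF P m ≤ δ * (m + r).choose r
  ge : ∀ m, δ * (m + r).choose r ≤ HF P (m + b)

lemma growth_le {x y r s b : ℕ} (hx : 0 < x) (h : ∀ m : ℕ, x * m ^ r ≤ y * (m + b) ^ s) :
    r ≤ s := by
  by_contra hrs
  push Not at hrs
  have h1 := h (y * 2 ^ s + b + 1)
  set m := y * 2 ^ s + b + 1 with hm
  have h2 : m ^ (s + 1) ≤ x * m ^ r := by
    calc m ^ (s + 1) ≤ m ^ r := Nat.pow_le_pow_right (by omega) hrs
      _ ≤ x * m ^ r := Nat.le_mul_of_pos_left _ hx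
  have h3 : y * (m + b) ^ s ≤ (y * 2 ^ s) * m ^ s := by
    calc y * (m + b) ^ s ≤ y * (2 * m) ^ s :=
          Nat.mul_le_mul_left _ (Nat.pow_le_pow_left (by omega) s)
      _ = _ := by rw [mul_pow]; ring
  have h4 : m * m ^ s ≤ (y * 2 ^ s) * m ^ s := by
    calc m * m ^ s = m ^ (s + 1) := by ring
      _ ≤ _ := (h2.trans h1).trans h3
  have h5 : 0 < m ^ s := Nat.pow_pos (by omega)
  have h6 := Nat.le_of_mul_le_mul_right h4 h5
  omega

lemma choose_le_pow' (m r : ℕ) : (m + r).choose r ≤ (m + r) ^ r :=
  (Nat.le_mul_of_pos_left _ (Nat.factorial_pos r)).trans (factorial_choose_le_pow m r)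

/-- comparison of growths of binomials -/
lemma choose_growth_le {x y r s a b : ℕ} (hx : 0 < x)
    (h : ∀ m : ℕ, x * (m + r).choose r ≤ y * (m + b + s).choose s + a * 0) : r ≤ s := by
  refine growth_le (x := x) (y := r.factorial * y) (b := b + s) hx fun m => ?_
  calc x * m ^ r ≤ x * (r.factorial * (m + r).choose r) :=
        Nat.mul_le_mul_left _ (pow_le_factorial_choose m r)
    _ = r.factorial * (x * (m + r).choose r) := by ring
    _ ≤ r.factorial * (y * (m + b + s).choose s) := Nat.mul_le_mul_left _ (by simpa using h m)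
    _ ≤ r.factorial * (y * (m + b + s) ^ s) :=
        Nat.mul_le_mul_left _ (Nat.mul_le_mul_left _ (choose_le_pow' _ _))
    _ = _ := by rw [add_assoc]; ring

lemma DegData.dim_unique [Finite σ] {P : Ideal (MvPolynomial σ k)} {r δ b r' δ' b' : ℕ}
    (h : DegData P r δ b) (h' : DegData P r' δ' b') : r = r' := by
  apply le_antisymm
  · refine choose_growth_le (x := δ) (y := δ') (b := b) (a := 0) h.pos fun m => ?_
    have := (h.ge m).trans (h'.le (m + b))
    simpa using this
  · refine choose_growth_le (x := δ') (y := δ) (b := b') (a := 0) h'.pos fun m => ?_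
    have := (h'.ge m).trans (h.le (m + b'))
    simpa using this

lemma DegData.dim_le_card [Fintype σ] {P : Ideal (MvPolynomial σ k)} {r δ b : ℕ}
    (h : DegData P r δ b) : r ≤ Fintype.card σ := by
  refine choose_growth_le (x := δ) (y := 1) (b := b) (a := 0) h.pos fun m => ?_
  have := (h.ge m).trans (HF_le_choose P (m + b))
  simpa using this

/-- degree data exist for every prime -/
theorem exists_degData [Infinite k] [Finite σ] (P : Ideal (MvPolynomial σ k)) [hP : P.IsPrime] :
    ∃ r δ b : ℕ, DegData P r δ b := by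
  classical
  have := Fintype.ofFinite σ
  let E := MvPolynomial σ k ⧸ P
  let z : σ → E := fun i => Ideal.Quotient.mk P (X i)
  have haeval : (aeval z : MvPolynomial σ k →ₐ[k] E) = Ideal.Quotient.mkₐ k P := by
    apply MvPolynomial.algHom_ext
    intro i
    rw [aeval_X]; rfl
  have hker : RingHom.ker (aeval z : MvPolynomial σ k →ₐ[k] E) = P := by
    rw [haeval]
    exact Ideal.Quotient.mkₐ_ker k P
  have hHF : ∀ m, HF P m = finrank k (U k z m) := by
    intro m
    have h1 := HF_ker_aeval (k := k) z m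
    rwa [hker] at h1
  have hz : ∀ x : E, ∃ q, x ∈ U k z q := by
    intro x
    obtain ⟨f, rfl⟩ := Ideal.Quotient.mk_surjective x
    refine ⟨f.totalDegree, mem_U.2 ⟨f, le_rfl, ?_⟩⟩
    rw [haeval]; rfl
  let e := Fintype.equivFin σ
  let θ : Fin (Fintype.card σ) → E := z ∘ e.symm
  have hθ : ∀ q, U k z q = U k θ q := by
    intro q
    apply le_antisymm
    · apply U_le_U
      intro i
      have : z i = θ (e i) := by simp [θ]
      rw [this]; exact self_mem_U θ _
    · apply U_le_U
      intro i
      exact self_mem_U z _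
  obtain ⟨j, δ, b, h1, h2, h3, h4⟩ := dim_deg_proj (k := k) z hz θ {1} (Set.finite_singleton 1)
    (fun q => by
      rw [hθ q]
      intro x hx
      rw [← one_mul x]
      exact Submodule.mul_mem_mul (Submodule.subset_span rfl) hx)
    (fun x => by
      obtain ⟨q, hq⟩ := hz x
      rw [hθ q] at hq
      exact ⟨1, one_ne_zero, ⟨0, one_mem_U θ 0⟩, q, by rwa [one_mul]⟩)
  refine ⟨j, δ, b, h1, fun m => ?_, fun m => ?_⟩
  · rw [hHF]; exact h3 m
  · rw [hHF, hθ]; exact h4 m

/-- variables algebraically independent modulo `P` -/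
lemma le_HF_of_rename [Finite σ] {ι : Type*} [Fintype ι] {P : Ideal (MvPolynomial σ k)}
    (j : ι → σ) (hj : ∀ f : MvPolynomial ι k, rename j f ∈ P → f = 0) (m : ℕ) :
    (m + Fintype.card ι).choose (Fintype.card ι) ≤ HF P m := by
  rw [← finrank_W (k := k) (σ := ι) m]
  let L : MvPolynomial ι k →ₗ[k] (MvPolynomial σ k ⧸ P.restrictScalars k) :=
    (P.restrictScalars k).mkQ ∘ₗ (rename j : MvPolynomial ι k →ₐ[k] MvPolynomial σ k).toLinearMap
  have hL : Function.Injective L := by
    rw [injective_iff_map_eq_zero]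
    intro f hf
    apply hj
    simpa [L] using hf
  have h1 := finrank_map_of_injective L hL (W k ι m)
  rw [← h1]
  apply Submodule.finrank_mono
  rw [Submodule.map_comp]
  apply Submodule.map_mono
  rintro _ ⟨f, hf, rfl⟩
  exact mem_W.2 ((totalDegree_rename_le _ _).trans (mem_W.1 hf))

lemma DegData.card_le_height_add [Fintype σ] {P : Ideal (MvPolynomial σ k)} [hP : P.IsPrime]
    {r δ b : ℕ} (h : DegData P r δ b) : (Fintype.card σ : ℕ∞) ≤ P.height + r := by
  obtain ⟨ι, hι, j, h1, h2⟩ := Crest.Agent.R003.card_le_height_add k σ P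
  have := Fintype.ofFinite ι
  rw [Nat.card_eq_fintype_card, Nat.card_eq_fintype_card] at h2
  have h3 : Fintype.card ι ≤ r := by
    refine choose_growth_le (x := 1) (y := δ) (b := 0) (a := 0) one_pos fun m => ?_
    have := (le_HF_of_rename j h1 m).trans (h.le m)
    simpa using this
  refine h2.trans ?_
  gcongr

/-- the dimension drops strictly -/
lemma DegData.dim_lt [Finite σ] {P Q : Ideal (MvPolynomial σ k)} (hQP : Q < P)
    (hQ : Q.IsPrime) {r δ b r' δ' b' : ℕ} (h : DegData P r δ b) (h' : DegData Q r' δ' b') :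
    r + 1 ≤ r' := by
  obtain ⟨f, hfP, hfQ⟩ := SetLike.exists_of_lt hQP
  have hnz : ∀ g, f * g ∈ Q → g ∈ Q := fun g hg => (hQ.mem_or_mem hg).resolve_left hfQ
  have h1 := cut_step (F := HF P) (G := HF Q) (d := f.totalDegree) (s := r) (b := b)
    (x := δ) (y := r.factorial) (fun m => HF_anti hQP.le m)
    (fun m => HF_cut hQP.le hfP le_rfl hnz m) (fun m => by
      calc δ * m ^ r ≤ δ * (r.factorial * (m + r).choose r) :=
            Nat.mul_le_mul_left _ (pow_le_factorial_choose m r)
        _ = r.factorial * (δ * (m + r).choose r) := by ring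
        _ ≤ _ := Nat.mul_le_mul_left _ (h.ge m))
  refine growth_le (x := δ) (y := ((r + 1) * f.totalDegree * r.factorial) * δ') (b := b + r')
    h.pos fun m => ?_
  calc δ * m ^ (r + 1) ≤ ((r + 1) * f.totalDegree * r.factorial) * HF Q (m + b) := h1 m
    _ ≤ ((r + 1) * f.totalDegree * r.factorial) * (δ' * (m + b + r') ^ r') :=
        Nat.mul_le_mul_left _ ((h'.le _).trans (Nat.mul_le_mul_left _ (choose_le_pow' _ _)))
    _ = _ := by rw [add_assoc]; ring

lemma DegData.add_height_le [Infinite k] [Fintype σ] {P : Ideal (MvPolynomial σ k)}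
    [hP : P.IsPrime] {r δ b n : ℕ} (h : DegData P r δ b) (hn : (n : ℕ∞) ≤ P.height) :
    n + r ≤ Fintype.card σ := by
  induction n generalizing P r δ b with
  | zero => simpa using h.dim_le_card
  | succ n ih =>
    have h0 : ((n + 1 : ℕ) : ℕ∞) ≤ Order.height (⟨P, hP⟩ : PrimeSpectrum (MvPolynomial σ k)) := by
      rw [← PrimeSpectrum.height_eq_orderHeight]; exact hn
    obtain ⟨p, hp1, hp2⟩ := Order.exists_series_of_le_height _ h0
    have hlt : n < p.length := by omega
    let Q := p ⟨n, by omega⟩
    have hQP : Q.asIdeal < P := by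
      have h1 : Q < p.last := p.strictMono (by
        rw [Fin.lt_def]; simp [Fin.last, hp2])
      rw [hp1] at h1
      exact h1
    have hQh : (n : ℕ∞) ≤ Q.asIdeal.height := by
      rw [PrimeSpectrum.height_eq_orderHeight]
      exact Order.index_le_height p ⟨n, by omega⟩
    have hQ := Q.isPrime
    obtain ⟨r', δ', b', h'⟩ := exists_degData Q.asIdeal
    have h2 := ih h' hQh
    have h3 := DegData.dim_lt hQP hQ h h'
    omega

/-- **Dimension formula** -/
theorem DegData.height_add [Infinite k] [Fintype σ] {P : Ideal (MvPolynomial σ k)}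
    [hP : P.IsPrime] {r δ b : ℕ} (h : DegData P r δ b) : P.height + r = Fintype.card σ := by
  refine le_antisymm ?_ h.card_le_height_add
  have hfin : P.height ≠ ⊤ := by
    intro htop
    have := h.add_height_le (n := Fintype.card σ + 1) (by rw [htop]; exact le_top)
    omega
  obtain ⟨n, hn⟩ := ENat.ne_top_iff_exists.1 hfin
  have := h.add_height_le (n := n) hn.le
  rw [← hn]
  exact_mod_cast this

lemma natCast_notMem [CharZero k] {P : Ideal (MvPolynomial σ k)} (hP : P.IsPrime) (n : ℕ)
    (hn : n ≠ 0) : (n : MvPolynomial σ k) ∉ P := by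
  intro h
  apply hP.ne_top
  rw [Ideal.eq_top_iff_one]
  have h1 := P.mul_mem_left (C ((n : k)⁻¹)) h
  have h2 : (n : MvPolynomial σ k) = C (n : k) := by simp
  rwa [h2, ← C_mul, inv_mul_cancel₀ (Nat.cast_ne_zero.2 hn), C_1] at h1

end Crest.Agent.R065.Mult496
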