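import Crest.Agent.R065.Frac_234
import Crest.Agent.R065.MblkFin_474
import Crest.Agent.R065.Mult_496d
import Crest.Agent.R065.Flags_669
import Crest.Agent.R065.Pins_348

/-!
# Row 65: the swept variety (143 #12339 (5)), codimension at least two

`K = Frac k[S]`, `P` prime of `K[θ_1..θ_e]` vanishing at the points `θ_z = y + S x`, `z ∈ Sg`.
If every condition of degree `≤ CS e * flagTop P` satisfied on `1/16` of `Sg` lies in `P`, then
most of `Sg` lies on a prime `M` of `k[x, y]` of the same dimension and of no larger degree.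
-/

set_option autoImplicit false

open MvPolynomial Module

namespace Crest.Agent.R065.Swept143

open Crest.Agent.R065.HF669 Crest.Agent.R065.Base348 Crest.Agent.R065.Cramer234
  Crest.Agent.R065.Mblk474 Crest.Agent.R065.Pins348

/-! ### the derivation lemma with flags -/

section der

variable {σ : Type*} [Fintype σ] {K : Type*} [Field K] [Infinite K] [CharZero K]

/-- number of iterations -/
def LL (N : ℕ) : ℕ := KA N ^ (N + 2)

theorem der_flag {P : Ideal (MvPolynomial σ K)} [hP : P.IsPrime] {D : ℕ}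
    (E : Derivation ℤ (MvPolynomial σ K) (MvPolynomial σ K))
    (hE : ∀ g, (E g).totalDegree ≤ g.totalDegree + D)
    (hE' : ∀ g ∈ P, g.totalDegree ≤ flagTop P + LL (Fintype.card σ) * D → E g ∈ P) :
    ∀ w ∈ P, E w ∈ P := by
  have hN := dimP_le_card P
  refine Mult496.derivation_mem (P := P) (c := Fintype.card σ - dimP P) (by omega)
    (fun j => flag P (j + 1)) (D := D) (D' := flagTop P) (L := LL (Fintype.card σ))
    (fun j hj => flag_mono (by omega) (by omega)) (fun j hj => ?_) ?_ E hE hE'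
  · have h1 := cod_flag (P := P) (l := j + 1) (by omega)
    intro Q hQ hQP hQg
    exact h1 Q hQ hQP hQg
  · have h1 := flagProd_le_degP (P := P)
    have h2 := degP_pos P
    unfold flagProd at h1
    refine lt_of_le_of_lt h1 ?_
    unfold LL
    exact Nat.mul_lt_mul_of_pos_right (Nat.lt_succ_self _) h2

end der

/-! ### the setting -/

section setting

variable {e : ℕ} (k : Type*) [Field k] (K : Type*) [Field K]
  [Algebra (MvPolynomial (Pr e) k) K]

/-- the generic skew matrix in `K` -/
noncomputable def SK : Pr e → K := fun p => algebraMap (MvPolynomial (Pr e) k) K (X p)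

variable {k} [Algebra k K]

/-- a point with coordinates in `K` -/
noncomputable def toK (z : Pt e k) : Pt e K :=
  (fun i => algebraMap k K (z.1 i), fun i => algebraMap k K (z.2 i))

/-- the point `θ_z = y + S x` -/
noncomputable def thK (z : Pt e k) : Fin e → K := th (SK k K) (toK K z)

variable {K} [IsScalarTower k (MvPolynomial (Pr e) k) K]
  [IsFractionRing (MvPolynomial (Pr e) k) K]

variable (k K) in
/-- the derivations `∂/∂S_p` of `K` -/
theorem exists_delta : ∃ δ : Pr e → Derivation ℤ K K,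
    (∀ p g, δ p (algebraMap (MvPolynomial (Pr e) k) K g) =
      algebraMap (MvPolynomial (Pr e) k) K (pderiv p g)) ∧ DS δ (SK k K) ∧
    ∀ z : Pt e k, Cst δ (toK K z).1 ∧ Cst δ (toK K z).2 := by
  have h1 : ∀ p : Pr e, ∃ D : Derivation ℤ K K, ∀ g,
      D (algebraMap (MvPolynomial (Pr e) k) K g) =
        algebraMap (MvPolynomial (Pr e) k) K (pderiv p g) := by
    intro p
    refine exists_der_ext (algebraMap (MvPolynomial (Pr e) k) K) (fun x => ?_)
      ((pderiv p).restrictScalars ℤ) (fun r hr => ?_)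
    · obtain ⟨a, b, hb, hx⟩ := IsFractionRing.div_surjective (A := MvPolynomial (Pr e) k) x
      refine ⟨a, b, ?_, hx.symm⟩
      rw [Ne, map_eq_zero_iff _ (IsFractionRing.injective (MvPolynomial (Pr e) k) K)]
      exact nonZeroDivisors.ne_zero hb
    · rw [map_eq_zero_iff _ (IsFractionRing.injective (MvPolynomial (Pr e) k) K)] at hr
      rw [hr, map_zero, map_zero]
  choose δ hδ using h1
  have hc : ∀ p (c : k), δ p (algebraMap k K c) = 0 := by
    intro p c
    rw [IsScalarTower.algebraMap_apply k (MvPolynomial (Pr e) k) K, hδ, algebraMap_eq, pderiv_C,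
      map_zero]
  refine ⟨δ, hδ, fun p q => ?_, fun z => ⟨fun p i => hc p _, fun p i => hc p _⟩⟩
  unfold SK
  rw [hδ, pderiv_X, Pi.single_apply]
  by_cases h : q = p
  · subst h
    simp
  · rw [if_neg h, if_neg (fun hc => h hc), map_zero]

/-! ### the constant variety -/

section constvar

variable {F : Type*} [Field F] [Algebra K F]

/-- **the constant variety has the same dimension, and degree `≤ s * degP P`**; `s = [F : K(θ)]` -/
theorem constVar [CharZero k] [Infinite k] [Infinite K] [Algebra k F] [IsScalarTower k K F]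
    {δ : Pr e → Derivation ℤ K K}
    (hδ : ∀ p g, δ p (algebraMap (MvPolynomial (Pr e) k) K g) =
      algebraMap (MvPolynomial (Pr e) k) K (pderiv p g))
    {θ : Fin e → F} {Dd : Pr e → Derivation ℤ F F} {ξ η : Fin e → F}
    (hC : ConstData δ (SK k K) F θ Dd ξ η)
    {P : Ideal (MvPolynomial (Fin e) K)} (hP0 : P ≠ ⊥)
    (hP : P = RingHom.ker (aeval θ : MvPolynomial (Fin e) K →ₐ[K] F))
    [hfd : FiniteDimensional (IntermediateField.adjoin K (Set.range θ)) F]
    {s : ℕ} (hs : finrank (IntermediateField.adjoin K (Set.range θ)) F ≤ s)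
    {M : Ideal (MvPolynomial (Fin e ⊕ Fin e) k)}
    (hM : M = RingHom.ker (aeval (Sum.elim ξ η) : MvPolynomial (Fin e ⊕ Fin e) k →ₐ[k] F)) :
    M.IsPrime ∧ dimP M = dimP P ∧ degP M ≤ s * degP P ∧
      (∀ m, HF M m ≤ s * degP P * (m + dimP P).choose (dimP P)) := by
  have hMp : M.IsPrime := by rw [hM]; exact RingHom.ker_isPrime _
  have hPp : P.IsPrime := by rw [hP]; exact RingHom.ker_isPrime _
  have hD : ∀ p (g : MvPolynomial (Pr e) k),
      Dd p (algebraMap K F (algebraMap (MvPolynomial (Pr e) k) K g)) =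
        algebraMap K F (algebraMap (MvPolynomial (Pr e) k) K (pderiv p g)) := by
    intro p g
    rw [hC.ext, hδ]
  have hsF : (sF k K F : Pr e → F) = fun p => algebraMap K F (SK k K p) := by
    funext p; rfl
  have hdep : ¬ AlgebraicIndependent K θ := by
    intro h
    apply hP0
    rw [hP]
    rw [eq_bot_iff]
    intro g hg
    rw [RingHom.mem_ker] at hg
    have h1 : Function.Injective (aeval θ : MvPolynomial (Fin e) K →ₐ[K] F) := h
    exact h1 (by rw [map_zero]; exact hg)
  have hupper : ∀ m, HF M m ≤ s * degP P * (m + dimP P).choose (dimP P) := by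
    intro m
    have h1 := M_main Dd hD ξ η θ (fun i => by rw [hsF]; exact hC.theta i)
      (fun i p => hC.xi p i) (fun i p => hC.eta p i) hdep P hP m
    have h2 : HF M m = finrank k (U k (Sum.elim ξ η : Fin e ⊕ Fin e → F) m) := by
      rw [hM]; exact HF_ker_aeval _ m
    rw [h2]
    refine h1.trans ?_
    gcongr
  have hlower : ∀ m, HF P m ≤ HF M m := by
    intro m
    have h2 : HF M m = finrank k (U k (Sum.elim ξ η : Fin e ⊕ Fin e → F) m) := by
      rw [hM]; exact HF_ker_aeval _ m
    have h3 : HF P m = finrank K (U K θ m) := by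
      rw [hP]; exact HF_ker_aeval _ m
    rw [h2, h3, finrank_U_eq Dd hD (Sum.elim ξ η) (by
      rintro (i | i) p
      · exact hC.xi p i
      · exact hC.eta p i) m]
    refine Submodule.finrank_mono ?_
    refine U_le_U (fun i => ?_) m
    rw [hC.theta i, ← hsF]
    exact Submodule.add_mem _ (self_mem_U _ (Sum.inr i))
      (act_mem_U (fun i => self_mem_U (k := K) (Sum.elim ξ η : Fin e ⊕ Fin e → F) (Sum.inl i)) i)
  have hdim : dimP M = dimP P := by
    apply le_antisymm
    · obtain ⟨b, hb⟩ := (isDimDeg M).ge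
      refine exp_le_of_choose_le (r₁ := dimP M) (r₂ := dimP P) (δ₁ := degP M)
        (δ₂ := s * degP P) (c₁ := 0) (c₂ := b) (degP_pos M) ?_
      refine Filter.Eventually.of_forall fun m => ?_
      have h2 := hb m
      have h3 := hupper (m + b)
      simpa using h2.trans h3
    · exact (isDimDeg P).dim_le (c := 0) (C := 1) (isDimDeg M)
        (Filter.Eventually.of_forall fun m => by simpa using hlower m)
  refine ⟨hMp, hdim, ?_, hupper⟩
  obtain ⟨b, hb⟩ := (isDimDeg M).ge
  refine le_of_choose_le (r := dimP P) (c₁ := 0) (c₂ := b) ?_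
  refine Filter.Eventually.of_forall fun m => ?_
  have h2 := hb m
  have h3 := hupper (m + b)
  rw [hdim] at h2
  simpa using h2.trans h3

end constvar

/-! ### the swept theorem in codimension at least two -/

section swept

open scoped Classical in
/-- the members of `Sg` on the variety of `M` -/
noncomputable def onM (Sg : Finset (Pt e k)) (M : Ideal (MvPolynomial (Fin e ⊕ Fin e) k)) :
    Finset (Pt e k) := Sg.filter fun w => ∀ g ∈ M, eval (toFn w) g = 0

/-- the constant of the swept theorem -/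
def CS (e : ℕ) : ℕ := (LL e + 3) ^ 2 + 100

open scoped Classical in
variable (K) in
/-- conditions of degree `≤ D` which hold on `1/16` of `Sg` lie in `P` -/
def Cut (P : Ideal (MvPolynomial (Fin e) K)) (Sg : Finset (Pt e k)) (D : ℕ) : Prop :=
  ∀ g : MvPolynomial (Fin e) K, g.totalDegree ≤ D →
    Sg.card ≤ 16 * (Sg.filter fun z => eval (thK K z) g = 0).card → g ∈ P

/-- nonzero element of least degree, of degree `≤ flagTop P` -/
lemma exists_min [Infinite K] {P : Ideal (MvPolynomial (Fin e) K)} [hP : P.IsPrime]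
    (hdim : dimP P + 1 ≤ e) : ∃ f ∈ P, f ≠ 0 ∧ f.totalDegree ≤ flagTop P ∧
      ∀ g ∈ P, g.totalDegree < f.totalDegree → g = 0 := by
  classical
  have h1 : ∃ g ∈ P, g ≠ 0 ∧ g.totalDegree ≤ flagTop P := by
    by_contra hc
    push Not at hc
    have h2 := cod_flagTop (P := P) ⊥ Ideal.isPrime_bot bot_le (fun g hg hgd => by
      by_contra hne
      exact absurd hgd (not_le.2 (hc g hg (fun h => hne (by rw [h]; exact Ideal.zero_mem _)))))
    rw [dimP_bot, Fintype.card_fin] at h2
    omega
  obtain ⟨g, hg, hg0, hgd⟩ := h1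
  have hex : ∃ n, ∃ f ∈ P, f ≠ 0 ∧ f.totalDegree = n := ⟨_, g, hg, hg0, rfl⟩
  obtain ⟨f, hf, hf0, hfn⟩ := Nat.find_spec hex
  refine ⟨f, hf, hf0, ?_, fun u hu hud => ?_⟩
  · rw [hfn]
    exact (Nat.find_min' hex ⟨g, hg, hg0, rfl⟩).trans hgd
  · by_contra hu0
    exact Nat.find_min hex (hfn ▸ hud) ⟨u, hu, hu0, rfl⟩

theorem swept_two [CharZero k] [Infinite k] [CharZero K] [Infinite K]
    {P : Ideal (MvPolynomial (Fin e) K)} [hP : P.IsPrime] (hdim : dimP P + 2 ≤ e)
    (Sg : Finset (Pt e k)) (hSg : ∀ z ∈ Sg, ∀ g ∈ P, eval (thK K z) g = 0)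
    (hcut : Cut K P Sg (CS e * flagTop P)) :
    ∃ M : Ideal (MvPolynomial (Fin e ⊕ Fin e) k), M.IsPrime ∧ dimP M = dimP P ∧
      degP M ≤ degP P ∧ (∀ m, HF M m ≤ degP P * (m + dimP P).choose (dimP P)) ∧
      Sg.card ≤ 2 * (onM Sg M).card := by
  classical
  obtain ⟨δ, hδ, hS, hCst⟩ := exists_delta k K (e := e)
  obtain ⟨f, hf, hf0, hfd, hmin⟩ := exists_min (P := P) (by omega)
  set Ft := flagTop P with hFt
  have hcardN : Fintype.card (Fin e) = e := Fintype.card_fin e
  set L := LL e with hL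
  have hcut' : ∀ g : MvPolynomial (Fin e) K, g.totalDegree ≤ CS e * Ft →
      (∀ z ∈ Sg, eval (thK K z) g = 0) → g ∈ P := by
    intro g hg hz
    refine hcut g hg ?_
    rw [Finset.filter_true_of_mem hz]
    omega
  have hder : ∀ D, ∀ E : Derivation ℤ (MvPolynomial (Fin e) K) (MvPolynomial (Fin e) K),
      (∀ g, (E g).totalDegree ≤ g.totalDegree + D) →
      (∀ u ∈ P, u.totalDegree ≤ Ft + L * D → E u ∈ P) → ∀ u ∈ P, E u ∈ P := by
    intro D E hE hE'
    refine der_flag E hE ?_
    rw [hcardN]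
    exact hE'
  set Sig : Set (Pt e K) := (toK K) '' (Sg : Set (Pt e k)) with hSig
  obtain ⟨B, A, hV⟩ := exists_velocity hS (P := P) hdim (Sig := Sig) (by
      rintro _ ⟨z, -, rfl⟩
      exact hCst z) (by
      rintro _ ⟨z, hz, rfl⟩ g hg
      exact hSg z hz g hg) hf hf0 hfd hmin (hder Ft) (hder (Ft + (Ft + L * Ft))) (by
      intro g hg hz
      refine hcut' g (hg.trans ?_) fun z hz' => hz _ ⟨z, hz', rfl⟩
      unfold CS
      rw [← hL]
      have e1 : ((L + 3) ^ 2 + 100) * Ft = L * (L * Ft) + 6 * (L * Ft) + 109 * Ft := by ring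
      have e2 : Ft + L * (Ft + (Ft + L * Ft)) + (Ft + (Ft + L * Ft)) =
        L * (L * Ft) + 3 * (L * Ft) + 3 * Ft := by ring
      have e3 : 3 * (Ft + (Ft + L * Ft)) = 3 * (L * Ft) + 6 * Ft := by ring
      rw [e1, e2, e3]
      refine max_le ?_ ?_ <;>
      linarith [Nat.zero_le (L * (L * Ft)), Nat.zero_le (L * Ft), Nat.zero_le Ft])
  -- the function field
  let F := FractionRing (MvPolynomial (Fin e) K ⧸ P)
  let θ : Fin e → F := fun i => algebraMap (MvPolynomial (Fin e) K ⧸ P) F
    (Ideal.Quotient.mk P (X i))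
  have hθ : ∀ g, aeval θ g = algebraMap (MvPolynomial (Fin e) K ⧸ P) F (Ideal.Quotient.mk P g) := by
    intro g
    have h1 : (aeval θ : MvPolynomial (Fin e) K →ₐ[K] F) =
        ((IsScalarTower.toAlgHom K (MvPolynomial (Fin e) K ⧸ P) F).comp
          (Ideal.Quotient.mkₐ K P)) := by
      apply MvPolynomial.algHom_ext
      intro i
      simp [θ]
    rw [h1]; rfl
  have hker : ∀ g, aeval θ g = 0 ↔ g ∈ P := fun g => by
    rw [hθ, map_eq_zero_iff _ (IsFractionRing.injective _ _), Ideal.Quotient.eq_zero_iff_mem]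
  have hfrac : ∀ x : F, ∃ a b : MvPolynomial (Fin e) K, aeval θ b ≠ 0 ∧
      x = aeval θ a / aeval θ b := by
    intro x
    obtain ⟨a, b, hb, hx⟩ := IsFractionRing.div_surjective (A := MvPolynomial (Fin e) K ⧸ P) x
    obtain ⟨a, rfl⟩ := Ideal.Quotient.mk_surjective a
    obtain ⟨b, rfl⟩ := Ideal.Quotient.mk_surjective b
    refine ⟨a, b, ?_, ?_⟩
    · rw [hθ, Ne, map_eq_zero_iff _ (IsFractionRing.injective _ _)]
      exact nonZeroDivisors.ne_zero hb
    · rw [hθ, hθ, hx]
  obtain ⟨Dd, ξ, η, hC, hξ⟩ := hV.constData hS θ hker hfrac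
  have hPker : P = RingHom.ker (aeval θ : MvPolynomial (Fin e) K →ₐ[K] F) := by
    ext g
    rw [RingHom.mem_ker]
    exact (hker g).symm
  have htop : IntermediateField.adjoin K (Set.range θ) = ⊤ := by
    rw [eq_top_iff]
    intro x _
    obtain ⟨a, b, _, hx⟩ := hfrac x
    exact (IntermediateField.mem_adjoin_range_iff K θ x).2 ⟨a, b, hx⟩
  have hfr1 : finrank (IntermediateField.adjoin K (Set.range θ)) F = 1 := by
    rw [htop]
    exact IntermediateField.finrank_top
  have hfd' : FiniteDimensional (IntermediateField.adjoin K (Set.range θ)) F :=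
    Module.finite_of_finrank_pos (by rw [hfr1]; exact one_pos)
  have hfr : finrank (IntermediateField.adjoin K (Set.range θ)) F ≤ 1 := hfr1.le
  have hP0 : P ≠ ⊥ := by
    intro h
    rw [h] at hf
    exact hf0 ((Submodule.mem_bot _).1 hf)
  obtain ⟨h1, h2, h3, h4⟩ := constVar hδ hC hP0 hPker hfr
    (M := RingHom.ker (aeval (Sum.elim ξ η) : MvPolynomial (Fin e ⊕ Fin e) k →ₐ[k] F)) rfl
  refine ⟨_, h1, h2, by simpa using h3, by simpa using h4, ?_⟩
  -- the points with `B ≠ 0` lie on `M`
  have hBfew : ¬ Sg.card ≤ 16 * (Sg.filter fun z => eval (thK K z) B = 0).card := by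
    intro h
    refine hV.B_notMem (hcut B (hV.degB.trans ?_) h)
    unfold CS
    rw [← hL]
    have e1 : ((L + 3) ^ 2 + 100) * Ft = L * (L * Ft) + 6 * (L * Ft) + 109 * Ft := by ring
    rw [e1]
    linarith [Nat.zero_le (L * (L * Ft)), Nat.zero_le (L * Ft), Nat.zero_le Ft]
  have hsub : (Sg.filter fun z => ¬ eval (thK K z) B = 0) ⊆ onM Sg
      (RingHom.ker (aeval (Sum.elim ξ η) : MvPolynomial (Fin e ⊕ Fin e) k →ₐ[k] F)) := by
    intro z hz
    rw [Finset.mem_filter] at hz
    unfold onM
    rw [Finset.mem_filter]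
    refine ⟨hz.1, fun g hg => ?_⟩
    have h5 := hV.spec θ hker hξ hC.theta (z := toK K z) ⟨z, hz.1, rfl⟩ (hSg z hz.1) hz.2
      (map (algebraMap k K) g) (by
        rw [aeval_map_algebraMap]
        exact hg)
    have h6 : eval (Sum.elim (toK K z).1 (toK K z).2) (map (algebraMap k K) g) =
        algebraMap k K (eval (toFn z) g) := by
      have e0 : (Sum.elim (toK K z).1 (toK K z).2) = algebraMap k K ∘ toFn z := by
        funext i
        rcases i with i | i <;> rfl
      have e1 := MvPolynomial.aeval_algebraMap_apply (A := k) K (toFn z) g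
      rw [e0, eval_map]
      exact e1
    rw [h6] at h5
    exact (map_eq_zero _).1 h5
  have h7 := Finset.card_le_card hsub
  have h8 := Finset.card_filter_add_card_filter_not (s := Sg) (fun z => eval (thK K z) B = 0)
  omega

variable (K) in
/-- the conclusion of the swept theorem (all codimensions `≥ 1`) -/
def SweptOut (P : Ideal (MvPolynomial (Fin e) K)) (Sg : Finset (Pt e k)) [Infinite K]
    [Infinite k] : Prop :=
  ((∃ f : MvPolynomial (Fin e) K, P = Ideal.span {f} ∧ f.totalDegree = 1) ∧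
      ∀ z ∈ Sg, ∀ w ∈ Sg, Null z w) ∨
    ∃ M : Ideal (MvPolynomial (Fin e ⊕ Fin e) k), M.IsPrime ∧ dimP M = dimP P ∧
      degP M ≤ 2 * degP P ∧ (∀ m, HF M m ≤ 2 * degP P * (m + dimP P).choose (dimP P)) ∧
      Sg.card ≤ 4 * (onM Sg M).card

/-- codimension at least two, in the common form -/
theorem sweptOut_two [CharZero k] [Infinite k] [CharZero K] [Infinite K]
    {P : Ideal (MvPolynomial (Fin e) K)} [hP : P.IsPrime] (hdim : dimP P + 2 ≤ e)
    (Sg : Finset (Pt e k)) (hSg : ∀ z ∈ Sg, ∀ g ∈ P, eval (thK K z) g = 0)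
    (hcut : Cut K P Sg (CS e * flagTop P)) : SweptOut K P Sg := by
  obtain ⟨M, h1, h2, h3, h4, h5⟩ := swept_two hdim Sg hSg hcut
  refine Or.inr ⟨M, h1, h2, h3.trans (by omega), fun m => (h4 m).trans ?_, by omega⟩
  exact Nat.mul_le_mul_right _ (by omega)

variable (k K) in
/-- LEAF: the swept theorem in codimension one (234 / 392 / 649) -/
def SweptOne (e : ℕ) [Algebra (MvPolynomial (Pr e) k) K] [Infinite K] [Infinite k] : Prop :=
  ∀ (P : Ideal (MvPolynomial (Fin e) K)) (Sg : Finset (Pt e k)), P.IsPrime →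
    dimP P + 1 = e → (∀ z ∈ Sg, ∀ g ∈ P, eval (thK K z) g = 0) →
    Cut K P Sg (CS e * flagTop P) → SweptOut K P Sg

/-- **the swept theorem** from the codimension one leaf -/
theorem sweptOut [CharZero k] [Infinite k] [CharZero K] [Infinite K] (h1 : SweptOne k K e)
    {P : Ideal (MvPolynomial (Fin e) K)} [hP : P.IsPrime] (hdim : dimP P + 1 ≤ e)
    (Sg : Finset (Pt e k)) (hSg : ∀ z ∈ Sg, ∀ g ∈ P, eval (thK K z) g = 0)
    (hcut : Cut K P Sg (CS e * flagTop P)) : SweptOut K P Sg := by
  rcases Nat.lt_or_ge (dimP P + 1) e with h | h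
  · exact sweptOut_two (by omega) Sg hSg hcut
  · exact h1 P Sg hP (by omega) hSg hcut

end swept

end setting

end Crest.Agent.R065.Swept143
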