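import Crest.Agent.R065.Cod1e_392
import Crest.Agent.R065.CaseG_649
import Crest.Agent.R065.Swept_143
import Crest.Agent.R065.SweptIdx_795

/-!
# Row 65, codimension one: the swept theorem   (helper392)
-/

set_option autoImplicit false

open MvPolynomial Module

namespace Crest.Agent.R065.Cod1q392

open Crest.Agent.R065.HF669 Crest.Agent.R065.Base348 Crest.Agent.R065.Cramer234
  Crest.Agent.R065.Mblk474 Crest.Agent.R065.Swept143 Crest.Agent.R065.Pins348

universe u

section cod1

variable {e : ℕ} {K : Type u} [Field K] [CharZero K]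

omit [CharZero K] in
lemma pos_of_mem {P : Ideal (MvPolynomial (Fin e) K)} [hP : P.IsPrime]
    {f : MvPolynomial (Fin e) K} (hf : f ∈ P) (hf0 : f ≠ 0) : f.totalDegree ≠ 0 := by
  intro h0
  rw [totalDegree_eq_zero_iff_eq_C] at h0
  rw [h0] at hf hf0
  have hc0 : coeff 0 f ≠ 0 := fun h => hf0 (by rw [h, C_0])
  apply hP.ne_top
  rw [Ideal.eq_top_iff_one]
  have := P.mul_mem_left (C (coeff 0 f)⁻¹) hf
  rwa [← C_mul, inv_mul_cancel₀ hc0, C_1] at this

/-- an element of minimal degree of a height one prime generates it -/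
lemma span_of_min [Infinite K] {P : Ideal (MvPolynomial (Fin e) K)} [hP : P.IsPrime]
    (hdim : dimP P + 1 = e) {f : MvPolynomial (Fin e) K} (hf : f ∈ P) (hf0 : f ≠ 0)
    (hmin : ∀ g ∈ P, g.totalDegree < f.totalDegree → g = 0) : P = Ideal.span {f} := by
  have hpos := pos_of_mem hf hf0
  have hirr : Irreducible f := by
    refine ⟨fun hu => hP.ne_top (Ideal.eq_top_of_isUnit_mem P hf hu), fun a b hab => ?_⟩
    have ha0 : a ≠ 0 := by rintro rfl; rw [zero_mul] at hab; exact hf0 hab
    have hb0 : b ≠ 0 := by rintro rfl; rw [mul_zero] at hab; exact hf0 hab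
    have hdeg : f.totalDegree = a.totalDegree + b.totalDegree := by
      rw [hab, totalDegree_mul_of_isDomain ha0 hb0]
    have hunit : ∀ c : MvPolynomial (Fin e) K, c ≠ 0 → c.totalDegree = 0 → IsUnit c := by
      intro c hc hc'
      rw [totalDegree_eq_zero_iff_eq_C] at hc'
      rw [hc'] at hc ⊢
      have : coeff 0 c ≠ 0 := fun h => hc (by rw [h, C_0])
      exact (isUnit_iff_ne_zero.2 this).map C
    rw [hab] at hf
    rcases hP.mem_or_mem hf with h | h
    · right
      refine hunit b hb0 ?_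
      by_contra hne
      exact ha0 (hmin a h (by omega))
    · left
      refine hunit a ha0 ?_
      by_contra hne
      exact hb0 (hmin b h (by omega))
  have hprime : (Ideal.span {f}).IsPrime := (Ideal.span_singleton_prime hf0).2 hirr.prime
  have hle : Ideal.span {f} ≤ P := (Ideal.span_singleton_le_iff_mem _).2 hf
  by_contra hne
  have hlt : Ideal.span {f} < P := lt_of_le_of_ne hle (Ne.symm hne)
  have h1 := dimP_lt hlt
  have hbot : (⊥ : Ideal (MvPolynomial (Fin e) K)) < Ideal.span {f} := by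
    rw [bot_lt_iff_ne_bot, Ne, Ideal.span_singleton_eq_bot]
    exact hf0
  have h2 := dimP_lt hbot
  rw [dimP_bot, Fintype.card_fin] at h2
  omega

lemma exists_pderiv_notMem {P : Ideal (MvPolynomial (Fin e) K)} [hP : P.IsPrime]
    {f : MvPolynomial (Fin e) K} (hf : f ∈ P) (hf0 : f ≠ 0)
    (hmin : ∀ g ∈ P, g.totalDegree < f.totalDegree → g = 0) : ∃ a, pderiv a f ∉ P := by
  have hpos := pos_of_mem hf hf0
  by_contra hcc
  push Not at hcc
  have h0 : ∀ a, pderiv a f = 0 := by
    intro a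
    apply hmin _ (hcc a)
    have := Cramer234.totalDegree_pderiv_le a f
    omega
  obtain ⟨c, hc'⟩ := eq_C_of_pderiv_eq_zero h0
  apply hpos
  rw [hc', totalDegree_C]

end cod1

section main

variable {e : ℕ} {k : Type*} [Field k] [CharZero k] [Infinite k] {K : Type u} [Field K]
  [CharZero K] [Infinite K] [Algebra (MvPolynomial (Pr e) k) K] [Algebra k K]
  [IsScalarTower k (MvPolynomial (Pr e) k) K] [IsFractionRing (MvPolynomial (Pr e) k) K]

/-- `Q` is a constant variety belonging to `P` -/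
def IsCV (P : Ideal (MvPolynomial (Fin e) K)) (Q : Ideal (MvPolynomial (Fin e ⊕ Fin e) k)) :
    Prop :=
  Q.IsPrime ∧ dimP Q = dimP P ∧ degP Q ≤ 2 * degP P ∧
    ∀ m, HF Q m ≤ 2 * degP P * (m + dimP P).choose (dimP P)

/-- **swept theorem in codimension one** -/
theorem swept1_core {P : Ideal (MvPolynomial (Fin e) K)} [hP : P.IsPrime]
    (hdim : dimP P + 1 = e) (Sig : Set (Pt e k))
    (hSig : ∀ z ∈ Sig, ∀ g ∈ P, eval (thK K z) g = 0) {D : ℕ} (hD1 : 1 ≤ D) (hflag : flagTop P ≤ D)
    (hH : ∀ g : MvPolynomial (Fin e) K, g.totalDegree ≤ 31 * D →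
      (∀ z ∈ Sig, eval (thK K z) g = 0) → g ∈ P) :
    ((∃ f : MvPolynomial (Fin e) K, P = Ideal.span {f} ∧ f.totalDegree = 1) ∧
      ∀ z ∈ Sig, ∀ w ∈ Sig, Null z w) ∨
    ∃ B : MvPolynomial (Fin e) K, B ∉ P ∧ B.totalDegree ≤ 11 * D ∧
      ∃ Q₁ Q₂ : Ideal (MvPolynomial (Fin e ⊕ Fin e) k), IsCV P Q₁ ∧ IsCV P Q₂ ∧
        ∀ z ∈ Sig, eval (thK K z) B ≠ 0 →
          (∀ q ∈ Q₁, eval (toFn z) q = 0) ∨ (∀ q ∈ Q₂, eval (toFn z) q = 0) := by
  classical
  obtain ⟨δ, hδ, hS, hCst⟩ := exists_delta k K (e := e)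
  obtain ⟨f, hf, hf0, hfd, hmin⟩ := exists_min (P := P) (by omega)
  have hfD : f.totalDegree ≤ D := hfd.trans hflag
  have hPf := span_of_min hdim hf hf0 hmin
  have hdvd : ∀ g ∈ P, f ∣ g := by
    intro g hg
    rw [hPf, Ideal.mem_span_singleton] at hg
    exact hg
  obtain ⟨a, ha⟩ := exists_pderiv_notMem hf hf0 hmin
  set SigK : Set (Pt e K) := (toK K) '' Sig with hSigK
  have hx : ∀ z ∈ SigK, Cst δ z.1 ∧ Cst δ z.2 := by
    rintro _ ⟨z, -, rfl⟩
    exact hCst z
  have hSP : ∀ z ∈ SigK, ∀ g ∈ P, eval (th (SK k K) z) g = 0 := by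
    rintro _ ⟨z, hz, rfl⟩ g hg
    exact hSig z hz g hg
  have hH' : ∀ g : MvPolynomial (Fin e) K, g.totalDegree ≤ 31 * D →
      (∀ z ∈ SigK, eval (th (SK k K) z) g = 0) → g ∈ P :=
    fun g hg hz => hH g hg fun z hz' => hz _ ⟨z, hz', rfl⟩
  by_cases hq : ∃ p j, Cod1.q2 f a p j ∉ P ∨ Cod1.q1 δ f a p j ∉ P
  · right
    obtain ⟨s, g, hG, hgR⟩ := exists_good hS hfD hdvd hf hx hSP hH' ha hq
    obtain ⟨F, _, _, θ, α, hker, hα, hfr⟩ := hG.exists_field
    obtain ⟨hfd', hfin⟩ := hG.finrank_le hker hα hfr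
    obtain ⟨β, hinj, hβ, hβfr⟩ := hG.exists_roots hker hα hfr
    choose Dd ξ η hC hξ using fun l => hG.constData hS hker (hβ l) (hβfr l)
    letI : Algebra k F := ((algebraMap K F).comp (algebraMap k K)).toAlgebra
    haveI : IsScalarTower k K F := IsScalarTower.of_algebraMap_eq (fun _ => rfl)
    have hPker : P = RingHom.ker (aeval θ : MvPolynomial (Fin e) K →ₐ[K] F) := by
      ext g
      rw [RingHom.mem_ker]
      exact (hker g).symm
    have hP0 : P ≠ ⊥ := by
      intro h
      rw [h] at hf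
      exact hf0 ((Submodule.mem_bot _).1 hf)
    let M : Fin s → Ideal (MvPolynomial (Fin e ⊕ Fin e) k) := fun l =>
      RingHom.ker (aeval (Sum.elim (ξ l) (η l)) : MvPolynomial (Fin e ⊕ Fin e) k →ₐ[k] F)
    have hM : ∀ l, IsCV P (M l) := fun l =>
      constVar hδ (hC l) hP0 hPker hfin (M := M l) rfl
    refine ⟨pderiv a f * g.coeff s, ?_, ?_, M ⟨0, hG.pos⟩, M ⟨s - 1, by have := hG.pos; omega⟩,
      hM _, hM _, fun z hz hzB => ?_⟩
    · intro h
      rcases hP.mem_or_mem h with h | h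
      · exact ha h
      · exact hG.lead h
    · refine (totalDegree_mul _ _).trans ?_
      have h1 := Cramer234.totalDegree_pderiv_le a f
      have h2 := hgR.deg s
      omega
    · rw [map_mul] at hzB
      -- `z` lies on one of the varieties
      have hex : ∃ l, ∀ q ∈ M l, eval (toFn z) q = 0 := by
        by_contra hcon
        push Not at hcon
        choose q hq1 hq2 using hcon
        have h5 := hG.spec hS hker (Fintype.card_fin s) hinj hβ hξ (fun l i => (hC l).theta i)
          (z := toK K z) ⟨z, hz, rfl⟩ (hCst z).1 (hCst z).2 hf (hSP _ ⟨z, hz, rfl⟩)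
          (left_ne_zero_of_mul hzB) (right_ne_zero_of_mul hzB)
          (fun l => map (algebraMap k K) (q l)) (fun l => by
            rw [aeval_map_algebraMap]
            exact hq1 l)
        rw [Finset.prod_eq_zero_iff] at h5
        obtain ⟨l, -, h5⟩ := h5
        have h6 : eval (Sum.elim (toK K z).1 (toK K z).2) (map (algebraMap k K) (q l)) =
            algebraMap k K (eval (toFn z) (q l)) := by
          have e0 : (Sum.elim (toK K z).1 (toK K z).2) = algebraMap k K ∘ toFn z := by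
            funext i
            rcases i with i | i <;> rfl
          have e1 := MvPolynomial.aeval_algebraMap_apply (A := k) K (toFn z) (q l)
          rw [e0, eval_map]
          exact e1
        rw [h6] at h5
        exact hq2 l ((map_eq_zero _).1 h5)
      obtain ⟨l, hl⟩ := hex
      have hl2 : l = ⟨0, hG.pos⟩ ∨ l = ⟨s - 1, by have := hG.pos; omega⟩ := by
        have h1 := hG.le
        have h2 := l.2
        rcases Nat.eq_zero_or_pos l.1 with h | h
        · left; ext; exact h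
        · right; ext; simp only; omega
      rcases hl2 with rfl | rfl
      · exact Or.inl hl
      · exact Or.inr hl
  · left
    push Not at hq
    have hex : ∃ z ∈ SigK, eval (th (SK k K) z) (pderiv a f) ≠ 0 := by
      by_contra hcon
      push Not at hcon
      refine ha (hH' _ ?_ hcon)
      have := Cramer234.totalDegree_pderiv_le a f
      omega
    have hnull := Cod1.null_of_all_mem hS hf hdvd hmin (fun p j => (hq p j).1)
      (fun p j => (hq p j).2) (Sig := SigK) (fun z hz => (hx z hz).1) (fun z hz => (hx z hz).2)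
      (fun z hz => hSP z hz f hf) hex
    obtain ⟨z0, hz0, hz0'⟩ := hex
    have hle1 := Cod1.totalDegree_le_one hf hdvd hmin (fun p j => (hq p j).1) (hSP z0 hz0 f hf)
      hz0'
    refine ⟨⟨f, hPf, ?_⟩, fun z hz w hw => ?_⟩
    · have := pos_of_mem hf hf0
      omega
    · have h1 := hnull _ ⟨z, hz, rfl⟩ _ ⟨w, hw, rfl⟩
      unfold Null q at h1 ⊢
      have h2 : algebraMap k K (∑ i, (z - w).1 i * (z - w).2 i) = 0 := by
        rw [← h1, map_sum]
        refine Finset.sum_congr rfl fun i _ => ?_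
        simp [toK]
      exact (map_eq_zero _).1 h2

/-- 143's leaf -/
theorem sweptOne : SweptOne k K e := by
  classical
  intro P Sg hP hdim hSg hcut
  have h1 : 1 ≤ flagTop P := by
    obtain ⟨f, hf, hf0, hfd, hmin⟩ := exists_min (P := P) (by omega)
    have := pos_of_mem hf hf0
    omega
  have hCS : 31 * flagTop P ≤ CS e * flagTop P := by
    refine Nat.mul_le_mul_right _ ?_
    unfold CS
    omega
  rcases swept1_core hdim (Sg : Set (Pt e k)) hSg h1 le_rfl (fun g hg hz => by
    refine hcut g (hg.trans hCS) ?_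
    rw [Finset.filter_true_of_mem (fun z hz' => hz z hz')]
    omega) with h | ⟨B, hB, hBd, Q₁, Q₂, h₁, h₂, hz⟩
  · exact Or.inl h
  · right
    have hBfew : ¬ Sg.card ≤ 16 * (Sg.filter fun z => eval (thK K z) B = 0).card := fun h =>
      hB (hcut B (hBd.trans (by omega)) h)
    have hsub : Sg ⊆ (Sg.filter fun z => eval (thK K z) B = 0) ∪ (onM Sg Q₁ ∪ onM Sg Q₂) := by
      intro z hz'
      simp only [Finset.mem_union, Finset.mem_filter, onM]
      by_cases hb : eval (thK K z) B = 0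
      · exact Or.inl ⟨hz', hb⟩
      · rcases hz z hz' hb with h | h
        · exact Or.inr (Or.inl ⟨hz', h⟩)
        · exact Or.inr (Or.inr ⟨hz', h⟩)
    have h2 := Finset.card_le_card hsub
    have h3 := Finset.card_union_le (Sg.filter fun z => eval (thK K z) B = 0)
      (onM Sg Q₁ ∪ onM Sg Q₂)
    have h4 := Finset.card_union_le (onM Sg Q₁) (onM Sg Q₂)
    rcases Nat.lt_or_ge (onM Sg Q₂).card (onM Sg Q₁).card with h | h
    · exact ⟨Q₁, h₁.1, h₁.2.1, h₁.2.2.1, h₁.2.2.2, by omega⟩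
    · exact ⟨Q₂, h₂.1, h₂.2.1, h₂.2.2.1, h₂.2.2.2, by omega⟩

/-- 795's leaf -/
theorem swept1Set : Glue795.Swept1Set k K e := by
  refine ⟨31, fun P hP hdim Sig Dd _ hDd hSig hflag hH => ?_⟩
  rcases swept1_core hdim Sig hSig hDd hflag hH with
    ⟨⟨f, hf, hf1⟩, h⟩ | ⟨B, hB, hBd, Q₁, Q₂, h₁, h₂, hz⟩
  · refine Or.inl ⟨⟨f, ?_, ?_, hf1.le⟩, h⟩
    · rw [hf]; exact Ideal.mem_span_singleton_self f
    · rintro rfl
      simp at hf1
  · exact Or.inr ⟨B, hB, hBd.trans (by omega), Q₁, Q₂, ⟨h₁.1, h₁.2.1, h₁.2.2.1⟩,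
      ⟨h₂.1, h₂.2.1, h₂.2.2.1⟩, hz⟩

end main

end Crest.Agent.R065.Cod1q392
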