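import Crest.Agent.R065.Spl_143
import Crest.Agent.R065.Extr_477
import Crest.Agent.R065.Swept1_392
import Crest.Agent.R065.M4defs_96
import Crest.Agent.R065.D3d_477

/-!
# Row 65: LEVEL-0, unconditional, in the forms used by the masters
-/

set_option autoImplicit false

open MvPolynomial Module

namespace Crest.Agent.R065.L0fin143

open Crest.Agent.R065.HF669 Crest.Agent.R065.Base348 Crest.Agent.R065.Cramer234
  Crest.Agent.R065.Mblk474 Crest.Agent.R065.Pins348 Crest.Agent.R065.Swept143
  Crest.Agent.R065.Spl143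

section gen

variable {e : ℕ} {k : Type*} [Field k] [CharZero k] [Infinite k] {K : Type*} [Field K]
  [CharZero K] [Infinite K]
  [Algebra (MvPolynomial (Pr e) k) K] [Algebra k K] [IsScalarTower k (MvPolynomial (Pr e) k) K]
  [IsFractionRing (MvPolynomial (Pr e) k) K]

/-- the extremal variety (477 / 203) in the form of `Spl_143` -/
theorem extrIn : ExtrIn e k K := by
  classical
  intro Lam
  obtain ⟨C, hC⟩ := Extr477.extr (k := K) (σ := Fin e) (ι := Pt e k) 16 Lam
  refine ⟨C, ?_⟩
  intro T h Sg hT hh0 hhd hvan hne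
  obtain ⟨P, hP, hhP, -, Dd, -, hDd, -, hgap, hcard⟩ := hC h T hh0 hT hhd (thK K) Sg hne hvan
  have hon : Extr477.on (thK K) Sg P = onV K Sg P := by
    ext z
    rw [Extr477.mem_on, mem_ZV]
    unfold onV
    rw [Finset.mem_filter]
  rw [hon] at hgap hcard
  refine ⟨P, hP, hhP, ?_, ?_⟩
  · intro g hg hgc
    refine hgap g (hg.trans (Nat.mul_le_mul_left _ hDd)) _ ?_ hgc
    intro z hz
    exact ⟨(Finset.mem_filter.1 hz).1, (Finset.mem_filter.1 hz).2⟩
  · rw [Fintype.card_fin] at hcard
    calc Sg.card * degP P ≤ Sg.card * ((1 + Wt639.ordP P h) * degP P) := by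
          refine Nat.mul_le_mul_left _ ?_
          exact Nat.le_mul_of_pos_left _ (by omega)
      _ ≤ C * (onV K Sg P).card * T ^ (e - dimP P) := hcard
      _ = C * T ^ (e - dimP P) * (onV K Sg P).card := by ring

variable (e k K) in
/-- **LEVEL-0**, abstract form, unconditional -/
theorem l0abs_final : L0abs e k K := l0abs extrIn Cod1q392.sweptOne

end gen

/-- LEVEL-0 for the masters -/
theorem l0inD (d : ℕ) : M4.L0inD d := by
  classical
  obtain ⟨C, hC, h⟩ := l0abs_final d ℂ (FractionRing (MvPolynomial (Pr d) ℂ))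
  refine ⟨C, hC, ?_⟩
  intro m f Sg τ ν hm hf0 hfd hvan hτ hν hP hnull
  refine h m (toKp ℂ (FractionRing (MvPolynomial (Pr d) ℂ)) f) Sg τ ν hm
    (toKp_ne_zero _ hf0) ((totalDegree_toKp_le _ f).trans hfd) (fun z hz => ?_)
    (fun r => zero_le_one.trans (hτ r)) (zero_le_one.trans hν) (fun M hM hMd => ?_) hnull
  · rw [eval_toKp, hvan z hz, map_zero]
  · exact hP M hM hMd

/-- INPUT L0(3) -/
theorem l0in : D3in855.L0in := by
  classical
  obtain ⟨C, hC, h⟩ := l0abs_final 3 ℂ (FractionRing (MvPolynomial (Pr 3) ℂ))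
  refine ⟨C, hC, ?_⟩
  intro m f Sg τ₁ τ₂ ν hm hf0 hfd hvan hτ1 hτ2 hν hP1 hP2 hnull
  set τ : ℕ → ℝ := fun r => if r = 0 then 1 else if r = 1 then τ₁ else τ₂ with hτ
  have h1 := h m (toKp ℂ (FractionRing (MvPolynomial (Pr 3) ℂ)) f) Sg τ ν hm
    (toKp_ne_zero _ hf0) ((totalDegree_toKp_le _ f).trans hfd) (fun z hz => by
      rw [eval_toKp, hvan z hz, map_zero])
    (fun r => by
      simp only [hτ]
      split_ifs <;> linarith) (by linarith) (fun M hM hMd => ?_) hnull
  · refine h1.trans (le_of_eq ?_)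
    simp only [Finset.sum_range_succ, Finset.range_zero, Finset.sum_empty, hτ]
    norm_num
  · have h3 : dimP M = 0 ∨ dimP M = 1 ∨ dimP M = 2 := by omega
    rcases h3 with h3 | h3 | h3
    · have hcard : (onM Sg M).card ≤ degP M := by
        have h4 : ((onM Sg M).image toFn).card = (onM Sg M).card :=
          Finset.card_image_of_injective _ toFn_injective
        rw [← h4]
        refine D3d477.card_dim_zero h3 ?_
        intro x hx
        rw [Finset.mem_coe, Finset.mem_image] at hx
        obtain ⟨z, hz, rfl⟩ := hx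
        exact (Finset.mem_filter.1 hz).2
      have h5 : ((onM Sg M).card : ℝ) ≤ degP M := by exact_mod_cast hcard
      simp only [hτ, h3]
      simpa using h5
    · have h4 : ((onM Sg M).card : ℝ) ≤ τ₁ * degP M := hP1 M hM h3
      simp only [hτ, h3]
      simpa using h4
    · have h4 : ((onM Sg M).card : ℝ) ≤ τ₂ * degP M := hP2 M hM h3
      simp only [hτ, h3]
      simpa using h4

end Crest.Agent.R065.L0fin143
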