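import Crest.Agent.R065.Swept2_795
import Crest.Agent.R065.Wt_639

/-!
# Row 65: literal Props of the trunk in INDEX form (helper795)

`ExtrP K e` (extremal variety, weight `1 + ordP P h`) and `SweptP k K e` (swept theorem), used
both by LEVEL-0 (`e = d`) and by the rank lemma (`e = d - 1`).
-/

set_option autoImplicit false

open MvPolynomial Module

namespace Crest.Agent.R065.Glue795

open Crest.Agent.R065.HF669 Crest.Agent.R065.Base348 Crest.Agent.R065.Wt639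

open scoped Classical in
/-- the indices whose point lies on `P` -/
noncomputable def onI {ι : Type} {K : Type*} [Field K] {e : ℕ} (Sg : Finset ι)
    (p : ι → (Fin e → K)) (P : Ideal (MvPolynomial (Fin e) K)) : Finset ι :=
  Sg.filter fun i => ∀ g ∈ P, eval (p i) g = 0

open scoped Classical in
/-- the indices where `g` vanishes -/
noncomputable def zeI {ι : Type} {K : Type*} [Field K] {e : ℕ} (Sg : Finset ι)
    (p : ι → (Fin e → K)) (g : MvPolynomial (Fin e) K) : Finset ι :=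
  Sg.filter fun i => eval (p i) g = 0

/-- EXTREMAL VARIETY, index form, weight `1 + ordP P h` -/
def ExtrP (K : Type*) [Field K] [Infinite K] (e : ℕ) : Prop :=
  ∀ Ce : ℕ, ∃ C : ℕ, ∀ (ι : Type) (Sg : Finset ι) (p : ι → (Fin e → K)) (m : ℕ)
    (h : MvPolynomial (Fin e) K), 1 ≤ m → h ≠ 0 → h.totalDegree ≤ m →
    (∀ i ∈ Sg, eval (p i) h = 0) → Sg.Nonempty →
    ∃ P : Ideal (MvPolynomial (Fin e) K), P.IsPrime ∧ h ∈ P ∧ ∃ Dd : ℕ, m ≤ Dd ∧ flagTop P ≤ Dd ∧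
      (∀ g : MvPolynomial (Fin e) K, g.totalDegree ≤ Ce * Dd →
        (onI Sg p P).card ≤ 8 * (zeI (onI Sg p P) p g).card → g ∈ P) ∧
      Sg.card * ((1 + ordP P h) * degP P) ≤ C * ((onI Sg p P).card * m ^ (e - dimP P))

open scoped Classical in
/-- SWEPT THEOREM, index form -/
def SweptP (k : Type*) [Field k] [Infinite k] (K : Type*) [Field K] [Infinite K] (e : ℕ)
    [Algebra (MvPolynomial (Pr e) k) K] [Algebra k K] : Prop :=
  ∃ Ce : ℕ, ∀ (P : Ideal (MvPolynomial (Fin e) K)), P.IsPrime → P ≠ ⊥ →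
    ∀ (ι : Type) (Sg : Finset ι) (ω : ι → Pt e k) (Dd : ℕ), Sg.Nonempty → 1 ≤ Dd →
    (∀ i ∈ Sg, ∀ g ∈ P, eval (thz k K (ω i)) g = 0) → flagTop P ≤ Dd →
    (∀ g : MvPolynomial (Fin e) K, g.totalDegree ≤ Ce * Dd →
      Sg.card ≤ 8 * (zeI Sg (fun i => thz k K (ω i)) g).card → g ∈ P) →
    (dimP P + 1 = e ∧ (∃ l ∈ P, l ≠ 0 ∧ l.totalDegree ≤ 1) ∧
      ∀ i ∈ Sg, ∀ j ∈ Sg, Null (ω i) (ω j)) ∨
    ∃ Q : Ideal (MvPolynomial (Fin e ⊕ Fin e) k), Q.IsPrime ∧ dimP Q = dimP P ∧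
      degP Q ≤ 2 * degP P ∧
      Sg.card ≤ 4 * (Sg.filter fun i => ∀ q ∈ Q, eval (Pins348.toFn (ω i)) q = 0).card

end Crest.Agent.R065.Glue795
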