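import Crest.Agent.R065.Extr_203
import Crest.Agent.R065.SplDefs_795

/-!
# Row 65: `ExtrP` (795's literal Prop) from `Extr203.extremal`, and the weight 1 version
-/

set_option autoImplicit false

open MvPolynomial Finset

namespace Crest.Agent.R065.Extr203

open Crest.Agent.R065.HF669 Crest.Agent.R065.Glue795 Crest.Agent.R065.Wt639

theorem extrP (K : Type*) [Field K] [Infinite K] [CharZero K] (e : ℕ) : ExtrP K e := by
  intro Ce
  refine ⟨Cx e Ce, fun ι Sg p m h hm hh hdeg hz hne => ?_⟩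
  obtain ⟨V, hV, hhV, -, D, hmD, hfl, hgap, hcard⟩ :=
    extremal Sg hne p hh hm hdeg hz (weight_ord hh hdeg) Ce
  refine ⟨V, hV, hhV, D, hmD, hfl, fun g hg h8 => hgap g hg h8, ?_⟩
  have h1 : (onI Sg p V).card = (on Sg p V).card := rfl
  rw [h1]
  simp only [Fintype.card_fin] at hcard
  calc Sg.card * ((1 + ordP V h) * degP V) ≤
        Cx e Ce * m ^ (e - dimP V) * (on Sg p V).card := hcard
    _ = _ := by ring

/-- weight 1 version (L0) -/
theorem extrP_one (K : Type*) [Field K] [Infinite K] [CharZero K] (e : ℕ) (Ce : ℕ) :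
    ∃ C : ℕ, ∀ (ι : Type) (Sg : Finset ι) (p : ι → (Fin e → K)) (m : ℕ)
      (h : MvPolynomial (Fin e) K), 1 ≤ m → h ≠ 0 → h.totalDegree ≤ m →
      (∀ i ∈ Sg, eval (p i) h = 0) → Sg.Nonempty →
      ∃ P : Ideal (MvPolynomial (Fin e) K), P.IsPrime ∧ h ∈ P ∧ (onI Sg p P).Nonempty ∧
        ∃ Dd : ℕ, m ≤ Dd ∧ flagTop P ≤ Dd ∧
        (∀ g : MvPolynomial (Fin e) K, g.totalDegree ≤ Ce * Dd →
          (onI Sg p P).card ≤ 8 * (zeI (onI Sg p P) p g).card → g ∈ P) ∧
        Sg.card * degP P ≤ C * ((onI Sg p P).card * m ^ (e - dimP P)) := by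
  refine ⟨Cx e Ce, fun ι Sg p m h hm hh hdeg hz hne => ?_⟩
  obtain ⟨V, hV, hhV, hVne, D, hmD, hfl, hgap, hcard⟩ :=
    extremal Sg hne p hh hm hdeg hz (weight_one m) Ce
  refine ⟨V, hV, hhV, hVne, D, hmD, hfl, fun g hg h8 => hgap g hg h8, ?_⟩
  have h1 : (onI Sg p V).card = (on Sg p V).card := rfl
  rw [h1]
  simp only [Fintype.card_fin, one_mul] at hcard
  calc Sg.card * degP V ≤ Cx e Ce * m ^ (e - dimP V) * (on Sg p V).card := hcard
    _ = _ := by ring

end Crest.Agent.R065.Extr203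

#print axioms Crest.Agent.R065.Extr203.extrP
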