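import Crest.Agent.R065.RankD_417
import Crest.Agent.R065.ExtrP_203
import Crest.Agent.R065.Swept1_392

/-!
# Row 65: the rank lemma, unconditional (helper417)

`rankD : 2 ≤ d → M4.RankD d`, and the general form `rankGen'` (input of both masters).
-/

set_option autoImplicit false

open MvPolynomial Module

namespace Crest.Agent.R065.Rank417

open Crest.Agent.R065.HF669 Crest.Agent.R065.Base348 Crest.Agent.R065.Slice417
  Crest.Agent.R065.Glue795

theorem sweptP_K1 (e : ℕ) : SweptP ℂ (K1 e) e :=
  Glue795.sweptP_of Cod1q392.swept1Set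

theorem rankD {d : ℕ} (hd : 2 ≤ d) : M4.RankD d := by
  obtain ⟨e, rfl⟩ : ∃ e, d = e + 1 := ⟨d - 1, by omega⟩
  exact rankD_of (by omega) (Extr203.extrP (K1 e) e) (sweptP_K1 e)

end Crest.Agent.R065.Rank417
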