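import Crest.Agent.R065.M4pre_96
import Crest.Agent.R065.L0fin_143
import Crest.Agent.R065.RankDfin_417
import Crest.Agent.R065.Final_348

/-!
# Row 65: the bound in every dimension `d ≥ 4`
-/

set_option autoImplicit false

namespace Crest.Agent.R065.M4

/-- **`n² ≤ (A t)^d` in every dimension `d ≥ 4`.** -/
theorem bd_of_four_le {d : ℕ} (hd : 4 ≤ d) : Final348.Bd d :=
  bd4 hd (L0fin143.l0inD d) (Rank417.rankD (by omega))


end Crest.Agent.R065.M4
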