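import Crest.Agent.R065.Base_348

/-!
# Row 65: derivations acting on coefficients, vector fields on polynomial rings

`cD δ` : the derivation of `K[z]` acting through `δ` on the coefficients;
`vf b δ a = b • cD δ + ∑ a_j ∂_j`.
-/

set_option autoImplicit false

open MvPolynomial Module

namespace Crest.Agent.R065.Cramer234

open Crest.Agent.R065.HF669 Crest.Agent.R065.Base348

section coef

variable {σ : Type*} {K : Type*} [CommRing K]

/-- the additive map acting on coefficients -/
noncomputable def cHom (δ : Derivation ℤ K K) : MvPolynomial σ K →+ MvPolynomial σ K where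
  toFun p := AddMonoidAlgebra.map ((δ : K →ₗ[ℤ] K) : K →+ K) p
  map_zero' := AddMonoidAlgebra.map_zero _
  map_add' := AddMonoidAlgebra.map_add _

lemma coeff_cHom (δ : Derivation ℤ K K) (p : MvPolynomial σ K) (s : σ →₀ ℕ) :
    coeff s (cHom δ p) = δ (coeff s p) := rfl

lemma cHom_monomial (δ : Derivation ℤ K K) (s : σ →₀ ℕ) (a : K) :
    cHom δ (monomial s a) = monomial s (δ a) := by
  classical
  ext t
  rw [coeff_cHom, coeff_monomial, coeff_monomial]
  split_ifs <;> simp

/-- the derivation acting on coefficients -/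
noncomputable def cD (δ : Derivation ℤ K K) :
    Derivation ℤ (MvPolynomial σ K) (MvPolynomial σ K) :=
  Derivation.mk' (cHom δ).toIntLinearMap (by
    intro p q
    change cHom δ (p * q) = p • cHom δ q + q • cHom δ p
    simp only [smul_eq_mul]
    induction p using MvPolynomial.induction_on' with
    | add p₁ p₂ h₁ h₂ => rw [add_mul, map_add, map_add, h₁, h₂]; ring
    | monomial s a =>
      induction q using MvPolynomial.induction_on' with
      | add q₁ q₂ h₁ h₂ => rw [mul_add, map_add, map_add, h₁, h₂]; ring
      | monomial t b =>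
        rw [monomial_mul, cHom_monomial, cHom_monomial, cHom_monomial, monomial_mul, monomial_mul,
          Derivation.leibniz, smul_eq_mul, smul_eq_mul, map_add, add_comm t s])

lemma coeff_cD (δ : Derivation ℤ K K) (p : MvPolynomial σ K) (s : σ →₀ ℕ) :
    coeff s (cD δ p) = δ (coeff s p) := rfl

lemma cD_monomial (δ : Derivation ℤ K K) (s : σ →₀ ℕ) (a : K) :
    cD δ (monomial s a) = monomial s (δ a) := cHom_monomial δ s a

lemma cD_C (δ : Derivation ℤ K K) (a : K) : cD δ (C a : MvPolynomial σ K) = C (δ a) :=
  cHom_monomial δ 0 a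

lemma cD_X (δ : Derivation ℤ K K) (i : σ) : cD δ (X i : MvPolynomial σ K) = 0 := by
  rw [X, cD_monomial]; simp

lemma totalDegree_cD_le (δ : Derivation ℤ K K) (p : MvPolynomial σ K) :
    (cD δ p).totalDegree ≤ p.totalDegree := by
  refine Finset.sup_mono ?_
  intro s hs
  rw [MvPolynomial.mem_support_iff, coeff_cD] at hs
  rw [MvPolynomial.mem_support_iff]
  intro h
  rw [h, map_zero] at hs
  exact hs rfl

/-- the partial derivatives as `ℤ`-derivations -/
noncomputable def pD (j : σ) : Derivation ℤ (MvPolynomial σ K) (MvPolynomial σ K) :=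
  (pderiv j).restrictScalars ℤ

lemma pD_apply (j : σ) (p : MvPolynomial σ K) : pD j p = pderiv j p := rfl

lemma sum_apply_der {ι R : Type*} [CommRing R] (s : Finset ι) (D : ι → Derivation ℤ R R) (p : R) :
    (∑ j ∈ s, D j) p = ∑ j ∈ s, D j p := by
  classical
  induction s using Finset.induction_on with
  | empty => simp
  | insert a s ha ih => rw [Finset.sum_insert ha, Finset.sum_insert ha, Derivation.add_apply, ih]

/-- a `δ`-linear vector field -/
noncomputable def vf [Fintype σ] (b : MvPolynomial σ K) (δ : Derivation ℤ K K)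
    (a : σ → MvPolynomial σ K) : Derivation ℤ (MvPolynomial σ K) (MvPolynomial σ K) :=
  b • cD δ + ∑ j, a j • pD j

lemma vf_apply [Fintype σ] (b : MvPolynomial σ K) (δ : Derivation ℤ K K)
    (a : σ → MvPolynomial σ K) (p : MvPolynomial σ K) :
    vf b δ a p = b * cD δ p + ∑ j, a j * pderiv j p := by
  have h : (∑ j, a j • (pD j : Derivation ℤ (MvPolynomial σ K) (MvPolynomial σ K))) p =
      ∑ j, a j * pderiv j p := sum_apply_der _ _ _
  rw [vf, Derivation.add_apply, h]
  rfl

lemma vf_C [Fintype σ] (b : MvPolynomial σ K) (δ : Derivation ℤ K K)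
    (a : σ → MvPolynomial σ K) (x : K) : vf b δ a (C x) = b * C (δ x) := by
  rw [vf_apply, cD_C]; simp

lemma vf_X [Fintype σ] (b : MvPolynomial σ K) (δ : Derivation ℤ K K)
    (a : σ → MvPolynomial σ K) (i : σ) : vf b δ a (X i) = a i := by
  classical
  rw [vf_apply, cD_X, mul_zero, zero_add, Finset.sum_eq_single i]
  · simp
  · intro j _ hj
    rw [pderiv_X_of_ne (Ne.symm hj), mul_zero]
  · simp

lemma totalDegree_pderiv_le (i : σ) (p : MvPolynomial σ K) :
    (pderiv i p).totalDegree ≤ p.totalDegree - 1 := by
  classical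
  rw [MvPolynomial.totalDegree, Finset.sup_le_iff]
  intro m hm
  have hm' : m + Finsupp.single i 1 ∈ p.support := by
    rw [MvPolynomial.mem_support_iff, coeff_pderiv] at hm
    rw [MvPolynomial.mem_support_iff]
    exact left_ne_zero_of_mul hm
  have h1 := le_totalDegree hm'
  have h2 : ((m + Finsupp.single i 1).sum fun _ e => e) = (m.sum fun _ e => e) + 1 := by
    rw [Finsupp.sum_add_index' (by simp) (by simp)]
    simp
  rw [h2] at h1
  omega

lemma totalDegree_vf_le [Fintype σ] {b : MvPolynomial σ K} {δ : Derivation ℤ K K}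
    {a : σ → MvPolynomial σ K} {D : ℕ} (hb : b.totalDegree ≤ D)
    (ha : ∀ j, (a j).totalDegree ≤ D + 1) (p : MvPolynomial σ K) :
    (vf b δ a p).totalDegree ≤ p.totalDegree + D := by
  rw [vf_apply]
  refine (totalDegree_add _ _).trans (max_le ?_ ?_)
  · refine (totalDegree_mul _ _).trans ?_
    have := totalDegree_cD_le δ p
    omega
  · refine totalDegree_finsetSum_le fun j _ => ?_
    by_cases h0 : p.totalDegree = 0
    · have : pderiv j p = 0 := by
        rw [totalDegree_eq_zero_iff_eq_C.1 h0, pderiv_C]
      rw [this, mul_zero, totalDegree_zero]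
      exact Nat.zero_le _
    · refine (totalDegree_mul _ _).trans ?_
      have h1 := totalDegree_pderiv_le j p
      have h2 := ha j
      omega

/-- chain rule at a point -/
lemma deriv_eval [Fintype σ] (δ : Derivation ℤ K K) (θ : σ → K) (p : MvPolynomial σ K) :
    δ (eval θ p) = eval θ (cD δ p) + ∑ j, eval θ (pderiv j p) * δ (θ j) := by
  induction p using MvPolynomial.induction_on with
  | C a => rw [cD_C]; simp
  | add p q hp hq =>
    simp only [map_add, hp, hq, add_mul, Finset.sum_add_distrib]
    ring
  | mul_X p i hp =>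
    classical
    rw [map_mul, eval_X, Derivation.leibniz, hp, (cD δ).leibniz, cD_X]
    have : ∀ j, eval θ (pderiv j (p * X i)) * δ (θ j) =
        θ i * (eval θ (pderiv j p) * δ (θ j)) + if j = i then eval θ p * δ (θ j) else 0 := by
      intro j
      rw [pderiv_mul, map_add, map_mul, map_mul, eval_X]
      split_ifs with h
      · subst h; simp; ring
      · rw [pderiv_X_of_ne (Ne.symm h)]; simp; ring
    simp only [this, Finset.sum_add_distrib, ← Finset.mul_sum, Finset.sum_ite_eq', Finset.mem_univ,
      if_true, smul_eq_mul, mul_zero, zero_add, map_mul, eval_X]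
    ring

/-- evaluation of a vector field -/
lemma eval_vf [Fintype σ] (b : MvPolynomial σ K) (δ : Derivation ℤ K K)
    (a : σ → MvPolynomial σ K) (θ : σ → K)
    (h : ∀ j, eval θ (a j) = eval θ b * δ (θ j)) (p : MvPolynomial σ K) :
    eval θ (vf b δ a p) = eval θ b * δ (eval θ p) := by
  rw [vf_apply, map_add, map_mul, map_sum, deriv_eval, mul_add, Finset.mul_sum]
  congr 1
  refine Finset.sum_congr rfl fun j _ => ?_
  rw [map_mul, h j]; ring

end coef

end Crest.Agent.R065.Cramer234
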