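import Crest.Agent.R065.NN_669

/-!
# The upper bound `HF P m ≤ δ * choose (m + j) j` by the power trick
-/

set_option autoImplicit false

open MvPolynomial Module
open scoped Pointwise

namespace Crest.Agent.R065.HF669

variable {k : Type*} [Field k] {σ τ : Type*} {E : Type*} [CommRing E] [Algebra k E]

/-- order of vanishing at the origin at least `r` -/
def Ord {j : Type*} (r : ℕ) (f : MvPolynomial j k) : Prop :=
  (r : ℕ∞) ≤ (f : MvPowerSeries j k).order

lemma ord_iff {j : Type*} {r : ℕ} {f : MvPolynomial j k} :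
    Ord r f ↔ ∀ n : j →₀ ℕ, n.degree < r → coeff n f = 0 := by
  constructor
  · intro h n hn
    have := MvPowerSeries.coeff_of_lt_order (f := (f : MvPowerSeries j k)) (d := n)
      (lt_of_lt_of_le (by exact_mod_cast hn) h)
    rwa [MvPolynomial.coeff_coe] at this
  · intro h
    refine MvPowerSeries.nat_le_order fun d hd => ?_
    rw [MvPolynomial.coeff_coe]
    exact h d hd

lemma Ord.mul {j : Type*} {r s : ℕ} {f g : MvPolynomial j k} (hf : Ord r f) (hg : Ord s g) :
    Ord (r + s) (f * g) := by
  unfold Ord at *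
  rw [MvPolynomial.coe_mul]
  refine le_trans ?_ MvPowerSeries.le_order_mul
  push_cast
  exact add_le_add hf hg

lemma Ord.add {j : Type*} {r : ℕ} {f g : MvPolynomial j k} (hf : Ord r f) (hg : Ord r g) :
    Ord r (f + g) := by
  rw [ord_iff] at *
  intro n hn
  rw [coeff_add, hf n hn, hg n hn, add_zero]

lemma Ord.sum {j ι : Type*} {r : ℕ} {s : Finset ι} {f : ι → MvPolynomial j k}
    (hf : ∀ i ∈ s, Ord r (f i)) : Ord r (∑ i ∈ s, f i) := by
  rw [ord_iff]
  intro n hn
  rw [coeff_sum]
  exact Finset.sum_eq_zero fun i hi => ord_iff.1 (hf i hi) n hn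

lemma Ord.zero {j : Type*} {f : MvPolynomial j k} : Ord 0 f := by
  unfold Ord; simp

lemma Ord.mul_right {j : Type*} {r : ℕ} {f : MvPolynomial j k} (hf : Ord r f)
    (g : MvPolynomial j k) : Ord r (f * g) := by
  have := hf.mul (Ord.zero (f := g))
  rwa [add_zero] at this

lemma Ord.of_mul {j : Type*} {r : ℕ} {h f : MvPolynomial j k} (hh : constantCoeff h ≠ 0)
    (hf : Ord r (h * f)) : Ord r f := by
  unfold Ord at *
  rw [MvPolynomial.coe_mul] at hf
  have h0 : MvPowerSeries.constantCoeff (h : MvPowerSeries j k) ≠ 0 := by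
    rw [← MvPowerSeries.coeff_zero_eq_constantCoeff_apply, MvPolynomial.coeff_coe]
    exact hh
  have h1 : (f : MvPowerSeries j k) = (h : MvPowerSeries j k)⁻¹ * ((h : MvPowerSeries j k) * f) := by
    rw [← mul_assoc, MvPowerSeries.inv_mul_cancel _ h0, one_mul]
  rw [h1]
  refine le_trans hf (le_trans ?_ MvPowerSeries.le_order_mul)
  exact le_add_self

lemma Ord.eq_zero {j : Type*} {r : ℕ} {f : MvPolynomial j k} (hf : Ord r f)
    (hr : f.totalDegree < r) : f = 0 := by
  ext n
  rw [coeff_zero]
  by_contra hne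
  have h1 := le_totalDegree (mem_support_iff.2 hne)
  have h2 : n.degree < r := by
    rw [Finsupp.degree_apply]
    exact lt_of_le_of_lt h1 hr
  exact hne (ord_iff.1 hf n h2)

lemma card_degree_le {j : Type*} [Fintype j] (m : ℕ) :
    Nat.card {n : j →₀ ℕ // n.degree ≤ m} = (m + Fintype.card j).choose (Fintype.card j) := by
  rw [← finrank_W (k := ℚ) (σ := j) m]
  refine Eq.symm ((finrank_eq_nat_card_basis
    (basisRestrictSupport ℚ {n : j →₀ ℕ | (n.sum fun _ e => e) ≤ m})).trans ?_)
  apply Nat.card_congr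
  refine Equiv.subtypeEquivRight fun n => ?_
  rw [Finsupp.degree_apply]
  exact Iff.rfl

instance instFiniteDeg {j : Type*} [Finite j] (m : ℕ) : Finite {n : j →₀ ℕ // n.degree ≤ m} :=
  (Finsupp.finite_of_degree_le m).to_subtype

/-- **Upper bound by the power trick** (core form). -/
theorem finrank_U_le [IsDomain E] {j ι : Type*} [Fintype j] [Fintype ι] (z : σ → E) [Finite σ]
    (φ : MvPolynomial j k →ₐ[k] E) (hφ : Function.Injective φ) (u : ι → E)
    (h : MvPolynomial j k) (hh : constantCoeff h ≠ 0) (crd : E →ₗ[k] (ι → MvPolynomial j k))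
    (c1 : ∀ x, φ h * x = ∑ i, φ (crd x i) * u i)
    (c2 : ∀ c : ι → MvPolynomial j k, ∑ i, φ (c i) * u i = 0 → ∀ i, c i = 0)
    (a : ℕ) (c3 : ∀ q, ∀ x ∈ U k z q, ∀ i, (crd x i).totalDegree ≤ q + a) (m : ℕ) :
    finrank k (U k z m) ≤ Fintype.card ι * (m + Fintype.card j).choose (Fintype.card j) := by
  classical
  have hmul : ∀ (g g' : E) (r s : ℕ), (∀ i, Ord r (crd g i)) → (∀ i, Ord s (crd g' i)) →
      ∀ p, Ord (r + s) (crd (g * g') p) := by
    intro g g' r s hg hg'
    have key : ∀ p, h ^ 2 * crd (g * g') p -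
        ∑ i, ∑ l, crd g i * crd g' l * crd (u i * u l) p = 0 := by
      apply c2
      have e1 : φ h ^ 2 * (φ h * (g * g')) =
          φ h * ((∑ i, φ (crd g i) * u i) * (∑ l, φ (crd g' l) * u l)) := by
        rw [← c1 g, ← c1 g']; ring
      have e2 : φ h ^ 2 * (φ h * (g * g')) = ∑ p, φ (h ^ 2 * crd (g * g') p) * u p := by
        rw [c1 (g * g'), Finset.mul_sum]
        refine Finset.sum_congr rfl fun p _ => ?_
        rw [map_mul φ, map_pow φ, mul_assoc]
      have e3 : φ h * ((∑ i, φ (crd g i) * u i) * (∑ l, φ (crd g' l) * u l)) =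
          ∑ p, φ (∑ i, ∑ l, crd g i * crd g' l * crd (u i * u l) p) * u p := by
        rw [Finset.sum_mul_sum, Finset.mul_sum]
        have e4 : ∀ i l, φ h * (φ (crd g i) * u i * (φ (crd g' l) * u l)) =
            ∑ p, φ (crd g i * crd g' l * crd (u i * u l) p) * u p := by
          intro i l
          have : φ h * (φ (crd g i) * u i * (φ (crd g' l) * u l)) =
            φ (crd g i) * φ (crd g' l) * (φ h * (u i * u l)) := by ring
          rw [this, c1 (u i * u l), Finset.mul_sum]
          refine Finset.sum_congr rfl fun p _ => ?_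
          rw [map_mul φ, map_mul φ, mul_assoc (φ (crd g i) * φ (crd g' l))]
        simp_rw [Finset.mul_sum, e4, map_sum, Finset.sum_mul]
        rw [Finset.sum_comm]
        rw [Finset.sum_congr rfl fun l _ => Finset.sum_comm]
        rw [Finset.sum_comm]
        exact Finset.sum_congr rfl fun p _ => Finset.sum_comm
      simp only [map_sub, sub_mul, Finset.sum_sub_distrib]
      rw [← e2, ← e3, e1, sub_self]
    intro p
    have h1 : h ^ 2 * crd (g * g') p = ∑ i, ∑ l, crd g i * crd g' l * crd (u i * u l) p :=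
      sub_eq_zero.1 (key p)
    have h2 : Ord (r + s) (h ^ 2 * crd (g * g') p) := by
      rw [h1]
      exact Ord.sum fun i _ => Ord.sum fun l _ => ((hg i).mul (hg' l)).mul_right _
    exact Ord.of_mul (by rw [map_pow]; exact pow_ne_zero 2 hh) h2
  have hpow : ∀ (g : E) (r : ℕ), (∀ i, Ord r (crd g i)) → ∀ p : ℕ,
      ∀ i, Ord (p * r) (crd (g ^ p) i) := by
    intro g r hg p
    induction p with
    | zero => intro i; rw [zero_mul]; exact Ord.zero
    | succ p ih =>
      rw [pow_succ, Nat.succ_mul]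
      exact hmul _ _ _ _ ih hg
  let L : U k z m →ₗ[k] (ι → {n : j →₀ ℕ // n.degree ≤ m} → k) :=
    { toFun := fun x i n => coeff (n : j →₀ ℕ) (crd (x : E) i)
      map_add' := by intro x y; ext i n; simp
      map_smul' := by intro c x; ext i n; simp }
  have hL : Function.Injective L := by
    rw [injective_iff_map_eq_zero]
    rintro ⟨x, hx⟩ hx0
    have hord : ∀ i, Ord (m + 1) (crd x i) := by
      intro i
      rw [ord_iff]
      intro n hn
      exact congrFun (congrFun hx0 i) ⟨n, by omega⟩
    have h1 : ∀ i, crd (x ^ (a + 1)) i = 0 := by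
      intro i
      refine (hpow x (m + 1) hord (a + 1) i).eq_zero ?_
      have := c3 _ _ (pow_mem_U hx (a + 1)) i
      have e : (a + 1) * (m + 1) = (a + 1) * m + a + 1 := by ring
      omega
    have h2 := c1 (x ^ (a + 1))
    simp only [h1, map_zero, zero_mul, Finset.sum_const_zero] at h2
    have h3 : φ h ≠ 0 := by
      intro h0
      rw [← map_zero φ] at h0
      rw [hφ h0] at hh
      simp at hh
    have h4 : x ^ (a + 1) = 0 := (mul_eq_zero.1 h2).resolve_left h3
    have h5 : x = 0 := eq_zero_of_pow_eq_zero h4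
    simp [h5]
  have hle := LinearMap.finrank_le_finrank_of_injective hL
  refine hle.trans (le_of_eq ?_)
  have : Fintype {n : j →₀ ℕ // n.degree ≤ m} := Fintype.ofFinite _
  rw [Module.finrank_pi_fintype]
  simp only [Module.finrank_fintype_fun_eq_card, Finset.sum_const, Finset.card_univ, smul_eq_mul]
  rw [← Nat.card_eq_fintype_card (α := {n : j →₀ ℕ // n.degree ≤ m}), card_degree_le]

end Crest.Agent.R065.HF669
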