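import Crest.Agent.R065.Frac_234

/-!
# Row 65, codimension one: algebraic preliminaries   (helper392)

* `constData_of_lift`: constants from a ring `A` with derivations and a map to a field;
* pseudo-division and stability of kernels of evaluations.
-/

set_option autoImplicit false

open Module

namespace Crest.Agent.R065.Cod1q392

open Crest.Agent.R065.HF669 Crest.Agent.R065.Base348 Crest.Agent.R065.Cramer234

section lift

open MvPolynomial

variable {e : ℕ} {K : Type*} [Field K] {δ : Pr e → Derivation ℤ K K} {S : Pr e → K}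

/-- constants of `F` from a ring `A` with derivations `E p` and a map `φ : A → F` -/
theorem constData_of_lift (hS : DS δ S) {A : Type*} [CommRing A] {F : Type*} [Field F]
    [Algebra K F] (φ : A →+* F) (ι : K →+* A) (hι : ∀ a, φ (ι a) = algebraMap K F a)
    (hfrac : ∀ x : F, ∃ a b : A, φ b ≠ 0 ∧ x = φ a / φ b)
    (E : Pr e → Derivation ℤ A A) (hker : ∀ p r, φ r = 0 → φ (E p r) = 0) (n : A) (hn : φ n ≠ 0)
    (Xv θv : Fin e → A) (hEK : ∀ p a, E p (ι a) = n * ι (δ p a))
    (hEθ : ∀ p i, E p (θv i) = act (Pi.single p 1) Xv i)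
    (hconst : ∀ p j, φ (n * E p (Xv j) - Xv j * E p n) = 0) :
    ∃ (Dd : Pr e → Derivation ℤ F F) (ξ η : Fin e → F),
      ConstData δ S F (fun i => φ (θv i)) Dd ξ η ∧ (∀ i, φ n * ξ i = φ (Xv i)) ∧
      ∀ p r, φ n * Dd p (φ r) = φ (E p r) := by
  have hE : ∀ p : Pr e, ∃ D : Derivation ℤ F F, ∀ r, D (φ r) = φ (E p r) :=
    fun p => exists_der_ext φ hfrac (E p) (hker p)
  choose D₁ hD₁ using hE
  let Dd : Pr e → Derivation ℤ F F := fun p => (φ n)⁻¹ • D₁ p
  have hDd : ∀ p r, Dd p (φ r) = (φ n)⁻¹ * φ (E p r) := by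
    intro p r
    rw [← hD₁]; rfl
  have hext : ∀ p a, Dd p (algebraMap K F a) = algebraMap K F (δ p a) := by
    intro p a
    rw [← hι, hDd, hEK, map_mul, hι]
    field_simp
  let ξ : Fin e → F := fun i => φ (Xv i) / φ n
  have hxi : ∀ p i, Dd p (ξ i) = 0 := by
    intro p i
    have h1 : φ (Xv i) = ξ i * φ n := by
      simp only [ξ]; field_simp
    have h2 := congrArg (Dd p) h1
    rw [Derivation.leibniz, hDd, hDd, smul_eq_mul, smul_eq_mul] at h2
    have h3 := hconst p i
    rw [map_sub, map_mul, map_mul] at h3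
    have h5 : φ n * (φ n)⁻¹ = 1 := mul_inv_cancel₀ hn
    have h6 : φ n * (φ n * Dd p (ξ i)) = φ (E p (Xv i)) - ξ i * φ (E p n) := by
      linear_combination (-φ n) * h2 + (φ (E p (Xv i)) - ξ i * φ (E p n)) * h5
    have h7 : φ n * (φ n * (φ n * Dd p (ξ i))) = 0 := by
      rw [h6]
      linear_combination h3 + (φ (E p n)) * h1
    exact (mul_eq_zero.1 ((mul_eq_zero.1 ((mul_eq_zero.1 h7).resolve_left hn)).resolve_left
      hn)).resolve_left hn
  have hDS : DS Dd (fun p => algebraMap K F (S p)) := by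
    intro p q
    rw [hext, hS]; split_ifs <;> simp
  let η : Fin e → F := fun i => φ (θv i) - act (fun p => algebraMap K F (S p)) ξ i
  refine ⟨Dd, ξ, η, ⟨hext, hxi, fun p i => ?_, fun i => ?_⟩, fun i => ?_, fun p r => ?_⟩
  · have h1 : Dd p (act (fun p => algebraMap K F (S p)) ξ i) = act (Pi.single p (1 : F)) ξ i :=
      der_act hDS hxi p i
    have h2 : Dd p (φ (θv i)) = act (Pi.single p (1 : F)) ξ i := by
      rw [hDd, hEθ, act_single, act_single, map_sub]
      split_ifs <;> simp only [ξ, map_zero, sub_zero, zero_sub, mul_neg, mul_zero, sub_self] <;>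
        field_simp
    simp only [η]
    rw [map_sub, h1, h2, sub_self]
  · simp only [η]; ring
  · simp only [ξ]; field_simp
  · rw [hDd]; field_simp

end lift

/-! ### pseudo-division -/

section pdiv

variable {R : Type*} [CommRing R]

/-- pseudo-division by `g` (of degree at most `s`) -/
lemma pdiv (g : Polynomial R) (s : ℕ) (hg : ∀ i, s < i → g.coeff i = 0)
    (c : Polynomial R → ℕ → Prop) (D : ℕ)
    (hc : ∀ G b n a, c G b → (∃ i, a = G.coeff i) →
      c (Polynomial.C (g.coeff s) * G - g * (Polynomial.C a * Polynomial.X ^ n)) (b + D)) :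
    ∀ (n : ℕ) (G : Polynomial R), (∀ i, s + n ≤ i → G.coeff i = 0) → ∃ u r : Polynomial R,
      Polynomial.C (g.coeff s) ^ n * G = g * u + r ∧ (∀ i, s ≤ i → r.coeff i = 0) ∧
      ∀ b, c G b → c r (b + n * D) := by
  intro n
  induction n with
  | zero =>
    intro G hG
    exact ⟨0, G, by simp, fun i hi => hG i (by omega), fun b hb => by simpa using hb⟩
  | succ n ih =>
    intro G hG
    set a := G.coeff (s + n) with ha
    set G1 := Polynomial.C (g.coeff s) * G - g * (Polynomial.C a * Polynomial.X ^ n) with hG1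
    have h1 : ∀ i, s + n ≤ i → G1.coeff i = 0 := by
      intro i hi
      rw [hG1, Polynomial.coeff_sub, Polynomial.coeff_C_mul, mul_left_comm,
        Polynomial.coeff_C_mul, Polynomial.coeff_mul_X_pow', if_pos (by omega)]
      rcases eq_or_lt_of_le hi with rfl | hi
      · rw [Nat.add_sub_cancel, ← ha]; ring
      · rw [hG i (by omega), hg (i - n) (by omega)]; ring
    obtain ⟨u, r, h2, h3, h4⟩ := ih G1 h1
    refine ⟨u + Polynomial.C (g.coeff s) ^ n * (Polynomial.C a * Polynomial.X ^ n), r, ?_, h3,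
      fun b hb => ?_⟩
    · have : Polynomial.C (g.coeff s) ^ (n + 1) * G = Polynomial.C (g.coeff s) ^ n * G1 +
          Polynomial.C (g.coeff s) ^ n * (g * (Polynomial.C a * Polynomial.X ^ n)) := by
        rw [hG1]; ring
      rw [this, h2]; ring
    · have := h4 (b + D) (hc G b n a hb ⟨_, ha⟩)
      have h5 : b + D + n * D = b + (n + 1) * D := by ring
      rwa [h5] at this

/-- pseudo-division without degree control -/
lemma pdiv' (g : Polynomial R) (s : ℕ) (hg : ∀ i, s < i → g.coeff i = 0) (G : Polynomial R) :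
    ∃ (n : ℕ) (u r : Polynomial R),
      Polynomial.C (g.coeff s) ^ n * G = g * u + r ∧ (∀ i, s ≤ i → r.coeff i = 0) := by
  obtain ⟨u, r, h1, h2, -⟩ := pdiv g s hg (fun _ _ => True) 0 (fun _ _ _ _ _ _ => trivial)
    (G.natDegree + 1) G (fun i hi => Polynomial.coeff_eq_zero_of_natDegree_lt (by omega))
  exact ⟨_, u, r, h1, h2⟩

end pdiv

/-! ### stability of the kernel of an evaluation -/

section stab

open Polynomial in
/-- if `α` is a simple root of `g` and the derivation `E` preserves `g` and the kernel of `φ` up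
to the kernel of `φ_α : R[λ] → F`, then it preserves the kernel of `φ_α`. -/
theorem ker_stable {R F : Type*} [CommRing R] [Field F] (φ : R →+* F) (α : F) (g : R[X])
    (hg : eval₂ φ α g = 0) (hg' : eval₂ φ α (derivative g) ≠ 0) (E : Derivation ℤ R[X] R[X])
    (hE : eval₂ φ α (E g) = 0) (hP : ∀ w, φ w = 0 → eval₂ φ α (E (C w)) = 0) :
    ∀ G, eval₂ φ α G = 0 → eval₂ φ α (E G) = 0 := by
  classical
  -- derivations preserve `P[λ]`
  have hPl : ∀ r : R[X], r.map φ = 0 → eval₂ φ α (E r) = 0 := by
    intro r hr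
    have h1 : E r = ∑ i ∈ r.support, (C (r.coeff i) * E (X ^ i) + X ^ i * E (C (r.coeff i))) := by
      conv_lhs => rw [r.as_sum_support_C_mul_X_pow, map_sum]
      refine Finset.sum_congr rfl fun i _ => ?_
      rw [E.leibniz]; simp only [smul_eq_mul]
    rw [h1, eval₂_finsetSum]
    refine Finset.sum_eq_zero fun i _ => ?_
    have h2 : φ (r.coeff i) = 0 := by
      have := congrArg (fun q => coeff q i) hr
      simpa using this
    rw [eval₂_add, eval₂_mul, eval₂_mul, eval₂_C, h2, hP _ h2]; ring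
  -- an element of minimal degree in the kernel, not in `P[λ]`
  have hex : ∃ n, ∃ m : R[X], m.natDegree = n ∧ eval₂ φ α m = 0 ∧ m.map φ ≠ 0 := by
    refine ⟨_, g, rfl, hg, fun h => hg' ?_⟩
    rw [eval₂_eq_eval_map, ← derivative_map, h]; simp
  obtain ⟨m, hm1, hm2, hm3⟩ := Nat.find_spec hex
  have hmin : ∀ m' : R[X], m'.natDegree < m.natDegree → eval₂ φ α m' = 0 → m'.map φ = 0 := by
    intro m' h1 h2
    by_contra h3
    rw [hm1] at h1
    exact Nat.find_min hex h1 ⟨m', rfl, h2, h3⟩
  have hlc : φ m.leadingCoeff ≠ 0 := by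
    intro h
    have h1 : m.eraseLead.map φ = m.map φ := by
      conv_rhs => rw [← m.eraseLead_add_monomial_natDegree_leadingCoeff]
      rw [Polynomial.map_add, map_monomial, h]; simp
    have h2 : eval₂ φ α m.eraseLead = 0 := by
      rw [eval₂_eq_eval_map, h1, ← eval₂_eq_eval_map, hm2]
    by_cases h3 : m.eraseLead.natDegree < m.natDegree
    · exact hm3 (h1 ▸ hmin _ h3 h2)
    · have h4 := eraseLead_natDegree_lt_or_eraseLead_eq_zero m
      rcases h4 with h4 | h4
      · exact h3 h4
      · rw [h4] at h1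
        exact hm3 (by rw [← h1]; simp)
  have hpos : 0 < m.natDegree := by
    by_contra h
    have h0 : m.natDegree = 0 := by omega
    have h1 := eq_C_of_natDegree_eq_zero h0
    rw [h1, eval₂_C] at hm2
    apply hlc
    rw [leadingCoeff, h0, hm2]
  have hdiv : ∀ G : R[X], eval₂ φ α G = 0 → ∃ (n : ℕ) (u r : R[X]),
      C m.leadingCoeff ^ n * G = m * u + r ∧ r.map φ = 0 := by
    intro G hG
    obtain ⟨n, u, r, h1, h2⟩ := pdiv' m m.natDegree
      (fun i hi => coeff_eq_zero_of_natDegree_lt hi) G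
    refine ⟨n, u, r, h1, hmin r ?_ ?_⟩
    · by_contra hc
      have h3 : r.leadingCoeff = 0 := h2 _ (not_lt.1 hc)
      rw [leadingCoeff_eq_zero.1 h3, natDegree_zero] at hc
      exact hc hpos
    · have h3 := congrArg (eval₂ φ α) h1
      rw [eval₂_mul, hG, eval₂_add, eval₂_mul, hm2] at h3
      simpa using h3.symm
  -- `E m` is killed
  have hEm : eval₂ φ α (E m) = 0 := by
    obtain ⟨n, u, r, h1, h2⟩ := hdiv g hg
    have h3 : eval₂ φ α u ≠ 0 := by
      intro h
      have h4 := congrArg (fun q => eval₂ φ α (derivative q)) h1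
      simp only [derivative_mul, derivative_add, eval₂_add, eval₂_mul, hg, hm2, h] at h4
      have h5 : eval₂ φ α (derivative r) = 0 := by
        rw [eval₂_eq_eval_map, ← derivative_map, h2]; simp
      rw [h5] at h4
      simp only [mul_zero, zero_mul, add_zero, zero_add] at h4
      rcases mul_eq_zero.1 h4 with h6 | h6
      · rw [eval₂_pow, eval₂_C] at h6
        exact hlc (eq_zero_of_pow_eq_zero h6)
      · exact hg' h6
    have h4 := congrArg (fun q => eval₂ φ α (E q)) h1
    simp only [Derivation.leibniz, map_add, smul_eq_mul, eval₂_add, eval₂_mul, hg, hE, hm2,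
      hPl r h2] at h4
    simp only [mul_zero, zero_mul, add_zero, zero_add] at h4
    exact (mul_eq_zero.1 h4.symm).resolve_left h3
  intro G hG
  obtain ⟨n, u, r, h1, h2⟩ := hdiv G hG
  have h4 := congrArg (fun q => eval₂ φ α (E q)) h1
  simp only [Derivation.leibniz, map_add, smul_eq_mul, eval₂_add, eval₂_mul, hG, hEm, hm2,
    hPl r h2] at h4
  simp only [mul_zero, zero_mul, add_zero] at h4
  refine (mul_eq_zero.1 h4).resolve_left ?_
  rw [eval₂_pow, eval₂_C]
  exact pow_ne_zero _ hlc

end stab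

end Crest.Agent.R065.Cod1q392
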