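import Crest.Agent.R065.Cramer_234

/-!
# Row 65: codimension one, the coefficients of `E_{p,j}`

`n_j = ∂_j f`, `c_j = cc δ f a j`, so that `n_a x_j = λ n_j - c_j` (`λ = x_a`) at the points;
`Δ_p = M_p + λ N_p`, `E_{p,j} = n_a Δ_p X_j - X_j Δ_p n_a = q2 λ² + q1 λ + q0`.
-/

set_option autoImplicit false

open MvPolynomial Module

namespace Crest.Agent.R065.Cod1

open Crest.Agent.R065.HF669 Crest.Agent.R065.Base348 Crest.Agent.R065.Cramer234

variable {e : ℕ} {K : Type*} [Field K]

/-- `N_p G = Σ_k (T_p n)_k ∂_k G` -/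
noncomputable def NN (f : MvPolynomial (Fin e) K) (p : Pr e) (G : MvPolynomial (Fin e) K) :
    MvPolynomial (Fin e) K :=
  ∑ k, act (Pi.single p 1) (fun j => pderiv j f) k * pderiv k G

/-- `M_p G = n_a δ_p G - Σ_k (T_p c)_k ∂_k G` -/
noncomputable def MM (δ : Pr e → Derivation ℤ K K) (f : MvPolynomial (Fin e) K) (a : Fin e)
    (p : Pr e) (G : MvPolynomial (Fin e) K) : MvPolynomial (Fin e) K :=
  pderiv a f * cD (δ p) G - ∑ k, act (Pi.single p 1) (cc δ f a) k * pderiv k G

/-- the `λ²`-coefficient of `E_{p,j}` -/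
noncomputable def q2 (f : MvPolynomial (Fin e) K) (a : Fin e) (p : Pr e) (j : Fin e) :
    MvPolynomial (Fin e) K :=
  pderiv a f * NN f p (pderiv j f) - pderiv j f * NN f p (pderiv a f)

/-- the `λ¹`-coefficient of `E_{p,j}` -/
noncomputable def q1 (δ : Pr e → Derivation ℤ K K) (f : MvPolynomial (Fin e) K) (a : Fin e)
    (p : Pr e) (j : Fin e) : MvPolynomial (Fin e) K :=
  pderiv a f * (MM δ f a p (pderiv j f) - NN f p (cc δ f a j))
    - pderiv j f * MM δ f a p (pderiv a f) + cc δ f a j * NN f p (pderiv a f)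

/-- the `λ⁰`-coefficient of `E_{p,j}` -/
noncomputable def q0 (δ : Pr e → Derivation ℤ K K) (f : MvPolynomial (Fin e) K) (a : Fin e)
    (p : Pr e) (j : Fin e) : MvPolynomial (Fin e) K :=
  cc δ f a j * MM δ f a p (pderiv a f) - pderiv a f * MM δ f a p (cc δ f a j)

variable {δ : Pr e → Derivation ℤ K K} {S : Pr e → K} {z : Pt e K}

/-- `n_a x_j = λ n_j - c_j` at the points -/
lemma eval_X_eq (hS : DS δ S) (hx : Cst δ z.1) (hy : Cst δ z.2)
    {f : MvPolynomial (Fin e) K} (hf : eval (th S z) f = 0) (a j : Fin e) :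
    eval (th S z) (pderiv a f) * z.1 j =
      z.1 a * eval (th S z) (pderiv j f) - eval (th S z) (cc δ f a j) := by
  rw [eval_cc hS hx hy hf]; ring

/-- `(M_p + λ N_p) G = n_a δ_p (G(θ_z))` at the points -/
lemma eval_MM_NN (hS : DS δ S) (hx : Cst δ z.1) (hy : Cst δ z.2)
    {f : MvPolynomial (Fin e) K} (hf : eval (th S z) f = 0) (a : Fin e) (p : Pr e)
    (G : MvPolynomial (Fin e) K) :
    eval (th S z) (MM δ f a p G) + z.1 a * eval (th S z) (NN f p G) =
      eval (th S z) (pderiv a f) * δ p (eval (th S z) G) := by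
  have h1 := deriv_eval (δ p) (th S z) G
  have h2 : ∀ k, δ p (th S z k) = act (Pi.single p (1 : K)) z.1 k :=
    fun k => der_theta hS hx hy p k
  rw [h1]
  unfold MM NN
  simp only [map_sub, map_mul, map_sum, mul_add, Finset.mul_sum, h2]
  rw [sub_add_eq_add_sub, add_sub_assoc, ← Finset.sum_sub_distrib]
  congr 1
  refine Finset.sum_congr rfl fun k _ => ?_
  have h3 : z.1 a * eval (th S z) (act (Pi.single p 1) (fun j => pderiv j f) k) -
      eval (th S z) (act (Pi.single p 1) (cc δ f a) k) =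
      eval (th S z) (pderiv a f) * act (Pi.single p (1 : K)) z.1 k := by
    simp only [act_single, map_sub]
    have h4 := eval_X_eq hS hx hy hf a p.1.1
    have h5 := eval_X_eq hS hx hy hf a p.1.2
    split_ifs <;> simp only [map_zero, mul_sub, mul_zero, h4, h5] <;> ring
  linear_combination (eval (th S z) (pderiv k G)) * h3

/-- `E_{p,j}` vanishes at the points -/
lemma eval_q (hS : DS δ S) (hx : Cst δ z.1) (hy : Cst δ z.2)
    {f : MvPolynomial (Fin e) K} (hf : eval (th S z) f = 0) (a : Fin e) (p : Pr e) (j : Fin e) :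
    eval (th S z) (q2 f a p j) * z.1 a ^ 2 + eval (th S z) (q1 δ f a p j) * z.1 a +
      eval (th S z) (q0 δ f a p j) = 0 := by
  have h1 := eval_MM_NN hS hx hy hf a p (pderiv j f)
  have h2 := eval_MM_NN hS hx hy hf a p (pderiv a f)
  have h3 := eval_MM_NN hS hx hy hf a p (cc δ f a j)
  have h4 := eval_X_eq hS hx hy hf a j
  have h5 := congrArg (δ p) h4
  rw [Derivation.leibniz, map_sub, Derivation.leibniz, hx p j, hx p a] at h5
  simp only [smul_eq_mul, mul_zero, add_zero, zero_add] at h5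
  unfold q2 q1 q0
  simp only [map_add, map_sub, map_mul]
  set na := eval (th S z) (pderiv a f)
  set nj := eval (th S z) (pderiv j f)
  set cj := eval (th S z) (cc δ f a j)
  linear_combination (z.1 a * na) * h1 - (z.1 a * nj - cj) * h2 - na * h3 -
    (na ^ 2) * h5 + (na * δ p na) * h4

end Crest.Agent.R065.Cod1
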