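import Crest.Agent.R065.Cod1a_392
import Crest.Agent.R065.Cod1defs_649

/-!
# Row 65, codimension one: relations `G(θ, λ) = 0`, `λ = x_a`   (helper392)
-/

set_option autoImplicit false

open MvPolynomial Module

namespace Crest.Agent.R065.Cod1q392

open Crest.Agent.R065.HF669 Crest.Agent.R065.Base348 Crest.Agent.R065.Cramer234

/-! ### coefficientwise derivations -/

section mC

variable {R : Type*} [CommRing R]

/-- the coefficientwise extension of a derivation to `R[λ]` -/
noncomputable def mC (d : Derivation ℤ R R) : Derivation ℤ (Polynomial R) (Polynomial R) :=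
  @Differential.mapCoeffs R _ ⟨d⟩

lemma coeff_mC (d : Derivation ℤ R R) (p : Polynomial R) (i : ℕ) :
    (mC d p).coeff i = d (p.coeff i) := rfl

lemma mC_C (d : Derivation ℤ R R) (a : R) : mC d (Polynomial.C a) = Polynomial.C (d a) :=
  @Differential.mapCoeffs_C R _ ⟨d⟩ a

lemma mC_X (d : Derivation ℤ R R) : mC d Polynomial.X = 0 := @Differential.mapCoeffs_X R _ ⟨d⟩

lemma natDegree_mC_le (d : Derivation ℤ R R) (p : Polynomial R) :
    (mC d p).natDegree ≤ p.natDegree := by
  rw [Polynomial.natDegree_le_iff_coeff_eq_zero]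
  intro i hi
  rw [coeff_mC, Polynomial.coeff_eq_zero_of_natDegree_lt hi, map_zero]

/-- a combination of coefficientwise derivations -/
noncomputable def vfC {ι : Type*} [Fintype ι] (b : Polynomial R) (d0 : Derivation ℤ R R)
    (a : ι → Polynomial R) (d : ι → Derivation ℤ R R) :
    Derivation ℤ (Polynomial R) (Polynomial R) :=
  b • mC d0 + ∑ j, a j • mC (d j)

lemma vfC_apply {ι : Type*} [Fintype ι] (b : Polynomial R) (d0 : Derivation ℤ R R)
    (a : ι → Polynomial R) (d : ι → Derivation ℤ R R) (G : Polynomial R) :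
    vfC b d0 a d G = b * mC d0 G + ∑ j, a j * mC (d j) G := by
  have h : (∑ j, a j • mC (d j)) G = ∑ j, a j * mC (d j) G := sum_apply_der _ _ _
  rw [vfC, Derivation.add_apply, h]
  rfl

end mC

section rel

variable {e : ℕ} {K : Type*} [Field K]

/-- all coefficients of degree at most `b` -/
def Cdeg (b : ℕ) (G : Polynomial (MvPolynomial (Fin e) K)) : Prop :=
  ∀ i, (G.coeff i).totalDegree ≤ b

lemma Cdeg.mono {b b' : ℕ} {G : Polynomial (MvPolynomial (Fin e) K)} (h : Cdeg b G)
    (hb : b ≤ b') : Cdeg b' G := fun i => (h i).trans hb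

lemma Cdeg.add {b : ℕ} {G H : Polynomial (MvPolynomial (Fin e) K)} (h : Cdeg b G)
    (h' : Cdeg b H) : Cdeg b (G + H) := fun i => by
  rw [Polynomial.coeff_add]
  exact (totalDegree_add _ _).trans (max_le (h i) (h' i))

lemma Cdeg.sub {b : ℕ} {G H : Polynomial (MvPolynomial (Fin e) K)} (h : Cdeg b G)
    (h' : Cdeg b H) : Cdeg b (G - H) := fun i => by
  rw [Polynomial.coeff_sub]
  exact (totalDegree_sub _ _).trans (max_le (h i) (h' i))

lemma Cdeg.mul {b b' : ℕ} {G H : Polynomial (MvPolynomial (Fin e) K)} (h : Cdeg b G)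
    (h' : Cdeg b' H) : Cdeg (b + b') (G * H) := fun i => by
  rw [Polynomial.coeff_mul]
  refine totalDegree_finsetSum_le fun x _ => ?_
  exact (totalDegree_mul _ _).trans (Nat.add_le_add (h _) (h' _))

lemma Cdeg.zero (b : ℕ) : Cdeg b (0 : Polynomial (MvPolynomial (Fin e) K)) := fun i => by simp

lemma Cdeg.sum {ι : Type*} (s : Finset ι) {b : ℕ}
    {G : ι → Polynomial (MvPolynomial (Fin e) K)} (h : ∀ i ∈ s, Cdeg b (G i)) :
    Cdeg b (∑ i ∈ s, G i) := by
  classical
  induction s using Finset.induction_on with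
  | empty => simpa using Cdeg.zero b
  | insert a s ha ih =>
    rw [Finset.sum_insert ha]
    exact (h a (Finset.mem_insert_self _ _)).add (ih fun i hi => h i (Finset.mem_insert_of_mem hi))

lemma Cdeg.C {b : ℕ} {g : MvPolynomial (Fin e) K} (h : g.totalDegree ≤ b) :
    Cdeg b (Polynomial.C g) := fun i => by
  rw [Polynomial.coeff_C]
  split_ifs
  · exact h
  · simp

lemma Cdeg.X (b : ℕ) : Cdeg b (Polynomial.X : Polynomial (MvPolynomial (Fin e) K)) := fun i => by
  rw [Polynomial.coeff_X]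
  split_ifs
  · simp
  · simp

lemma Cdeg.X_pow (b n : ℕ) : Cdeg b (Polynomial.X ^ n : Polynomial (MvPolynomial (Fin e) K)) :=
  fun i => by
  rw [Polynomial.coeff_X_pow]
  split_ifs
  · simp
  · simp

lemma Cdeg.mCc (δ : Derivation ℤ K K) {b : ℕ} {G : Polynomial (MvPolynomial (Fin e) K)}
    (h : Cdeg b G) : Cdeg b (mC (cD δ) G) := fun i => by
  rw [coeff_mC]
  exact (totalDegree_cD_le _ _).trans (h i)

lemma Cdeg.mCp (j : Fin e) {b : ℕ} {G : Polynomial (MvPolynomial (Fin e) K)}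
    (h : Cdeg b G) : Cdeg b (mC (pD j) G) := fun i => by
  change (pderiv j (G.coeff i)).totalDegree ≤ b
  exact (totalDegree_pderiv_le _ _).trans ((Nat.sub_le _ _).trans (h i))

variable (δ : Pr e → Derivation ℤ K K) (S : Pr e → K)

/-- numerators of the velocity: `n_a x_j = X_j(λ)` at the points, `λ = x_a` -/
noncomputable def XX (f : MvPolynomial (Fin e) K) (a j : Fin e) :
    Polynomial (MvPolynomial (Fin e) K) :=
  Polynomial.C (pderiv j f) * Polynomial.X - Polynomial.C (cc δ f a j)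

/-- `Δ_p` -/
noncomputable def EL (f : MvPolynomial (Fin e) K) (a : Fin e) (p : Pr e) :
    Derivation ℤ (Polynomial (MvPolynomial (Fin e) K)) (Polynomial (MvPolynomial (Fin e) K)) :=
  vfC (Polynomial.C (pderiv a f)) (cD (δ p)) (act (Pi.single p 1) (XX δ f a)) pD

lemma EL_apply (f : MvPolynomial (Fin e) K) (a : Fin e) (p : Pr e)
    (G : Polynomial (MvPolynomial (Fin e) K)) :
    EL δ f a p G = Polynomial.C (pderiv a f) * mC (cD (δ p)) G +
      ∑ j, act (Pi.single p 1) (XX δ f a) j * mC (pD j) G := vfC_apply _ _ _ _ _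

lemma EL_lam (f : MvPolynomial (Fin e) K) (a : Fin e) (p : Pr e) :
    EL δ f a p Polynomial.X = 0 := by
  rw [EL_apply]; simp [mC_X]

lemma EL_C (f : MvPolynomial (Fin e) K) (a : Fin e) (p : Pr e) (g : MvPolynomial (Fin e) K) :
    EL δ f a p (Polynomial.C g) = Polynomial.C (pderiv a f * cD (δ p) g) +
      ∑ j, act (Pi.single p 1) (XX δ f a) j * Polynomial.C (pderiv j g) := by
  rw [EL_apply, mC_C, Polynomial.C_mul]
  congr 1
  exact Finset.sum_congr rfl fun j _ => by rw [mC_C]; rfl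

lemma EL_CC (f : MvPolynomial (Fin e) K) (a : Fin e) (p : Pr e) (x : K) :
    EL δ f a p (Polynomial.C (C x)) = Polynomial.C (pderiv a f) * Polynomial.C (C (δ p x)) := by
  rw [EL_C, cD_C]; simp

lemma EL_CX (f : MvPolynomial (Fin e) K) (a : Fin e) (p : Pr e) (i : Fin e) :
    EL δ f a p (Polynomial.C (X i)) = act (Pi.single p 1) (XX δ f a) i := by
  classical
  rw [EL_C, cD_X, mul_zero, Polynomial.C_0, zero_add, Finset.sum_eq_single i]
  · simp
  · intro j _ hj
    rw [pderiv_X_of_ne (Ne.symm hj), Polynomial.C_0, mul_zero]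
  · simp

lemma act_XX (f : MvPolynomial (Fin e) K) (a : Fin e) (p : Pr e) (k : Fin e) :
    act (Pi.single p 1) (XX δ f a) k =
      Polynomial.C (act (Pi.single p 1) (fun j => pderiv j f) k) * Polynomial.X -
        Polynomial.C (act (Pi.single p 1) (cc δ f a) k) := by
  simp only [act_single, XX, Polynomial.C_sub]
  split_ifs <;> (try simp only [Polynomial.C_0]) <;> ring

/-- `Δ_p g = λ N_p g + M_p g` -/
lemma EL_C' (f : MvPolynomial (Fin e) K) (a : Fin e) (p : Pr e) (g : MvPolynomial (Fin e) K) :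
    EL δ f a p (Polynomial.C g) = Polynomial.C (Cod1.NN f p g) * Polynomial.X +
      Polynomial.C (Cod1.MM δ f a p g) := by
  rw [EL_C]
  have h1 : ∑ j, act (Pi.single p 1) (XX δ f a) j * Polynomial.C (pderiv j g) =
      (∑ j, Polynomial.C (act (Pi.single p 1) (fun j => pderiv j f) j * pderiv j g)) *
        Polynomial.X - ∑ j, Polynomial.C (act (Pi.single p 1) (cc δ f a) j * pderiv j g) := by
    rw [Finset.sum_mul, ← Finset.sum_sub_distrib]
    refine Finset.sum_congr rfl fun j _ => ?_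
    rw [act_XX, Polynomial.C_mul, Polynomial.C_mul]
    ring
  rw [h1, ← map_sum, ← map_sum, Cod1.NN, Cod1.MM, Polynomial.C_sub]
  ring

/-! degrees -/

lemma Cdeg_XX {D : ℕ} {f : MvPolynomial (Fin e) K} (hf : f.totalDegree ≤ D) (a j : Fin e) :
    Cdeg D (XX δ f a j) := by
  refine Cdeg.sub ?_ (Cdeg.C ((totalDegree_cc_le δ f a j).trans hf))
  have h1 := (Cdeg.C (b := D) ((totalDegree_pderiv_le j f).trans
    ((Nat.sub_le _ _).trans hf))).mul (Cdeg.X 0)
  simpa using h1

lemma natDegree_XX_le (f : MvPolynomial (Fin e) K) (a j : Fin e) :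
    (XX δ f a j).natDegree ≤ 1 := by
  refine (Polynomial.natDegree_sub_le _ _).trans (max_le ?_ ?_)
  · exact (Polynomial.natDegree_C_mul_le _ _).trans Polynomial.natDegree_X_le
  · rw [Polynomial.natDegree_C]; exact Nat.zero_le _

lemma Cdeg_act {D : ℕ} {f : MvPolynomial (Fin e) K} (hf : f.totalDegree ≤ D) (a : Fin e)
    (p : Pr e) (j : Fin e) : Cdeg D (act (Pi.single p 1) (XX δ f a) j) := by
  rw [act_single]
  refine Cdeg.sub ?_ ?_ <;>
  · split_ifs
    · exact Cdeg_XX δ hf _ _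
    · exact Cdeg.zero _

lemma natDegree_act_le (f : MvPolynomial (Fin e) K) (a : Fin e) (p : Pr e) (j : Fin e) :
    (act (Pi.single p 1) (XX δ f a) j).natDegree ≤ 1 := by
  rw [act_single]
  refine (Polynomial.natDegree_sub_le _ _).trans (max_le ?_ ?_) <;>
  · split_ifs
    · exact natDegree_XX_le δ f a _
    · simp

lemma Cdeg_EL {D b : ℕ} {f : MvPolynomial (Fin e) K} (hf : f.totalDegree ≤ D) (a : Fin e)
    (p : Pr e) {G : Polynomial (MvPolynomial (Fin e) K)} (hG : Cdeg b G) :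
    Cdeg (b + D) (EL δ f a p G) := by
  rw [EL_apply, add_comm b D]
  refine Cdeg.add ?_ (Cdeg.sum _ fun j _ => ?_)
  · exact (Cdeg.C ((totalDegree_pderiv_le a f).trans ((Nat.sub_le _ _).trans hf))).mul
      (Cdeg.mCc _ hG)
  · exact (Cdeg_act δ hf a p j).mul (Cdeg.mCp j hG)

lemma natDegree_EL_le (f : MvPolynomial (Fin e) K) (a : Fin e) (p : Pr e)
    (G : Polynomial (MvPolynomial (Fin e) K)) : (EL δ f a p G).natDegree ≤ G.natDegree + 1 := by
  rw [EL_apply]
  refine (Polynomial.natDegree_add_le _ _).trans (max_le ?_ ?_)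
  · refine (Polynomial.natDegree_C_mul_le _ _).trans ((natDegree_mC_le _ _).trans (by omega))
  · refine Polynomial.natDegree_sum_le_of_forall_le _ _ fun j _ => ?_
    refine Polynomial.natDegree_mul_le.trans ?_
    have h1 := natDegree_act_le δ f a p j
    have h2 := natDegree_mC_le (pD j) G
    omega

/-! evaluation at the points -/

/-- evaluation of `G(θ, λ)` at `θ_z`, `λ = x_a` -/
noncomputable def evz (a : Fin e) (z : Pt e K) : Polynomial (MvPolynomial (Fin e) K) →+* K :=
  Polynomial.eval₂RingHom (MvPolynomial.eval (th S z)) (z.1 a)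

@[simp] lemma evz_C (a : Fin e) (z : Pt e K) (g : MvPolynomial (Fin e) K) :
    evz S a z (Polynomial.C g) = MvPolynomial.eval (th S z) g := by
  simp [evz]

@[simp] lemma evz_X (a : Fin e) (z : Pt e K) : evz S a z Polynomial.X = z.1 a := by
  simp [evz]

variable {δ S}

lemma evz_XX (hS : DS δ S) {z : Pt e K} (hx : Cst δ z.1) (hy : Cst δ z.2)
    {f : MvPolynomial (Fin e) K} (hf : eval (th S z) f = 0) (a j : Fin e) :
    evz S a z (XX δ f a j) = eval (th S z) (pderiv a f) * z.1 j := by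
  rw [XX, map_sub, map_mul, evz_C, evz_X, evz_C, eval_cc hS hx hy hf]
  ring

lemma evz_EL (hS : DS δ S) {z : Pt e K} (hx : Cst δ z.1) (hy : Cst δ z.2)
    {f : MvPolynomial (Fin e) K} (hf : eval (th S z) f = 0) (a : Fin e) (p : Pr e)
    (G : Polynomial (MvPolynomial (Fin e) K)) :
    evz S a z (EL δ f a p G) = eval (th S z) (pderiv a f) * δ p (evz S a z G) := by
  induction G using Polynomial.induction_on' with
  | add G H hG hH => rw [map_add, map_add, map_add, map_add, hG, hH]; ring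
  | monomial n g =>
    rw [← Polynomial.C_mul_X_pow_eq_monomial]
    have h1 : EL δ f a p (Polynomial.C g * Polynomial.X ^ n) =
        Polynomial.X ^ n * EL δ f a p (Polynomial.C g) := by
      rw [(EL δ f a p).leibniz, (EL δ f a p).leibniz_pow, EL_lam]
      simp
    have h2 : δ p (z.1 a ^ n) = 0 := by
      rw [(δ p).leibniz_pow, hx p a]; simp
    rw [h1, map_mul, map_mul, map_pow, evz_C, evz_X, (δ p).leibniz, h2, EL_C', map_add, map_mul,
      evz_C, evz_C, evz_X]
    have h3 := Cod1.eval_MM_NN hS hx hy hf a p g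
    simp only [smul_eq_mul]
    linear_combination (z.1 a ^ n) * h3

variable (δ)

/-- `E_{p,j} = n_a Δ_p X_j - X_j Δ_p n_a` -/
noncomputable def HH (f : MvPolynomial (Fin e) K) (a : Fin e) (p : Pr e) (j : Fin e) :
    Polynomial (MvPolynomial (Fin e) K) :=
  Polynomial.C (pderiv a f) * EL δ f a p (XX δ f a j) -
    XX δ f a j * EL δ f a p (Polynomial.C (pderiv a f))

/-- `E_{p,j} = q₂ λ² + q₁ λ + q₀` with 649's coefficients -/
lemma HH_eq (f : MvPolynomial (Fin e) K) (a : Fin e) (p : Pr e) (j : Fin e) :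
    HH δ f a p j = Polynomial.C (Cod1.q2 f a p j) * Polynomial.X ^ 2 +
      Polynomial.C (Cod1.q1 δ f a p j) * Polynomial.X + Polynomial.C (Cod1.q0 δ f a p j) := by
  have h1 : EL δ f a p (XX δ f a j) = EL δ f a p (Polynomial.C (pderiv j f)) * Polynomial.X -
      EL δ f a p (Polynomial.C (cc δ f a j)) := by
    rw [XX, map_sub, (EL δ f a p).leibniz, EL_lam]
    simp [mul_comm]
  rw [HH, h1, EL_C', EL_C', EL_C', XX, Cod1.q2, Cod1.q1, Cod1.q0]
  simp only [Polynomial.C_add, Polynomial.C_sub, Polynomial.C_mul]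
  ring

lemma Cdeg_HH {D : ℕ} {f : MvPolynomial (Fin e) K} (hf : f.totalDegree ≤ D) (a : Fin e)
    (p : Pr e) (j : Fin e) : Cdeg (3 * D) (HH δ f a p j) := by
  have hn : (pderiv a f).totalDegree ≤ D :=
    (totalDegree_pderiv_le a f).trans ((Nat.sub_le _ _).trans hf)
  refine Cdeg.sub ?_ ?_
  · exact ((Cdeg.C hn).mul (Cdeg_EL δ hf a p (Cdeg_XX δ hf a j))).mono (by omega)
  · exact ((Cdeg_XX δ hf a j).mul (Cdeg_EL δ hf a p (Cdeg.C hn))).mono (by omega)

lemma natDegree_HH_le (f : MvPolynomial (Fin e) K) (a : Fin e) (p : Pr e) (j : Fin e) :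
    (HH δ f a p j).natDegree ≤ 2 := by
  rw [HH_eq]
  refine (Polynomial.natDegree_add_le _ _).trans (max_le ?_ ?_)
  · refine (Polynomial.natDegree_add_le _ _).trans (max_le ?_ ?_)
    · exact (Polynomial.natDegree_C_mul_le _ _).trans (Polynomial.natDegree_X_pow_le 2)
    · exact (Polynomial.natDegree_C_mul_le _ _).trans (Polynomial.natDegree_X_le.trans (by omega))
  · simp

variable {δ}

lemma evz_HH (hS : DS δ S) {z : Pt e K} (hx : Cst δ z.1) (hy : Cst δ z.2)
    {f : MvPolynomial (Fin e) K} (hf : eval (th S z) f = 0) (a : Fin e) (p : Pr e) (j : Fin e) :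
    evz S a z (HH δ f a p j) = 0 := by
  rw [HH, map_sub, map_mul, map_mul, evz_EL hS hx hy hf, evz_EL hS hx hy hf, evz_XX hS hx hy hf,
    evz_C, (δ p).leibniz, hx p j]
  simp only [smul_eq_mul]
  ring

/-- a relation: coefficients of degree `≤ b`, vanishing at the points -/
structure Rel (S : Pr e → K) (Sig : Set (Pt e K)) (a : Fin e) (b : ℕ)
    (G : Polynomial (MvPolynomial (Fin e) K)) : Prop where
  deg : Cdeg b G
  van : ∀ z ∈ Sig, evz S a z G = 0

variable {Sig : Set (Pt e K)} {a : Fin e}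

lemma Rel.mono {b b' : ℕ} {G : Polynomial (MvPolynomial (Fin e) K)} (h : Rel S Sig a b G)
    (hb : b ≤ b') : Rel S Sig a b' G := ⟨h.deg.mono hb, h.van⟩

lemma Rel.EL {D b : ℕ} {f : MvPolynomial (Fin e) K} (hS : DS δ S) (hfD : f.totalDegree ≤ D)
    (hSig : ∀ z ∈ Sig, Cst δ z.1 ∧ Cst δ z.2) (hf : ∀ z ∈ Sig, eval (th S z) f = 0) (p : Pr e)
    {G : Polynomial (MvPolynomial (Fin e) K)} (h : Rel S Sig a b G) :
    Rel S Sig a (b + D) (EL δ f a p G) :=
  ⟨Cdeg_EL δ hfD a p h.deg, fun z hz => by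
    rw [evz_EL hS (hSig z hz).1 (hSig z hz).2 (hf z hz), h.van z hz, map_zero, mul_zero]⟩

lemma rel_HH {D : ℕ} {f : MvPolynomial (Fin e) K} (hS : DS δ S) (hfD : f.totalDegree ≤ D)
    (hSig : ∀ z ∈ Sig, Cst δ z.1 ∧ Cst δ z.2) (hf : ∀ z ∈ Sig, eval (th S z) f = 0) (p : Pr e)
    (j : Fin e) : Rel S Sig a (3 * D) (HH δ f a p j) :=
  ⟨Cdeg_HH δ hfD a p j, fun z hz => evz_HH hS (hSig z hz).1 (hSig z hz).2 (hf z hz) a p j⟩

/-- pseudo-remainder of relations -/
lemma Rel.pdiv {b b0 s : ℕ} {g : Polynomial (MvPolynomial (Fin e) K)} (hg : Rel S Sig a b0 g)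
    (hgs : g.natDegree ≤ s) {G : Polynomial (MvPolynomial (Fin e) K)} (hG : Rel S Sig a b G)
    {n : ℕ} (hn : G.natDegree < s + n) :
    ∃ u r : Polynomial (MvPolynomial (Fin e) K),
      Polynomial.C (g.coeff s) ^ n * G = g * u + r ∧ (∀ i, s ≤ i → r.coeff i = 0) ∧
      Rel S Sig a (b + n * b0) r := by
  obtain ⟨u, r, h1, h2, h3⟩ := Cod1q392.pdiv g s
    (fun i hi => Polynomial.coeff_eq_zero_of_natDegree_lt (by omega))
    (fun G b => Cdeg b G) b0 (by
      rintro G b n c hG ⟨i, rfl⟩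
      refine Cdeg.sub ?_ ?_
      · exact ((Cdeg.C (hg.deg s)).mul hG).mono (by omega)
      · exact (hg.deg.mul ((Cdeg.C (hG i)).mul (Cdeg.X_pow 0 n))).mono (by omega)) n G
    (fun i hi => Polynomial.coeff_eq_zero_of_natDegree_lt (by omega))
  refine ⟨u, r, h1, h2, h3 b hG.deg, fun z hz => ?_⟩
  have h4 := congrArg (evz S a z) h1
  rw [map_mul, map_add, map_mul, hG.van z hz, hg.van z hz] at h4
  simpa using h4.symm

end rel

end Crest.Agent.R065.Cod1q392
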