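import Crest.Agent.R065.Cod1b_392

/-!
# Row 65, codimension one: a separable relation of degree one or two in `λ`   (helper392)
-/

set_option autoImplicit false

open MvPolynomial Module

namespace Crest.Agent.R065.Cod1q392

open Crest.Agent.R065.HF669 Crest.Agent.R065.Base348 Crest.Agent.R065.Cramer234

section rel

variable {e : ℕ} {K : Type*} [Field K] {δ : Pr e → Derivation ℤ K K} {S : Pr e → K}
  {P : Ideal (MvPolynomial (Fin e) K)} {Sig : Set (Pt e K)} {a : Fin e}

lemma evz_le_one {G : Polynomial (MvPolynomial (Fin e) K)} (hG : G.natDegree ≤ 1) (z : Pt e K) :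
    evz S a z G = eval (th S z) (G.coeff 1) * z.1 a + eval (th S z) (G.coeff 0) := by
  have h : G = Polynomial.C (G.coeff 1) * Polynomial.X + Polynomial.C (G.coeff 0) :=
    Polynomial.eq_X_add_C_of_natDegree_le_one hG
  conv_lhs => rw [h]
  simp

lemma evz_le_two {G : Polynomial (MvPolynomial (Fin e) K)} (hG : G.natDegree ≤ 2) (z : Pt e K) :
    evz S a z G = eval (th S z) (G.coeff 2) * z.1 a ^ 2 + eval (th S z) (G.coeff 1) * z.1 a +
      eval (th S z) (G.coeff 0) := by
  rw [evz, Polynomial.coe_eval₂RingHom, Polynomial.eval₂_eq_sum_range' _ (n := 3) (by omega)]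
  simp [Finset.sum_range_succ]
  ring

/-- a separable relation `g` of degree `s ≤ 2` dividing all the `Δ_p g` and `E_{p,j}` -/
structure Good (δ : Pr e → Derivation ℤ K K) (S : Pr e → K)
    (P : Ideal (MvPolynomial (Fin e) K)) (Sig : Set (Pt e K)) (f : MvPolynomial (Fin e) K)
    (a : Fin e) (s : ℕ) (g : Polynomial (MvPolynomial (Fin e) K)) : Prop where
  na : pderiv a f ∉ P
  pos : 0 < s
  le : s ≤ 2
  deg : g.natDegree ≤ s
  lead : g.coeff s ∉ P
  van : ∀ z ∈ Sig, evz S a z g = 0
  disc : s = 2 → g.coeff 1 ^ 2 - 4 * g.coeff 2 * g.coeff 0 ∉ P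
  Eg : ∀ p, ∃ (n : ℕ) (u r : Polynomial (MvPolynomial (Fin e) K)),
    Polynomial.C (g.coeff s) ^ n * EL δ f a p g = g * u + r ∧ ∀ i, r.coeff i ∈ P
  EH : ∀ p j, ∃ (n : ℕ) (u r : Polynomial (MvPolynomial (Fin e) K)),
    Polynomial.C (g.coeff s) ^ n * HH δ f a p j = g * u + r ∧ ∀ i, r.coeff i ∈ P
  stab : ∀ p, ∀ w ∈ P, ∀ i, (EL δ f a p (Polynomial.C w)).coeff i ∈ P

lemma NN_self (f : MvPolynomial (Fin e) K) (p : Pr e) : Cod1.NN f p f = 0 := by
  classical
  unfold Cod1.NN
  simp only [act_single, sub_mul, ite_mul, zero_mul, Finset.sum_sub_distrib, Finset.sum_ite_eq',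
    Finset.mem_univ, if_true]
  ring

lemma totalDegree_MM_le {D : ℕ} {f : MvPolynomial (Fin e) K} (hf : f.totalDegree ≤ D)
    (p : Pr e) (g : MvPolynomial (Fin e) K) :
    (Cod1.MM δ f a p g).totalDegree ≤ g.totalDegree + D := by
  have h1 := Cdeg_EL δ hf a p (Cdeg.C (le_refl g.totalDegree)) 0
  rw [EL_C'] at h1
  simpa using h1

/-- stability -/
lemma stab_of (hS : DS δ S) {D : ℕ} {f : MvPolynomial (Fin e) K} (hfD : f.totalDegree ≤ D)
    (hPf : ∀ g ∈ P, f ∣ g) (hfP : f ∈ P) (hSig : ∀ z ∈ Sig, Cst δ z.1 ∧ Cst δ z.2)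
    (hSigf : ∀ z ∈ Sig, eval (th S z) f = 0)
    (hH : ∀ g : MvPolynomial (Fin e) K, g.totalDegree ≤ 31 * D →
      (∀ z ∈ Sig, eval (th S z) g = 0) → g ∈ P) (p : Pr e) :
    ∀ w ∈ P, ∀ i, (EL δ f a p (Polynomial.C w)).coeff i ∈ P := by
  intro w hw i
  obtain ⟨v, rfl⟩ := hPf w hw
  have hM : Cod1.MM δ f a p f ∈ P := by
    refine hH _ ((totalDegree_MM_le hfD p f).trans (by omega)) fun z hz => ?_
    have h1 := Cod1.eval_MM_NN hS (hSig z hz).1 (hSig z hz).2 (hSigf z hz) a p f
    rw [NN_self, hSigf z hz] at h1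
    simpa using h1
  rw [Polynomial.C_mul, (EL δ f a p).leibniz, smul_eq_mul, smul_eq_mul, EL_C' δ f a p f, NN_self,
    Polynomial.coeff_add, Polynomial.coeff_C_mul]
  refine P.add_mem (P.mul_mem_right _ hfP) ?_
  rw [Polynomial.C_0, zero_mul, zero_add, Polynomial.coeff_C_mul, Polynomial.coeff_C]
  split_ifs
  · exact P.mul_mem_left _ hM
  · simp

/-- **existence of a good relation** -/
theorem exists_good [CharZero K] (hS : DS δ S) [hP : P.IsPrime] {D : ℕ}
    {f : MvPolynomial (Fin e) K} (hfD : f.totalDegree ≤ D) (hPf : ∀ g ∈ P, f ∣ g) (hfP : f ∈ P)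
    (hSig : ∀ z ∈ Sig, Cst δ z.1 ∧ Cst δ z.2)
    (hSigP : ∀ z ∈ Sig, ∀ g ∈ P, eval (th S z) g = 0)
    (hH : ∀ g : MvPolynomial (Fin e) K, g.totalDegree ≤ 31 * D →
      (∀ z ∈ Sig, eval (th S z) g = 0) → g ∈ P)
    (hna : pderiv a f ∉ P) (hq : ∃ p j, Cod1.q2 f a p j ∉ P ∨ Cod1.q1 δ f a p j ∉ P) :
    ∃ s g, Good δ S P Sig f a s g ∧ Rel S Sig a (10 * D) g := by
  have hSigf : ∀ z ∈ Sig, eval (th S z) f = 0 := fun z hz => hSigP z hz f hfP
  have hstab : ∀ p, ∀ w ∈ P, ∀ i, (EL δ f a p (Polynomial.C w)).coeff i ∈ P := fun p =>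
    stab_of hS hfD hPf hfP hSig hSigf hH p
  by_cases h1 : ∃ G, Rel S Sig a (10 * D) G ∧ G.natDegree ≤ 1 ∧ ¬ ∀ i, G.coeff i ∈ P
  · -- rational case
    obtain ⟨G, hG, hG1, hGP⟩ := h1
    have hlead : G.coeff 1 ∉ P := by
      intro h
      apply hGP
      intro i
      rcases i with _ | _ | i
      · refine hH _ ((hG.deg 0).trans (by omega)) fun z hz => ?_
        have h2 := hG.van z hz
        rw [evz_le_one hG1, hSigP z hz _ h] at h2
        simpa using h2
      · exact h
      · rw [Polynomial.coeff_eq_zero_of_natDegree_lt (by omega)]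
        exact P.zero_mem
    have key : ∀ T, Rel S Sig a (11 * D) T → T.natDegree ≤ 2 →
        ∃ (n : ℕ) (u r : Polynomial (MvPolynomial (Fin e) K)),
          Polynomial.C (G.coeff 1) ^ n * T = G * u + r ∧ ∀ i, r.coeff i ∈ P := by
      intro T hT hT2
      obtain ⟨u, r, h3, h4, h5⟩ := hG.pdiv hG1 hT (n := 2) (by omega)
      refine ⟨2, u, r, h3, fun i => ?_⟩
      by_cases hi : 1 ≤ i
      · rw [h4 i hi]; exact P.zero_mem
      · obtain rfl : i = 0 := by omega
        refine hH _ ((h5.deg 0).trans (by omega)) fun z hz => ?_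
        have h6 := h5.van z hz
        have h7 : r.natDegree ≤ 1 := by
          rw [Polynomial.natDegree_le_iff_coeff_eq_zero]
          exact fun i hi => h4 i (by omega)
        rw [evz_le_one h7, h4 1 le_rfl] at h6
        simpa using h6
    refine ⟨1, G, ⟨hna, one_pos, by omega, hG1, hlead, hG.van, by omega, fun p => ?_,
      fun p j => ?_, hstab⟩, hG⟩
    · refine key _ ((hG.EL hS hfD hSig hSigf p).mono (by omega)) ?_
      exact (natDegree_EL_le δ f a p G).trans (by omega)
    · exact key _ ((rel_HH hS hfD hSig hSigf p j).mono (by omega)) (natDegree_HH_le δ f a p j)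
  · -- quadratic case
    push Not at h1
    obtain ⟨p₀, j₀, hpj⟩ := hq
    set G := HH δ f a p₀ j₀ with hGdef
    have hG : Rel S Sig a (3 * D) G := rel_HH hS hfD hSig hSigf p₀ j₀
    have hG2 : G.natDegree ≤ 2 := natDegree_HH_le δ f a p₀ j₀
    have hc2 : G.coeff 2 = Cod1.q2 f a p₀ j₀ := by
      rw [hGdef, HH_eq]; simp [Polynomial.coeff_X, Polynomial.coeff_C]
    have hc1 : G.coeff 1 = Cod1.q1 δ f a p₀ j₀ := by
      rw [hGdef, HH_eq]; simp [Polynomial.coeff_X_pow, Polynomial.coeff_C]
    have hlead : G.coeff 2 ∉ P := by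
      intro h
      have h2 : G.coeff 1 ∉ P := by
        rw [hc1]
        rw [hc2] at h
        exact hpj.resolve_left (fun h' => h' h)
      apply h2
      set G' := Polynomial.C (G.coeff 1) * Polynomial.X + Polynomial.C (G.coeff 0) with hG'
      have h3 := h1 G' ⟨?_, fun z hz => ?_⟩ ?_ 1
      · simpa [hG'] using h3
      · refine Cdeg.add ?_ (Cdeg.C ((hG.deg 0).trans (by omega)))
        have := (Cdeg.C (hG.deg 1)).mul (Cdeg.X 0)
        exact this.mono (by omega)
      · have h4 := hG.van z hz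
        rw [evz_le_two hG2, hSigP z hz _ h] at h4
        rw [hG']
        simpa using h4
      · rw [hG']
        refine (Polynomial.natDegree_add_le _ _).trans (max_le ?_ (by simp))
        exact (Polynomial.natDegree_C_mul_le _ _).trans Polynomial.natDegree_X_le
    have hdisc : G.coeff 1 ^ 2 - 4 * G.coeff 2 * G.coeff 0 ∉ P := by
      intro h
      set G' := Polynomial.C (2 * G.coeff 2) * Polynomial.X + Polynomial.C (G.coeff 1) with hG'
      have h3 := h1 G' ⟨?_, fun z hz => ?_⟩ ?_ 1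
      · have h4 : 2 * G.coeff 2 ∈ P := by simpa [hG'] using h3
        rcases hP.mem_or_mem h4 with h5 | h5
        · apply hP.ne_top
          rw [Ideal.eq_top_iff_one]
          have h6 := P.mul_mem_left (C (2 : K)⁻¹) h5
          have h7 : (2 : MvPolynomial (Fin e) K) = C 2 := (map_ofNat C 2).symm
          rwa [h7, ← C_mul, inv_mul_cancel₀ two_ne_zero, C_1] at h6
        · exact hlead h5
      · refine Cdeg.add ?_ (Cdeg.C ((hG.deg 1).trans (by omega)))
        have h5 : (2 * G.coeff 2).totalDegree ≤ 3 * D := by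
          have h6 : (2 : MvPolynomial (Fin e) K) = C 2 := (map_ofNat C 2).symm
          rw [h6]
          refine (totalDegree_mul _ _).trans ?_
          rw [totalDegree_C, zero_add]
          exact hG.deg 2
        have := (Cdeg.C h5).mul (Cdeg.X 0)
        exact this.mono (by omega)
      · have h4 := hG.van z hz
        have h5 := hSigP z hz _ h
        rw [evz_le_two hG2] at h4
        simp only [map_sub, map_pow, map_mul] at h5
        have h8 : eval (th S z) (4 : MvPolynomial (Fin e) K) = 4 := by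
          have : (4 : MvPolynomial (Fin e) K) = C 4 := (map_ofNat C 4).symm
          rw [this, eval_C]
        have h9 : eval (th S z) (2 : MvPolynomial (Fin e) K) = 2 := by
          have : (2 : MvPolynomial (Fin e) K) = C 2 := (map_ofNat C 2).symm
          rw [this, eval_C]
        rw [h8] at h5
        have h6 : (evz S a z G') ^ 2 = 0 := by
          rw [hG']
          simp only [map_add, map_mul, evz_C, evz_X, h9]
          linear_combination (4 * eval (th S z) (G.coeff 2)) * h4 + h5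
        exact pow_eq_zero_iff (two_ne_zero) |>.1 h6
      · rw [hG']
        refine (Polynomial.natDegree_add_le _ _).trans (max_le ?_ (by simp))
        exact (Polynomial.natDegree_C_mul_le _ _).trans Polynomial.natDegree_X_le
    have key : ∀ T, Rel S Sig a (4 * D) T → T.natDegree ≤ 3 →
        ∃ (n : ℕ) (u r : Polynomial (MvPolynomial (Fin e) K)),
          Polynomial.C (G.coeff 2) ^ n * T = G * u + r ∧ ∀ i, r.coeff i ∈ P := by
      intro T hT hT2
      obtain ⟨u, r, h3, h4, h5⟩ := hG.pdiv hG2 hT (n := 2) (by omega)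
      refine ⟨2, u, r, h3, h1 r (h5.mono (by omega)) ?_⟩
      rw [Polynomial.natDegree_le_iff_coeff_eq_zero]
      exact fun i hi => h4 i (by omega)
    refine ⟨2, G, ⟨hna, two_pos, le_rfl, hG2, hlead, hG.van, fun _ => hdisc, fun p => ?_,
      fun p j => ?_, hstab⟩, hG.mono (by omega)⟩
    · refine key _ ((hG.EL hS hfD hSig hSigf p).mono (by omega)) ?_
      exact (natDegree_EL_le δ f a p G).trans (by omega)
    · exact key _ ((rel_HH hS hfD hSig hSigf p j).mono (by omega))
        ((natDegree_HH_le δ f a p j).trans (by omega))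

end rel

end Crest.Agent.R065.Cod1q392
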