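import Crest.Agent.R065.Cod1c_392

/-!
# Row 65, codimension one: constants in `F = K(V)(λ)` and specialisation   (helper392)
-/

set_option autoImplicit false

open MvPolynomial Module

namespace Crest.Agent.R065.Cod1q392

open Crest.Agent.R065.HF669 Crest.Agent.R065.Base348 Crest.Agent.R065.Cramer234

section fld

variable {e : ℕ} {K : Type*} [Field K] {δ : Pr e → Derivation ℤ K K} {S : Pr e → K}
  {P : Ideal (MvPolynomial (Fin e) K)} {Sig : Set (Pt e K)} {a : Fin e}
  {F : Type*} [Field F] [Algebra K F]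

/-- `G ↦ G(θ, α)` -/
noncomputable def ev (θ : Fin e → F) (α : F) : Polynomial (MvPolynomial (Fin e) K) →+* F :=
  Polynomial.eval₂RingHom (aeval θ : MvPolynomial (Fin e) K →ₐ[K] F).toRingHom α

lemma ev_eq (θ : Fin e → F) (α : F) (G : Polynomial (MvPolynomial (Fin e) K)) :
    ev θ α G = Polynomial.eval₂ (aeval θ : MvPolynomial (Fin e) K →ₐ[K] F).toRingHom α G := rfl

@[simp] lemma ev_C (θ : Fin e → F) (α : F) (g : MvPolynomial (Fin e) K) :
    ev θ α (Polynomial.C g) = aeval θ g := by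
  rw [ev_eq, Polynomial.eval₂_C]; rfl

@[simp] lemma ev_X (θ : Fin e → F) (α : F) :
    ev θ α (Polynomial.X : Polynomial (MvPolynomial (Fin e) K)) = α := by
  rw [ev_eq, Polynomial.eval₂_X]

lemma ev_of_coeff_mem {θ : Fin e → F} (hker : ∀ g, aeval θ g = 0 ↔ g ∈ P) (α : F)
    {r : Polynomial (MvPolynomial (Fin e) K)} (hr : ∀ i, r.coeff i ∈ P) : ev θ α r = 0 := by
  rw [ev_eq, Polynomial.eval₂_eq_sum_range]
  refine Finset.sum_eq_zero fun i _ => ?_
  have : (aeval θ : MvPolynomial (Fin e) K →ₐ[K] F).toRingHom (r.coeff i) = 0 := (hker _).2 (hr i)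
  rw [this, zero_mul]

lemma ev_derivative {θ : Fin e → F} {α : F} {g : Polynomial (MvPolynomial (Fin e) K)}
    (hg : g.natDegree ≤ 2) :
    ev θ α (Polynomial.derivative g) = 2 * aeval θ (g.coeff 2) * α + aeval θ (g.coeff 1) := by
  have h : g = Polynomial.C (g.coeff 2) * Polynomial.X ^ 2 + Polynomial.C (g.coeff 1) *
      Polynomial.X + Polynomial.C (g.coeff 0) := by
    ext i : 1
    rcases i with _ | _ | _ | i
    · simp
    · simp [Polynomial.coeff_C]
    · simp [Polynomial.coeff_X, Polynomial.coeff_C]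
    · rw [Polynomial.coeff_eq_zero_of_natDegree_lt (by omega)]
      simp [Polynomial.coeff_X, Polynomial.coeff_C, Polynomial.coeff_X_pow]
  have h2 : Polynomial.derivative g = Polynomial.C (2 * g.coeff 2) * Polynomial.X +
      Polynomial.C (g.coeff 1) := by
    conv_lhs => rw [h]
    have h3 : (Polynomial.C (2 : MvPolynomial (Fin e) K)) = 2 := map_ofNat Polynomial.C 2
    simp [h3]
    ring
  rw [h2]
  simp

lemma ev_le_two {θ : Fin e → F} {α : F} {g : Polynomial (MvPolynomial (Fin e) K)}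
    (hg : g.natDegree ≤ 2) :
    ev θ α g = aeval θ (g.coeff 2) * α ^ 2 + aeval θ (g.coeff 1) * α + aeval θ (g.coeff 0) := by
  rw [ev_eq, Polynomial.eval₂_eq_sum_range' _ (n := 3) (by omega)]
  simp [Finset.sum_range_succ]
  ring

variable {f : MvPolynomial (Fin e) K} {s : ℕ} {g : Polynomial (MvPolynomial (Fin e) K)}

lemma Good.sep (hG : Good δ S P Sig f a s g) {θ : Fin e → F}
    (hker : ∀ g, aeval θ g = 0 ↔ g ∈ P) {α : F} (hα : ev θ α g = 0) :
    ev θ α (Polynomial.derivative g) ≠ 0 := by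
  have hg2 : g.natDegree ≤ 2 := hG.deg.trans hG.le
  rw [ev_derivative hg2]
  rw [ev_le_two hg2] at hα
  have hs : s = 1 ∨ s = 2 := by
    have := hG.pos; have := hG.le; omega
  rcases hs with rfl | rfl
  · have h0 : g.coeff 2 = 0 := Polynomial.coeff_eq_zero_of_natDegree_lt (by
      have := hG.deg; omega)
    rw [h0, map_zero, mul_zero, zero_mul, zero_add]
    exact fun h => hG.lead ((hker _).1 h)
  · intro h
    apply hG.disc rfl
    rw [← hker]
    simp only [map_sub, map_mul, map_pow, map_ofNat]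
    linear_combination (2 * aeval θ (g.coeff 2) * α + aeval θ (g.coeff 1)) * h -
      (4 * aeval θ (g.coeff 2)) * hα

lemma ev_eq_zero_of_dvd (hlead : g.coeff s ∉ P) {θ : Fin e → F}
    (hker : ∀ g, aeval θ g = 0 ↔ g ∈ P) {α : F} (hα : ev θ α g = 0)
    {T : Polynomial (MvPolynomial (Fin e) K)} (hT : ∃ (n : ℕ)
      (u r : Polynomial (MvPolynomial (Fin e) K)),
      Polynomial.C (g.coeff s) ^ n * T = g * u + r ∧ ∀ i, r.coeff i ∈ P) : ev θ α T = 0 := by
  obtain ⟨n, u, r, h1, h2⟩ := hT
  have h3 := congrArg (ev θ α) h1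
  rw [map_mul, map_add, map_mul, hα, ev_of_coeff_mem hker α h2, zero_mul, zero_add, map_pow,
    ev_C] at h3
  refine (mul_eq_zero.1 h3).resolve_left (pow_ne_zero _ fun h => hlead ((hker _).1 h))

/-- **constants for a root `α` of a good relation** -/
theorem Good.constData (hS : DS δ S) (hG : Good δ S P Sig f a s g) {θ : Fin e → F}
    (hker : ∀ g, aeval θ g = 0 ↔ g ∈ P) {α : F} (hα : ev θ α g = 0)
    (hfrac : ∀ x : F, ∃ u v : Polynomial (MvPolynomial (Fin e) K),
      ev θ α v ≠ 0 ∧ x = ev θ α u / ev θ α v) :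
    ∃ (Dd : Pr e → Derivation ℤ F F) (ξ η : Fin e → F), ConstData δ S F θ Dd ξ η ∧
      ∀ i, aeval θ (pderiv a f) * ξ i = ev θ α (XX δ f a i) := by
  have hn : ev θ α (Polynomial.C (pderiv a f)) ≠ 0 := by
    rw [ev_C]
    exact fun h => hG.na ((hker _).1 h)
  obtain ⟨Dd, ξ, η, h1, h2, -⟩ := constData_of_lift hS (ev θ α)
    (Polynomial.C.comp C) (fun x => by simp) hfrac (EL δ f a)
    (fun p => ker_stable _ α g hα (hG.sep hker hα) (EL δ f a p)
      (ev_eq_zero_of_dvd hG.lead hker hα (hG.Eg p))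
      (fun w hw => ev_of_coeff_mem hker α (hG.stab p w ((hker w).1 hw))))
    (Polynomial.C (pderiv a f)) hn (XX δ f a) (fun i => Polynomial.C (X i))
    (fun p x => EL_CC δ f a p x) (fun p i => EL_CX δ f a p i)
    (fun p j => ev_eq_zero_of_dvd hG.lead hker hα (hG.EH p j))
  refine ⟨Dd, ξ, η, ?_, fun i => ?_⟩
  · have : (fun i => ev θ α (Polynomial.C (X i : MvPolynomial (Fin e) K))) = θ := by
      funext i; simp
    rw [this] at h1
    exact h1
  · rw [← h2, ev_C]

/-- **specialisation** -/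
theorem Good.spec (hS : DS δ S) (hG : Good δ S P Sig f a s g) {θ : Fin e → F}
    (hker : ∀ g, aeval θ g = 0 ↔ g ∈ P) {ι : Type*} [Fintype ι] (hι : Fintype.card ι = s)
    {α : ι → F} (hinj : Function.Injective α) (hα : ∀ l, ev θ (α l) g = 0)
    {ξ η : ι → Fin e → F}
    (hξ : ∀ l i, aeval θ (pderiv a f) * ξ l i = ev θ (α l) (XX δ f a i))
    (hη : ∀ l i, θ i = η l i + act (fun p => algebraMap K F (S p)) (ξ l) i)
    {z : Pt e K} (hz : z ∈ Sig) (hx : Cst δ z.1) (hy : Cst δ z.2) (hfP : f ∈ P)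
    (hzP : ∀ g ∈ P, MvPolynomial.eval (th S z) g = 0)
    (hnz : MvPolynomial.eval (th S z) (pderiv a f) ≠ 0)
    (hlz : MvPolynomial.eval (th S z) (g.coeff s) ≠ 0)
    (q : ι → MvPolynomial (Fin e ⊕ Fin e) K) (hq : ∀ l, aeval (Sum.elim (ξ l) (η l)) (q l) = 0) :
    ∏ l, MvPolynomial.eval (Sum.elim z.1 z.2) (q l) = 0 := by
  classical
  -- compatible families
  let c : (ι → F) → K → Prop := fun u w => ∃ (n : ℕ) (r : Polynomial (MvPolynomial (Fin e) K)),
    (∀ l, ev θ (α l) r = aeval θ (pderiv a f) ^ n * u l) ∧ evz S a z r =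
      MvPolynomial.eval (th S z) (pderiv a f) ^ n * w
  set B := pderiv a f with hB
  have hadd : ∀ {u w u' w'}, c u w → c u' w' → c (u + u') (w + w') := by
    rintro u w u' w' ⟨n, r, h1, h2⟩ ⟨n', r', h1', h2'⟩
    refine ⟨n + n', Polynomial.C (B ^ n') * r + Polynomial.C (B ^ n) * r', fun l => ?_, ?_⟩
    · simp only [map_add, map_mul, map_pow, h1, h1', ev_C, Pi.add_apply]; ring
    · simp only [map_add, map_mul, map_pow, h2, h2', evz_C]; ring
  have hmul : ∀ {u w u' w'}, c u w → c u' w' → c (u * u') (w * w') := by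
    rintro u w u' w' ⟨n, r, h1, h2⟩ ⟨n', r', h1', h2'⟩
    refine ⟨n + n', r * r', fun l => ?_, ?_⟩
    · simp only [map_mul, h1, h1', Pi.mul_apply]; ring
    · simp only [map_mul, h2, h2']; ring
  have hK : ∀ x : K, c (fun _ => algebraMap K F x) x := fun x =>
    ⟨0, Polynomial.C (C x), fun l => by simp, by simp⟩
  have hx' : ∀ i, c (fun l => ξ l i) (z.1 i) := fun i =>
    ⟨1, XX δ f a i, fun l => by rw [pow_one, hξ], by
      rw [pow_one, evz_XX hS hx hy (hzP f hfP)]⟩
  have hneg : ∀ {u w}, c u w → c (-u) (-w) := by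
    rintro u w ⟨n, r, h1, h2⟩
    exact ⟨n, -r, fun l => by rw [map_neg, h1, Pi.neg_apply]; ring, by rw [map_neg, h2]; ring⟩
  have hsum : ∀ (s : Finset (Fin e)) (u : Fin e → ι → F) (w : Fin e → K),
      (∀ i ∈ s, c (u i) (w i)) → c (∑ i ∈ s, u i) (∑ i ∈ s, w i) := by
    intro s u w
    induction s using Finset.induction_on with
    | empty => intro _; simpa [Pi.zero_def] using hK 0
    | insert a s ha ih =>
      intro h
      rw [Finset.sum_insert ha, Finset.sum_insert ha]
      exact hadd (h a (Finset.mem_insert_self _ _))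
        (ih fun i hi => h i (Finset.mem_insert_of_mem hi))
  have hy' : ∀ i, c (fun l => η l i) (z.2 i) := by
    intro i
    have h1 : (fun l => η l i) = (fun _ => θ i) +
        -∑ j, (fun _ => algebraMap K F (sk S i j)) * fun l => ξ l j := by
      funext l
      simp only [Pi.add_apply, Pi.neg_apply, Finset.sum_apply, Pi.mul_apply]
      rw [hη l i, act]
      simp only [sk_map (algebraMap K F) S]
      ring
    have h2 : z.2 i = th S z i + -∑ j, sk S i j * z.1 j := by
      simp only [th, Pi.add_apply, act]; ring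
    rw [h1, h2]
    refine hadd ⟨0, Polynomial.C (X i), fun l => by simp, by simp⟩ (hneg (hsum _ _ _ fun j _ => ?_))
    exact hmul (hK _) (hx' j)
  have key : ∀ q : MvPolynomial (Fin e ⊕ Fin e) K,
      c (fun l => aeval (Sum.elim (ξ l) (η l)) q) (MvPolynomial.eval (Sum.elim z.1 z.2) q) := by
    intro q
    induction q using MvPolynomial.induction_on with
    | C x => simpa using hK x
    | add p q hp hq =>
      have := hadd hp hq
      simpa [Pi.add_def] using this
    | mul_X p i hp =>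
      have h3 : c (fun l => Sum.elim (ξ l) (η l) i) (Sum.elim z.1 z.2 i) := by
        rcases i with i | i
        · exact hx' i
        · exact hy' i
      have := hmul hp h3
      simpa [Pi.mul_def] using this
  obtain ⟨n, r, h1, h2⟩ := key (∏ l, q l)
  have h3 : ∀ l, ev θ (α l) r = 0 := by
    intro l
    rw [h1 l]
    change _ * aeval (Sum.elim (ξ l) (η l)) (∏ l, q l) = 0
    rw [map_prod, Finset.prod_eq_zero (Finset.mem_univ l) (hq l), mul_zero]
  obtain ⟨m, u, r', h4, h5⟩ := pdiv' g s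
    (fun i hi => Polynomial.coeff_eq_zero_of_natDegree_lt (lt_of_le_of_lt hG.deg hi)) r
  have h6 : r'.map (aeval θ : MvPolynomial (Fin e) K →ₐ[K] F).toRingHom = 0 := by
    refine Polynomial.eq_zero_of_natDegree_lt_card_of_eval_eq_zero _ hinj (fun l => ?_) ?_
    · rw [← Polynomial.eval₂_eq_eval_map, ← ev_eq]
      have h7 := congrArg (ev θ (α l)) h4
      rw [map_mul, h3, map_add, map_mul, hα, zero_mul, mul_zero, zero_add] at h7
      exact h7.symm
    · rw [hι]
      by_contra hc
      have h8 : (r'.map (aeval θ : MvPolynomial (Fin e) K →ₐ[K] F).toRingHom).leadingCoeff = 0 := by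
        rw [Polynomial.leadingCoeff, Polynomial.coeff_map, h5 _ (not_lt.1 hc), map_zero]
      rw [Polynomial.leadingCoeff_eq_zero.1 h8, Polynomial.natDegree_zero] at hc
      exact hc hG.pos
  have h7 : ∀ i, r'.coeff i ∈ P := by
    intro i
    have h8 := congrArg (fun p => Polynomial.coeff p i) h6
    rw [← hker]
    simpa using h8
  have h8 : evz S a z r' = 0 := by
    rw [evz, Polynomial.coe_eval₂RingHom, Polynomial.eval₂_eq_sum_range]
    refine Finset.sum_eq_zero fun i _ => ?_
    rw [hzP _ (h7 i), zero_mul]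
  have h9 := congrArg (evz S a z) h4
  rw [map_mul, map_add, map_mul, hG.van z hz, h8, zero_mul, zero_add, map_pow, evz_C] at h9
  have h10 := (mul_eq_zero.1 h9).resolve_left (pow_ne_zero _ hlz)
  rw [h10] at h2
  have h11 := (mul_eq_zero.1 h2.symm).resolve_left (pow_ne_zero _ hnz)
  rwa [map_prod] at h11

end fld

end Crest.Agent.R065.Cod1q392
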