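import Crest.Agent.R065.Cod1d_392
import Crest.Agent.R065.MblkFin_474

/-!
# Row 65, codimension one: the field `F = K(V)(λ)` and the constant varieties   (helper392)
-/

set_option autoImplicit false

open MvPolynomial Module

namespace Crest.Agent.R065.Cod1q392

open Crest.Agent.R065.HF669 Crest.Agent.R065.Base348 Crest.Agent.R065.Cramer234

universe u

/-! ### fractions -/

section frac

variable {A F : Type*} [CommRing A] [Field F] {φ : A →+* F}

/-- `x` is a fraction of values of `φ` -/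
def IsFr (φ : A →+* F) (x : F) : Prop := ∃ u v, φ v ≠ 0 ∧ x = φ u / φ v

lemma IsFr.of (u : A) : IsFr φ (φ u) := ⟨u, 1, by simp, by simp⟩

lemma IsFr.add {x y : F} (hx : IsFr φ x) (hy : IsFr φ y) : IsFr φ (x + y) := by
  obtain ⟨u, v, hv, rfl⟩ := hx
  obtain ⟨u', v', hv', rfl⟩ := hy
  refine ⟨u * v' + v * u', v * v', by rw [map_mul]; exact mul_ne_zero hv hv', ?_⟩
  rw [div_add_div _ _ hv hv', map_add, map_mul, map_mul, map_mul]

lemma IsFr.mul {x y : F} (hx : IsFr φ x) (hy : IsFr φ y) : IsFr φ (x * y) := by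
  obtain ⟨u, v, hv, rfl⟩ := hx
  obtain ⟨u', v', hv', rfl⟩ := hy
  refine ⟨u * u', v * v', by rw [map_mul]; exact mul_ne_zero hv hv', ?_⟩
  rw [div_mul_div_comm, map_mul, map_mul]

lemma IsFr.neg {x : F} (hx : IsFr φ x) : IsFr φ (-x) := by
  obtain ⟨u, v, hv, rfl⟩ := hx
  exact ⟨-u, v, hv, by rw [map_neg, neg_div]⟩

lemma IsFr.div {x y : F} (hx : IsFr φ x) (hy : IsFr φ y) (h0 : y ≠ 0) : IsFr φ (x / y) := by
  obtain ⟨u, v, hv, rfl⟩ := hx
  obtain ⟨u', v', hv', rfl⟩ := hy
  have h1 : φ u' ≠ 0 := fun h => h0 (by rw [h, zero_div])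
  refine ⟨u * v', v * u', by rw [map_mul]; exact mul_ne_zero hv h1, ?_⟩
  rw [map_mul, map_mul]
  field_simp

lemma IsFr.pow {x : F} (hx : IsFr φ x) (n : ℕ) : IsFr φ (x ^ n) := by
  induction n with
  | zero => rw [pow_zero]; exact ⟨1, 1, by simp, by simp⟩
  | succ n ih => rw [pow_succ]; exact ih.mul hx

end frac

section fld

variable {e : ℕ} {K : Type u} [Field K] {δ : Pr e → Derivation ℤ K K} {S : Pr e → K}
  {P : Ideal (MvPolynomial (Fin e) K)} {Sig : Set (Pt e K)} {a : Fin e}
  {f : MvPolynomial (Fin e) K} {s : ℕ} {g : Polynomial (MvPolynomial (Fin e) K)}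

/-- existence of `F` (as a ring extension) -/
lemma exists_field_aux {R : Type u} [CommRing R] (P : Ideal R) [hP : P.IsPrime]
    (g : Polynomial R) (hg : ∃ i, i ≠ 0 ∧ g.coeff i ∉ P) :
    ∃ (F : Type u) (_ : Field F) (Φ : R →+* F) (α : F), (∀ r, Φ r = 0 ↔ r ∈ P) ∧
      Polynomial.eval₂ Φ α g = 0 ∧ ∀ x : F, IsFr (Polynomial.eval₂RingHom Φ α) x := by
  classical
  let L := FractionRing (R ⧸ P)
  let φ0 : R →+* L := (algebraMap (R ⧸ P) L).comp (Ideal.Quotient.mk P)
  have hφ0 : ∀ r, φ0 r = 0 ↔ r ∈ P := by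
    intro r
    change algebraMap (R ⧸ P) L (Ideal.Quotient.mk P r) = 0 ↔ _
    rw [map_eq_zero_iff _ (IsFractionRing.injective (R ⧸ P) L), Ideal.Quotient.eq_zero_iff_mem]
  have hdeg : (g.map φ0).natDegree ≠ 0 := by
    obtain ⟨i, hi, hgi⟩ := hg
    intro h
    have h1 : (g.map φ0).coeff i = 0 := Polynomial.coeff_eq_zero_of_natDegree_lt (by omega)
    rw [Polynomial.coeff_map] at h1
    exact hgi ((hφ0 _).1 h1)
  let q := Polynomial.factor (g.map φ0)
  have hq : Irreducible q := Polynomial.irreducible_factor _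
  have hqd : q ∣ g.map φ0 := Polynomial.factor_dvd_of_natDegree_ne_zero hdeg
  haveI : Fact (Irreducible q) := ⟨hq⟩
  let Φ : R →+* AdjoinRoot q := (AdjoinRoot.of q).comp φ0
  refine ⟨AdjoinRoot q, inferInstance, Φ, AdjoinRoot.root q, fun r => ?_, ?_, fun x => ?_⟩
  · change (AdjoinRoot.of q) (φ0 r) = 0 ↔ _
    rw [map_eq_zero_iff _ (AdjoinRoot.of q).injective, hφ0]
  · rw [← Polynomial.eval₂_map]
    exact Polynomial.eval₂_eq_zero_of_dvd_of_eval₂_eq_zero _ _ hqd (AdjoinRoot.eval₂_root q)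
  · obtain ⟨h, rfl⟩ := AdjoinRoot.mk_surjective x
    induction h using Polynomial.induction_on' with
    | add p q hp hq => rw [map_add]; exact hp.add hq
    | monomial n l =>
      rw [← Polynomial.C_mul_X_pow_eq_monomial, map_mul, map_pow, AdjoinRoot.mk_C,
        AdjoinRoot.mk_X]
      refine IsFr.mul ?_ (IsFr.pow ⟨Polynomial.X, 1, by simp, by simp⟩ n)
      obtain ⟨u, v, hv, rfl⟩ := IsFractionRing.div_surjective (A := R ⧸ P) l
      obtain ⟨u, rfl⟩ := Ideal.Quotient.mk_surjective u
      obtain ⟨v, rfl⟩ := Ideal.Quotient.mk_surjective v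
      have h1 : Φ v ≠ 0 := by
        change (AdjoinRoot.of q) (φ0 v) ≠ 0
        rw [Ne, map_eq_zero_iff _ (AdjoinRoot.of q).injective, hφ0,
          ← Ideal.Quotient.eq_zero_iff_mem]
        exact nonZeroDivisors.ne_zero hv
      refine ⟨Polynomial.C u, Polynomial.C v, by simpa using h1, ?_⟩
      rw [map_div₀]
      simp only [Polynomial.coe_eval₂RingHom, Polynomial.eval₂_C]
      rfl

/-- existence of `F` -/
theorem Good.exists_field [hP : P.IsPrime] (hG : Good δ S P Sig f a s g) :
    ∃ (F : Type u) (_ : Field F) (_ : Algebra K F) (θ : Fin e → F) (α : F),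
      (∀ g, aeval θ g = 0 ↔ g ∈ P) ∧ ev θ α g = 0 ∧ ∀ x : F, IsFr (ev (K := K) θ α) x := by
  obtain ⟨F, hF, Φ, α, h1, h2, h3⟩ := exists_field_aux P g ⟨s, hG.pos.ne', hG.lead⟩
  letI : Algebra K F := (Φ.comp C).toAlgebra
  have h4 : (aeval (fun i => Φ (X i)) : MvPolynomial (Fin e) K →ₐ[K] F).toRingHom = Φ := by
    apply MvPolynomial.ringHom_ext
    · intro x
      change aeval (fun i => Φ (X i)) (C x) = _
      rw [aeval_C]; rfl
    · intro i
      change aeval (fun i => Φ (X i)) (X i) = _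
      rw [aeval_X]
  refine ⟨F, hF, inferInstance, fun i => Φ (X i), α, fun g => ?_, ?_, ?_⟩
  · have h6 : aeval (fun i => Φ (X i)) g = Φ g := RingHom.congr_fun h4 g
    rw [h6]; exact h1 g
  · rw [ev_eq, h4, h2]
  · have h5 : ev (fun i => Φ (X i)) α = Polynomial.eval₂RingHom Φ α := by
      rw [ev, h4]
    rw [h5]; exact h3

variable {F : Type*} [Field F] [Algebra K F]

/-- fractions with respect to another generator -/
lemma isFr_of_isFr {θ : Fin e → F} {α β : F} (hα : ∀ x : F, IsFr (ev (K := K) θ α) x)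
    (h : IsFr (ev (K := K) θ β) α) (x : F) : IsFr (ev (K := K) θ β) x := by
  have h1 : ∀ u : Polynomial (MvPolynomial (Fin e) K), IsFr (ev (K := K) θ β) (ev θ α u) := by
    intro u
    induction u using Polynomial.induction_on' with
    | add p q hp hq => rw [map_add]; exact hp.add hq
    | monomial n l =>
      rw [← Polynomial.C_mul_X_pow_eq_monomial, map_mul, map_pow, ev_C, ev_X]
      refine IsFr.mul ?_ (h.pow n)
      have := IsFr.of (φ := ev (K := K) θ β) (Polynomial.C l)
      rwa [ev_C] at this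
  obtain ⟨u, v, hv, rfl⟩ := hα x
  exact (h1 u).div (h1 v) hv

/-- all roots -/
theorem Good.exists_roots (hG : Good δ S P Sig f a s g) {θ : Fin e → F} {α : F}
    (hker : ∀ g, aeval θ g = 0 ↔ g ∈ P) (hα : ev θ α g = 0)
    (hfr : ∀ x : F, IsFr (ev (K := K) θ α) x) :
    ∃ β : Fin s → F, Function.Injective β ∧ (∀ l, ev θ (β l) g = 0) ∧
      ∀ l, ∀ x : F, IsFr (ev (K := K) θ (β l)) x := by
  have hs : s = 1 ∨ s = 2 := by
    have := hG.pos; have := hG.le; omega
  rcases hs with rfl | rfl
  · exact ⟨fun _ => α, fun i j _ => Subsingleton.elim _ _, fun _ => hα, fun _ => hfr⟩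
  · have hg2 : g.natDegree ≤ 2 := hG.deg
    have h2 : aeval θ (g.coeff 2) ≠ 0 := fun h => hG.lead ((hker _).1 h)
    set β := -(aeval θ (g.coeff 1) / aeval θ (g.coeff 2)) - α with hβ
    have hβ2 : aeval θ (g.coeff 2) * β = -aeval θ (g.coeff 1) - aeval θ (g.coeff 2) * α := by
      rw [hβ]; field_simp
    have hsep := hG.sep hker hα
    rw [ev_derivative hg2] at hsep
    have hne : α ≠ β := by
      intro h
      apply hsep
      rw [← h] at hβ2
      linear_combination hβ2
    have hβ0 : ev θ β g = 0 := by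
      rw [ev_le_two hg2] at hα ⊢
      have h3 : aeval θ (g.coeff 2) * (aeval θ (g.coeff 2) * β ^ 2 + aeval θ (g.coeff 1) * β +
          aeval θ (g.coeff 0)) = 0 := by
        linear_combination (aeval θ (g.coeff 2) * β - aeval θ (g.coeff 2) * α) * hβ2 +
          (aeval θ (g.coeff 2)) * hα
      exact (mul_eq_zero.1 h3).resolve_left h2
    refine ⟨![α, β], ?_, ?_, ?_⟩
    · intro i j hij
      fin_cases i <;> fin_cases j <;> simp_all
    · intro l
      fin_cases l
      · exact hα
      · exact hβ0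
    · intro l
      fin_cases l
      · exact hfr
      · refine isFr_of_isFr hfr ?_
        have h4 : α = -(aeval θ (g.coeff 1) / aeval θ (g.coeff 2)) + -β := by
          rw [hβ]; ring
        rw [h4]
        refine ((IsFr.div ?_ ?_ h2).neg).add (IsFr.neg ?_)
        · have := IsFr.of (φ := ev (K := K) θ β) (Polynomial.C (g.coeff 1))
          rwa [ev_C] at this
        · have := IsFr.of (φ := ev (K := K) θ β) (Polynomial.C (g.coeff 2))
          rwa [ev_C] at this
        · have := IsFr.of (φ := ev (K := K) θ β) Polynomial.X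
          rwa [ev_X] at this

open IntermediateField in
/-- the degree of `F` over `K(θ)` -/
theorem Good.finrank_le (hG : Good δ S P Sig f a s g) {θ : Fin e → F} {α : F}
    (hker : ∀ g, aeval θ g = 0 ↔ g ∈ P) (hα : ev θ α g = 0)
    (hfr : ∀ x : F, IsFr (ev (K := K) θ α) x) :
    FiniteDimensional (IntermediateField.adjoin K (Set.range θ)) F ∧
      finrank (IntermediateField.adjoin K (Set.range θ)) F ≤ 2 := by
  set L := IntermediateField.adjoin K (Set.range θ) with hL
  let θ' : Fin e → L := fun i => ⟨θ i, subset_adjoin K _ ⟨i, rfl⟩⟩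
  have hθ' : ∀ g : MvPolynomial (Fin e) K, ((aeval θ' g : L) : F) = aeval θ g := by
    intro g
    have h1 : (L.val.comp (aeval θ') : MvPolynomial (Fin e) K →ₐ[K] F) = aeval θ := by
      apply MvPolynomial.algHom_ext
      intro i
      simp [θ']
    rw [← h1]; rfl
  have hev : ∀ G : Polynomial (MvPolynomial (Fin e) K), ev θ α G =
      Polynomial.aeval α (G.map (aeval θ' : MvPolynomial (Fin e) K →ₐ[K] L).toRingHom) := by
    intro G
    rw [Polynomial.aeval_def, Polynomial.eval₂_map, ev_eq]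
    congr 1
    ext g
    · simp
    · simp [θ']
  set g' := g.map (aeval θ' : MvPolynomial (Fin e) K →ₐ[K] L).toRingHom with hg'
  have hg'0 : g' ≠ 0 := by
    intro h
    have h1 := congrArg (fun p => Polynomial.coeff p s) h
    simp only [hg', Polynomial.coeff_map, Polynomial.coeff_zero] at h1
    apply hG.lead
    rw [← hker, ← hθ']
    have h2 : (aeval θ' (g.coeff s) : L) = 0 := h1
    rw [h2]; rfl
  have hg'α : Polynomial.aeval α g' = 0 := by rw [← hev, hα]
  have hint : IsIntegral L α := by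
    rw [← isAlgebraic_iff_isIntegral]
    exact ⟨g', hg'0, hg'α⟩
  have htop : L⟮α⟯ = ⊤ := by
    rw [eq_top_iff]
    intro x _
    obtain ⟨u, v, -, rfl⟩ := hfr x
    rw [hev, hev]
    exact div_mem (algebra_adjoin_le_adjoin L {α} (Polynomial.aeval_mem_adjoin_singleton L α))
      (algebra_adjoin_le_adjoin L {α} (Polynomial.aeval_mem_adjoin_singleton L α))
  have hfin : finrank L F = (minpoly L α).natDegree := by
    rw [← IntermediateField.finrank_top', ← htop, adjoin.finrank hint]
  have hle : (minpoly L α).natDegree ≤ 2 := by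
    have h1 := minpoly.degree_le_of_ne_zero L α hg'0 hg'α
    have h2 := Polynomial.natDegree_le_natDegree h1
    have h3 : g'.natDegree ≤ g.natDegree := Polynomial.natDegree_map_le
    have := hG.deg
    have := hG.le
    omega
  refine ⟨?_, hfin ▸ hle⟩
  apply Module.finite_of_finrank_pos
  rw [hfin]
  exact minpoly.natDegree_pos hint

end fld

end Crest.Agent.R065.Cod1q392
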