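import Crest.Agent.R065.CDer_234
import Crest.Agent.R065.Prime_669
import Crest.Agent.R065.Mult_496c

/-!
# Row 65: the Cramer part (codimension at least two) of 143 #12339 (5)

`P` prime of `K[z_1..z_e]`, `δ_p` derivations of `K`, points `θ = y + S x` with constant `x, y`.
Two elements `f, u ∈ P` with independent gradients determine `x`:  `B x = A`.
-/

set_option autoImplicit false

open MvPolynomial Module

namespace Crest.Agent.R065.Cramer234

open Crest.Agent.R065.HF669 Crest.Agent.R065.Base348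

/-! ### Existence of a second polynomial with independent gradient -/

section indep

variable {σ : Type*} {K : Type*} [Field K] [CharZero K]

lemma eq_C_of_pderiv_eq_zero [Fintype σ] {p : MvPolynomial σ K} (h : ∀ j, pderiv j p = 0) :
    ∃ c, p = C c := by
  refine ⟨coeff 0 p, ?_⟩
  classical
  ext s
  rw [coeff_C]
  split_ifs with hs
  · rw [hs]
  · by_contra hne
    have : ∃ j, s j ≠ 0 := by
      by_contra hc
      push Not at hc
      exact hs (Finsupp.ext fun j => (hc j).symm)
    obtain ⟨j, hj⟩ := this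
    have h1 := congrArg (coeff (s - Finsupp.single j 1)) (h j)
    rw [coeff_pderiv, coeff_zero] at h1
    have h2 : s - Finsupp.single j 1 + Finsupp.single j 1 = s := by
      apply tsub_add_cancel_of_le
      rw [Finsupp.single_le_iff]
      omega
    rw [h2] at h1
    rcases mul_eq_zero.1 h1 with h3 | h3
    · exact hne h3
    · exact Nat.cast_add_one_ne_zero _ h3

lemma pderiv_comm' [Fintype σ] (i j : σ) (p : MvPolynomial σ K) :
    pderiv i (pderiv j p) = pderiv j (pderiv i p) := by
  classical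
  ext s
  simp only [coeff_pderiv]
  rw [add_right_comm]
  by_cases h : i = j
  · subst h; rfl
  · have h1 : (s + Finsupp.single i 1 : σ →₀ ℕ) j = s j := by
      simp [Finsupp.single_apply, h]
    have h2 : (s + Finsupp.single j 1 : σ →₀ ℕ) i = s i := by
      simp [Finsupp.single_apply, Ne.symm h]
    rw [h1, h2]; ring

/-- if the prime `P` is not of codimension `≤ 1`, every coordinate hyperplane projection of `P`
satisfies an equation -/
lemma exists_pderiv_eq_zero [Infinite K] [Fintype σ] {P : Ideal (MvPolynomial σ K)} [P.IsPrime]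
    (hdim : dimP P + 2 ≤ Fintype.card σ) (a : σ) : ∃ g ∈ P, g ≠ 0 ∧ pderiv a g = 0 := by
  classical
  by_contra hc
  push Not at hc
  have h1 := Mult496.le_HF_of_rename (P := P) (fun b : {b : σ // b ≠ a} => (b : σ)) (by
    intro f hf
    by_contra hf0
    have h2 : rename (fun b : {b : σ // b ≠ a} => (b : σ)) f ≠ 0 := by
      intro h
      exact hf0 (rename_injective _ Subtype.val_injective (by rw [h, map_zero]))
    refine hc _ hf h2 ?_
    apply pderiv_eq_zero_of_notMem_vars
    intro ha
    have := vars_rename _ _ ha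
    rw [Finset.mem_image] at this
    obtain ⟨b, _, hb⟩ := this
    exact b.2 hb)
  have hcard : Fintype.card {b : σ // b ≠ a} = Fintype.card σ - 1 := by
    rw [Fintype.card_subtype_compl]
    simp
  rw [hcard] at h1
  have h3 : Fintype.card σ - 1 ≤ dimP P := by
    refine Mult496.choose_growth_le (x := 1) (y := degP P) (b := 0) (a := 0) one_pos fun m => ?_
    have := (h1 m).trans (HF_le_degP P m)
    simpa using this
  omega

/-- the tangential vector field `n_a ∂_b - n_b ∂_a` -/
noncomputable def tf [Fintype σ] [DecidableEq σ] (n : σ → MvPolynomial σ K) (a b : σ) :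
    Derivation ℤ (MvPolynomial σ K) (MvPolynomial σ K) :=
  n a • pD b - n b • pD a

lemma tf_apply [Fintype σ] [DecidableEq σ] (n : σ → MvPolynomial σ K) (a b : σ)
    (p : MvPolynomial σ K) : tf n a b p = n a * pderiv b p - n b * pderiv a p := rfl

lemma totalDegree_mul_pderiv_le (n : MvPolynomial σ K) {D : ℕ} (hn : n.totalDegree ≤ D) (b : σ)
    (p : MvPolynomial σ K) : (n * pderiv b p).totalDegree ≤ p.totalDegree + D := by
  refine (totalDegree_mul _ _).trans ?_
  have := totalDegree_pderiv_le b p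
  omega

lemma totalDegree_tf_le [Fintype σ] [DecidableEq σ] {n : σ → MvPolynomial σ K} {D : ℕ}
    (hn : ∀ a, (n a).totalDegree ≤ D) (a b : σ) (p : MvPolynomial σ K) :
    (tf n a b p).totalDegree ≤ p.totalDegree + D := by
  rw [tf_apply]
  exact (totalDegree_sub _ _).trans (max_le (totalDegree_mul_pderiv_le _ (hn a) b p)
    (totalDegree_mul_pderiv_le _ (hn b) a p))

/-- **second polynomial with independent gradient.**  `hder` is the derivation lemma. -/
theorem exists_indep [Infinite K] [Fintype σ] {P : Ideal (MvPolynomial σ K)} [hP : P.IsPrime]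
    (hdim : dimP P + 2 ≤ Fintype.card σ) {D D' : ℕ} {f : MvPolynomial σ K} (hf : f ∈ P)
    (hf0 : f ≠ 0) (hfD : f.totalDegree ≤ D)
    (hmin : ∀ g ∈ P, g.totalDegree < f.totalDegree → g = 0)
    (hder : ∀ E : Derivation ℤ (MvPolynomial σ K) (MvPolynomial σ K),
      (∀ g, (E g).totalDegree ≤ g.totalDegree + D) →
      (∀ u ∈ P, u.totalDegree ≤ D' → E u ∈ P) → ∀ u ∈ P, E u ∈ P) :
    ∃ u ∈ P, u.totalDegree ≤ D' ∧ ∃ a b, pderiv a f * pderiv b u - pderiv b f * pderiv a u ∉ P := by
  classical
  by_contra hc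
  push Not at hc
  have hE : ∀ a b, ∀ u ∈ P, tf (fun j => pderiv j f) a b u ∈ P := by
    intro a b
    refine hder _ (fun g => totalDegree_tf_le (fun j => ?_) a b g) fun u hu hu' => ?_
    · have := totalDegree_pderiv_le j f
      omega
    · rw [tf_apply]; exact hc u hu hu' a b
  -- a direction `a` with `∂_a f ∉ P`
  have hfpos : f.totalDegree ≠ 0 := by
    intro h0
    rw [totalDegree_eq_zero_iff_eq_C] at h0
    rw [h0] at hf hf0
    have hc0 : coeff 0 f ≠ 0 := fun h => hf0 (by rw [h, C_0])
    apply hP.ne_top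
    rw [Ideal.eq_top_iff_one]
    have := P.mul_mem_left (C (coeff 0 f)⁻¹) hf
    rwa [← C_mul, inv_mul_cancel₀ hc0, C_1] at this
  obtain ⟨a, ha⟩ : ∃ a, pderiv a f ∉ P := by
    by_contra hcc
    push Not at hcc
    have h0 : ∀ a, pderiv a f = 0 := by
      intro a
      apply hmin _ (hcc a)
      have := totalDegree_pderiv_le a f
      omega
    obtain ⟨c, hc'⟩ := eq_C_of_pderiv_eq_zero h0
    apply hfpos
    rw [hc', totalDegree_C]
  obtain ⟨g, hgP, hg0, hga⟩ := exists_pderiv_eq_zero hdim a
  have key : ∀ n : ℕ, ∀ g ∈ P, g.totalDegree ≤ n → pderiv a g = 0 → g = 0 := by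
    intro n
    induction n with
    | zero =>
      intro g hg hg' _
      by_contra hne
      have h0 : g.totalDegree = 0 := by omega
      rw [totalDegree_eq_zero_iff_eq_C] at h0
      rw [h0] at hg hne
      have hc0 : coeff 0 g ≠ 0 := fun h => hne (by rw [h, C_0])
      apply hP.ne_top
      rw [Ideal.eq_top_iff_one]
      have := P.mul_mem_left (C (coeff 0 g)⁻¹) hg
      rwa [← C_mul, inv_mul_cancel₀ hc0, C_1] at this
    | succ n ih =>
      intro g hg hg' hga
      have h1 : ∀ b, pderiv b g = 0 := by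
        intro b
        by_cases hdeg : g.totalDegree = 0
        · rw [totalDegree_eq_zero_iff_eq_C.1 hdeg, pderiv_C]
        have h2 := hE a b g hg
        rw [tf_apply, hga, mul_zero, sub_zero] at h2
        have h3 := (hP.mem_or_mem h2).resolve_left ha
        refine ih _ h3 ?_ ?_
        · have := totalDegree_pderiv_le b g
          omega
        · rw [pderiv_comm', hga, map_zero]
      obtain ⟨c, hc'⟩ := eq_C_of_pderiv_eq_zero h1
      by_contra hne
      rw [hc'] at hg hne
      have hc0 : c ≠ 0 := fun h => hne (by rw [h, C_0])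
      apply hP.ne_top
      rw [Ideal.eq_top_iff_one]
      have := P.mul_mem_left (C c⁻¹) hg
      rwa [← C_mul, inv_mul_cancel₀ hc0, C_1] at this
  exact hg0 (key _ g hgP le_rfl hga)

end indep

/-! ### Cramer -/

section cramer

variable {e : ℕ} {K : Type*} [Field K]

lemma sk_single_apply {R : Type*} [CommRing R] (p : Pr e) (i j : Fin e) :
    sk (Pi.single p (1 : R)) i j =
      (if i = p.1.1 ∧ j = p.1.2 then 1 else 0) - (if i = p.1.2 ∧ j = p.1.1 then 1 else 0) := by
  obtain ⟨⟨a, b⟩, hab⟩ := p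
  simp only at hab
  simp only [sk, Pi.single_apply, Subtype.mk.injEq, Prod.mk.injEq]
  by_cases h : i < j
  · rw [dif_pos h]
    have : ¬ (i = b ∧ j = a) := by rintro ⟨rfl, rfl⟩; exact absurd h (not_lt.2 hab.le)
    rw [if_neg this, sub_zero]
  · rw [dif_neg h]
    have h1 : ¬ (i = a ∧ j = b) := by rintro ⟨rfl, rfl⟩; exact h hab
    rw [if_neg h1]
    by_cases h' : j < i
    · rw [dif_pos h']
      have : (j = a ∧ i = b) ↔ (i = b ∧ j = a) := and_comm
      simp only [this, zero_sub]
    · rw [dif_neg h']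
      have : ¬ (i = b ∧ j = a) := by rintro ⟨rfl, rfl⟩; exact h' hab
      rw [if_neg this, sub_zero]

lemma act_single {R : Type*} [CommRing R] (p : Pr e) (x : Fin e → R) (i : Fin e) :
    act (Pi.single p (1 : R)) x i =
      (if i = p.1.1 then x p.1.2 else 0) - (if i = p.1.2 then x p.1.1 else 0) := by
  unfold act
  simp only [sk_single_apply, sub_mul, Finset.sum_sub_distrib]
  congr 1
  · by_cases h : i = p.1.1
    · simp [h]
    · simp [h]
  · by_cases h : i = p.1.2
    · simp [h]
    · simp [h]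

/-- `δ_p S_q = [p = q]` -/
def DS (δ : Pr e → Derivation ℤ K K) (S : Pr e → K) : Prop :=
  ∀ p q, δ p (S q) = if q = p then 1 else 0

/-- all `δ_p` kill `x` -/
def Cst (δ : Pr e → Derivation ℤ K K) (x : Fin e → K) : Prop := ∀ p i, δ p (x i) = 0

lemma der_sk {δ : Pr e → Derivation ℤ K K} {S : Pr e → K} (hS : DS δ S) (p : Pr e)
    (i j : Fin e) : δ p (sk S i j) = sk (Pi.single p (1 : K)) i j := by
  unfold sk
  split_ifs with h h'
  · rw [hS]; simp [Pi.single_apply]
  · rw [map_neg, hS]; simp [Pi.single_apply]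
  · rw [map_zero]

lemma der_act {δ : Pr e → Derivation ℤ K K} {S : Pr e → K} (hS : DS δ S) {x : Fin e → K}
    (hx : Cst δ x) (p : Pr e) (i : Fin e) :
    δ p (act S x i) = act (Pi.single p (1 : K)) x i := by
  unfold act
  rw [map_sum]
  refine Finset.sum_congr rfl fun j _ => ?_
  rw [Derivation.leibniz, hx p j, smul_zero, zero_add, smul_eq_mul, der_sk hS, mul_comm]

/-- `δ_p θ = T_p x` for `θ = y + S x` -/
lemma der_theta {δ : Pr e → Derivation ℤ K K} {S : Pr e → K} (hS : DS δ S) {z : Pt e K}
    (hx : Cst δ z.1) (hy : Cst δ z.2) (p : Pr e) (i : Fin e) :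
    δ p ((z.2 + act S z.1) i) = act (Pi.single p (1 : K)) z.1 i := by
  rw [Pi.add_apply, map_add, hy p i, zero_add, der_act hS hx]

/-- the skew matrix `c_{ab}(f)` of the coefficient derivatives -/
noncomputable def cc (δ : Pr e → Derivation ℤ K K) (f : MvPolynomial (Fin e) K) :
    Fin e → Fin e → MvPolynomial (Fin e) K := sk fun p => cD (δ p) f

lemma cc_self (δ : Pr e → Derivation ℤ K K) (f : MvPolynomial (Fin e) K) (a : Fin e) :
    cc δ f a a = 0 := sk_self _ _

lemma totalDegree_cc_le (δ : Pr e → Derivation ℤ K K) (f : MvPolynomial (Fin e) K)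
    (a b : Fin e) : (cc δ f a b).totalDegree ≤ f.totalDegree := by
  unfold cc sk
  split_ifs
  · exact totalDegree_cD_le _ _
  · rw [totalDegree_neg]; exact totalDegree_cD_le _ _
  · rw [totalDegree_zero]; exact Nat.zero_le _

variable {δ : Pr e → Derivation ℤ K K} {S : Pr e → K} {z : Pt e K}

/-- the point `θ_z = y + S x` -/
def th (S : Pr e → K) (z : Pt e K) : Fin e → K := z.2 + act S z.1

lemma eval_cD_of_eval_eq_zero (hS : DS δ S) (hx : Cst δ z.1) (hy : Cst δ z.2)
    {f : MvPolynomial (Fin e) K} (hf : eval (th S z) f = 0) (p : Pr e) :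
    eval (th S z) (cD (δ p) f) = eval (th S z) (pderiv p.1.2 f) * z.1 p.1.1 -
      eval (th S z) (pderiv p.1.1 f) * z.1 p.1.2 := by
  have h1 := deriv_eval (δ p) (th S z) f
  rw [hf, map_zero] at h1
  have h2 : ∑ j, eval (th S z) (pderiv j f) * δ p (th S z j) =
      eval (th S z) (pderiv p.1.1 f) * z.1 p.1.2 - eval (th S z) (pderiv p.1.2 f) * z.1 p.1.1 := by
    have : ∀ j, δ p (th S z j) = act (Pi.single p (1 : K)) z.1 j :=
      fun j => der_theta hS hx hy p j
    simp only [this, act_single, mul_sub, Finset.sum_sub_distrib, mul_ite, mul_zero,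
      Finset.sum_ite_eq', Finset.mem_univ, if_true]
  rw [h2] at h1
  linear_combination -h1

/-- `c_{ab}(f) = ∂_b f x_a - ∂_a f x_b` at the points -/
lemma eval_cc (hS : DS δ S) (hx : Cst δ z.1) (hy : Cst δ z.2)
    {f : MvPolynomial (Fin e) K} (hf : eval (th S z) f = 0) (a b : Fin e) :
    eval (th S z) (cc δ f a b) = eval (th S z) (pderiv b f) * z.1 a -
      eval (th S z) (pderiv a f) * z.1 b := by
  unfold cc sk
  split_ifs with h h'
  · exact eval_cD_of_eval_eq_zero hS hx hy hf ⟨(a, b), h⟩
  · rw [map_neg, eval_cD_of_eval_eq_zero hS hx hy hf ⟨(b, a), h'⟩]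
    ring
  · have : a = b := le_antisymm (not_lt.1 h') (not_lt.1 h)
    subst this
    rw [map_zero]; ring

/-- the denominator -/
noncomputable def BB (f u : MvPolynomial (Fin e) K) (a b : Fin e) : MvPolynomial (Fin e) K :=
  pderiv a f * pderiv b u - pderiv b f * pderiv a u

/-- the numerators -/
noncomputable def AA (δ : Pr e → Derivation ℤ K K) (f u : MvPolynomial (Fin e) K) (a b : Fin e)
    (j : Fin e) : MvPolynomial (Fin e) K :=
  pderiv j f * cc δ u a b - pderiv b u * cc δ f a j + pderiv a u * cc δ f b j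

/-- **Cramer**: `A_j(θ) = B(θ) x_j` at every point where `f` and `u` vanish -/
lemma eval_AA (hS : DS δ S) (hx : Cst δ z.1) (hy : Cst δ z.2)
    {f u : MvPolynomial (Fin e) K} (hf : eval (th S z) f = 0) (hu : eval (th S z) u = 0)
    (a b j : Fin e) :
    eval (th S z) (AA δ f u a b j) = eval (th S z) (BB f u a b) * z.1 j := by
  unfold AA BB
  simp only [map_add, map_sub, map_mul, eval_cc hS hx hy hf, eval_cc hS hx hy hu]
  ring

lemma totalDegree_BB_le (f u : MvPolynomial (Fin e) K) (a b : Fin e) :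
    (BB f u a b).totalDegree ≤ f.totalDegree + u.totalDegree := by
  have h1 := totalDegree_pderiv_le a f
  have h2 := totalDegree_pderiv_le b f
  have h3 := totalDegree_pderiv_le a u
  have h4 := totalDegree_pderiv_le b u
  refine (totalDegree_sub _ _).trans (max_le ?_ ?_) <;>
  · refine (totalDegree_mul _ _).trans ?_
    omega

lemma totalDegree_AA_le (δ : Pr e → Derivation ℤ K K) (f u : MvPolynomial (Fin e) K)
    (a b j : Fin e) : (AA δ f u a b j).totalDegree ≤ f.totalDegree + u.totalDegree := by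
  have h1 := totalDegree_pderiv_le j f
  have h2 := totalDegree_pderiv_le b u
  have h3 := totalDegree_pderiv_le a u
  have h4 := totalDegree_cc_le δ u a b
  have h5 := totalDegree_cc_le δ f a j
  have h6 := totalDegree_cc_le δ f b j
  refine (totalDegree_add _ _).trans (max_le ?_ ?_)
  · refine (totalDegree_sub _ _).trans (max_le ?_ ?_) <;>
    · refine (totalDegree_mul _ _).trans ?_
      omega
  · refine (totalDegree_mul _ _).trans ?_
    omega

/-- `E_p = B d_p + (T_p A)·∇` -/
noncomputable def EE (δ : Pr e → Derivation ℤ K K) (B : MvPolynomial (Fin e) K)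
    (A : Fin e → MvPolynomial (Fin e) K) (p : Pr e) :
    Derivation ℤ (MvPolynomial (Fin e) K) (MvPolynomial (Fin e) K) :=
  vf B (δ p) (act (Pi.single p 1) A)

lemma EE_C (B : MvPolynomial (Fin e) K) (A : Fin e → MvPolynomial (Fin e) K) (p : Pr e)
    (x : K) : EE δ B A p (C x) = B * C (δ p x) := vf_C _ _ _ _

lemma EE_X (B : MvPolynomial (Fin e) K) (A : Fin e → MvPolynomial (Fin e) K) (p : Pr e)
    (i : Fin e) : EE δ B A p (X i) = act (Pi.single p 1) A i := vf_X _ _ _ _

lemma totalDegree_act_single_le {A : Fin e → MvPolynomial (Fin e) K} {D : ℕ}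
    (hA : ∀ j, (A j).totalDegree ≤ D) (p : Pr e) (i : Fin e) :
    (act (Pi.single p 1) A i).totalDegree ≤ D := by
  rw [act_single]
  refine (totalDegree_sub _ _).trans (max_le ?_ ?_) <;>
  · split_ifs
    · exact hA _
    · rw [totalDegree_zero]; exact Nat.zero_le _

lemma totalDegree_EE_le {B : MvPolynomial (Fin e) K}
    {A : Fin e → MvPolynomial (Fin e) K} {D : ℕ} (hB : B.totalDegree ≤ D)
    (hA : ∀ j, (A j).totalDegree ≤ D) (p : Pr e) (g : MvPolynomial (Fin e) K) :
    (EE δ B A p g).totalDegree ≤ g.totalDegree + D :=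
  totalDegree_vf_le hB (fun j => (totalDegree_act_single_le hA p j).trans (Nat.le_succ _)) g

/-- `E_p g (θ) = B(θ) δ_p (g(θ))` at every point with `A(θ) = B(θ) x` -/
lemma eval_EE (hS : DS δ S) (hx : Cst δ z.1) (hy : Cst δ z.2)
    {B : MvPolynomial (Fin e) K} {A : Fin e → MvPolynomial (Fin e) K}
    (hAB : ∀ j, eval (th S z) (A j) = eval (th S z) B * z.1 j) (p : Pr e)
    (g : MvPolynomial (Fin e) K) :
    eval (th S z) (EE δ B A p g) = eval (th S z) B * δ p (eval (th S z) g) := by
  refine eval_vf _ _ _ _ (fun j => ?_) g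
  have h1 : δ p (th S z j) = act (Pi.single p (1 : K)) z.1 j := der_theta hS hx hy p j
  rw [h1, act_single, act_single, map_sub]
  split_ifs <;> simp [hAB] <;> ring

/-- `B E A_j - A_j E B` vanishes at every such point -/
lemma eval_EE_const (hS : DS δ S) (hx : Cst δ z.1) (hy : Cst δ z.2)
    {B : MvPolynomial (Fin e) K} {A : Fin e → MvPolynomial (Fin e) K}
    (hAB : ∀ j, eval (th S z) (A j) = eval (th S z) B * z.1 j) (p : Pr e) (j : Fin e) :
    eval (th S z) (B * EE δ B A p (A j) - A j * EE δ B A p B) = 0 := by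
  rw [map_sub, map_mul, map_mul, eval_EE hS hx hy hAB, eval_EE hS hx hy hAB, hAB,
    Derivation.leibniz, hx p j, smul_zero, zero_add, smul_eq_mul]
  ring

end cramer

/-! ### The conclusion for an extremal prime -/

section main

variable {e : ℕ} {K : Type*} [Field K] [CharZero K] [Infinite K]

/-- the output of the Cramer part: rational velocity, stable prime -/
structure Velocity (δ : Pr e → Derivation ℤ K K) (S : Pr e → K) (P : Ideal (MvPolynomial (Fin e) K))
    (Sig : Set (Pt e K)) (D : ℕ) (B : MvPolynomial (Fin e) K)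
    (A : Fin e → MvPolynomial (Fin e) K) : Prop where
  B_notMem : B ∉ P
  degB : B.totalDegree ≤ D
  degA : ∀ j, (A j).totalDegree ≤ D
  eval : ∀ z ∈ Sig, ∀ j, MvPolynomial.eval (th S z) (A j) = MvPolynomial.eval (th S z) B * z.1 j
  stable : ∀ p, ∀ g ∈ P, EE δ B A p g ∈ P
  const : ∀ p j, B * EE δ B A p (A j) - A j * EE δ B A p B ∈ P

/-- **Cramer part, codimension at least two.**  `hder` is the derivation lemma for `P`;
`hD` says that low degree conditions satisfied on `Sig` hold identically on `P`. -/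
theorem exists_velocity {δ : Pr e → Derivation ℤ K K} {S : Pr e → K} (hS : DS δ S)
    {P : Ideal (MvPolynomial (Fin e) K)} [hP : P.IsPrime]
    (hdim : dimP P + 2 ≤ e) {Sig : Set (Pt e K)}
    (hSig : ∀ z ∈ Sig, Cst δ z.1 ∧ Cst δ z.2)
    (hSigP : ∀ z ∈ Sig, ∀ g ∈ P, MvPolynomial.eval (th S z) g = 0) {D D' D'' : ℕ}
    {f : MvPolynomial (Fin e) K} (hf : f ∈ P)
    (hf0 : f ≠ 0) (hfD : f.totalDegree ≤ D)
    (hmin : ∀ g ∈ P, g.totalDegree < f.totalDegree → g = 0)
    (hder1 : ∀ E : Derivation ℤ (MvPolynomial (Fin e) K) (MvPolynomial (Fin e) K),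
      (∀ g, (E g).totalDegree ≤ g.totalDegree + D) →
      (∀ u ∈ P, u.totalDegree ≤ D' → E u ∈ P) → ∀ u ∈ P, E u ∈ P)
    (hder2 : ∀ E : Derivation ℤ (MvPolynomial (Fin e) K) (MvPolynomial (Fin e) K),
      (∀ g, (E g).totalDegree ≤ g.totalDegree + (D + D')) →
      (∀ u ∈ P, u.totalDegree ≤ D'' → E u ∈ P) → ∀ u ∈ P, E u ∈ P)
    (hD : ∀ g : MvPolynomial (Fin e) K, g.totalDegree ≤ max (D'' + (D + D')) (3 * (D + D')) →
      (∀ z ∈ Sig, MvPolynomial.eval (th S z) g = 0) → g ∈ P) :
    ∃ B A, Velocity δ S P Sig (D + D') B A := by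
  obtain ⟨u, huP, huD, a, b, hab⟩ := exists_indep (P := P) (by simpa using hdim) hf hf0 hfD hmin
    hder1
  have hB : (BB f u a b).totalDegree ≤ D + D' := (totalDegree_BB_le f u a b).trans (by omega)
  have hA : ∀ j, (AA δ f u a b j).totalDegree ≤ D + D' := fun j =>
    (totalDegree_AA_le δ f u a b j).trans (by omega)
  have hev : ∀ z ∈ Sig, ∀ j, MvPolynomial.eval (th S z) (AA δ f u a b j) =
      MvPolynomial.eval (th S z) (BB f u a b) * z.1 j := fun z hz j =>
    eval_AA hS (hSig z hz).1 (hSig z hz).2 (hSigP z hz f hf) (hSigP z hz u huP) a b j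
  refine ⟨BB f u a b, AA δ f u a b, hab, hB, hA, hev, fun p => ?_, fun p j => ?_⟩
  · refine hder2 _ (totalDegree_EE_le hB hA p) fun g hg hg' => ?_
    refine hD _ ?_ fun z hz => ?_
    · have := totalDegree_EE_le (δ := δ) hB hA p g
      exact this.trans ((by omega : _ ≤ D'' + (D + D')).trans (le_max_left _ _))
    · rw [eval_EE hS (hSig z hz).1 (hSig z hz).2 (hev z hz), hSigP z hz g hg, map_zero, mul_zero]
  · refine hD _ ?_ fun z hz => eval_EE_const hS (hSig z hz).1 (hSig z hz).2 (hev z hz) p j
    refine le_trans ?_ (le_max_right _ _)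
    have h1 := totalDegree_EE_le (δ := δ) hB hA p (AA δ f u a b j)
    have h2 := totalDegree_EE_le (δ := δ) hB hA p (BB f u a b)
    have h3 := hA j
    refine (totalDegree_sub _ _).trans (max_le ?_ ?_) <;>
    · refine (totalDegree_mul _ _).trans ?_
      omega

end main

end Crest.Agent.R065.Cramer234
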