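import Mathlib
import Crest.Agent.R065.D3defs_235

/-!
# Row 65, d = 3, module D3c, part 1: multiplicity lemma for block systems
-/

set_option autoImplicit false

namespace Crest.Agent.R065.D3mult235

open Finset Crest.Agent.R065.D3

abbrev E3 := EuclideanSpace ℝ (Fin 3)

open scoped Classical in
/-- number of points of `A` on the line `ab` -/
noncomputable def lc (A : Finset E3) (a b : E3) : ℕ :=
  (A.filter fun x => Collinear ℝ ({a, b, x} : Set E3)).card

open scoped Classical in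
/-- LEMMA 2.1 (rich lines) -/
def RichPairs (C : ℝ) : Prop :=
  ∀ (A : Finset E3) (K r : ℝ), 2 ≤ K → 0 ≤ r →
    (∀ a ∈ A, ∀ b ∈ A, a ≠ b → (lc A a b : ℝ) ≤ r) →
    (((A ×ˢ A).filter fun p => p.1 ≠ p.2 ∧ K ≤ (lc A p.1 p.2 : ℝ)).card : ℝ) ≤
      C * ((A.card : ℝ) ^ 2 / K + r * A.card)

/-- sets with small intersections: weak lower bound of the union -/
lemma card_biUnion_ge {ι γ : Type*} [DecidableEq ι] [DecidableEq γ] (S : ι → Finset γ) {K : ℝ}
    (hK : 0 ≤ K) : ∀ G : Finset ι, (∀ i ∈ G, ∀ j ∈ G, i ≠ j → ((S i ∩ S j).card : ℝ) ≤ K) →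
      (∑ i ∈ G, ((S i).card : ℝ)) - K * (G.card : ℝ) ^ 2 / 2 ≤ (G.biUnion S).card := by
  intro G
  induction G using Finset.induction_on with
  | empty => intro _; simp
  | insert a G ha ih =>
    intro h
    have ih := ih fun i hi j hj => h i (mem_insert_of_mem hi) j (mem_insert_of_mem hj)
    rw [sum_insert ha, card_insert_of_notMem ha, biUnion_insert]
    have h1 : ((S a ∩ G.biUnion S).card : ℝ) ≤ K * G.card := by
      have h2 : S a ∩ G.biUnion S = G.biUnion fun i => S a ∩ S i := by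
        ext x; simp only [mem_inter, mem_biUnion]; tauto
      rw [h2]
      calc (((G.biUnion fun i => S a ∩ S i).card : ℕ) : ℝ)
          ≤ ((∑ i ∈ G, (S a ∩ S i).card : ℕ) : ℝ) := by exact_mod_cast card_biUnion_le
        _ = ∑ i ∈ G, ((S a ∩ S i).card : ℝ) := by push_cast; rfl
        _ ≤ ∑ _i ∈ G, K := sum_le_sum fun i hi => h a (mem_insert_self _ _) i
            (mem_insert_of_mem hi) (by rintro rfl; exact ha hi)
        _ = K * G.card := by rw [sum_const, nsmul_eq_mul, mul_comm]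
    have h3 : ((S a ∪ G.biUnion S).card : ℝ) + (S a ∩ G.biUnion S).card =
        (S a).card + (G.biUnion S).card := by
      exact_mod_cast card_union_add_card_inter _ _
    push_cast
    nlinarith

/-- sets with small intersections in a small set -/
lemma sum_card_le {ι γ : Type*} [DecidableEq ι] [DecidableEq γ] (S : ι → Finset γ) {K h D : ℝ}
    (hK : 0 < K) (hKh : K ≤ h) (G : Finset ι)
    (hint : ∀ i ∈ G, ∀ j ∈ G, i ≠ j → ((S i ∩ S j).card : ℝ) ≤ K)
    (hh : ∀ i ∈ G, h ≤ ((S i).card : ℝ)) (hD : ((G.biUnion S).card : ℝ) ≤ D)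
    (hDh : 4 * K * D < h ^ 2) :
    ∑ i ∈ G, ((S i).card : ℝ) ≤ 2 * (G.biUnion S).card := by
  have hpos : 0 < h := lt_of_lt_of_le hK hKh
  have key : ∀ G' ⊆ G, K * (G'.card : ℝ) ≤ h →
      ∑ i ∈ G', ((S i).card : ℝ) ≤ 2 * (G'.biUnion S).card := by
    intro G' hG' hc
    have h1 := card_biUnion_ge S hK.le G' fun i hi j hj => hint i (hG' hi) j (hG' hj)
    have h2 : (G'.card : ℝ) * h ≤ ∑ i ∈ G', ((S i).card : ℝ) := by
      rw [← nsmul_eq_mul]
      exact card_nsmul_le_sum _ _ _ fun i hi => hh i (hG' hi)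
    have h3 : K * (G'.card : ℝ) ^ 2 ≤ G'.card * h := by
      have : (0 : ℝ) ≤ G'.card := Nat.cast_nonneg _
      nlinarith
    linarith
  by_cases hc : K * (G.card : ℝ) ≤ h
  · exact key G (Subset.refl _) hc
  · exfalso
    push Not at hc
    -- choose a subfamily
    have hu : 1 ≤ h / K := by rwa [le_div_iff₀ hK, one_mul]
    obtain ⟨M, hM⟩ : ∃ M : ℕ, M = ⌊h / K⌋₊ := ⟨_, rfl⟩
    have hM1 : (M : ℝ) ≤ h / K := by rw [hM]; exact Nat.floor_le (by linarith)
    have hM2 : h / K < M + 1 := by rw [hM]; exact Nat.lt_floor_add_one _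
    have hM3 : 1 ≤ M := by rw [hM]; exact (Nat.one_le_floor_iff _).2 hu
    have hM3' : (1 : ℝ) ≤ M := by exact_mod_cast hM3
    have hMG : M ≤ G.card := by
      have : (M : ℝ) ≤ G.card := by
        refine hM1.trans ?_
        rw [div_le_iff₀ hK]; linarith
      exact_mod_cast this
    obtain ⟨G', hG', hcard⟩ := exists_subset_card_eq hMG
    have h1 := key G' hG' (by rw [hcard]; rw [le_div_iff₀ hK] at hM1; linarith)
    have h2 : (G'.card : ℝ) * h ≤ ∑ i ∈ G', ((S i).card : ℝ) := by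
      rw [← nsmul_eq_mul]
      exact card_nsmul_le_sum _ _ _ fun i hi => hh i (hG' hi)
    have h3 : ((G'.biUnion S).card : ℝ) ≤ D := by
      refine le_trans ?_ hD
      exact_mod_cast card_le_card (biUnion_subset_biUnion_of_subset_left S hG')
    rw [hcard] at h2
    have h4 : h < (M + 1) * K := by rwa [div_lt_iff₀ hK] at hM2
    have h5 : h ≤ 2 * M * K := by nlinarith
    have h6 : (M : ℝ) * h ≤ 2 * D := by linarith
    have h7 : h ^ 2 ≤ 4 * K * D := by
      calc h ^ 2 = h * h := by ring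
        _ ≤ (2 * M * K) * h := by gcongr
        _ = 2 * K * (M * h) := by ring
        _ ≤ 2 * K * (2 * D) := by gcongr
        _ = 4 * K * D := by ring
    linarith

section mult

open scoped Classical in
/-- first coordinates -/
noncomputable def p1 (X : Finset PP) : Finset E3 := X.image Prod.fst

lemma mem_p1 {X : Finset PP} {a : E3} : a ∈ p1 X ↔ ∃ z ∈ X, z.1 = a := by
  classical
  simp [p1]

open scoped Classical in
/-- poor partners -/
noncomputable def poor (K : ℝ) (X : Finset PP) (z : PP) : Finset PP :=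
  X.filter fun w => w.1 ≠ z.1 ∧ (lc (p1 X) z.1 w.1 : ℝ) < K

lemma mem_poor {K : ℝ} {X : Finset PP} {z w : PP} :
    w ∈ poor K X z ↔ w ∈ X ∧ w.1 ≠ z.1 ∧ (lc (p1 X) z.1 w.1 : ℝ) < K := by
  classical
  simp [poor]

open scoped Classical in
/-- points with many poor partners -/
noncomputable def good (K : ℝ) (X : Finset PP) : Finset PP :=
  X.filter fun z => (X.card : ℝ) ≤ 2 * (poor K X z).card

lemma mem_good {K : ℝ} {X : Finset PP} {z : PP} :
    z ∈ good K X ↔ z ∈ X ∧ (X.card : ℝ) ≤ 2 * (poor K X z).card := by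
  classical
  simp [good]

lemma injOn_fst {X : Finset PP} (hiso : ∀ u ∈ X, ∀ v ∈ X, dist u.1 v.1 = dist u.2 v.2) :
    Set.InjOn Prod.fst (X : Set PP) := by
  intro u hu v hv h
  have h1 := hiso u hu v hv
  rw [h, dist_self] at h1
  exact Prod.ext h (dist_eq_zero.1 h1.symm)

lemma card_p1 {X : Finset PP} (hiso : ∀ u ∈ X, ∀ v ∈ X, dist u.1 v.1 = dist u.2 v.2) :
    (p1 X).card = X.card := by
  classical
  exact card_image_of_injOn (injOn_fst hiso)

/-- most pairs in a block are poor -/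
lemma sum_poor {C K x0 r : ℝ} (hR : RichPairs C) (hC : 0 < C) (hK : 32 * C ≤ K) (hK2 : 2 ≤ K)
    (hx : 32 ≤ x0) (hr : 32 * C * r ≤ x0) {X : Finset PP}
    (hiso : ∀ u ∈ X, ∀ v ∈ X, dist u.1 v.1 = dist u.2 v.2) (hX : x0 ≤ X.card)
    (hline : ∀ a b : E3, a ≠ b → (lc (p1 X) a b : ℝ) ≤ r) :
    7 / 8 * (X.card : ℝ) ^ 2 ≤ ∑ z ∈ X, ((poor K X z).card : ℝ) := by
  classical
  obtain ⟨x, hxdef⟩ : ∃ x : ℝ, x = X.card := ⟨_, rfl⟩
  have hr0 : 0 ≤ r := by
    obtain ⟨a, b, hab⟩ := exists_pair_ne E3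
    exact le_trans (Nat.cast_nonneg _) (hline a b hab)
  have hrich := hR (p1 X) K r hK2 hr0 fun a _ b _ h => hline a b h
  rw [card_p1 hiso, ← hxdef] at hrich
  have hxx : x0 ≤ x := by rw [hxdef]; exact hX
  have hKp : 0 < K := by linarith
  have h1 : C * (x ^ 2 / K + r * x) ≤ x ^ 2 / 16 := by
    have h2 : C * (x ^ 2 / K) ≤ x ^ 2 / 32 := by
      rw [mul_div_assoc', div_le_iff₀ hKp]
      nlinarith [sq_nonneg x]
    have h3 : C * (r * x) ≤ x ^ 2 / 32 := by nlinarith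
    linarith
  -- split of X × X
  have h2 : (X.card : ℝ) * X.card ≤ (∑ z ∈ X, ((poor K X z).card : ℝ)) + X.card +
      (((p1 X ×ˢ p1 X).filter fun p => p.1 ≠ p.2 ∧ K ≤ (lc (p1 X) p.1 p.2 : ℝ)).card : ℝ) := by
    have h3 : X ×ˢ X ⊆ (X.sigma fun z => poor K X z).image (fun p => (p.1, p.2)) ∪
        X.image (fun z => (z, z)) ∪
        (X ×ˢ X).filter (fun p => p.1.1 ≠ p.2.1 ∧ K ≤ (lc (p1 X) p.1.1 p.2.1 : ℝ)) := by
      rintro ⟨z, w⟩ h
      rw [mem_product] at h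
      simp only [mem_union, mem_image, mem_sigma, mem_filter, mem_product]
      by_cases h4 : w.1 = z.1
      · left; right
        have h5 : w = z := injOn_fst hiso h.2 h.1 h4
        exact ⟨z, h.1, by rw [h5]⟩
      · by_cases h5 : (lc (p1 X) z.1 w.1 : ℝ) < K
        · left; left
          exact ⟨⟨z, w⟩, ⟨h.1, mem_poor.2 ⟨h.2, h4, h5⟩⟩, rfl⟩
        · right
          exact ⟨h, fun h6 => h4 h6.symm, not_lt.1 h5⟩
    have h4 := card_le_card h3
    rw [card_product] at h4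
    have h5 : ((X.sigma fun z => poor K X z).image (fun p => (p.1, p.2))).card ≤
        ∑ z ∈ X, (poor K X z).card := by
      refine card_image_le.trans ?_
      rw [card_sigma]
    have h6 : (X.image (fun z => (z, z))).card ≤ X.card := card_image_le
    have h7 : ((X ×ˢ X).filter
        (fun p => p.1.1 ≠ p.2.1 ∧ K ≤ (lc (p1 X) p.1.1 p.2.1 : ℝ))).card ≤
        ((p1 X ×ˢ p1 X).filter fun p => p.1 ≠ p.2 ∧ K ≤ (lc (p1 X) p.1 p.2 : ℝ)).card := by
      refine card_le_card_of_injOn (fun p => (p.1.1, p.2.1)) ?_ ?_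
      · rintro ⟨z, w⟩ h
        rw [mem_coe, mem_filter, mem_product] at h
        rw [mem_coe, mem_filter, mem_product]
        exact ⟨⟨mem_p1.2 ⟨z, h.1.1, rfl⟩, mem_p1.2 ⟨w, h.1.2, rfl⟩⟩, h.2⟩
      · rintro ⟨z, w⟩ h ⟨z', w'⟩ h' heq
        rw [mem_coe, mem_filter, mem_product] at h h'
        simp only [Prod.mk.injEq] at heq
        exact Prod.ext (injOn_fst hiso h.1.1 h'.1.1 heq.1) (injOn_fst hiso h.1.2 h'.1.2 heq.2)
    have h8 := card_union_le ((X.sigma fun z => poor K X z).image (fun p => (p.1, p.2)) ∪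
        X.image (fun z => (z, z)))
        ((X ×ˢ X).filter (fun p => p.1.1 ≠ p.2.1 ∧ K ≤ (lc (p1 X) p.1.1 p.2.1 : ℝ)))
    have h9 := card_union_le ((X.sigma fun z => poor K X z).image (fun p => (p.1, p.2)))
      (X.image (fun z => (z, z)))
    have h10 : X.card * X.card ≤ (∑ z ∈ X, (poor K X z).card) + X.card +
        ((p1 X ×ˢ p1 X).filter fun p => p.1 ≠ p.2 ∧ K ≤ (lc (p1 X) p.1 p.2 : ℝ)).card := by
      omega
    exact_mod_cast h10
  rw [← hxdef] at h2 ⊢
  nlinarith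

lemma card_good {C K x0 r : ℝ} (hR : RichPairs C) (hC : 0 < C) (hK : 32 * C ≤ K) (hK2 : 2 ≤ K)
    (hx : 32 ≤ x0) (hr : 32 * C * r ≤ x0) {X : Finset PP}
    (hiso : ∀ u ∈ X, ∀ v ∈ X, dist u.1 v.1 = dist u.2 v.2) (hX : x0 ≤ X.card)
    (hline : ∀ a b : E3, a ≠ b → (lc (p1 X) a b : ℝ) ≤ r) :
    3 / 4 * (X.card : ℝ) ≤ (good K X).card := by
  classical
  have h1 := sum_poor hR hC hK hK2 hx hr hiso hX hline
  have hsub : good K X ⊆ X := fun z hz => (mem_good.1 hz).1
  have h2 : ∑ z ∈ X, ((poor K X z).card : ℝ) = ∑ z ∈ X \ good K X, ((poor K X z).card : ℝ) +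
      ∑ z ∈ good K X, ((poor K X z).card : ℝ) := (sum_sdiff hsub).symm
  have h3 : ∑ z ∈ X \ good K X, ((poor K X z).card : ℝ) ≤ ((X \ good K X).card : ℝ) *
      ((X.card : ℝ) / 2) := by
    rw [← nsmul_eq_mul]
    refine sum_le_card_nsmul _ _ _ fun z hz => ?_
    rw [mem_sdiff, mem_good, not_and, not_le] at hz
    have := hz.2 hz.1
    linarith
  have h4 : ∑ z ∈ good K X, ((poor K X z).card : ℝ) ≤ ((good K X).card : ℝ) * X.card := by
    rw [← nsmul_eq_mul]
    refine sum_le_card_nsmul _ _ _ fun z _ => ?_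
    exact_mod_cast card_le_card fun w hw => (mem_poor.1 hw).1
  have h5 : ((X \ good K X).card : ℝ) = X.card - (good K X).card := by
    rw [card_sdiff_of_subset hsub, Nat.cast_sub (card_le_card hsub)]
  rw [h5] at h3
  have hxp : (0 : ℝ) < X.card := by linarith
  have h6 : (7 / 8 * (X.card : ℝ)) * X.card ≤
      ((X.card - (good K X).card) / 2 + (good K X).card) * X.card := by nlinarith
  have h7 := le_of_mul_le_mul_right h6 hxp
  linarith

/-- two blocks through `z` share few poor partners -/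
lemma card_inter {K : ℝ} (hK : 0 ≤ K) {X X' : Finset PP} {z : PP} (hz : z ∈ X) (hz' : z ∈ X')
    (hiso : ∀ u ∈ X, ∀ v ∈ X, dist u.1 v.1 = dist u.2 v.2)
    (hcol : Collinear ℝ {a : E3 | ∃ u, u ∈ X ∧ u ∈ X' ∧ u.1 = a}) [DecidableEq PP] :
    ((poor K X z ∩ poor K X' z).card : ℝ) ≤ K := by
  classical
  rcases (poor K X z ∩ poor K X' z).eq_empty_or_nonempty with h | ⟨w0, hw0⟩
  · rw [h]; simpa using hK
  · rw [mem_inter] at hw0
    have h0 := mem_poor.1 hw0.1
    have h0' := mem_poor.1 hw0.2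
    refine le_trans ?_ h0.2.2.le
    unfold lc
    norm_cast
    refine card_le_card_of_injOn Prod.fst ?_ ?_
    · intro w hw
      rw [mem_coe, mem_inter] at hw
      have h1 := mem_poor.1 hw.1
      have h1' := mem_poor.1 hw.2
      rw [mem_coe, mem_filter]
      refine ⟨mem_p1.2 ⟨w, h1.1, rfl⟩, hcol.subset ?_⟩
      intro a ha
      rcases ha with rfl | rfl | rfl
      · exact ⟨z, hz, hz', rfl⟩
      · exact ⟨w0, h0.1, h0'.1, rfl⟩
      · exact ⟨w, h1.1, h1'.1, rfl⟩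
    · intro w hw w' hw' h
      rw [mem_coe, mem_inter] at hw hw'
      exact injOn_fst hiso (mem_poor.1 hw.1).1 (mem_poor.1 hw'.1).1 h

/-- **multiplicity lemma** -/
theorem mult {C K D x0 r : ℝ} (hR : RichPairs C) (hC : 0 < C) (hK : 32 * C ≤ K) (hK2 : 2 ≤ K)
    (hx : 32 ≤ x0) (hr : 32 * C * r ≤ x0) (hxK : 2 * K ≤ x0) (hxD : 16 * K * D < x0 ^ 2)
    (Z : Finset PP) (hdeg : ∀ z ∈ Z, (deg Nul Z z : ℝ) ≤ D)
    {ι : Type*} (F : Finset ι) (X : ι → Finset PP) (hsub : ∀ i ∈ F, X i ⊆ Z)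
    (hiso : ∀ i ∈ F, ∀ u ∈ X i, ∀ v ∈ X i, dist u.1 v.1 = dist u.2 v.2)
    (hcol : ∀ i ∈ F, ∀ j ∈ F, i ≠ j →
      Collinear ℝ {a : E3 | ∃ u, u ∈ X i ∧ u ∈ X j ∧ u.1 = a})
    (hX : ∀ i ∈ F, x0 ≤ ((X i).card : ℝ))
    (hline : ∀ i ∈ F, ∀ a b : E3, a ≠ b → (lc (p1 (X i)) a b : ℝ) ≤ r)
    (W : PP → PP → Prop) (hW : ∀ i ∈ F, ∀ z ∈ X i, ∀ w ∈ X i, W z w) :
    ∑ i ∈ F, ((X i).card : ℝ) ^ 2 ≤
      6 * ∑ z ∈ Z, (deg (fun z w => Nul z w ∧ W z w) Z z : ℝ) := by
  classical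
  have hKp : 0 < K := by linarith
  -- good blocks at `z`
  have hz : ∀ z ∈ Z, ∑ i ∈ F.filter (fun i => z ∈ good K (X i)), ((X i).card : ℝ) ≤
      4 * (deg (fun z w => Nul z w ∧ W z w) Z z : ℝ) := by
    intro z _
    set G := F.filter (fun i => z ∈ good K (X i)) with hG
    have hGF : ∀ i ∈ G, i ∈ F ∧ z ∈ good K (X i) := fun i hi => mem_filter.1 hi
    have hU : G.biUnion (fun i => poor K (X i) z) ⊆ nb (fun z w => Nul z w ∧ W z w) Z z := by
      intro w hw
      rw [mem_biUnion] at hw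
      obtain ⟨i, hi, hw⟩ := hw
      have h1 := hGF i hi
      have h2 := mem_poor.1 hw
      have h3 := (mem_good.1 h1.2).1
      rw [mem_nb]
      exact ⟨hsub i h1.1 h2.1, ⟨hiso i h1.1 z h3 w h2.1, h2.2.1.symm⟩, hW i h1.1 z h3 w h2.1⟩
    have hU1 : ((G.biUnion (fun i => poor K (X i) z)).card : ℝ) ≤
        (deg (fun z w => Nul z w ∧ W z w) Z z : ℝ) := by exact_mod_cast card_le_card hU
    have hU2 : ((G.biUnion (fun i => poor K (X i) z)).card : ℝ) ≤ D := by
      refine le_trans ?_ (hdeg z ‹_›)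
      have : G.biUnion (fun i => poor K (X i) z) ⊆ nb Nul Z z := by
        refine hU.trans fun w hw => ?_
        rw [mem_nb] at hw ⊢
        exact ⟨hw.1, hw.2.1⟩
      exact_mod_cast card_le_card this
    have h1 := sum_card_le (fun i => poor K (X i) z) hKp (h := x0 / 2) (D := D) (by linarith) G
      (fun i hi j hj hij => card_inter hKp.le (mem_good.1 (hGF i hi).2).1
        (mem_good.1 (hGF j hj).2).1 (hiso i (hGF i hi).1) (hcol i (hGF i hi).1 j (hGF j hj).1 hij))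
      (fun i hi => by
        have h2 := (mem_good.1 (hGF i hi).2).2
        have h3 := hX i (hGF i hi).1
        linarith) hU2 (by linarith)
    have h2 : ∑ i ∈ G, ((X i).card : ℝ) ≤ 2 * ∑ i ∈ G, ((poor K (X i) z).card : ℝ) := by
      rw [mul_sum]
      exact sum_le_sum fun i hi => (mem_good.1 (hGF i hi).2).2
    linarith
  -- summation
  have h1 : ∑ i ∈ F, ((X i).card : ℝ) ^ 2 ≤
      4 / 3 * ∑ i ∈ F, ∑ z ∈ good K (X i), ((X i).card : ℝ) := by
    rw [mul_sum]
    refine sum_le_sum fun i hi => ?_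
    rw [sum_const, nsmul_eq_mul]
    have h2 := card_good hR hC hK hK2 hx hr (hiso i hi) (hX i hi) (hline i hi)
    have h3 : (0 : ℝ) ≤ (X i).card := Nat.cast_nonneg _
    nlinarith
  have h2 : ∑ i ∈ F, ∑ z ∈ good K (X i), ((X i).card : ℝ) =
      ∑ z ∈ Z, ∑ i ∈ F.filter (fun i => z ∈ good K (X i)), ((X i).card : ℝ) := by
    have h3 : ∀ i ∈ F, ∑ z ∈ good K (X i), ((X i).card : ℝ) =
        ∑ z ∈ Z, if z ∈ good K (X i) then ((X i).card : ℝ) else 0 := by
      intro i hi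
      rw [← sum_filter]
      refine sum_congr ?_ fun _ _ => rfl
      ext z
      rw [mem_filter]
      exact ⟨fun h => ⟨hsub i hi (mem_good.1 h).1, h⟩, fun h => h.2⟩
    rw [sum_congr rfl h3, sum_comm]
    refine sum_congr rfl fun z _ => ?_
    rw [sum_filter]
  rw [h2] at h1
  have h4 := sum_le_sum hz
  rw [← mul_sum] at h4
  have h5 : 0 ≤ ∑ z ∈ Z, (deg (fun z w => Nul z w ∧ W z w) Z z : ℝ) :=
    sum_nonneg fun _ _ => Nat.cast_nonneg _
  linarith

end mult

end Crest.Agent.R065.D3mult235
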