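import Mathlib
import Crest.Agent.R065.D3defs_235
import Crest.Agent.R065.D3mult_235

/-!
# Row 65, d = 3, module D3c, part 2: cells
-/

set_option autoImplicit false

namespace Crest.Agent.R065.D3cell235

open Finset Crest.Agent.R065.D3 Crest.Agent.R065.D3mult235

/-- cell of side `2^k` -/
noncomputable def cel (o : ℝ) (k : ℤ) (x : E3) : Fin 3 → ℤ := fun i => ⌊(x i - o) / (2 : ℝ) ^ k⌋

lemma two_pow_pos (k : ℤ) : (0 : ℝ) < 2 ^ k := by positivity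

lemma cel_half {o : ℝ} {k : ℤ} {x : E3} {j : Fin 3 → ℤ} {m : ℤ}
    (h : ∀ i, |cel o k x i - j i| ≤ m) (i : Fin 3) :
    cel o (k - 1) x i ∈ Icc (2 * (j i - m)) (2 * (j i + m) + 1) := by
  have h1 := abs_le.1 (h i)
  unfold cel at h1 ⊢
  have hp := two_pow_pos k
  have h2 : (x i - o) / (2 : ℝ) ^ (k - 1) = 2 * ((x i - o) / (2 : ℝ) ^ k) := by
    rw [zpow_sub_one₀ (by norm_num)]
    field_simp
  rw [h2]
  obtain ⟨u, hu⟩ : ∃ u : ℝ, u = (x i - o) / (2 : ℝ) ^ k := ⟨_, rfl⟩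
  rw [← hu] at h1 ⊢
  have h3 : (⌊u⌋ : ℝ) ≤ u := Int.floor_le u
  have h4 : u < ⌊u⌋ + 1 := Int.lt_floor_add_one u
  have h5 : 2 * ⌊u⌋ ≤ ⌊2 * u⌋ := by
    rw [Int.le_floor]; push_cast; linarith
  have h6 : ⌊2 * u⌋ < 2 * ⌊u⌋ + 2 := by
    rw [Int.floor_lt]; push_cast; linarith
  rw [mem_Icc]
  constructor <;> omega

lemma cel_eq_dist {o : ℝ} {k : ℤ} {x y : E3} (h : cel o k x = cel o k y) :
    dist x y < 2 * 2 ^ k := by
  have hp := two_pow_pos k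
  have h1 : ∀ i, |x i - y i| < 2 ^ k := by
    intro i
    have h2 : ⌊(x i - o) / (2 : ℝ) ^ k⌋ = ⌊(y i - o) / (2 : ℝ) ^ k⌋ := congrFun h i
    have h3 := Int.abs_sub_lt_one_of_floor_eq_floor h2
    rw [← sub_div, abs_div, abs_of_pos hp, div_lt_one hp] at h3
    rwa [show x i - y i = x i - o - (y i - o) by ring]
  rw [EuclideanSpace.dist_eq, Fin.sum_univ_three]
  have h4 : ∀ i, dist (x i) (y i) ^ 2 ≤ (2 ^ k : ℝ) ^ 2 := by
    intro i
    rw [Real.dist_eq]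
    exact pow_le_pow_left₀ (abs_nonneg _) (h1 i).le 2
  rw [Real.sqrt_lt' (by positivity)]
  have h5 := h4 0
  have h6 := h4 1
  have h7 := h4 2
  have h8 : 0 < (2 ^ k : ℝ) ^ 2 := by positivity
  nlinarith

lemma dist_cel {o : ℝ} {k : ℤ} {x y : E3} (h : dist x y < 2 * 2 ^ k) (i : Fin 3) :
    |cel o k x i - cel o k y i| ≤ 2 := by
  have hp := two_pow_pos k
  have h1 : |x i - y i| ≤ dist x y := by
    rw [EuclideanSpace.dist_eq, ← Real.dist_eq]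
    refine Real.le_sqrt_of_sq_le ?_
    exact single_le_sum (f := fun i => dist (x i) (y i) ^ 2) (fun i _ => sq_nonneg _) (mem_univ i)
  have h2 : |x i - y i| < 2 * 2 ^ k := lt_of_le_of_lt h1 h
  have h3 : |(x i - o) / (2 : ℝ) ^ k - (y i - o) / (2 : ℝ) ^ k| < 2 := by
    rw [← sub_div, abs_div, abs_of_pos hp, div_lt_iff₀ hp]
    rwa [show x i - o - (y i - o) = x i - y i by ring]
  unfold cel
  rw [abs_lt] at h3
  have h4 := Int.floor_le ((x i - o) / (2 : ℝ) ^ k)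
  have h5 := Int.lt_floor_add_one ((x i - o) / (2 : ℝ) ^ k)
  have h6 := Int.floor_le ((y i - o) / (2 : ℝ) ^ k)
  have h7 := Int.lt_floor_add_one ((y i - o) / (2 : ℝ) ^ k)
  have h8 : ((⌊(x i - o) / (2 : ℝ) ^ k⌋ - ⌊(y i - o) / (2 : ℝ) ^ k⌋ : ℤ) : ℝ) < (3 : ℤ) := by
    push_cast; linarith
  have h9 : ((-3 : ℤ) : ℝ) < ((⌊(x i - o) / (2 : ℝ) ^ k⌋ - ⌊(y i - o) / (2 : ℝ) ^ k⌋ : ℤ) : ℝ) := by
    push_cast; linarith
  rw [Int.cast_lt] at h8 h9
  rw [abs_le]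
  constructor <;> omega

open scoped Classical in
/-- points of `Z` whose `p`-coordinate has cell within `m` of `j` -/
noncomputable def nbh (Z : Finset PP) (p : PP → E3) (o : ℝ) (k : ℤ) (m : ℤ) (j : Fin 3 → ℤ) :
    Finset PP := Z.filter fun z => ∀ i, |cel o k (p z) i - j i| ≤ m

lemma mem_nbh {Z : Finset PP} {p : PP → E3} {o : ℝ} {k : ℤ} {m : ℤ} {j : Fin 3 → ℤ} {z : PP} :
    z ∈ nbh Z p o k m j ↔ z ∈ Z ∧ ∀ i, |cel o k (p z) i - j i| ≤ m := by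
  classical
  simp [nbh]

lemma mem_nbh_zero {Z : Finset PP} {p : PP → E3} {o : ℝ} {k : ℤ} {j : Fin 3 → ℤ} {z : PP} :
    z ∈ nbh Z p o k 0 j ↔ z ∈ Z ∧ cel o k (p z) = j := by
  rw [mem_nbh]
  refine and_congr Iff.rfl ⟨fun h => funext fun i => ?_, ?_⟩
  · have := h i
    rw [abs_nonpos_iff] at this
    omega
  · rintro rfl i
    simp

lemma sum_biUnion_le_sum {ι γ : Type*} [DecidableEq ι] [DecidableEq γ] (J : Finset ι)
    (S : ι → Finset γ) (f : γ → ℕ) : ∑ z ∈ J.biUnion S, f z ≤ ∑ j ∈ J, ∑ z ∈ S j, f z := by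
  induction J using Finset.induction_on with
  | empty => simp
  | insert a J ha ih =>
    rw [sum_insert ha, biUnion_insert]
    have := sum_union_inter (s₁ := S a) (s₂ := J.biUnion S) (f := f)
    omega

/-- energy of a neighbourhood from the energies of the cells one level below -/
lemma EE_nbh_le {r : PP → PP → Prop} {Z : Finset PP} {p : PP → E3} {o : ℝ} {k : ℤ} {M : ℝ}
    (h : ∀ j, (EE r (nbh Z p o (k - 1) 0 j) Z : ℝ) ≤ M) (m : ℕ) (j : Fin 3 → ℤ) :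
    (EE r (nbh Z p o k m j) Z : ℝ) ≤ (4 * m + 2) ^ 3 * M := by
  classical
  set J : Finset (Fin 3 → ℤ) :=
    Fintype.piFinset fun i => Icc (2 * (j i - (m : ℤ))) (2 * (j i + (m : ℤ)) + 1) with hJ
  have hsub : nbh Z p o k m j ⊆ J.biUnion fun j' => nbh Z p o (k - 1) 0 j' := by
    intro z hz
    rw [mem_nbh] at hz
    rw [mem_biUnion]
    refine ⟨cel o (k - 1) (p z), ?_, mem_nbh_zero.2 ⟨hz.1, rfl⟩⟩
    rw [hJ, Fintype.mem_piFinset]
    exact fun i => cel_half hz.2 i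
  have hcard : (J.card : ℝ) = (4 * m + 2) ^ 3 := by
    rw [hJ, Fintype.card_piFinset, Fin.prod_univ_three]
    simp only [Int.card_Icc]
    have : ∀ i, (2 * (j i + (m : ℤ)) + 1 + 1 - 2 * (j i - (m : ℤ))).toNat = 4 * m + 2 := by
      intro i; omega
    rw [this, this, this]
    push_cast; ring
  calc (EE r (nbh Z p o k m j) Z : ℝ)
      ≤ ((∑ z ∈ J.biUnion fun j' => nbh Z p o (k - 1) 0 j', deg r Z z : ℕ) : ℝ) := by
        exact_mod_cast sum_le_sum_of_subset hsub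
    _ ≤ ((∑ j' ∈ J, ∑ z ∈ nbh Z p o (k - 1) 0 j', deg r Z z : ℕ) : ℝ) := by
        exact_mod_cast sum_biUnion_le_sum _ _ _
    _ = ∑ j' ∈ J, (EE r (nbh Z p o (k - 1) 0 j') Z : ℝ) := by
        push_cast [EE]; rfl
    _ ≤ ∑ _j' ∈ J, M := sum_le_sum fun j' _ => h j'
    _ = (4 * m + 2) ^ 3 * M := by rw [sum_const, nsmul_eq_mul, hcard]

end Crest.Agent.R065.D3cell235
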