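import Mathlib
import Crest.Agent.R065.D3defs_235
import Crest.Agent.R065.D3mult_235
import Crest.Agent.R065.D3cell_235

/-!
# Row 65, d = 3, module D3c: STEP B
-/

set_option autoImplicit false

namespace Crest.Agent.R065.D3c235

open Finset Crest.Agent.R065.D3 Crest.Agent.R065.D3mult235 Crest.Agent.R065.D3cell235 Filter

/-- the two coordinates -/
def co (b : Bool) (z : PP) : E3 := if b then z.1 else z.2

@[simp] lemma co_true (z : PP) : co true z = z.1 := rfl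
@[simp] lemma co_false (z : PP) : co false z = z.2 := rfl

lemma Nul.dist_co {z w : PP} (h : Nul z w) (b : Bool) :
    dist (co (!b) z) (co (!b) w) = dist (co b z) (co b w) := by
  cases b
  · exact h.1
  · exact h.1.symm

/-- energies of the cells -/
noncomputable def En (Z : Finset PP) (o : ℝ) (b : Bool) (k : ℤ) (j : Fin 3 → ℤ) : ℕ :=
  EE Nul (nbh Z (co b) o k 0 j) Z

open scoped Classical in
/-- fibres -/
noncomputable def fib (Z : Finset PP) (b : Bool) (a : E3) : Finset PP := Z.filter fun z => co b z = a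

lemma mem_fib {Z : Finset PP} {b : Bool} {a : E3} {z : PP} :
    z ∈ fib Z b a ↔ z ∈ Z ∧ co b z = a := by
  classical
  simp [fib]

lemma exists_origin (Z : Finset PP) : ∃ o : ℝ, ∀ z ∈ Z, ∀ (b : Bool) (i : Fin 3), o ≤ co b z i := by
  have : ∀ᶠ o : ℝ in atBot, ∀ z ∈ Z, ∀ (b : Bool) (i : Fin 3), o ≤ co b z i := by
    rw [eventually_all_finset]
    intro z _
    rw [eventually_all]
    intro b
    rw [eventually_all]
    intro i
    exact eventually_le_atBot _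
  exact this.exists

lemma exists_large (Z : Finset PP) (o : ℝ) :
    ∃ n : ℕ, ∀ z ∈ Z, ∀ (b : Bool) (i : Fin 3), co b z i - o < 2 ^ n := by
  have : ∀ᶠ n : ℕ in atTop, ∀ z ∈ Z, ∀ (b : Bool) (i : Fin 3), co b z i - o < 2 ^ n := by
    rw [eventually_all_finset]
    intro z _
    rw [eventually_all]
    intro b
    rw [eventually_all]
    intro i
    exact (tendsto_pow_atTop_atTop_of_one_lt (by norm_num : (1 : ℝ) < 2)).eventually_gt_atTop _
  exact this.exists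

lemma exists_small (Z : Finset PP) : ∃ n : ℕ, ∀ z ∈ Z, ∀ w ∈ Z, ∀ b : Bool, co b z ≠ co b w →
    2 * (2 : ℝ) ^ (-(n : ℤ)) ≤ dist (co b z) (co b w) := by
  have : ∀ᶠ n : ℕ in atTop, ∀ z ∈ Z, ∀ w ∈ Z, ∀ b : Bool, co b z ≠ co b w →
      2 * (2 : ℝ) ^ (-(n : ℤ)) ≤ dist (co b z) (co b w) := by
    rw [eventually_all_finset]
    intro z _
    rw [eventually_all_finset]
    intro w _
    rw [eventually_all]
    intro b
    rw [eventually_imp_distrib_left]
    intro h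
    have h1 : Tendsto (fun n : ℕ => 2 * (2 : ℝ) ^ (-(n : ℤ))) atTop (nhds (2 * 0)) := by
      refine Tendsto.const_mul _ ?_
      have h2 : (fun n : ℕ => (2 : ℝ) ^ (-(n : ℤ))) = fun n : ℕ => (1 / 2 : ℝ) ^ n := by
        funext n
        rw [zpow_neg, zpow_natCast, one_div, inv_pow]
      rw [h2]
      exact tendsto_pow_atTop_nhds_zero_of_lt_one (by norm_num) (by norm_num)
    rw [mul_zero] at h1
    have h3 : 0 < dist (co b z) (co b w) := dist_pos.2 h
    exact (h1.eventually_lt_const h3).mono fun n hn => hn.le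
  exact this.exists

/-- choice of the scale -/
lemma exists_scale (Z : Finset PP) (o : ℝ) (ho : ∀ z ∈ Z, ∀ (b : Bool) (i : Fin 3), o ≤ co b z i)
    {M : ℝ} (hT : M ≤ TT Nul Z) (hM : 0 < M)
    (hfib : ∀ (b : Bool) (a : E3), (EE Nul (fib Z b a) Z : ℝ) < M) :
    ∃ k : ℤ, (∀ b j, (En Z o b (k - 1) j : ℝ) ≤ M) ∧ ∃ b j, M ≤ (En Z o b k j : ℝ) := by
  obtain ⟨n1, hn1⟩ := exists_large Z o
  obtain ⟨n2, hn2⟩ := exists_small Z
  have hbdd : ∃ b : ℤ, ∀ k : ℤ, (∃ b j, M ≤ (En Z o b k j : ℝ)) → b ≤ k := by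
    refine ⟨-(n2 : ℤ), fun k => ?_⟩
    rintro ⟨b, j, h⟩
    by_contra hk
    push Not at hk
    -- a cell contains only one value
    have hne : (nbh Z (co b) o k 0 j).Nonempty := by
      rw [nonempty_iff_ne_empty]
      intro h0
      unfold En at h
      rw [h0] at h
      simp [EE] at h
      linarith
    obtain ⟨z0, hz0⟩ := hne
    have hz0' := mem_nbh_zero.1 hz0
    have hsub : nbh Z (co b) o k 0 j ⊆ fib Z b (co b z0) := by
      intro z hz
      have hz' := mem_nbh_zero.1 hz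
      rw [mem_fib]
      refine ⟨hz'.1, ?_⟩
      by_contra hne
      have h1 := hn2 z hz'.1 z0 hz0'.1 b hne
      have h2 := cel_eq_dist (hz'.2.trans hz0'.2.symm)
      have h3 : (2 : ℝ) ^ k ≤ 2 ^ (-(n2 : ℤ)) := zpow_le_zpow_right₀ (by norm_num) hk.le
      linarith
    have h1 : (En Z o b k j : ℝ) ≤ EE Nul (fib Z b (co b z0)) Z := by
      exact_mod_cast EE_mono hsub (Subset.refl _)
    have h2 := hfib b (co b z0)
    linarith
  have hinh : ∃ k : ℤ, (∃ b j, M ≤ (En Z o b k j : ℝ)) := by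
    refine ⟨n1, true, 0, ?_⟩
    have h1 : nbh Z (co true) o n1 0 0 = Z := by
      ext z
      rw [mem_nbh_zero]
      refine ⟨fun h => h.1, fun h => ⟨h, funext fun i => ?_⟩⟩
      unfold cel
      rw [Pi.zero_apply, Int.floor_eq_zero_iff, Set.mem_Ico]
      have h2 := ho z h true i
      have h3 := hn1 z h true i
      have hp : (0 : ℝ) < 2 ^ (n1 : ℤ) := by positivity
      rw [zpow_natCast] at *
      constructor
      · exact div_nonneg (by linarith) hp.le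
      · rw [div_lt_one hp]; exact h3
    unfold En
    rw [h1]
    exact hT
  obtain ⟨k, hk, hmin⟩ := Int.exists_least_of_bdd hbdd hinh
  refine ⟨k, fun b j => ?_, hk⟩
  by_contra hcon
  push Not at hcon
  have := hmin (k - 1) ⟨b, j, hcon.le⟩
  omega

section descent

variable {C0 B L : ℝ} {Z : Finset PP} {o : ℝ} {k : ℤ}

lemma EE_nbh_eq (b : Bool) (m : ℤ) (j : Fin 3 → ℤ) [DecidableEq E3] :
    EE Nul (nbh Z (co b) o k m j) Z =
      ∑ a ∈ (nbh Z (co b) o k m j).image (co b), EE Nul (fib Z b a) Z := by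
  classical
  unfold EE
  rw [← sum_fiberwise_of_maps_to (s := nbh Z (co b) o k m j)
    (t := (nbh Z (co b) o k m j).image (co b)) (g := co b)
    (fun z hz => mem_image_of_mem _ hz)]
  refine sum_congr rfl fun a ha => sum_congr ?_ fun _ _ => rfl
  rw [mem_image] at ha
  obtain ⟨z0, hz0, rfl⟩ := ha
  rw [mem_nbh] at hz0
  ext z
  rw [mem_filter, mem_fib, mem_nbh]
  constructor
  · rintro ⟨⟨h1, _⟩, h3⟩; exact ⟨h1, h3⟩
  · rintro ⟨h1, h3⟩
    refine ⟨⟨h1, ?_⟩, h3⟩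
    rw [h3]; exact hz0.2

lemma fib_ge (hreg : Reg Nul C0 B Z L) (b : Bool) {a : E3} (hne : (fib Z b a).Nonempty) :
    L * Z.card ≤ C0 * ss Z * EE Nul (fib Z b a) Z := by
  cases b
  · exact hreg.snd_ge a _ (fun z => mem_fib) hne
  · exact hreg.fst_ge a _ (fun z => mem_fib) hne

/-- number of values in a neighbourhood -/
lemma card_values (hreg : Reg Nul C0 B Z L) (b : Bool) (m : ℤ) (j : Fin 3 → ℤ)
    [DecidableEq E3] :
    ((nbh Z (co b) o k m j).image (co b)).card * (L * Z.card) ≤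
      C0 * ss Z * EE Nul (nbh Z (co b) o k m j) Z := by
  rw [EE_nbh_eq]
  push_cast
  rw [mul_sum, ← nsmul_eq_mul]
  refine card_nsmul_le_sum _ _ _ fun a ha => ?_
  rw [mem_image] at ha
  obtain ⟨z0, hz0, rfl⟩ := ha
  exact fib_ge hreg b ⟨z0, mem_fib.2 ⟨(mem_nbh.1 hz0).1, rfl⟩⟩

lemma EE_ge_card (hreg : Reg Nul C0 B Z L) {W : Finset PP} (hW : W ⊆ Z) :
    (W.card : ℝ) * L ≤ EE Nul W Z := by
  unfold EE
  push_cast
  rw [← nsmul_eq_mul]
  exact card_nsmul_le_sum _ _ _ fun z hz => hreg.deg_ge z (hW hz)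

lemma nbh_sub (b : Bool) (m : ℤ) (j : Fin 3 → ℤ) : nbh Z (co b) o k m j ⊆ Z :=
  fun _ hz => (mem_nbh.1 hz).1

lemma one_le_C0 (hreg : Reg Nul C0 B Z L) : 1 ≤ C0 := by
  obtain ⟨z, hz⟩ := hreg.ne
  have h1 := hreg.deg_ge z hz
  have h2 := hreg.deg_le z hz
  have h3 := hreg.L_pos
  by_contra h
  push Not at h
  nlinarith

lemma ss_eq (Y : Finset PP) (b : Bool) [DecidableEq E3] :
    ss Y = (Y.image (co b)).card + (Y.image (co (!b))).card := by
  unfold ss
  cases b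
  · rw [add_comm]
    have e1 : co false = Prod.snd := rfl
    have e2 : co (!false) = Prod.fst := rfl
    rw [e1, e2]
    congr!
  · have e1 : co true = Prod.fst := rfl
    have e2 : co (!true) = Prod.snd := rfl
    rw [e1, e2]
    congr!

/-- the descent inequality in one cell -/
lemma TT_cell_le (hreg : Reg Nul C0 B Z L) {μ y : ℝ} (hμ : 0 < μ) (hy : 0 ≤ y)
    (hμy : 8 * μ ≤ y ^ 6) (hk : ∀ b j, (En Z o b (k - 1) j : ℝ) ≤ μ * L * Z.card) (b : Bool)
    (j : Fin 3 → ℤ) :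
    (TT Nul (nbh Z (co b) o k 0 j) : ℝ) ≤ 1008000 * C0 ^ 2 * y * μ ^ 2 * L * Z.card := by
  classical
  have hL := hreg.L_pos
  have hC0 := one_le_C0 hreg
  have hN : (0 : ℝ) < Z.card := by exact_mod_cast card_pos.2 hreg.ne
  have hs : (0 : ℝ) < ss Z := by exact_mod_cast ss_pos hreg.ne
  set W := nbh Z (co b) o k 0 j with hW
  have hWZ : W ⊆ Z := nbh_sub b 0 j
  have hE : ∀ (b : Bool) (m : ℕ) (j : Fin 3 → ℤ), (EE Nul (nbh Z (co b) o k m j) Z : ℝ) ≤
      (4 * m + 2) ^ 3 * (μ * L * Z.card) := fun b m j => EE_nbh_le (hk b) m j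
  have hEW : (EE Nul W Z : ℝ) ≤ 8 * (μ * L * Z.card) := by
    have := hE b 0 j
    norm_num at this
    exact this
  have hWc : (W.card : ℝ) ≤ 8 * μ * Z.card := by
    have h1 := EE_ge_card hreg hWZ
    have h2 : (W.card : ℝ) * L ≤ (8 * μ * Z.card) * L := by linarith
    exact le_of_mul_le_mul_right h2 hL
  have hval : ∀ (b : Bool) (m : ℕ) (j : Fin 3 → ℤ),
      (((nbh Z (co b) o k m j).image (co b)).card : ℝ) ≤ C0 * ss Z * ((4 * m + 2) ^ 3 * μ) := by
    intro b m j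
    have h1 := card_values (o := o) (k := k) hreg b m j
    have h2 : (((nbh Z (co b) o k m j).image (co b)).card : ℝ) * (L * Z.card) ≤
        (C0 * ss Z * ((4 * m + 2) ^ 3 * μ)) * (L * Z.card) := by
      refine h1.trans ?_
      have h3 := hE b m j
      have h4 : 0 ≤ C0 * ss Z := by positivity
      calc C0 * ss Z * (EE Nul (nbh Z (co b) o k m j) Z : ℝ)
          ≤ C0 * ss Z * ((4 * m + 2) ^ 3 * (μ * L * Z.card)) := by gcongr
        _ = _ := by ring
    exact le_of_mul_le_mul_right h2 (by positivity)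
  -- the pieces
  set g : PP → Fin 3 → ℤ := fun z => cel o k (co (!b) z) with hg
  set J := W.image g with hJ
  set Y : (Fin 3 → ℤ) → Finset PP := fun j' => W.filter fun z => ∀ i, |g z i - j' i| ≤ 2 with hY
  have hYW : ∀ j', Y j' ⊆ W := fun j' => filter_subset _ _
  have hT1 : TT Nul W ≤ ∑ j' ∈ J, TT Nul (Y j') := by
    unfold TT
    have h1 : EE Nul W W = ∑ j' ∈ J, ∑ z ∈ W.filter (fun z => g z = j'), deg Nul W z := by
      unfold EE
      rw [← sum_fiberwise_of_maps_to (s := W) (t := J) (g := g)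
        (fun z hz => mem_image_of_mem _ hz)]
    rw [h1]
    refine sum_le_sum fun j' _ => ?_
    unfold EE
    have h2 : W.filter (fun z => g z = j') ⊆ Y j' := by
      intro z hz
      rw [mem_filter] at hz
      rw [hY, mem_filter]
      refine ⟨hz.1, fun i => ?_⟩
      rw [hz.2]; simp
    refine le_trans (sum_le_sum fun z hz => ?_) (sum_le_sum_of_subset h2)
    rw [mem_filter] at hz
    refine card_le_card fun w hw => ?_
    rw [mem_nb] at hw ⊢
    refine ⟨?_, hw.2⟩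
    rw [hY, mem_filter]
    refine ⟨hw.1, fun i => ?_⟩
    rw [← hz.2]
    have h3 : cel o k (co b z) = cel o k (co b w) :=
      (mem_nbh_zero.1 hz.1).2.trans (mem_nbh_zero.1 hw.1).2.symm
    have h4 := cel_eq_dist h3
    rw [← Nul.dist_co hw.2, dist_comm] at h4
    exact dist_cel h4 i
  have hsumY : ∑ j' ∈ J, ((Y j').card : ℝ) ≤ 125 * W.card := by
    have h1 : ∑ j' ∈ J, (Y j').card ≤ 125 * W.card := by
      have h2 : ∑ j' ∈ J, (Y j').card =
          ∑ z ∈ W, (J.filter fun j' => ∀ i, |g z i - j' i| ≤ 2).card := by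
        simp only [hY, card_filter]
        exact sum_comm
      rw [h2, mul_comm, ← smul_eq_mul]
      refine sum_le_card_nsmul _ _ _ fun z _ => ?_
      have h3 : (J.filter fun j' => ∀ i, |g z i - j' i| ≤ 2) ⊆
          Fintype.piFinset fun i => Icc (g z i - 2) (g z i + 2) := by
        intro j' hj'
        rw [mem_filter] at hj'
        rw [Fintype.mem_piFinset]
        intro i
        have := abs_le.1 (hj'.2 i)
        rw [mem_Icc]
        constructor <;> omega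
      refine (card_le_card h3).trans ?_
      rw [Fintype.card_piFinset, Fin.prod_univ_three]
      simp only [Int.card_Icc]
      have h4 : ∀ i, (g z i + 2 + 1 - (g z i - 2)).toNat = 5 := by intro i; omega
      rw [h4, h4, h4]
      norm_num
    exact_mod_cast h1
  have hssY : ∀ j', (ss (Y j') : ℝ) ≤ 1008 * C0 * μ * ss Z := by
    intro j'
    have h1 : ((Y j').image (co b)).card ≤ ((nbh Z (co b) o k (0 : ℕ) j).image (co b)).card := by
      refine card_le_card (image_subset_image ?_)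
      rw [Nat.cast_zero]
      exact hYW j'
    have h2 : ((Y j').image (co (!b))).card ≤
        ((nbh Z (co (!b)) o k (2 : ℕ) j').image (co (!b))).card := by
      refine card_le_card (image_subset_image ?_)
      intro z hz
      rw [hY, mem_filter] at hz
      rw [mem_nbh]
      exact ⟨hWZ hz.1, hz.2⟩
    have h3 := hval b 0 j
    have h4 := hval (!b) 2 j'
    have h5 := ss_eq (Y j') b
    rw [h5]
    push_cast
    have h6 : (((Y j').image (co b)).card : ℝ) ≤ C0 * ss Z * ((4 * (0 : ℕ) + 2) ^ 3 * μ) :=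
      le_trans (by exact_mod_cast h1) h3
    have h7 : (((Y j').image (co (!b))).card : ℝ) ≤ C0 * ss Z * ((4 * (2 : ℕ) + 2) ^ 3 * μ) :=
      le_trans (by exact_mod_cast h2) h4
    norm_num at h6 h7
    nlinarith
  have hTY : ∀ j' ∈ J, (TT Nul (Y j') : ℝ) * ss Z ≤
      C0 * y * (Y j').card * L * (1008 * C0 * μ * ss Z) := by
    intro j' _
    have h1 : ((Y j').card : ℝ) ≤ y ^ 6 * Z.card := by
      have h2 : ((Y j').card : ℝ) ≤ W.card := by exact_mod_cast card_le_card (hYW j')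
      have h3 : 8 * μ * Z.card ≤ y ^ 6 * Z.card := by gcongr
      linarith
    have h2 := hreg.sub (Y j') ((hYW j').trans hWZ) y hy h1
    refine h2.trans ?_
    have h3 := hssY j'
    gcongr
  have hfin : (TT Nul W : ℝ) * ss Z ≤ (1008000 * C0 ^ 2 * y * μ ^ 2 * L * Z.card) * ss Z := by
    calc (TT Nul W : ℝ) * ss Z ≤ (∑ j' ∈ J, (TT Nul (Y j') : ℝ)) * ss Z := by
          have : (TT Nul W : ℝ) ≤ ∑ j' ∈ J, (TT Nul (Y j') : ℝ) := by exact_mod_cast hT1
          gcongr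
      _ = ∑ j' ∈ J, (TT Nul (Y j') : ℝ) * ss Z := sum_mul _ _ _
      _ ≤ ∑ j' ∈ J, C0 * y * (Y j').card * L * (1008 * C0 * μ * ss Z) := sum_le_sum hTY
      _ = (∑ j' ∈ J, ((Y j').card : ℝ)) * (1008 * C0 ^ 2 * y * μ * L * ss Z) := by
          rw [sum_mul]; exact sum_congr rfl fun _ _ => by ring
      _ ≤ (125 * W.card) * (1008 * C0 ^ 2 * y * μ * L * ss Z) := by gcongr
      _ ≤ (125 * (8 * μ * Z.card)) * (1008 * C0 ^ 2 * y * μ * L * ss Z) := by gcongr
      _ = _ := by ring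
  exact le_of_mul_le_mul_right hfin hs

end descent

section lower

lemma EE_eq_card {α β : Type*} {r : α × β → α × β → Prop} (A B : Finset (α × β))
    [DecidablePred fun p : (α × β) × (α × β) => r p.1 p.2] :
    EE r A B = ((A ×ˢ B).filter fun p => r p.1 p.2).card := by
  classical
  unfold EE deg nb
  rw [card_filter, sum_product]
  refine sum_congr rfl fun z _ => ?_
  rw [card_filter]
  exact sum_congr rfl fun _ _ => by congr

lemma lc_mono {A A' : Finset E3} (h : A ⊆ A') (a b : E3) : lc A a b ≤ lc A' a b := by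
  classical
  unfold lc
  exact card_le_card (filter_subset_filter _ h)

lemma p1_mono {X X' : Finset PP} (h : X ⊆ X') : p1 X ⊆ p1 X' := by
  intro a ha
  rw [mem_p1] at *
  obtain ⟨z, hz, rfl⟩ := ha
  exact ⟨z, h hz, rfl⟩

lemma aux_low {μ L N S1 S2 S3 T C0 : ℝ} (hμ : 0 < μ) (hL : 0 < L) (hN : 0 < N)
    (h4 : μ / 4 * L * N ≤ S1) (h5 : S1 ^ 2 ≤ S2 * S3) (h7 : S3 ≤ 6 * (C0 * L * N))
    (h8 : S2 ≤ 6 * T) (h2 : 0 ≤ S2) : μ ^ 2 * L * N ≤ 576 * C0 * T := by
  have h0 : 0 ≤ μ / 4 * L * N := by positivity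
  have hS3 : 0 ≤ 6 * (C0 * L * N) := by
    by_contra hcon
    push Not at hcon
    have h10 : S3 < 0 := lt_of_le_of_lt h7 hcon
    have h11 : S2 * S3 ≤ 0 := mul_nonpos_of_nonneg_of_nonpos h2 h10.le
    have h12 : 0 < μ / 4 * L * N := by positivity
    nlinarith
  have h9 : (μ / 4 * L * N) ^ 2 ≤ (6 * T) * (6 * (C0 * L * N)) := by
    calc (μ / 4 * L * N) ^ 2 ≤ S1 ^ 2 := pow_le_pow_left₀ h0 h4 2
      _ ≤ S2 * S3 := h5
      _ ≤ S2 * (6 * (C0 * L * N)) := mul_le_mul_of_nonneg_left h7 h2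
      _ ≤ (6 * T) * (6 * (C0 * L * N)) := mul_le_mul_of_nonneg_right h8 hS3
  have h10 : (μ ^ 2 * L * N) * (L * N) ≤ (576 * C0 * T) * (L * N) := by nlinarith
  exact le_of_mul_le_mul_right h10 (by positivity)

/-- many null pairs inside `W` -/
lemma TT_ge {C C0 B L K δ μ k0 r : ℝ} (hR : RichPairs C) (hC : 0 < C) (hK : 32 * C ≤ K)
    (hK2 : 2 ≤ K) {Z : Finset PP} (hreg : Reg Nul C0 B Z L) {SS : Finset (Finset PP)}
    (hSS : Blocks Z SS) (hμ : 0 < μ) (hμ1 : μ ≤ 1) (hδ : δ = μ / (24 * C0)) (hk0 : 0 < k0)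
    (hx : 32 ≤ δ * k0) (hr : 32 * C * r ≤ δ * k0) (hxK : 2 * K ≤ δ * k0)
    (hxD : 16 * K * (C0 * L) < (δ * k0) ^ 2)
    (hline : ∀ a b : E3, a ≠ b → (lc (p1 Z) a b : ℝ) ≤ r)
    (hunc : ((uncov Z SS k0).card : ℝ) ≤ μ / 2 * L * Z.card)
    {W : Finset PP} (hWZ : W ⊆ Z) (hE : μ * L * Z.card ≤ (EE Nul W Z : ℝ)) :
    μ ^ 2 * L * Z.card ≤ 576 * C0 * TT Nul W := by
  classical
  have hL := hreg.L_pos
  have hC0 := one_le_C0 hreg
  have hN : (0 : ℝ) < Z.card := by exact_mod_cast card_pos.2 hreg.ne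
  have hδ0 : 0 < δ := by rw [hδ]; positivity
  have hδ1 : δ ≤ 1 := by rw [hδ, div_le_one (by positivity)]; linarith
  have hδk : δ * k0 ≤ k0 := by nlinarith
  set FF := SS.filter (fun X => k0 ≤ (X.card : ℝ)) with hFF
  have hFFm : ∀ X ∈ FF, X ∈ SS ∧ k0 ≤ (X.card : ℝ) := fun X hX => mem_filter.1 hX
  -- (1) covering
  have h1 : (EE Nul W Z : ℝ) ≤ (uncov Z SS k0).card + ∑ X ∈ FF, ((X ∩ W).card : ℝ) * X.card := by
    have hsub : (W ×ˢ Z).filter (fun p => Nul p.1 p.2) ⊆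
        uncov Z SS k0 ∪ FF.biUnion fun X => (X ∩ W) ×ˢ X := by
      rintro ⟨z, w⟩ h
      rw [mem_filter, mem_product] at h
      rw [mem_union]
      by_cases hu : (z, w) ∈ uncov Z SS k0
      · exact Or.inl hu
      · right
        unfold uncov at hu
        rw [mem_filter, mem_product] at hu
        have h2 : ¬ ∀ X ∈ SS, z ∈ X → w ∈ X → (X.card : ℝ) < k0 := fun h3 =>
          hu ⟨⟨hWZ h.1.1, h.1.2⟩, h.2, h3⟩
        push Not at h2
        obtain ⟨X, hX, hzX, hwX, hXk⟩ := h2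
        rw [mem_biUnion]
        exact ⟨X, mem_filter.2 ⟨hX, hXk⟩, mem_product.2 ⟨mem_inter.2 ⟨hzX, h.1.1⟩, hwX⟩⟩
    have h2 : EE Nul W Z ≤ (uncov Z SS k0).card + ∑ X ∈ FF, (X ∩ W).card * X.card := by
      rw [EE_eq_card]
      refine (card_le_card hsub).trans ((card_union_le _ _).trans ?_)
      gcongr
      refine card_biUnion_le.trans ?_
      refine le_of_eq (sum_congr rfl fun X _ => card_product _ _)
    exact_mod_cast h2
  -- (2) all blocks
  have hmul1 := mult (D := C0 * L) (x0 := k0) (r := r) hR hC hK hK2 (by linarith) (by linarith)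
    (by linarith) (lt_of_lt_of_le hxD (by gcongr)) Z hreg.deg_le FF (fun X => X)
    (fun X hX => hSS.sub X (hFFm X hX).1) (fun X hX => hSS.iso X (hFFm X hX).1)
    (fun X hX X' hX' hne => hSS.col X (hFFm X hX).1 X' (hFFm X' hX').1 hne)
    (fun X hX => (hFFm X hX).2)
    (fun X hX a b hab => le_trans
      (Nat.cast_le.2 (lc_mono (p1_mono (hSS.sub X (hFFm X hX).1)) a b)) (hline a b hab))
    (fun _ _ => True) (fun _ _ _ _ _ _ => trivial)
  have h2 : ∑ X ∈ FF, (X.card : ℝ) ^ 2 ≤ 6 * (C0 * L * Z.card) := by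
    refine hmul1.trans ?_
    have h3 : ∑ z ∈ Z, (deg (fun z w => Nul z w ∧ True) Z z : ℝ) ≤ Z.card * (C0 * L) := by
      rw [← nsmul_eq_mul]
      refine sum_le_card_nsmul _ _ _ fun z hz => ?_
      simp only [and_true]
      exact hreg.deg_le z hz
    linarith
  -- (3) the blocks with a large part in `W`
  set FF' := FF.filter (fun X => δ * (X.card : ℝ) ≤ ((X ∩ W).card : ℝ)) with hFF'
  have hF'F : FF' ⊆ FF := filter_subset _ _
  have h3 : ∑ X ∈ FF, ((X ∩ W).card : ℝ) * X.card ≤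
      ∑ X ∈ FF', ((X ∩ W).card : ℝ) * X.card + μ / 4 * L * Z.card := by
    rw [← sum_sdiff hF'F, add_comm]
    gcongr
    calc ∑ X ∈ FF \ FF', ((X ∩ W).card : ℝ) * X.card
        ≤ ∑ X ∈ FF \ FF', δ * (X.card : ℝ) ^ 2 := by
          refine sum_le_sum fun X hX => ?_
          have hX' := Finset.mem_sdiff.1 hX
          have h4 : ((X ∩ W).card : ℝ) < δ * (X.card : ℝ) := by
            by_contra hcon
            exact hX'.2 (mem_filter.2 ⟨hX'.1, not_lt.1 hcon⟩)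
          have h5 : (0 : ℝ) ≤ X.card := Nat.cast_nonneg _
          nlinarith
      _ ≤ ∑ X ∈ FF, δ * (X.card : ℝ) ^ 2 :=
          sum_le_sum_of_subset_of_nonneg sdiff_subset fun _ _ _ => by positivity
      _ = δ * ∑ X ∈ FF, (X.card : ℝ) ^ 2 := by rw [mul_sum]
      _ ≤ δ * (6 * (C0 * L * Z.card)) := by gcongr
      _ = μ / 4 * L * Z.card := by rw [hδ]; field_simp; ring
  have h4 : μ / 4 * L * Z.card ≤ ∑ X ∈ FF', ((X ∩ W).card : ℝ) * X.card := by
    have : μ * L * Z.card = μ / 2 * L * Z.card + μ / 4 * L * Z.card + μ / 4 * L * Z.card := by ring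
    linarith
  -- (5) Cauchy-Schwarz
  have h5 : (∑ X ∈ FF', ((X ∩ W).card : ℝ) * X.card) ^ 2 ≤
      (∑ X ∈ FF', ((X ∩ W).card : ℝ) ^ 2) * ∑ X ∈ FF', (X.card : ℝ) ^ 2 :=
    sum_mul_sq_le_sq_mul_sq _ _ _
  -- (6) blocks inside `W`
  have hmul2 := mult (D := C0 * L) (x0 := δ * k0) (r := r) hR hC hK hK2 hx hr hxK hxD Z
    hreg.deg_le FF' (fun X => X ∩ W)
    (fun X hX => inter_subset_left.trans (hSS.sub X (hFFm X (hF'F hX)).1))
    (fun X hX u hu v hv => hSS.iso X (hFFm X (hF'F hX)).1 u (mem_inter.1 hu).1 v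
      (mem_inter.1 hv).1)
    (fun X hX X' hX' hne => (hSS.col X (hFFm X (hF'F hX)).1 X' (hFFm X' (hF'F hX')).1 hne).subset
      (by
        rintro a ⟨u, hu, hu', rfl⟩
        exact ⟨u, (mem_inter.1 hu).1, (mem_inter.1 hu').1, rfl⟩))
    (fun X hX => by
      have h6 := (hFFm X (hF'F hX)).2
      have h7 := (mem_filter.1 hX).2
      exact le_trans (by gcongr) h7)
    (fun X hX a b hab => le_trans
      (Nat.cast_le.2 (lc_mono
        (p1_mono (inter_subset_left.trans (hSS.sub X (hFFm X (hF'F hX)).1))) a b))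
      (hline a b hab))
    (fun z w => z ∈ W ∧ w ∈ W) (fun X _ z hz w hw => ⟨(mem_inter.1 hz).2, (mem_inter.1 hw).2⟩)
  have h6 : ∑ z ∈ Z, (deg (fun z w => Nul z w ∧ z ∈ W ∧ w ∈ W) Z z : ℝ) ≤ TT Nul W := by
    have h7 : ∑ z ∈ Z, deg (fun z w => Nul z w ∧ z ∈ W ∧ w ∈ W) Z z ≤ TT Nul W := by
      unfold TT EE
      rw [← sum_sdiff hWZ]
      have h8 : ∑ z ∈ Z \ W, deg (fun z w => Nul z w ∧ z ∈ W ∧ w ∈ W) Z z = 0 := by
        refine sum_eq_zero fun z hz => ?_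
        unfold deg
        rw [card_eq_zero, eq_empty_iff_forall_notMem]
        intro w hw
        rw [mem_nb] at hw
        exact (Finset.mem_sdiff.1 hz).2 hw.2.2.1
      rw [h8, zero_add]
      refine sum_le_sum fun z _ => card_le_card fun w hw => ?_
      rw [mem_nb] at hw ⊢
      exact ⟨hw.2.2.2, hw.2.1⟩
    exact_mod_cast h7
  have h7 : ∑ X ∈ FF', (X.card : ℝ) ^ 2 ≤ 6 * (C0 * L * Z.card) :=
    (sum_le_sum_of_subset_of_nonneg hF'F fun _ _ _ => by positivity).trans h2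
  have h8 : ∑ X ∈ FF', ((X ∩ W).card : ℝ) ^ 2 ≤ 6 * TT Nul W := hmul2.trans (by linarith)
  exact aux_low hμ hL hN h4 h5 h7 h8 (sum_nonneg fun _ _ => sq_nonneg _)

end lower

section final

/-- basic inequalities of a regular configuration -/
lemma basic {C0 B L : ℝ} {Z : Finset PP} (hreg : Reg Nul C0 B Z L) (hB : 0 ≤ B) :
    L ≤ Z.card ∧ (Z.card : ℝ) ≤ (ss Z : ℝ) ^ 2 ∧ B * (Z.card : ℝ) ^ 2 ≤ L ^ 3 ∧
      B * (ss Z : ℝ) ^ 2 ≤ L ^ 2 ∧ 1 ≤ C0 * L := by
  have hL := hreg.L_pos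
  obtain ⟨z, hz⟩ := hreg.ne
  have h1 := hreg.deg_ge z hz
  have h2 := hreg.deg_le z hz
  have h3 : (deg Nul Z z : ℝ) ≤ Z.card := by exact_mod_cast deg_le_card Z z
  have h4 : (Z.card : ℝ) ≤ (ss Z : ℝ) ^ 2 := by exact_mod_cast card_le_ss_sq Z
  have h5 : (0 : ℝ) < deg Nul Z z := lt_of_lt_of_le hL h1
  have h6 : (1 : ℝ) ≤ deg Nul Z z := by exact_mod_cast (Nat.cast_pos.1 h5)
  have hN : (0 : ℝ) < Z.card := by linarith
  have hbig := hreg.big
  refine ⟨h1.trans h3, h4, ?_, ?_, h6.trans h2⟩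
  · refine le_trans ?_ hbig
    calc B * (Z.card : ℝ) ^ 2 = B * Z.card * Z.card := by ring
      _ ≤ B * Z.card * (ss Z : ℝ) ^ 2 := by gcongr
  · have h7 : (B * (ss Z : ℝ) ^ 2) * L ≤ L ^ 2 * L := by
      calc (B * (ss Z : ℝ) ^ 2) * L ≤ (B * (ss Z : ℝ) ^ 2) * Z.card := by
            gcongr; exact h1.trans h3
        _ = B * Z.card * (ss Z : ℝ) ^ 2 := by ring
        _ ≤ L ^ 3 := hbig
        _ = L ^ 2 * L := by ring
    exact le_of_mul_le_mul_right h7 hL

lemma numerics {C C0 c δ K B L N s : ℝ} (hC : 0 < C) (hC0 : 1 ≤ C0) (hc : 0 < c) (hδ : 0 < δ)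
    (hK : 2 ≤ K) (hL : 0 < L) (hN : 0 < N) (hs : 0 < s)
    (h13 : B * N ^ 2 ≤ L ^ 3) (hbig : B * N * s ^ 2 ≤ L ^ 3) (h1L : 1 ≤ C0 * L)
    (hB1 : 16 * K * C0 < δ ^ 2 * c ^ 2 * B) (hB2 : 1024 * C0 ≤ δ ^ 2 * c ^ 2 * B)
    (hB3 : 4 * K ^ 2 * C0 ≤ δ ^ 2 * c ^ 2 * B) (hB4 : 64 * C * C0 ≤ δ * c * B) :
    32 ≤ δ * (c * L ^ 2 / N) ∧ 32 * C * (2 * C0 * s ^ 2 / L) ≤ δ * (c * L ^ 2 / N) ∧
      2 * K ≤ δ * (c * L ^ 2 / N) ∧ 16 * K * (C0 * L) < (δ * (c * L ^ 2 / N)) ^ 2 := by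
  have hx0 : 0 < δ * (c * L ^ 2 / N) := by positivity
  have hsq : δ ^ 2 * c ^ 2 * B * L ≤ (δ * (c * L ^ 2 / N)) ^ 2 := by
    have h1 : (δ * (c * L ^ 2 / N)) ^ 2 = δ ^ 2 * c ^ 2 * L * L ^ 3 / N ^ 2 := by
      field_simp
    rw [h1, le_div_iff₀ (by positivity)]
    calc δ ^ 2 * c ^ 2 * B * L * N ^ 2 = δ ^ 2 * c ^ 2 * L * (B * N ^ 2) := by ring
      _ ≤ δ ^ 2 * c ^ 2 * L * L ^ 3 := by gcongr
  refine ⟨?_, ?_, ?_, ?_⟩
  · refine le_of_pow_le_pow_left₀ two_ne_zero hx0.le (le_trans ?_ hsq)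
    nlinarith
  · have h1 : 32 * C * (2 * C0 * s ^ 2 / L) = (64 * C * C0 * (N * s ^ 2)) / (L * N) := by
      field_simp; ring
    have h2 : δ * (c * L ^ 2 / N) = δ * c * L ^ 3 / (L * N) := by
      field_simp
    rw [h1, h2]
    refine div_le_div_of_nonneg_right ?_ (by positivity)
    calc 64 * C * C0 * (N * s ^ 2) ≤ δ * c * B * (N * s ^ 2) := by gcongr
      _ = δ * c * (B * N * s ^ 2) := by ring
      _ ≤ δ * c * L ^ 3 := by gcongr
  · refine le_of_pow_le_pow_left₀ two_ne_zero hx0.le (le_trans ?_ hsq)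
    have : 4 * K ^ 2 ≤ 4 * K ^ 2 * (C0 * L) := le_mul_of_one_le_right (by positivity) h1L
    nlinarith
  · refine lt_of_lt_of_le ?_ hsq
    nlinarith

/-- **STEP B** -/
theorem stepB_of {C : ℝ} (hR : RichPairs C) (hC : 0 < C) {C0 : ℝ} (hC0 : 1 ≤ C0)
    (hline : ∀ (B : ℝ) (Z : Finset PP) (L : ℝ), 1 ≤ B → Reg Nul C0 B Z L →
      ∀ a b : E3, a ≠ b → (lc (p1 Z) a b : ℝ) * L ≤ 2 * C0 * (ss Z : ℝ) ^ 2) :
    StepB C0 := by
  obtain ⟨y, hy⟩ : ∃ y : ℝ, y = 1 / (10 ^ 9 * C0 ^ 3) := ⟨_, rfl⟩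
  have hy0 : 0 < y := by rw [hy]; positivity
  have hy1 : y ≤ 1 := by
    rw [hy, div_le_one (by positivity)]
    have : 1 ≤ C0 ^ 3 := one_le_pow₀ hC0
    linarith
  obtain ⟨μ, hμ⟩ : ∃ μ : ℝ, μ = y ^ 6 / 8 := ⟨_, rfl⟩
  have hμ0 : 0 < μ := by rw [hμ]; positivity
  have hμ1 : μ ≤ 1 := by
    have : y ^ 6 ≤ 1 := pow_le_one₀ hy0.le hy1
    rw [hμ]; linarith
  refine ⟨μ / 2, by positivity, fun c hc => ?_⟩
  obtain ⟨K, hKdef⟩ : ∃ K : ℝ, K = max (32 * C) 2 := ⟨_, rfl⟩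
  have hK1 : 32 * C ≤ K := by rw [hKdef]; exact le_max_left _ _
  have hK2 : 2 ≤ K := by rw [hKdef]; exact le_max_right _ _
  obtain ⟨δ, hδ⟩ : ∃ δ : ℝ, δ = μ / (24 * C0) := ⟨_, rfl⟩
  have hδ0 : 0 < δ := by rw [hδ]; positivity
  have hev : ∀ᶠ B : ℝ in atTop, 1 ≤ B ∧ 16 * K * C0 < δ ^ 2 * c ^ 2 * B ∧
      1024 * C0 ≤ δ ^ 2 * c ^ 2 * B ∧ 4 * K ^ 2 * C0 ≤ δ ^ 2 * c ^ 2 * B ∧
      64 * C * C0 ≤ δ * c * B ∧ C0 ^ 2 < μ ^ 2 * B := by
    have ht1 : Tendsto (fun B : ℝ => δ ^ 2 * c ^ 2 * B) atTop atTop :=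
      tendsto_id.const_mul_atTop (by positivity)
    have ht2 : Tendsto (fun B : ℝ => δ * c * B) atTop atTop :=
      tendsto_id.const_mul_atTop (by positivity)
    have ht3 : Tendsto (fun B : ℝ => μ ^ 2 * B) atTop atTop :=
      tendsto_id.const_mul_atTop (by positivity)
    filter_upwards [eventually_ge_atTop 1, ht1.eventually_gt_atTop (16 * K * C0),
      ht1.eventually_ge_atTop (1024 * C0), ht1.eventually_ge_atTop (4 * K ^ 2 * C0),
      ht2.eventually_ge_atTop (64 * C * C0), ht3.eventually_gt_atTop (C0 ^ 2)]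
      with B h1 h2 h3 h4 h5 h6
    exact ⟨h1, h2, h3, h4, h5, h6⟩
  obtain ⟨B0, hB0⟩ := eventually_atTop.1 hev
  refine ⟨B0, fun Z L B hB hreg SS hSS hunc => ?_⟩
  obtain ⟨hB1, hb1, hb2, hb3, hb4, hb5⟩ := hB0 B hB
  have hL := hreg.L_pos
  have hN : (0 : ℝ) < Z.card := by exact_mod_cast card_pos.2 hreg.ne
  have hs : (0 : ℝ) < ss Z := by exact_mod_cast ss_pos hreg.ne
  obtain ⟨hLN, hNs, h13, h12, h1L⟩ := basic hreg (by linarith)
  obtain ⟨n1, n2, n3, n4⟩ := numerics hC hC0 hc hδ0 hK2 hL hN hs h13 hreg.big h1L hb1 hb2 hb3 hb4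
  -- fibres are light
  have hfibcard : ∀ (b : Bool) (a : E3), ((fib Z b a).card : ℝ) ≤ ss Z := by
    classical
    intro b a
    have h1 : (fib Z b a).card ≤ (Z.image (co (!b))).card := by
      refine card_le_card_of_injOn (co (!b)) ?_ ?_
      · intro z hz
        exact mem_coe.2 (mem_image_of_mem _ (mem_fib.1 hz).1)
      · intro z hz w hw h
        have hz' := (mem_fib.1 (mem_coe.1 hz)).2
        have hw' := (mem_fib.1 (mem_coe.1 hw)).2
        cases b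
        · exact Prod.ext h (hz'.trans hw'.symm)
        · exact Prod.ext (hz'.trans hw'.symm) h
    have h2 := ss_eq Z b
    have h3 : (fib Z b a).card ≤ ss Z := by omega
    exact_mod_cast h3
  have hsN : C0 * ss Z < μ * Z.card := by
    have h1 : (C0 * ss Z) ^ 2 < (μ * Z.card) ^ 2 := by
      calc (C0 * ss Z) ^ 2 = C0 ^ 2 * (ss Z : ℝ) ^ 2 := by ring
        _ < μ ^ 2 * B * (ss Z : ℝ) ^ 2 := by gcongr
        _ = μ ^ 2 * (B * (ss Z : ℝ) ^ 2) := by ring
        _ ≤ μ ^ 2 * L ^ 2 := by gcongr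
        _ ≤ μ ^ 2 * (Z.card : ℝ) ^ 2 := by gcongr
        _ = (μ * Z.card) ^ 2 := by ring
    exact lt_of_pow_lt_pow_left₀ 2 (by positivity) h1
  have hfib : ∀ (b : Bool) (a : E3), (EE Nul (fib Z b a) Z : ℝ) < μ * L * Z.card := by
    intro b a
    have h1 : (EE Nul (fib Z b a) Z : ℝ) ≤ (fib Z b a).card * (C0 * L) := by
      unfold EE
      push_cast
      rw [← nsmul_eq_mul]
      exact sum_le_card_nsmul _ _ _ fun z hz => hreg.deg_le z (mem_fib.1 hz).1
    calc (EE Nul (fib Z b a) Z : ℝ) ≤ (fib Z b a).card * (C0 * L) := h1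
      _ ≤ ss Z * (C0 * L) := by gcongr; exact_mod_cast hfibcard b a
      _ = (C0 * ss Z) * L := by ring
      _ < (μ * Z.card) * L := by gcongr
      _ = μ * L * Z.card := by ring
  have hT : μ * L * Z.card ≤ (TT Nul Z : ℝ) := by
    have h1 := EE_ge_card hreg (Subset.refl Z)
    calc μ * L * Z.card ≤ 1 * L * Z.card := by gcongr
      _ = Z.card * L := by ring
      _ ≤ (TT Nul Z : ℝ) := h1
  obtain ⟨o, ho⟩ := exists_origin Z
  obtain ⟨k, hk1, b, j, hk2⟩ := exists_scale Z o ho hT (by positivity) hfib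
  have hub := TT_cell_le hreg hμ0 hy0.le (by rw [hμ]; linarith) hk1 b j
  have hlow := TT_ge (k0 := c * L ^ 2 / Z.card) (r := 2 * C0 * (ss Z : ℝ) ^ 2 / L) hR hC hK1 hK2
    hreg hSS hμ0 hμ1 hδ (by positivity) n1 n2 n3 n4
    (fun a b hab => by rw [le_div_iff₀ hL]; exact hline B Z L hB1 hreg a b hab)
    hunc (nbh_sub b 0 j) hk2
  have h1 : μ ^ 2 * L * Z.card ≤
      576 * C0 * (1008000 * C0 ^ 2 * y * μ ^ 2 * L * Z.card) := by
    refine hlow.trans ?_
    gcongr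
  have h2 : (μ ^ 2 * L * Z.card) * 1 ≤
      (μ ^ 2 * L * Z.card) * (580608000 * (C0 ^ 3 * y)) := by
    calc (μ ^ 2 * L * Z.card) * 1 ≤ 576 * C0 * (1008000 * C0 ^ 2 * y * μ ^ 2 * L * Z.card) := by
          rw [mul_one]; exact h1
      _ = _ := by ring
  have h3 := le_of_mul_le_mul_left h2 (by positivity)
  have h4 : C0 ^ 3 * y = 1 / 10 ^ 9 := by rw [hy]; field_simp
  rw [h4] at h3
  norm_num at h3

end final

end Crest.Agent.R065.D3c235
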