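import Mathlib

set_option autoImplicit false

/-!
# Straight-line planar graphs: `|E| ≤ 3 |V|` by an elementary charging argument
-/

namespace Crest.Agent.R065.ST397

open Finset

abbrev Pt := ℝ × ℝ
abbrev Edge := Pt × Pt

/-- slope of an edge -/
noncomputable def sl (e : Edge) : ℝ := (e.2.2 - e.1.2) / (e.2.1 - e.1.1)

/-- height of the line through the edge at abscissa `x` -/
noncomputable def val (e : Edge) (x : ℝ) : ℝ := e.2.2 + sl e * (x - e.2.1)

lemma val_right (e : Edge) : val e e.2.1 = e.2.2 := by simp [val]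

lemma val_left (e : Edge) (h : e.1.1 < e.2.1) : val e e.1.1 = e.1.2 := by
  have h0 : e.2.1 - e.1.1 ≠ 0 := (sub_pos.mpr h).ne'
  unfold val sl
  have : (e.2.2 - e.1.2) / (e.2.1 - e.1.1) * (e.1.1 - e.2.1) = -(e.2.2 - e.1.2) := by
    rw [div_mul_eq_mul_div, div_eq_iff h0]; ring
  rw [this]; ring

lemma continuous_val (e : Edge) : Continuous (val e) := by
  unfold val; fun_prop

/-- straight-line graph without vertices in the interior of edges -/
structure Gr (V : Finset Pt) (E : Finset Edge) : Prop where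
  inj : ∀ u ∈ V, ∀ v ∈ V, u.1 = v.1 → u = v
  meml : ∀ e ∈ E, e.1 ∈ V
  memr : ∀ e ∈ E, e.2 ∈ V
  lt : ∀ e ∈ E, e.1.1 < e.2.1
  nv : ∀ e ∈ E, ∀ u ∈ V, e.1.1 < u.1 → u.1 < e.2.1 → val e u.1 ≠ u.2

/-- two edges cross at an interior point -/
def Cr (e g : Edge) : Prop :=
  ∃ x, e.1.1 < x ∧ g.1.1 < x ∧ x < e.2.1 ∧ x < g.2.1 ∧ val e x = val g x

lemma Cr.symm {e g : Edge} (h : Cr e g) : Cr g e := by
  obtain ⟨x, h1, h2, h3, h4, h5⟩ := h
  exact ⟨x, h2, h1, h4, h3, h5.symm⟩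

lemma root {e g : Edge} {x0 x1 : ℝ} (hx : x0 < x1) (h0 : val e x0 < val g x0)
    (h1 : val g x1 < val e x1) : ∃ x, x0 < x ∧ x < x1 ∧ val e x = val g x := by
  have hc : ContinuousOn (fun x => val e x - val g x) (Set.Icc x0 x1) :=
    ((continuous_val e).sub (continuous_val g)).continuousOn
  have := intermediate_value_Ioo hx.le hc
  have h : (0 : ℝ) ∈ Set.Ioo (val e x0 - val g x0) (val e x1 - val g x1) :=
    ⟨by linarith, by linarith⟩
  obtain ⟨x, hx', hx''⟩ := this h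
  exact ⟨x, hx'.1, hx'.2, by simpa [sub_eq_zero] using hx''⟩

lemma Gr.mono {V : Finset Pt} {E E' : Finset Edge} (h : Gr V E) (hE : E' ⊆ E) : Gr V E' :=
  ⟨h.inj, fun e he => h.meml e (hE he), fun e he => h.memr e (hE he),
    fun e he => h.lt e (hE he), fun e he => h.nv e (hE he)⟩

lemma Gr.monoV {V V' : Finset Pt} {E : Finset Edge} (h : Gr V E) (hV : V' ⊆ V)
    (h1 : ∀ e ∈ E, e.1 ∈ V') (h2 : ∀ e ∈ E, e.2 ∈ V') : Gr V' E :=
  ⟨fun u hu v hv => h.inj u (hV hu) v (hV hv), h1, h2, h.lt,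
    fun e he u hu => h.nv e he u (hV hu)⟩

/-- edges with the same right end and the same slope are equal -/
lemma Gr.eq_of_sl {V : Finset Pt} {E : Finset Edge} (h : Gr V E) {e g : Edge} (he : e ∈ E)
    (hg : g ∈ E) (h2 : e.2 = g.2) (hs : sl e = sl g) : e = g := by
  have hv : ∀ x, val e x = val g x := by intro x; simp [val, h2, hs]
  have key : ∀ e g : Edge, e ∈ E → g ∈ E → e.2 = g.2 → (∀ x, val e x = val g x) →
      ¬ e.1.1 < g.1.1 := by
    intro e g he hg h2 hv hlt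
    have h3 : g.1.1 < e.2.1 := by rw [h2]; exact h.lt g hg
    refine h.nv e he g.1 (h.meml g hg) hlt h3 ?_
    rw [hv, val_left g (h.lt g hg)]
  have h1 : e.1.1 = g.1.1 := le_antisymm (not_lt.1 (key g e hg he h2.symm (fun x => (hv x).symm)))
    (not_lt.1 (key e g he hg h2 hv))
  have h3 : e.1 = g.1 := h.inj _ (h.meml e he) _ (h.meml g hg) h1
  exact Prod.ext h3 h2

/-- the data attached to a non-lowest edge -/
structure Wd (V : Finset Pt) (E : Finset Edge) (e n : Edge) (w : Pt) : Prop where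
  he : e ∈ E
  hn : n ∈ E
  h2 : n.2 = e.2
  hs : sl e < sl n
  hmin : ∀ g ∈ E, g.2 = e.2 → sl e < sl g → sl n ≤ sl g
  hw : w ∈ V
  hwv : w.1 < e.2.1
  hlo : val n w.1 ≤ w.2
  hup : w.2 ≤ val e w.1
  hel : e.1.1 ≤ w.1
  hnl : n.1.1 ≤ w.1
  hmax : ∀ u ∈ V, u.1 < e.2.1 → val n u.1 ≤ u.2 → u.2 ≤ val e u.1 → u.1 ≤ w.1

lemma val_le_val {e n : Edge} (h2 : n.2 = e.2) (hs : sl e ≤ sl n) {x : ℝ} (hx : x ≤ e.2.1) :
    val n x ≤ val e x := by
  unfold val
  rw [h2]
  nlinarith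

lemma exists_wd {V : Finset Pt} {E : Finset Edge} (h : Gr V E) {e : Edge} (he : e ∈ E)
    (hex : ∃ g ∈ E, g.2 = e.2 ∧ sl e < sl g) : ∃ n w, Wd V E e n w := by
  classical
  obtain ⟨g0, hg0, hg1, hg2⟩ := hex
  obtain ⟨n, hn, hmin⟩ := Finset.exists_min_image (E.filter fun g => g.2 = e.2 ∧ sl e < sl g) sl
    ⟨g0, by simp [hg0, hg1, hg2]⟩
  simp only [mem_filter] at hn
  obtain ⟨hnE, hn2, hns⟩ := hn
  have hleft : ∀ g ∈ E, g.2 = e.2 → sl e ≤ sl g → sl g ≤ sl n →
      g.1 ∈ V.filter (fun u => u.1 < e.2.1 ∧ val n u.1 ≤ u.2 ∧ u.2 ≤ val e u.1) := by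
    intro g hg hg2 hge hgn
    have hlt := h.lt g hg
    simp only [mem_filter]
    refine ⟨h.meml g hg, by rw [← hg2]; exact hlt, ?_, ?_⟩
    · rw [← val_left g hlt]
      exact val_le_val (by rw [hg2, hn2]) hgn hlt.le
    · conv_lhs => rw [← val_left g hlt]
      exact val_le_val hg2 hge (by rw [← hg2]; exact hlt.le)
  obtain ⟨w, hw, hmax⟩ := Finset.exists_max_image
    (V.filter fun u => u.1 < e.2.1 ∧ val n u.1 ≤ u.2 ∧ u.2 ≤ val e u.1) Prod.fst
    ⟨e.1, hleft e he rfl le_rfl hns.le⟩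
  have hwel := hmax _ (hleft e he rfl le_rfl hns.le)
  have hwnl := hmax _ (hleft n hnE hn2 hns.le le_rfl)
  simp only [mem_filter] at hw
  obtain ⟨hwV, hwv, hlo, hup⟩ := hw
  refine ⟨n, w, he, hnE, hn2, hns, ?_, hwV, hwv, hlo, hup, hwel, hwnl, ?_⟩
  · intro g hg h1 h2
    exact hmin g (by simp [hg, h1, h2])
  · intro u hu h1 h2 h3
    exact hmax u (by simp only [mem_filter]; exact ⟨hu, h1, h2, h3⟩)

section
variable {V : Finset Pt} {E : Finset Edge}

lemma Wd.hwn {e n : Edge} {w : Pt} (d : Wd V E e n w) : w.1 < n.2.1 := by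
  rw [d.h2]; exact d.hwv

/-- the lower edge is strictly below `w` unless it starts there -/
lemma Wd.lo_lt (h : Gr V E) {e n : Edge} {w : Pt} (d : Wd V E e n w) (hne : w ≠ n.1) :
    val n w.1 < w.2 := by
  refine lt_of_le_of_ne d.hlo ?_
  refine h.nv n d.hn w d.hw (lt_of_le_of_ne d.hnl ?_) d.hwn
  intro h1
  exact hne (h.inj _ (h.meml n d.hn) _ d.hw h1).symm

lemma Wd.lt_up (h : Gr V E) {e n : Edge} {w : Pt} (d : Wd V E e n w) (hne : w ≠ e.1) :
    w.2 < val e w.1 := by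
  refine lt_of_le_of_ne d.hup ?_
  refine (h.nv e d.he w d.hw (lt_of_le_of_ne d.hel ?_) d.hwv).symm
  intro h1
  exact hne (h.inj _ (h.meml e d.he) _ d.hw h1).symm

lemma Wd.ne {e n : Edge} {w : Pt} (d : Wd V E e n w) : e ≠ n := by
  intro h1
  have := d.hs
  rw [h1] at this
  exact lt_irrefl _ this

/-- same right end: the two edges coincide -/
lemma Wd.same_right (h : Gr V E) {e1 n1 e2 n2 : Edge} {w : Pt} (d1 : Wd V E e1 n1 w)
    (d2 : Wd V E e2 n2 w) (hv : e1.2 = e2.2) (hb : (w = n1.1) ↔ (w = n2.1)) : e1 = e2 := by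
  -- it is enough to exclude `sl e1 < sl e2` (by symmetry)
  have key : ∀ (e1 n1 e2 n2 : Edge), Wd V E e1 n1 w → Wd V E e2 n2 w → e1.2 = e2.2 →
      ((w = n1.1) ↔ (w = n2.1)) → ¬ sl e1 < sl e2 := by
    intro e1 n1 e2 n2 d1 d2 hv hb hlt
    have h1 : sl n1 ≤ sl e2 := d1.hmin e2 d2.he hv.symm hlt
    by_cases hw : w = n1.1
    · have hw2 := hb.1 hw
      have : n1 = n2 := by
        refine Prod.ext (hw.symm.trans hw2) ?_
        rw [d1.h2, d2.h2, hv]
      have h3 := d2.hs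
      rw [← this] at h3
      linarith
    · have h3 := d1.lo_lt h hw
      have h4 : val e2 w.1 ≤ val n1 w.1 :=
        val_le_val (by rw [d1.h2, hv]) h1 (by rw [d1.h2]; exact d1.hwv.le)
      have h5 := d2.hup
      linarith
  have hs : sl e1 = sl e2 := by
    rcases lt_trichotomy (sl e1) (sl e2) with h1 | h1 | h1
    · exact absurd h1 (key e1 n1 e2 n2 d1 d2 hv hb)
    · exact h1
    · exact absurd h1 (key e2 n2 e1 n1 d2 d1 hv.symm hb.symm)
  exact h.eq_of_sl d1.he d2.he hv hs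

/-- different right ends are impossible -/
lemma Wd.no_lt (h : Gr V E) (hn : ∀ e ∈ E, ∀ g ∈ E, e ≠ g → ¬ Cr e g)
    {e1 n1 e2 n2 : Edge} {w : Pt} (d1 : Wd V E e1 n1 w)
    (d2 : Wd V E e2 n2 w) (hb : (w = n1.1) ↔ (w = n2.1)) : ¬ e1.2.1 < e2.2.1 := by
  intro hlt
  have hv1 : e1.2 ∈ V := h.memr e1 d1.he
  have hw1 : w.1 < e1.2.1 := d1.hwv
  -- a crossing in `(w.1, v1.1)` between an edge ending at `v1` and one ending at `v2`
  have cross : ∀ g1 g2 : Edge, g1 ∈ E → g2 ∈ E → g1.2 = e1.2 → g2.2 = e2.2 → g1.1.1 ≤ w.1 →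
      g2.1.1 ≤ w.1 → (∃ x, w.1 < x ∧ x < e1.2.1 ∧ val g1 x = val g2 x) → False := by
    rintro g1 g2 hg1 hg2 h1 h2 h3 h4 ⟨x, hx1, hx2, hx3⟩
    refine hn g1 hg1 g2 hg2 ?_ ⟨x, by linarith, by linarith, by rw [h1]; exact hx2, by
      rw [h2]; linarith, hx3⟩
    intro heq
    rw [heq, h2] at h1
    rw [h1] at hlt
    exact lt_irrefl _ hlt
  have hn1v : val n1 e1.2.1 = e1.2.2 := by rw [← d1.h2]; exact val_right n1
  have he1v : val e1 e1.2.1 = e1.2.2 := val_right e1
  -- position of `v1` with respect to wedge 2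
  have hpos : e1.2.2 < val n2 e1.2.1 ∨ val e2 e1.2.1 < e1.2.2 := by
    by_contra hcon
    push Not at hcon
    have := d2.hmax e1.2 hv1 hlt hcon.1 hcon.2
    linarith
  by_cases hw : w = n1.1
  · have hw2 := hb.1 hw
    have hn1w : val n1 w.1 = w.2 := by rw [hw]; exact val_left n1 (h.lt n1 d1.hn)
    have hn2w : val n2 w.1 = w.2 := by rw [hw2]; exact val_left n2 (h.lt n2 d2.hn)
    have hne1 : w ≠ e1.1 := by
      intro h1
      exact d1.ne (Prod.ext (h1.symm.trans hw) d1.h2.symm)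
    have hne2 : w ≠ e2.1 := by
      intro h1
      exact d2.ne (Prod.ext (h1.symm.trans hw2) d2.h2.symm)
    have hu1 := d1.lt_up h hne1
    have hu2 := d2.lt_up h hne2
    rcases hpos with hp | hp
    · -- `n2` crosses `e1`
      refine cross e1 n2 d1.he d2.hn rfl d2.h2 d1.hel d2.hnl ?_
      obtain ⟨x, hx1, hx2, hx3⟩ := root (e := n2) (g := e1) hw1 (by rw [hn2w]; exact hu1)
        (by rw [he1v]; exact hp)
      exact ⟨x, hx1, hx2, hx3.symm⟩
    · -- `n1` crosses `e2`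
      refine cross n1 e2 d1.hn d2.he d1.h2 rfl d1.hnl d2.hel ?_
      exact root (e := n1) (g := e2) hw1 (by rw [hn1w]; exact hu2) (by rw [hn1v]; exact hp)
  · have hw2 : w ≠ n2.1 := fun h1 => hw (hb.2 h1)
    have hl1 := d1.lo_lt h hw
    have hl2 := d2.lo_lt h hw2
    rcases hpos with hp | hp
    · -- `n2` crosses `e1`
      refine cross e1 n2 d1.he d2.hn rfl d2.h2 d1.hel d2.hnl ?_
      obtain ⟨x, hx1, hx2, hx3⟩ := root (e := n2) (g := e1) hw1 (lt_of_lt_of_le hl2 d1.hup)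
        (by rw [he1v]; exact hp)
      exact ⟨x, hx1, hx2, hx3.symm⟩
    · -- `n1` crosses `e2`
      refine cross n1 e2 d1.hn d2.he d1.h2 rfl d1.hnl d2.hel ?_
      exact root (e := n1) (g := e2) hw1 (lt_of_lt_of_le hl1 d2.hup) (by rw [hn1v]; exact hp)

end

/-- **planar straight-line graphs have at most `3 |V|` edges** -/
theorem planar {V : Finset Pt} {E : Finset Edge} (h : Gr V E)
    (hn : ∀ e ∈ E, ∀ g ∈ E, e ≠ g → ¬ Cr e g) : E.card ≤ 3 * V.card := by
  classical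
  set E1 := E.filter (fun e => ∃ g ∈ E, g.2 = e.2 ∧ sl e < sl g) with hE1
  set E2 := E.filter (fun e => ¬ ∃ g ∈ E, g.2 = e.2 ∧ sl e < sl g) with hE2
  have hsum : E1.card + E2.card = E.card := by
    rw [hE1, hE2]; exact Finset.card_filter_add_card_filter_not _
  have h2 : E2.card ≤ V.card := by
    refine Finset.card_le_card_of_injOn (fun e => e.2) ?_ ?_
    · intro e he
      have he' := (Finset.mem_filter.1 (Finset.mem_coe.1 he)).1
      exact Finset.mem_coe.2 (h.memr e he')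
    · intro e he g hg heg
      have he' := Finset.mem_filter.1 (Finset.mem_coe.1 he)
      have hg' := Finset.mem_filter.1 (Finset.mem_coe.1 hg)
      simp only at heg
      refine h.eq_of_sl he'.1 hg'.1 heg ?_
      refine le_antisymm ?_ ?_
      · by_contra hlt
        exact hg'.2 ⟨e, he'.1, heg, not_le.1 hlt⟩
      · by_contra hlt
        exact he'.2 ⟨g, hg'.1, heg.symm, not_le.1 hlt⟩
  have h1 : E1.card ≤ 2 * V.card := by
    have hex : ∀ e : Edge, ∃ nw : Edge × Pt, e ∈ E1 → Wd V E e nw.1 nw.2 := by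
      intro e
      by_cases he : e ∈ E1
      · have he' := Finset.mem_filter.1 he
        obtain ⟨n, w, hw⟩ := exists_wd h he'.1 he'.2
        exact ⟨(n, w), fun _ => hw⟩
      · exact ⟨(e, e.1), fun h => absurd h he⟩
    choose nw hnw using hex
    have hcard : (V ×ˢ (Finset.univ : Finset Bool)).card = 2 * V.card := by
      rw [Finset.card_product]; simp [mul_comm]
    rw [← hcard]
    refine Finset.card_le_card_of_injOn
      (fun e => ((nw e).2, decide ((nw e).2 = (nw e).1.1))) ?_ ?_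
    · intro e he
      have := hnw e (Finset.mem_coe.1 he)
      simp only [Finset.coe_product, Set.mem_prod, Finset.mem_coe, Finset.mem_univ, and_true]
      exact this.hw
    · intro e he g hg heg
      have d1 := hnw e (Finset.mem_coe.1 he)
      have d2 := hnw g (Finset.mem_coe.1 hg)
      simp only [Prod.mk.injEq] at heg
      obtain ⟨hw, hb⟩ := heg
      have hb' : ((nw e).2 = (nw e).1.1) ↔ ((nw e).2 = (nw g).1.1) := by
        have h3 : ((nw e).2 = (nw e).1.1) ↔ ((nw g).2 = (nw g).1.1) := by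
          constructor
          · intro h4
            have : decide ((nw g).2 = (nw g).1.1) = true := by rw [← hb]; simpa using h4
            simpa using this
          · intro h4
            have : decide ((nw e).2 = (nw e).1.1) = true := by rw [hb]; simpa using h4
            simpa using this
        rw [h3, hw]
      rw [← hw] at d2
      have hx : e.2.1 = g.2.1 := le_antisymm (not_lt.1 (Wd.no_lt h hn d2 d1 hb'.symm))
        (not_lt.1 (Wd.no_lt h hn d1 d2 hb'))
      have hv : e.2 = g.2 := h.inj _ (h.memr e d1.he) _ (h.memr g d2.he) hx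
      exact Wd.same_right h d1 d2 hv hb'
  omega

end Crest.Agent.R065.ST397
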