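import Mathlib
import Crest.Agent.R065.STa_397

set_option autoImplicit false

/-!
# Crossing lemma for straight-line graphs
-/

namespace Crest.Agent.R065.ST397

open Finset
open scoped Classical in
/-- ordered crossing pairs -/
noncomputable def crs (E : Finset Edge) : Finset (Edge × Edge) :=
  (E ×ˢ E).filter fun p => p.1 ≠ p.2 ∧ Cr p.1 p.2

lemma mem_crs {E : Finset Edge} {p : Edge × Edge} :
    p ∈ crs E ↔ p.1 ∈ E ∧ p.2 ∈ E ∧ p.1 ≠ p.2 ∧ Cr p.1 p.2 := by
  classical
  simp [crs, and_assoc]

lemma crs_mono {E E' : Finset Edge} (h : E ⊆ E') : crs E ⊆ crs E' := by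
  intro p hp
  rw [mem_crs] at hp ⊢
  exact ⟨h hp.1, h hp.2.1, hp.2.2⟩

/-- removing one edge of every crossing pair -/
theorem card_le_crs {V : Finset Pt} {E : Finset Edge} (h : Gr V E) :
    E.card ≤ 3 * V.card + (crs E).card := by
  classical
  induction E using Finset.strongInduction with
  | H E ih =>
    by_cases hn : ∀ e ∈ E, ∀ g ∈ E, e ≠ g → ¬ Cr e g
    · exact (planar h hn).trans (Nat.le_add_right _ _)
    · push Not at hn
      obtain ⟨e, he, g, hg, hne, hc⟩ := hn
      have h1 := ih (E.erase e) (Finset.erase_ssubset he) (h.mono (Finset.erase_subset _ _))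
      rw [Finset.card_erase_of_mem he] at h1
      have h2 : (crs (E.erase e)).card < (crs E).card := by
        refine Finset.card_lt_card ?_
        refine Finset.ssubset_iff_subset_ne.2 ⟨crs_mono (Finset.erase_subset _ _), ?_⟩
        intro heq
        have : (e, g) ∈ crs E := by rw [mem_crs]; exact ⟨he, hg, hne, hc⟩
        rw [← heq, mem_crs] at this
        exact (Finset.notMem_erase e E) this.1
      omega

/-- crossing edges have four distinct end points -/
lemma cr_ne {V : Finset Pt} {E : Finset Edge} (h : Gr V E) {e g : Edge} (he : e ∈ E)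
    (hg : g ∈ E) (hne : e ≠ g) (hc : Cr e g) :
    e.1 ≠ e.2 ∧ g.1 ≠ g.2 ∧ e.1 ≠ g.1 ∧ e.2 ≠ g.2 ∧ e.1 ≠ g.2 ∧ e.2 ≠ g.1 := by
  obtain ⟨x, h1, h2, h3, h4, h5⟩ := hc
  have hle := h.lt e he
  have hlg := h.lt g hg
  refine ⟨?_, ?_, ?_, ?_, ?_, ?_⟩
  · intro heq; rw [heq] at hle; exact lt_irrefl _ hle
  · intro heq; rw [heq] at hlg; exact lt_irrefl _ hlg
  · -- same left end
    intro heq
    have ha : val e e.1.1 = val g e.1.1 := by
      rw [val_left e hle, heq, val_left g hlg]
    have hs : sl e = sl g := by
      have : (sl e - sl g) * (x - e.1.1) = 0 := by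
        unfold val at h5 ha
        linear_combination h5 - ha
      rcases mul_eq_zero.1 this with h6 | h6
      · linarith
      · linarith
    have hv : ∀ y, val e y = val g y := by
      intro y
      unfold val at ha ⊢
      rw [← hs] at ha ⊢
      linear_combination ha
    rcases lt_trichotomy e.2.1 g.2.1 with h6 | h6 | h6
    · refine h.nv g hg e.2 (h.memr e he) (by rw [← heq]; exact hle) h6 ?_
      rw [← hv, val_right]
    · exact hne (h.eq_of_sl he hg (h.inj _ (h.memr e he) _ (h.memr g hg) h6) hs)
    · refine h.nv e he g.2 (h.memr g hg) (by rw [heq]; exact hlg) h6 ?_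
      rw [hv, val_right]
  · intro heq
    have ha : val e e.2.1 = val g e.2.1 := by
      rw [val_right e, heq, val_right g]
    have hs : sl e = sl g := by
      have : (sl e - sl g) * (x - e.2.1) = 0 := by
        unfold val at h5 ha
        linear_combination h5 - ha
      rcases mul_eq_zero.1 this with h6 | h6
      · linarith
      · linarith
    exact hne (h.eq_of_sl he hg heq hs)
  · intro heq
    rw [heq] at h1
    linarith
  · intro heq
    rw [heq] at h3
    linarith

/-- product weight of a subset -/
noncomputable def wt (V : Finset Pt) (p : ℝ) (S : Finset Pt) : ℝ :=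
  p ^ S.card * (1 - p) ^ (V.card - S.card)

lemma wt_nonneg {V : Finset Pt} {p : ℝ} (hp0 : 0 ≤ p) (hp1 : p ≤ 1) (S : Finset Pt) :
    0 ≤ wt V p S := by
  unfold wt
  have : 0 ≤ 1 - p := by linarith
  positivity

lemma sum_wt_superset [DecidableEq Pt] (V T : Finset Pt) (hT : T ⊆ V) (p : ℝ) :
    ∑ S ∈ V.powerset, (if T ⊆ S then wt V p S else 0) = p ^ T.card := by
  rw [← Finset.sum_filter]
  have h1 : V.powerset.filter (fun S => T ⊆ S) = (V \ T).powerset.image (fun S => T ∪ S) := by
    ext S
    simp only [mem_filter, mem_powerset, mem_image]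
    constructor
    · rintro ⟨h1, h2⟩
      refine ⟨S \ T, Finset.sdiff_subset_sdiff h1 (Finset.Subset.refl _), ?_⟩
      exact Finset.union_sdiff_of_subset h2
    · rintro ⟨S', h1, rfl⟩
      refine ⟨Finset.union_subset hT (h1.trans Finset.sdiff_subset), Finset.subset_union_left⟩
  rw [h1, Finset.sum_image]
  · have h2 : ∀ S ∈ (V \ T).powerset, wt V p (T ∪ S) =
        p ^ T.card * (p ^ S.card * (1 - p) ^ ((V \ T).card - S.card)) := by
      intro S hS
      rw [mem_powerset] at hS
      have hd : Disjoint T S := by
        rw [Finset.disjoint_left]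
        intro a ha hb
        exact (Finset.mem_sdiff.1 (hS hb)).2 ha
      unfold wt
      rw [Finset.card_union_of_disjoint hd, Finset.card_sdiff_of_subset hT, pow_add]
      have : V.card - (T.card + S.card) = V.card - T.card - S.card := by omega
      rw [this]
      ring
    rw [Finset.sum_congr rfl h2, ← Finset.mul_sum]
    have h3 := Finset.sum_pow_mul_eq_add_pow p (1 - p) (V \ T)
    rw [h3]
    simp
  · intro S1 h1 S2 h2 heq
    have h1' := Finset.mem_powerset.1 (Finset.mem_coe.1 h1)
    have h2' := Finset.mem_powerset.1 (Finset.mem_coe.1 h2)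
    simp only at heq
    have e1 : (T ∪ S1) \ T = S1 := by
      ext a
      simp only [mem_sdiff, mem_union]
      constructor
      · rintro ⟨h3 | h3, h4⟩
        · exact absurd h3 h4
        · exact h3
      · intro h3
        exact ⟨Or.inr h3, (Finset.mem_sdiff.1 (h1' h3)).2⟩
    have e2 : (T ∪ S2) \ T = S2 := by
      ext a
      simp only [mem_sdiff, mem_union]
      constructor
      · rintro ⟨h3 | h3, h4⟩
        · exact absurd h3 h4
        · exact h3
      · intro h3
        exact ⟨Or.inr h3, (Finset.mem_sdiff.1 (h2' h3)).2⟩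
    rw [← e1, ← e2, heq]

open scoped Classical in
/-- expectation of the number of objects whose support survives -/
lemma sum_wt_card {α : Type*} (V : Finset Pt) (X : Finset α) (supp : α → Finset Pt) (k : ℕ)
    (h1 : ∀ x ∈ X, supp x ⊆ V) (h2 : ∀ x ∈ X, (supp x).card = k) (p : ℝ) :
    ∑ S ∈ V.powerset, wt V p S * ((X.filter fun x => supp x ⊆ S).card : ℝ) = X.card * p ^ k := by
  have h3 : ∀ S ∈ V.powerset, wt V p S * ((X.filter fun x => supp x ⊆ S).card : ℝ) =
      ∑ x ∈ X, (if supp x ⊆ S then wt V p S else 0) := by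
    intro S _
    rw [Finset.card_filter]
    push_cast
    rw [Finset.mul_sum]
    refine Finset.sum_congr rfl fun x _ => ?_
    split_ifs <;> simp
  rw [Finset.sum_congr rfl h3, Finset.sum_comm]
  rw [Finset.sum_congr rfl (fun x hx => sum_wt_superset V (supp x) (h1 x hx) p)]
  rw [Finset.sum_congr rfl (fun x hx => by rw [h2 x hx])]
  simp

open scoped Classical in
theorem sampled {V : Finset Pt} {E : Finset Edge} (h : Gr V E) {p : ℝ} (hp0 : 0 ≤ p)
    (hp1 : p ≤ 1) :
    (E.card : ℝ) * p ^ 2 ≤ 3 * (V.card * p) + (crs E).card * p ^ 4 := by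
  have hV := sum_wt_card V V (fun v => {v}) 1 (by intro x hx; simpa using hx) (by simp) p
  have hE := sum_wt_card V E (fun e => {e.1, e.2}) 2
    (by
      intro e he a ha
      simp only [mem_insert, mem_singleton] at ha
      rcases ha with rfl | rfl
      · exact h.meml e he
      · exact h.memr e he)
    (by
      intro e he
      refine Finset.card_pair ?_
      intro heq
      have := h.lt e he
      rw [heq] at this
      exact lt_irrefl _ this) p
  have hC := sum_wt_card V (crs E) (fun q => {q.1.1, q.1.2, q.2.1, q.2.2}) 4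
    (by
      intro q hq a ha
      rw [mem_crs] at hq
      simp only [mem_insert, mem_singleton] at ha
      rcases ha with rfl | rfl | rfl | rfl
      · exact h.meml _ hq.1
      · exact h.memr _ hq.1
      · exact h.meml _ hq.2.1
      · exact h.memr _ hq.2.1)
    (by
      intro q hq
      rw [mem_crs] at hq
      obtain ⟨a1, a2, a3, a4, a5, a6⟩ := cr_ne h hq.1 hq.2.1 hq.2.2.1 hq.2.2.2
      rw [Finset.card_insert_of_notMem, Finset.card_insert_of_notMem, Finset.card_pair a2]
      · simp only [mem_insert, mem_singleton, not_or]; exact ⟨a6, a4⟩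
      · simp only [mem_insert, mem_singleton, not_or]; exact ⟨a1, a3, a5⟩) p
  have key : ∀ S ∈ V.powerset, wt V p S * ((E.filter fun e => {e.1, e.2} ⊆ S).card : ℝ) ≤
      3 * (wt V p S * ((V.filter fun v => {v} ⊆ S).card : ℝ)) +
      wt V p S * (((crs E).filter fun q => {q.1.1, q.1.2, q.2.1, q.2.2} ⊆ S).card : ℝ) := by
    intro S hS
    rw [mem_powerset] at hS
    have hw := wt_nonneg (V := V) hp0 hp1 S
    set ES := E.filter fun e => {e.1, e.2} ⊆ S with hES
    have hsub : ES ⊆ E := Finset.filter_subset _ _
    have hG : Gr S ES := by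
      refine (h.mono hsub).monoV hS ?_ ?_
      · intro e he
        have := (Finset.mem_filter.1 he).2
        exact this (by simp)
      · intro e he
        have := (Finset.mem_filter.1 he).2
        exact this (by simp)
    have h1 := card_le_crs hG
    have h2 : (crs ES).card ≤
        ((crs E).filter fun q => {q.1.1, q.1.2, q.2.1, q.2.2} ⊆ S).card := by
      refine Finset.card_le_card ?_
      intro q hq
      rw [Finset.mem_filter]
      refine ⟨crs_mono hsub hq, ?_⟩
      rw [mem_crs] at hq
      have h3 := (Finset.mem_filter.1 hq.1).2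
      have h4 := (Finset.mem_filter.1 hq.2.1).2
      intro a ha
      simp only [mem_insert, mem_singleton] at ha
      rcases ha with rfl | rfl | rfl | rfl
      · exact h3 (by simp)
      · exact h3 (by simp)
      · exact h4 (by simp)
      · exact h4 (by simp)
    have h3 : S.card ≤ (V.filter fun v => {v} ⊆ S).card := by
      refine Finset.card_le_card ?_
      intro v hv
      rw [Finset.mem_filter]
      exact ⟨hS hv, by simpa using hv⟩
    have h4 : (ES.card : ℝ) ≤ 3 * ((V.filter fun v => {v} ⊆ S).card : ℝ) +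
        (((crs E).filter fun q => {q.1.1, q.1.2, q.2.1, q.2.2} ⊆ S).card : ℝ) := by
      have : ES.card ≤ 3 * (V.filter fun v => {v} ⊆ S).card +
        ((crs E).filter fun q => {q.1.1, q.1.2, q.2.1, q.2.2} ⊆ S).card := by omega
      exact_mod_cast this
    nlinarith
  have hs := Finset.sum_le_sum key
  rw [Finset.sum_add_distrib, ← Finset.mul_sum] at hs
  rw [hE, hC, hV] at hs
  simpa using hs

/-- **crossing lemma** (cubic form) -/
theorem crossing {V : Finset Pt} {E : Finset Edge} (h : Gr V E) :
    E.card ≤ 6 * V.card ∨ E.card ^ 3 ≤ 72 * V.card ^ 2 * (crs E).card := by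
  by_cases hle : E.card ≤ 6 * V.card
  · exact Or.inl hle
  · right
    push Not at hle
    rcases Nat.eq_zero_or_pos V.card with hV | hV
    · -- no vertices, no edges
      have : E = ∅ := by
        rw [Finset.eq_empty_iff_forall_notMem]
        intro e he
        have h1 := h.meml e he
        rw [Finset.card_eq_zero] at hV
        rw [hV] at h1
        exact Finset.notMem_empty _ h1
      rw [this] at hle
      simp at hle
    · have hE : (0 : ℝ) < E.card := by
        have : 0 < E.card := by omega
        exact_mod_cast this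
      have hVr : (0 : ℝ) < V.card := by exact_mod_cast hV
      have hle' : 6 * (V.card : ℝ) < E.card := by exact_mod_cast hle
      have hp1 : 6 * (V.card : ℝ) / E.card ≤ 1 := by
        rw [div_le_one hE]; exact hle'.le
      have hs := sampled h (p := 6 * (V.card : ℝ) / E.card) (by positivity) hp1
      have h1 : (E.card : ℝ) * (6 * (V.card : ℝ) / E.card) ^ 2 =
          36 * (V.card : ℝ) ^ 2 / E.card := by
        field_simp
        ring
      have h2 : 3 * ((V.card : ℝ) * (6 * (V.card : ℝ) / E.card)) =
          18 * (V.card : ℝ) ^ 2 / E.card := by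
        field_simp
        ring
      rw [h1, h2] at hs
      have h3 : 18 * (V.card : ℝ) ^ 2 / E.card ≤
          ((crs E).card : ℝ) * (6 * (V.card : ℝ) / E.card) ^ 4 := by
        have : 36 * (V.card : ℝ) ^ 2 / E.card = 18 * (V.card : ℝ) ^ 2 / E.card +
          18 * (V.card : ℝ) ^ 2 / E.card := by ring
        linarith
      have h4 : 18 * (V.card : ℝ) ^ 2 / E.card * (E.card : ℝ) ^ 4 ≤
          ((crs E).card : ℝ) * (6 * (V.card : ℝ) / E.card) ^ 4 * (E.card : ℝ) ^ 4 :=
        mul_le_mul_of_nonneg_right h3 (by positivity)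
      have h5 : 18 * (V.card : ℝ) ^ 2 / E.card * (E.card : ℝ) ^ 4 =
          18 * (V.card : ℝ) ^ 2 * (E.card : ℝ) ^ 3 := by
        field_simp
      have h6 : ((crs E).card : ℝ) * (6 * (V.card : ℝ) / E.card) ^ 4 * (E.card : ℝ) ^ 4 =
          18 * (V.card : ℝ) ^ 2 * (72 * (V.card : ℝ) ^ 2 * (crs E).card) := by
        field_simp
        ring
      rw [h5, h6] at h4
      have h7 : (E.card : ℝ) ^ 3 ≤ 72 * (V.card : ℝ) ^ 2 * (crs E).card :=
        le_of_mul_le_mul_left h4 (by positivity)
      exact_mod_cast h7

end Crest.Agent.R065.ST397
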