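import Mathlib
import Crest.Agent.R065.STb_397

set_option autoImplicit false

/-!
# Szemerédi–Trotter for points with distinct abscissae and non-vertical lines `y = m x + b`
-/

namespace Crest.Agent.R065.ST397

open Finset

/-- incidence of a point with the line `y = l.1 * x + l.2` -/
def On (p : Pt) (l : ℝ × ℝ) : Prop := p.2 = l.1 * p.1 + l.2

open scoped Classical in
noncomputable def inc (P : Finset Pt) (l : ℝ × ℝ) : Finset Pt := P.filter fun p => On p l

lemma mem_inc {P : Finset Pt} {l : ℝ × ℝ} {p : Pt} : p ∈ inc P l ↔ p ∈ P ∧ On p l := by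
  classical
  simp [inc]

/-- consecutive points of `P` on the line `l` -/
def Con (P : Finset Pt) (l : ℝ × ℝ) (e : Edge) : Prop :=
  e.1 ∈ P ∧ e.2 ∈ P ∧ On e.1 l ∧ On e.2 l ∧ e.1.1 < e.2.1 ∧
    ∀ u ∈ P, On u l → e.1.1 < u.1 → ¬ u.1 < e.2.1

open scoped Classical in
noncomputable def edgesOn (P : Finset Pt) (l : ℝ × ℝ) : Finset Edge :=
  (P ×ˢ P).filter fun e => Con P l e

lemma mem_edgesOn {P : Finset Pt} {l : ℝ × ℝ} {e : Edge} : e ∈ edgesOn P l ↔ Con P l e := by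
  classical
  simp only [edgesOn, mem_filter, mem_product]
  exact ⟨fun h => h.2, fun h => ⟨⟨h.1, h.2.1⟩, h⟩⟩

open scoped Classical in
noncomputable def edges (P : Finset Pt) (L : Finset (ℝ × ℝ)) : Finset Edge :=
  L.biUnion fun l => edgesOn P l

lemma mem_edges {P : Finset Pt} {L : Finset (ℝ × ℝ)} {e : Edge} :
    e ∈ edges P L ↔ ∃ l ∈ L, Con P l e := by
  classical
  simp [edges, mem_edgesOn]

lemma line_unique {p q : Pt} {l l' : ℝ × ℝ} (hpq : p.1 < q.1) (h1 : On p l) (h2 : On q l)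
    (h3 : On p l') (h4 : On q l') : l = l' := by
  unfold On at *
  have h5 : (l.1 - l'.1) * (q.1 - p.1) = 0 := by linear_combination h1 - h2 - h3 + h4
  have h6 : l.1 = l'.1 := by
    rcases mul_eq_zero.1 h5 with h | h
    · linarith
    · linarith
  refine Prod.ext h6 ?_
  rw [h6] at h1
  linarith

lemma val_of_con {P : Finset Pt} {l : ℝ × ℝ} {e : Edge} (h : Con P l e) (x : ℝ) :
    val e x = l.1 * x + l.2 := by
  obtain ⟨_, _, h1, h2, h3, _⟩ := h
  have h0 : e.2.1 - e.1.1 ≠ 0 := (sub_pos.mpr h3).ne'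
  have hs : sl e = l.1 := by
    unfold sl
    rw [div_eq_iff h0]
    unfold On at h1 h2
    rw [h1, h2]; ring
  unfold val
  rw [hs]
  unfold On at h2
  rw [h2]; ring

lemma con_eq {P : Finset Pt} (hinj : ∀ u ∈ P, ∀ v ∈ P, u.1 = v.1 → u = v) {l : ℝ × ℝ}
    {e g : Edge} (he : Con P l e) (hg : Con P l g) {x : ℝ} (h1 : e.1.1 < x) (h2 : x < e.2.1)
    (h3 : g.1.1 < x) (h4 : x < g.2.1) : e = g := by
  obtain ⟨a1, a2, a3, a4, a5, a6⟩ := he
  obtain ⟨b1, b2, b3, b4, b5, b6⟩ := hg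
  have c1 : e.1.1 = g.1.1 := by
    refine le_antisymm ?_ ?_
    · by_contra h
      exact b6 e.1 a1 a3 (not_le.1 h) (by linarith)
    · by_contra h
      exact a6 g.1 b1 b3 (not_le.1 h) (by linarith)
  have c2 : e.2.1 = g.2.1 := by
    refine le_antisymm ?_ ?_
    · by_contra h
      exact a6 g.2 b2 b4 (by linarith) (not_le.1 h)
    · by_contra h
      exact b6 e.2 a2 a4 (by linarith) (not_le.1 h)
  exact Prod.ext (hinj _ a1 _ b1 c1) (hinj _ a2 _ b2 c2)

lemma gr_edges {P : Finset Pt} (hinj : ∀ u ∈ P, ∀ v ∈ P, u.1 = v.1 → u = v)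
    (L : Finset (ℝ × ℝ)) : Gr P (edges P L) := by
  refine ⟨hinj, ?_, ?_, ?_, ?_⟩
  · intro e he
    obtain ⟨l, _, h⟩ := mem_edges.1 he
    exact h.1
  · intro e he
    obtain ⟨l, _, h⟩ := mem_edges.1 he
    exact h.2.1
  · intro e he
    obtain ⟨l, _, h⟩ := mem_edges.1 he
    exact h.2.2.2.2.1
  · intro e he u hu h1 h2 h3
    obtain ⟨l, _, h⟩ := mem_edges.1 he
    rw [val_of_con h] at h3
    exact h.2.2.2.2.2 u hu h3.symm h1 h2

lemma card_edgesOn {P : Finset Pt} (hinj : ∀ u ∈ P, ∀ v ∈ P, u.1 = v.1 → u = v)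
    (l : ℝ × ℝ) : (inc P l).card - 1 ≤ (edgesOn P l).card := by
  classical
  rcases Finset.eq_empty_or_nonempty (inc P l) with h | h
  · simp [h]
  · obtain ⟨m, hm, hmax⟩ := Finset.exists_max_image (inc P l) Prod.fst h
    rw [← Finset.card_erase_of_mem hm]
    have hsub : (inc P l).erase m ⊆ (edgesOn P l).image Prod.fst := by
      intro p hp
      rw [mem_erase] at hp
      obtain ⟨hne, hp⟩ := hp
      have hpP := mem_inc.1 hp
      have hmP := mem_inc.1 hm
      have hlt : p.1 < m.1 := by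
        refine lt_of_le_of_ne (hmax p hp) ?_
        intro heq
        exact hne (hinj _ hpP.1 _ hmP.1 heq)
      obtain ⟨q, hq, hmin⟩ := Finset.exists_min_image ((inc P l).filter fun q => p.1 < q.1)
        Prod.fst ⟨m, by simp [hm, hlt]⟩
      rw [mem_filter] at hq
      have hqP := mem_inc.1 hq.1
      rw [mem_image]
      refine ⟨(p, q), ?_, rfl⟩
      rw [mem_edgesOn]
      refine ⟨hpP.1, hqP.1, hpP.2, hqP.2, hq.2, ?_⟩
      intro u hu hul h1 h2
      have := hmin u (by rw [mem_filter, mem_inc]; exact ⟨⟨hu, hul⟩, h1⟩)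
      simp only at h2
      linarith
    exact (Finset.card_le_card hsub).trans Finset.card_image_le

lemma card_edges {P : Finset Pt} (hinj : ∀ u ∈ P, ∀ v ∈ P, u.1 = v.1 → u = v)
    (L : Finset (ℝ × ℝ)) : ∑ l ∈ L, ((inc P l).card - 1) ≤ (edges P L).card := by
  classical
  unfold edges
  rw [Finset.card_biUnion]
  · exact Finset.sum_le_sum fun l _ => card_edgesOn hinj l
  · intro l _ l' _ hne
    rw [Function.onFun, Finset.disjoint_left]
    intro e h1 h2
    rw [mem_edgesOn] at h1 h2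
    exact hne (line_unique h1.2.2.2.2.1 h1.2.2.1 h1.2.2.2.1 h2.2.2.1 h2.2.2.2.1)

lemma card_crs_edges {P : Finset Pt} (hinj : ∀ u ∈ P, ∀ v ∈ P, u.1 = v.1 → u = v)
    (L : Finset (ℝ × ℝ)) : (crs (edges P L)).card ≤ L.card ^ 2 := by
  classical
  have hex : ∀ e : Edge, ∃ l : ℝ × ℝ, e ∈ edges P L → l ∈ L ∧ Con P l e := by
    intro e
    by_cases he : e ∈ edges P L
    · obtain ⟨l, hl, h⟩ := mem_edges.1 he
      exact ⟨l, fun _ => ⟨hl, h⟩⟩
    · exact ⟨(0, 0), fun h => absurd h he⟩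
  choose ln hln using hex
  have hcard : (L ×ˢ L).card = L.card ^ 2 := by rw [Finset.card_product, sq]
  rw [← hcard]
  refine Finset.card_le_card_of_injOn (fun q => (ln q.1, ln q.2)) ?_ ?_
  · intro q hq
    have hq' := mem_crs.1 (Finset.mem_coe.1 hq)
    simp only [Finset.coe_product, Set.mem_prod, Finset.mem_coe]
    exact ⟨(hln _ hq'.1).1, (hln _ hq'.2.1).1⟩
  · intro q hq r hr heq
    have hq' := mem_crs.1 (Finset.mem_coe.1 hq)
    have hr' := mem_crs.1 (Finset.mem_coe.1 hr)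
    simp only [Prod.mk.injEq] at heq
    obtain ⟨e1, e2⟩ := heq
    obtain ⟨hq1, hq2, hq3, x, hx1, hx2, hx3, hx4, hx5⟩ := hq'
    obtain ⟨hr1, hr2, hr3, y, hy1, hy2, hy3, hy4, hy5⟩ := hr'
    have cq1 := (hln _ hq1).2
    have cq2 := (hln _ hq2).2
    have cr1 := (hln _ hr1).2
    have cr2 := (hln _ hr2).2
    rw [← e1] at cr1
    rw [← e2] at cr2
    rw [val_of_con cq1, val_of_con cq2] at hx5
    rw [val_of_con cr1, val_of_con cr2] at hy5
    -- the two lines are different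
    have hsl : (ln q.1).1 ≠ (ln q.2).1 := by
      intro heq1
      have h2 : (ln q.1).2 = (ln q.2).2 := by rw [heq1] at hx5; linarith
      have h3 : ln q.1 = ln q.2 := Prod.ext heq1 h2
      rw [← h3] at cq2
      exact hq3 (con_eq hinj cq1 cq2 hx1 hx3 hx2 hx4)
    have hxy : x = y := by
      have : ((ln q.1).1 - (ln q.2).1) * (x - y) = 0 := by linear_combination hx5 - hy5
      rcases mul_eq_zero.1 this with h | h
      · exact absurd (sub_eq_zero.1 h) hsl
      · linarith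
    subst hxy
    exact Prod.ext (con_eq hinj cq1 cr1 hx1 hx3 hy1 hy3) (con_eq hinj cq2 cr2 hx2 hx4 hy2 hy4)

/-- **Szemerédi–Trotter**, cubic form: with `I' = ∑_l (|P ∩ l| - 1)` either `I' ≤ 6 |P|` or
`I'^3 ≤ 72 |P|^2 |L|^2`. -/
theorem szemeredi_trotter {P : Finset Pt} (hinj : ∀ u ∈ P, ∀ v ∈ P, u.1 = v.1 → u = v)
    (L : Finset (ℝ × ℝ)) :
    ∑ l ∈ L, ((inc P l).card - 1) ≤ 6 * P.card ∨
      (∑ l ∈ L, ((inc P l).card - 1)) ^ 3 ≤ 72 * P.card ^ 2 * L.card ^ 2 := by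
  have h1 := card_edges hinj L
  rcases crossing (gr_edges hinj L) with h | h
  · exact Or.inl (h1.trans h)
  · right
    calc (∑ l ∈ L, ((inc P l).card - 1)) ^ 3 ≤ (edges P L).card ^ 3 := Nat.pow_le_pow_left h1 3
      _ ≤ 72 * P.card ^ 2 * (crs (edges P L)).card := h
      _ ≤ 72 * P.card ^ 2 * L.card ^ 2 := Nat.mul_le_mul_left _ (card_crs_edges hinj L)

/-- number of rich lines -/
theorem rich_lines {P : Finset Pt} (hinj : ∀ u ∈ P, ∀ v ∈ P, u.1 = v.1 → u = v)
    (L : Finset (ℝ × ℝ)) {k : ℕ} (hk : 2 ≤ k) (hL : ∀ l ∈ L, k ≤ (inc P l).card) :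
    k * L.card ≤ 12 * P.card ∨ k ^ 3 * L.card ≤ 576 * P.card ^ 2 := by
  have h1 : L.card * (k - 1) ≤ ∑ l ∈ L, ((inc P l).card - 1) := by
    rw [← smul_eq_mul, ← Finset.sum_const]
    exact Finset.sum_le_sum fun l hl => Nat.sub_le_sub_right (hL l hl) 1
  have h2 : k ≤ 2 * (k - 1) := by omega
  have h3 : k * L.card ≤ 2 * ∑ l ∈ L, ((inc P l).card - 1) := by
    calc k * L.card ≤ 2 * (k - 1) * L.card := Nat.mul_le_mul_right _ h2
      _ = 2 * (L.card * (k - 1)) := by ring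
      _ ≤ _ := Nat.mul_le_mul_left _ h1
  rcases szemeredi_trotter hinj L with h | h
  · left; omega
  · right
    rcases Nat.eq_zero_or_pos L.card with h0 | h0
    · simp [h0]
    · have h4 : (k * L.card) ^ 3 ≤ 8 * (72 * P.card ^ 2 * L.card ^ 2) := by
        calc (k * L.card) ^ 3 ≤ (2 * ∑ l ∈ L, ((inc P l).card - 1)) ^ 3 :=
              Nat.pow_le_pow_left h3 3
          _ = 8 * (∑ l ∈ L, ((inc P l).card - 1)) ^ 3 := by ring
          _ ≤ _ := Nat.mul_le_mul_left _ h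
      have h5 : L.card ^ 2 * (k ^ 3 * L.card) ≤ L.card ^ 2 * (576 * P.card ^ 2) := by
        calc L.card ^ 2 * (k ^ 3 * L.card) = (k * L.card) ^ 3 := by ring
          _ ≤ 8 * (72 * P.card ^ 2 * L.card ^ 2) := h4
          _ = L.card ^ 2 * (576 * P.card ^ 2) := by ring
      exact Nat.le_of_mul_le_mul_left h5 (by positivity)

end Crest.Agent.R065.ST397
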