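import Mathlib
import Crest.Agent.R065.STc_397

set_option autoImplicit false

/-!
# Pairs on rich lines in any real vector space (Beck-type consequence of Szemerédi–Trotter)
-/

namespace Crest.Agent.R065.ST397

open Finset

section count

/-- summation by parts -/
lemma sq_le_sum {K k r : ℕ} (hK : K ≤ k) (hr : k ≤ r) :
    (k : ℝ) ^ 2 ≤ (K : ℝ) ^ 2 + ∑ j ∈ Ioc K r, if j ≤ k then 2 * (j : ℝ) else 0 := by
  have h1 : ∀ k, K ≤ k → (k : ℝ) ^ 2 ≤ (K : ℝ) ^ 2 + ∑ j ∈ Ioc K k, 2 * (j : ℝ) := by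
    intro k hk
    induction k, hk using Nat.le_induction with
    | base => simp
    | succ k hk ih =>
      rw [← Finset.insert_Ioc_right_eq_Ioc_add_one (by omega), Finset.sum_insert (by simp)]
      push_cast
      nlinarith
  refine (h1 k hK).trans ?_
  gcongr
  rw [← Finset.sum_filter]
  apply le_of_eq
  apply Finset.sum_congr _ fun _ _ => rfl
  ext j
  simp only [mem_Ioc, mem_filter]
  omega

lemma sum_sq_le {ι : Type*} (L : Finset ι) (k : ι → ℕ) (n K r : ℕ) (hK : 2 ≤ K)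
    (hk : ∀ l ∈ L, K ≤ k l ∧ k l ≤ r)
    (hN : ∀ j, K ≤ j → j * (L.filter fun l => j ≤ k l).card ≤ 12 * n ∨
      j ^ 3 * (L.filter fun l => j ≤ k l).card ≤ 576 * n ^ 2) :
    ∑ l ∈ L, (k l : ℝ) ^ 2 ≤ 1728 * (n : ℝ) ^ 2 / K + 24 * r * n := by
  classical
  rcases L.eq_empty_or_nonempty with rfl | ⟨l₀, hl₀⟩
  · simp; positivity
  have hKr : K ≤ r := (hk l₀ hl₀).1.trans (hk l₀ hl₀).2
  have hNj : ∀ j, K ≤ j → ((L.filter fun l => j ≤ k l).card : ℝ) ≤
      12 * n / j + 576 * n ^ 2 / j ^ 3 := by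
    intro j hj
    have hj0 : (0 : ℝ) < j := by
      have : 0 < j := by omega
      exact_mod_cast this
    rcases hN j hj with h | h
    · have h' : (j : ℝ) * ((L.filter fun l => j ≤ k l).card : ℝ) ≤ 12 * n := by exact_mod_cast h
      have : ((L.filter fun l => j ≤ k l).card : ℝ) ≤ 12 * n / j := by
        rw [le_div_iff₀ hj0]; linarith
      have h2 : (0 : ℝ) ≤ 576 * n ^ 2 / j ^ 3 := by positivity
      linarith
    · have h' : (j : ℝ) ^ 3 * ((L.filter fun l => j ≤ k l).card : ℝ) ≤ 576 * n ^ 2 := by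
        exact_mod_cast h
      have : ((L.filter fun l => j ≤ k l).card : ℝ) ≤ 576 * n ^ 2 / j ^ 3 := by
        rw [le_div_iff₀ (by positivity)]; linarith
      have h2 : (0 : ℝ) ≤ 12 * n / j := by positivity
      linarith
  have hK0 : (0 : ℝ) < K := by
    have : 0 < K := by omega
    exact_mod_cast this
  calc ∑ l ∈ L, (k l : ℝ) ^ 2
      ≤ ∑ l ∈ L, ((K : ℝ) ^ 2 + ∑ j ∈ Ioc K r, if j ≤ k l then 2 * (j : ℝ) else 0) :=
        Finset.sum_le_sum fun l hl => sq_le_sum (hk l hl).1 (hk l hl).2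
    _ = (K : ℝ) ^ 2 * L.card + ∑ j ∈ Ioc K r, 2 * (j : ℝ) * (L.filter fun l => j ≤ k l).card := by
        rw [Finset.sum_add_distrib, Finset.sum_const, nsmul_eq_mul, Finset.sum_comm]
        congr 1
        · ring
        · refine Finset.sum_congr rfl fun j _ => ?_
          rw [← Finset.sum_filter, Finset.sum_const, nsmul_eq_mul]
          ring
    _ ≤ (K : ℝ) ^ 2 * (12 * n / K + 576 * n ^ 2 / K ^ 3) +
        ∑ j ∈ Ioc K r, (24 * (n : ℝ) + 1152 * n ^ 2 * ((j : ℝ) ^ 2)⁻¹) := by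
        gcongr with j hj
        · have h := hNj K le_rfl
          rwa [Finset.filter_true_of_mem fun l hl => (hk l hl).1] at h
        · rw [mem_Ioc] at hj
          have hj0 : (0 : ℝ) < j := by
            have : 0 < j := by omega
            exact_mod_cast this
          have h := hNj j hj.1.le
          calc 2 * (j : ℝ) * ((L.filter fun l => j ≤ k l).card : ℝ)
              ≤ 2 * (j : ℝ) * (12 * n / j + 576 * n ^ 2 / j ^ 3) := by gcongr
            _ = 24 * (n : ℝ) + 1152 * n ^ 2 * ((j : ℝ) ^ 2)⁻¹ := by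
              field_simp
              ring
    _ ≤ (12 * n * K + 576 * n ^ 2 / K) + (24 * (n : ℝ) * (r - K) + 1152 * n ^ 2 * (K : ℝ)⁻¹) := by
        gcongr
        · apply le_of_eq
          field_simp
        · rw [Finset.sum_add_distrib, Finset.sum_const, nsmul_eq_mul, ← Finset.mul_sum,
            Nat.card_Ioc, Nat.cast_sub hKr]
          gcongr ?_ + ?_
          · apply le_of_eq; ring
          · gcongr
            have h := sum_Ioc_inv_sq_le_sub (α := ℝ) (k := K) (n := r) (by omega) hKr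
            have h2 : (0 : ℝ) ≤ (r : ℝ)⁻¹ := by positivity
            linarith
    _ ≤ 1728 * (n : ℝ) ^ 2 / K + 24 * r * n := by
        have h1 : (0 : ℝ) ≤ (n : ℝ) * K := by positivity
        have h2 : 576 * (n : ℝ) ^ 2 / K + 1152 * n ^ 2 * (K : ℝ)⁻¹ = 1728 * (n : ℝ) ^ 2 / K := by
          field_simp; ring
        nlinarith

end count

section proj

variable {V : Type*} [AddCommGroup V] [Module ℝ V]

/-- generic projection to the plane -/
lemma exists_proj (A : Finset V) : ∃ f g : Module.Dual ℝ V,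
    (∀ a ∈ A, ∀ b ∈ A, f a = f b → a = b) ∧
    ∀ a ∈ A, ∀ b ∈ A, ∀ c ∈ A, (g c - g a) * (f b - f a) = (g b - g a) * (f c - f a) →
      f (b - a) • (c - a) = f (c - a) • (b - a) := by
  classical
  obtain ⟨f, hf⟩ := Module.exists_dual_forall_apply_ne_zero (K := ℝ) (M := V)
    (ι := {p : A × A // (p.1 : V) ≠ p.2}) (fun p => (p.1.1 : V) - p.1.2)
    (fun p => sub_ne_zero.2 p.2)
  obtain ⟨g, hg⟩ := Module.exists_dual_forall_apply_ne_zero (K := ℝ) (M := V)
    (ι := {p : A × A × A // f (p.2.1 - p.1 : V) • ((p.2.2 : V) - p.1) -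
      f (p.2.2 - p.1 : V) • ((p.2.1 : V) - p.1) ≠ 0})
    (fun p => f (p.1.2.1 - p.1.1 : V) • ((p.1.2.2 : V) - p.1.1) -
      f (p.1.2.2 - p.1.1 : V) • ((p.1.2.1 : V) - p.1.1))
    (fun p => p.2)
  refine ⟨f, g, fun a ha b hb h => ?_, fun a ha b hb c hc h => ?_⟩
  · by_contra hab
    refine hf ⟨(⟨a, ha⟩, ⟨b, hb⟩), hab⟩ ?_
    simp [h]
  · by_contra hne
    refine hg ⟨(⟨a, ha⟩, ⟨b, hb⟩, ⟨c, hc⟩), sub_ne_zero.2 hne⟩ ?_
    simp only [map_sub, map_smul, smul_eq_mul]
    linear_combination h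

/-- the line through the images of `a` and `b`, as (slope, intercept) -/
noncomputable def lineOf (f g : Module.Dual ℝ V) (a b : V) : ℝ × ℝ :=
  ((g b - g a) / (f b - f a), g a - (g b - g a) / (f b - f a) * f a)

lemma on_lineOf_iff {f g : Module.Dual ℝ V} {a b x : V} (hab : f a ≠ f b) :
    On (f x, g x) (lineOf f g a b) ↔ (g x - g a) * (f b - f a) = (g b - g a) * (f x - f a) := by
  have h : f b - f a ≠ 0 := sub_ne_zero.2 fun h => hab h.symm
  unfold On lineOf
  simp only
  constructor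
  · intro h1
    rw [h1]
    field_simp
    ring
  · intro h1
    have h2 : g x - g a = (g b - g a) / (f b - f a) * (f x - f a) := by
      rw [div_mul_eq_mul_div, eq_div_iff h, h1]
    linear_combination h2

lemma collinear_iff {f g : Module.Dual ℝ V} {A : Finset V}
    (hf : ∀ a ∈ A, ∀ b ∈ A, f a = f b → a = b)
    (hg : ∀ a ∈ A, ∀ b ∈ A, ∀ c ∈ A, (g c - g a) * (f b - f a) = (g b - g a) * (f c - f a) →
      f (b - a) • (c - a) = f (c - a) • (b - a))
    {a b x : V} (ha : a ∈ A) (hb : b ∈ A) (hx : x ∈ A) (hab : a ≠ b) :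
    Collinear ℝ {a, b, x} ↔ On (f x, g x) (lineOf f g a b) := by
  have hfab : f a ≠ f b := fun h => hab (hf a ha b hb h)
  rw [on_lineOf_iff hfab]
  constructor
  · intro h
    obtain ⟨v, hv⟩ := (collinear_iff_of_mem (p₀ := a) (by simp)).1 h
    obtain ⟨s, hs⟩ := hv b (by simp)
    obtain ⟨t, ht⟩ := hv x (by simp)
    rw [vadd_eq_add] at hs ht
    rw [hs, ht]
    simp only [map_add, map_smul, smul_eq_mul]
    ring
  · intro h
    have h1 := hg a ha b hb x hx h
    have h2 : f (b - a) ≠ 0 := by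
      rw [map_sub]; exact sub_ne_zero.2 fun h => hfab h.symm
    rw [collinear_iff_of_mem (p₀ := a) (by simp)]
    refine ⟨b - a, fun p hp => ?_⟩
    simp only [Set.mem_insert_iff, Set.mem_singleton_iff] at hp
    rcases hp with rfl | rfl | rfl
    · exact ⟨0, by simp⟩
    · exact ⟨1, by simp⟩
    · refine ⟨f (p - a) / f (b - a), ?_⟩
      rw [vadd_eq_add, div_eq_inv_mul, mul_smul, ← h1, smul_smul, inv_mul_cancel₀ h2, one_smul]
      simp

open scoped Classical in
/-- **Pairs on rich lines.** -/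
theorem rich_pairs (A : Finset V) (K r : ℕ) (hK : 2 ≤ K)
    (hr : ∀ a ∈ A, ∀ b ∈ A, a ≠ b → (A.filter fun x => Collinear ℝ {a, b, x}).card ≤ r) :
    (((A ×ˢ A).filter fun p => p.1 ≠ p.2 ∧
      K ≤ (A.filter fun x => Collinear ℝ {p.1, p.2, x}).card).card : ℝ) ≤
      1728 * (A.card : ℝ) ^ 2 / K + 24 * r * A.card := by
  obtain ⟨f, g, hf, hg⟩ := exists_proj A
  set φ : V → Pt := fun x => (f x, g x) with hφ
  have hφinj : Set.InjOn φ A := fun a ha b hb h => hf a ha b hb (congrArg Prod.fst h)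
  set P := A.image φ with hP
  have hPcard : P.card = A.card := Finset.card_image_of_injOn hφinj
  have hinj : ∀ u ∈ P, ∀ v ∈ P, u.1 = v.1 → u = v := by
    intro u hu v hv h
    obtain ⟨a, ha, rfl⟩ := Finset.mem_image.1 hu
    obtain ⟨b, hb, rfl⟩ := Finset.mem_image.1 hv
    rw [hf a ha b hb h]
  -- incidences of a line
  have hinc : ∀ l, (inc P l).card = (A.filter fun x => On (φ x) l).card := by
    intro l
    rw [← Finset.card_image_of_injOn (s := A.filter fun x => On (φ x) l) (f := φ)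
      (hφinj.mono fun x hx => (Finset.mem_filter.1 (Finset.mem_coe.1 hx)).1)]
    congr 1
    ext p
    simp only [mem_inc, hP, mem_image, mem_filter]
    constructor
    · rintro ⟨⟨a, ha, rfl⟩, h⟩; exact ⟨a, ⟨ha, h⟩, rfl⟩
    · rintro ⟨a, ⟨ha, h⟩, rfl⟩; exact ⟨⟨a, ha, rfl⟩, h⟩
  have hln : ∀ a ∈ A, ∀ b ∈ A, a ≠ b →
      (A.filter fun x => Collinear ℝ {a, b, x}) =
        A.filter fun x => On (φ x) (lineOf f g a b) := by
    intro a ha b hb hab
    ext x
    simp only [mem_filter]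
    exact and_congr_right fun hx => collinear_iff hf hg ha hb hx hab
  set S := (A ×ˢ A).filter fun p => p.1 ≠ p.2 ∧
      K ≤ (A.filter fun x => Collinear ℝ {p.1, p.2, x}).card with hS
  set L := S.image fun p => lineOf f g p.1 p.2 with hL
  have hLk : ∀ l ∈ L, K ≤ (inc P l).card ∧ (inc P l).card ≤ r := by
    intro l hl
    obtain ⟨p, hp, rfl⟩ := Finset.mem_image.1 hl
    rw [hS, mem_filter, mem_product] at hp
    rw [hinc, ← hln _ hp.1.1 _ hp.1.2 hp.2.1]
    exact ⟨hp.2.2, hr _ hp.1.1 _ hp.1.2 hp.2.1⟩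
  have hsub : S ⊆ L.biUnion fun l =>
      (A.filter fun x => On (φ x) l) ×ˢ (A.filter fun x => On (φ x) l) := by
    intro p hp
    have hp' := hp
    rw [hS, mem_filter, mem_product] at hp'
    obtain ⟨⟨h1, h2⟩, h3, -⟩ := hp'
    have hfab : f p.1 ≠ f p.2 := fun h => h3 (hf _ h1 _ h2 h)
    rw [mem_biUnion]
    refine ⟨lineOf f g p.1 p.2, Finset.mem_image_of_mem _ hp, ?_⟩
    rw [mem_product, mem_filter, mem_filter]
    refine ⟨⟨h1, (on_lineOf_iff hfab).2 (by simp)⟩, h2, (on_lineOf_iff hfab).2 (by ring)⟩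
  have hcard : (S.card : ℝ) ≤ ∑ l ∈ L, ((inc P l).card : ℝ) ^ 2 := by
    have h := (Finset.card_le_card hsub).trans Finset.card_biUnion_le
    calc (S.card : ℝ) ≤ ((∑ l ∈ L, ((A.filter fun x => On (φ x) l) ×ˢ
          (A.filter fun x => On (φ x) l)).card : ℕ) : ℝ) := by exact_mod_cast h
      _ = ∑ l ∈ L, ((inc P l).card : ℝ) ^ 2 := by
        push_cast
        refine Finset.sum_congr rfl fun l _ => ?_
        rw [Finset.card_product, hinc]
        push_cast
        ring
  refine hcard.trans ?_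
  rw [← hPcard]
  refine sum_sq_le L (fun l => (inc P l).card) P.card K r hK hLk fun j hj => ?_
  have h := rich_lines hinj (L := L.filter fun l => j ≤ (inc P l).card) (k := j) (by omega)
    (fun l hl => (mem_filter.1 hl).2)
  exact h

end proj

end Crest.Agent.R065.ST397
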