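import Mathlib
import Crest.Agent.R065.D3c_235
import Crest.Agent.R065.STd_397
import Crest.Agent.R065.D3cons_275

/-!
# Row 65, d = 3: STEP B, final form
-/

set_option autoImplicit false

namespace Crest.Agent.R065.D3B235

open Finset Crest.Agent.R065.D3 Crest.Agent.R065.D3mult235

theorem richPairs : RichPairs 1728 := by
  classical
  intro A K r hK hr0 hr
  obtain ⟨k, hk⟩ : ∃ k : ℕ, k = ⌈K⌉₊ := ⟨_, rfl⟩
  have hk1 : K ≤ k := by rw [hk]; exact Nat.le_ceil K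
  have hk2 : 2 ≤ k := by
    have : (2 : ℝ) ≤ k := hK.trans hk1
    exact_mod_cast this
  have hkp : (0 : ℝ) < K := by linarith
  have h := ST397.rich_pairs A k ⌊r⌋₊ hk2 (fun a ha b hb hab => Nat.le_floor (by
    have := hr a ha b hb hab
    unfold lc at this
    convert this))
  have h1 : (((A ×ˢ A).filter fun p => p.1 ≠ p.2 ∧ K ≤ (lc A p.1 p.2 : ℝ)).card : ℝ) ≤
      1728 * (A.card : ℝ) ^ 2 / k + 24 * (⌊r⌋₊ : ℝ) * A.card := by
    refine le_trans ?_ h
    rw [Nat.cast_le]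
    refine card_le_card fun p hp => ?_
    simp only [mem_filter] at hp ⊢
    refine ⟨hp.1, hp.2.1, ?_⟩
    rw [hk]
    have := Nat.ceil_le.2 hp.2.2
    unfold lc at this
    convert this
  have h2 : (1728 : ℝ) * (A.card : ℝ) ^ 2 / k ≤ 1728 * (A.card : ℝ) ^ 2 / K := by gcongr
  have h3 : (24 : ℝ) * (⌊r⌋₊ : ℝ) * A.card ≤ 24 * r * A.card := by
    gcongr
    exact Nat.floor_le hr0
  have h4 : (0 : ℝ) ≤ (A.card : ℝ) ^ 2 / K := by positivity
  have h5 : (0 : ℝ) ≤ r * A.card := by positivity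
  have h6 : (1728 : ℝ) * (A.card : ℝ) ^ 2 / K = 1728 * ((A.card : ℝ) ^ 2 / K) := by ring
  rw [h6] at h2
  have h7 : (((A ×ˢ A).filter fun p => p.1 ≠ p.2 ∧ K ≤ (lc A p.1 p.2 : ℝ)).card : ℝ) ≤
      1728 * ((A.card : ℝ) ^ 2 / K + r * A.card) := by linarith
  convert h7

theorem line_bound {C0 B L : ℝ} {Z : Finset PP} (h : Reg Nul C0 B Z L) (a b : E3) (hab : a ≠ b) :
    (lc (p1 Z) a b : ℝ) * L ≤ 2 * C0 * (ss Z : ℝ) ^ 2 := by
  have := D3cons275.fst_line' h a b hab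
  unfold lc p1
  exact this

/-- **STEP B** -/
theorem stepB {C0 : ℝ} (hC0 : 1 ≤ C0) : StepB C0 :=
  D3c235.stepB_of richPairs (by norm_num) hC0 fun _ _ _ _ h a b hab => line_bound h a b hab

end Crest.Agent.R065.D3B235
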