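import Mathlib
import Crest.Agent.R065.D3defs_235

/-!
# Row 65, d = 3, module D3a: regular configurations from an extremal one

For a symmetric relation `r` on `α × β` (null pairs) with no related pairs in the same fibre,
`T(Z)` = number of ordered related pairs, `s(Z) = |pr₁ Z| + |pr₂ Z|`.  If `T(Z)^6 ≤ B |Z|^7 s(Z)^6`
fails for every `B`, then there are regular configurations `Reg` with arbitrarily large parameter.
-/

set_option autoImplicit false

namespace Crest.Agent.R065.D3a235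

open Finset Crest.Agent.R065.D3

variable {α β : Type*}

/-- top elements: among `A` there are `k` elements carrying at least the average weight -/
lemma exists_top {γ : Type*} [DecidableEq γ] (w : γ → ℕ) :
    ∀ (A : Finset γ) (k : ℕ), k ≤ A.card →
      ∃ A' ⊆ A, A'.card = k ∧ k * ∑ x ∈ A, w x ≤ A.card * ∑ x ∈ A', w x := by
  intro A
  induction A using Finset.strongInduction with
  | H A ih =>
    intro k hk
    rcases hk.eq_or_lt with h | h
    · exact ⟨A, Subset.refl _, h.symm, by rw [h]⟩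
    · have hne : A.Nonempty := by
        rw [← card_pos]; omega
      obtain ⟨x, hx, hmin⟩ := exists_min_image A w hne
      have hsub : A.erase x ⊂ A := erase_ssubset hx
      have hc : (A.erase x).card = A.card - 1 := card_erase_of_mem hx
      obtain ⟨A', h1, h2, h3⟩ := ih (A.erase x) hsub k (by omega)
      refine ⟨A', h1.trans hsub.1, h2, ?_⟩
      have hsum : ∑ y ∈ A, w y = w x + ∑ y ∈ A.erase x, w y := (add_sum_erase A w hx).symm
      have h4 : (A.card - 1) * w x ≤ ∑ y ∈ A.erase x, w y := by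
        rw [← hc, ← smul_eq_mul]
        exact card_nsmul_le_sum _ _ _ fun y hy => hmin y (mem_of_mem_erase hy)
      rw [hc] at h3
      obtain ⟨n, hn⟩ : ∃ n, A.card = n + 1 := ⟨A.card - 1, by omega⟩
      rw [hn] at h3 h4 ⊢
      simp only [Nat.add_sub_cancel] at h3 h4
      rw [hsum]
      rcases Nat.eq_zero_or_pos n with hn0 | hn0
      · subst hn0
        have : k = 0 := by omega
        subst this; simp
      · -- n * (k * (w x + S)) ≤ n * ((n+1) * S')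
        refine Nat.le_of_mul_le_mul_left ?_ hn0
        calc n * (k * (w x + ∑ y ∈ A.erase x, w y))
            = k * (n * w x) + n * (k * ∑ y ∈ A.erase x, w y) := by ring
          _ ≤ k * ∑ y ∈ A.erase x, w y + n * (k * ∑ y ∈ A.erase x, w y) := by gcongr
          _ = (n + 1) * (k * ∑ y ∈ A.erase x, w y) := by ring
          _ ≤ (n + 1) * (n * ∑ y ∈ A', w y) := by gcongr
          _ = n * ((n + 1) * ∑ y ∈ A', w y) := by ring

/-- the extremal inequality -/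
def Ext (r : α × β → α × β → Prop) (Z : Finset (α × β)) : Prop :=
  ∀ Y : Finset (α × β), Y.card ≤ Z.card →
    TT r Y ^ 6 * (Z.card ^ 7 * ss Z ^ 6) ≤ TT r Z ^ 6 * (Y.card ^ 7 * ss Y ^ 6)

lemma exists_ext (r : α × β → α × β → Prop) (B : ℕ)
    (h : ∃ Z : Finset (α × β), B * (Z.card ^ 7 * ss Z ^ 6) < TT r Z ^ 6) :
    ∃ Z : Finset (α × β), Ext r Z ∧ B * (Z.card ^ 7 * ss Z ^ 6) < TT r Z ^ 6 := by
  classical
  obtain ⟨Z0, hZ0⟩ := h
  have hne0 : Z0.Nonempty := by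
    rw [nonempty_iff_ne_empty]
    rintro rfl
    simp [TT, EE] at hZ0
  set N := Z0.card with hN
  let S : Finset (ℕ × ℕ × ℕ) := ((range (N ^ 2 + 1)) ×ˢ ((range (N + 1)) ×ˢ
    (range (2 * N + 1)))).filter fun q => ∃ Z : Finset (α × β), Z.Nonempty ∧ TT r Z = q.1 ∧
      Z.card = q.2.1 ∧ ss Z = q.2.2
  have hmem : ∀ Z : Finset (α × β), Z.Nonempty → Z.card ≤ N → (TT r Z, Z.card, ss Z) ∈ S := by
    intro Z hZ hc
    simp only [S, mem_filter, mem_product, mem_range]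
    have h1 := TT_le (r := r) Z
    have h2 := ss_le Z
    have h3 : Z.card ^ 2 ≤ N ^ 2 := Nat.pow_le_pow_left hc 2
    exact ⟨⟨by omega, by omega, by omega⟩, Z, hZ, rfl, rfl, rfl⟩
  obtain ⟨q, hq, hmax⟩ := exists_max_image S
    (fun q : ℕ × ℕ × ℕ => (q.1 : ℚ) ^ 6 / ((q.2.1 : ℚ) ^ 7 * (q.2.2 : ℚ) ^ 6))
    ⟨_, hmem Z0 hne0 le_rfl⟩
  have hq' := (mem_filter.1 hq)
  obtain ⟨hq1, Z, hZne, e1, e2, e3⟩ := hq'
  simp only [mem_product, mem_range] at hq1
  have hZc : Z.card ≤ N := by omega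
  have key : ∀ Y : Finset (α × β), Y.Nonempty → Y.card ≤ N →
      TT r Y ^ 6 * (Z.card ^ 7 * ss Z ^ 6) ≤ TT r Z ^ 6 * (Y.card ^ 7 * ss Y ^ 6) := by
    intro Y hY hc
    have h1 := hmax _ (hmem Y hY hc)
    simp only [← e1, ← e2, ← e3] at h1
    have hp1 : (0 : ℚ) < (Y.card : ℚ) ^ 7 * (ss Y : ℚ) ^ 6 := by
      have := card_pos.2 hY
      have := ss_pos hY
      positivity
    have hp2 : (0 : ℚ) < (Z.card : ℚ) ^ 7 * (ss Z : ℚ) ^ 6 := by
      have := card_pos.2 hZne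
      have := ss_pos hZne
      positivity
    rw [div_le_div_iff₀ hp1 hp2] at h1
    exact_mod_cast h1
  refine ⟨Z, ?_, ?_⟩
  · intro Y hY
    rcases Y.eq_empty_or_nonempty with h | h
    · subst h; simp [TT, EE]
    · exact key Y h (hY.trans hZc)
  · have h1 := key Z0 hne0 le_rfl
    have hp : 0 < Z0.card ^ 7 * ss Z0 ^ 6 := by
      have := card_pos.2 hne0
      have := ss_pos hne0
      positivity
    have hp2 : 0 < Z.card ^ 7 * ss Z ^ 6 := by
      have := card_pos.2 hZne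
      have := ss_pos hZne
      positivity
    refine Nat.lt_of_mul_lt_mul_right (a := Z0.card ^ 7 * ss Z0 ^ 6) ?_
    calc B * (Z.card ^ 7 * ss Z ^ 6) * (Z0.card ^ 7 * ss Z0 ^ 6)
        = (B * (Z0.card ^ 7 * ss Z0 ^ 6)) * (Z.card ^ 7 * ss Z ^ 6) := by ring
      _ < TT r Z0 ^ 6 * (Z.card ^ 7 * ss Z ^ 6) := Nat.mul_lt_mul_of_pos_right hZ0 hp2
      _ ≤ TT r Z ^ 6 * (Z0.card ^ 7 * ss Z0 ^ 6) := h1

/-- rational form of the extremal inequality -/
lemma Ext.le {r : α × β → α × β → Prop} {Z : Finset (α × β)} (h : Ext r Z) (hne : Z.Nonempty)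
    {Y : Finset (α × β)} (hY : Y.card ≤ Z.card) {y : ℝ} (hy : 0 ≤ y)
    (hc : (Y.card : ℝ) ≤ y ^ 6 * Z.card) :
    (TT r Y : ℝ) * (Z.card * ss Z) ≤ TT r Z * (y * Y.card * ss Y) := by
  have h1 := h Y hY
  have h2 : (TT r Y : ℝ) ^ 6 * ((Z.card : ℝ) ^ 7 * (ss Z : ℝ) ^ 6) ≤
      (TT r Z : ℝ) ^ 6 * ((Y.card : ℝ) ^ 7 * (ss Y : ℝ) ^ 6) := by exact_mod_cast h1
  have hZ : (0 : ℝ) < Z.card := by exact_mod_cast card_pos.2 hne
  have h3 : ((TT r Y : ℝ) * (Z.card * ss Z)) ^ 6 * Z.card ≤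
      (TT r Z * (y * Y.card * ss Y)) ^ 6 * Z.card := by
    calc ((TT r Y : ℝ) * (Z.card * ss Z)) ^ 6 * Z.card
        = (TT r Y : ℝ) ^ 6 * ((Z.card : ℝ) ^ 7 * (ss Z : ℝ) ^ 6) := by ring
      _ ≤ (TT r Z : ℝ) ^ 6 * ((Y.card : ℝ) ^ 7 * (ss Y : ℝ) ^ 6) := h2
      _ = (TT r Z : ℝ) ^ 6 * (Y.card : ℝ) ^ 6 * (ss Y : ℝ) ^ 6 * Y.card := by ring
      _ ≤ (TT r Z : ℝ) ^ 6 * (Y.card : ℝ) ^ 6 * (ss Y : ℝ) ^ 6 * (y ^ 6 * Z.card) := by gcongr
      _ = (TT r Z * (y * Y.card * ss Y)) ^ 6 * Z.card := by ring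
  have h4 := le_of_mul_le_mul_right h3 hZ
  exact le_of_pow_le_pow_left₀ (by norm_num) (by positivity) h4

lemma aux_five {T T0 N0 s0 Y s1 : ℝ} (hT0 : 0 ≤ T0) (hY : 0 ≤ Y)
    (h3 : T * (N0 * s0) ≤ T0 * (1 / 12 * (2 * Y) * s1)) (h4 : s1 ≤ s0) :
    T * N0 * s0 ≤ T0 * (1 / 6) * Y * s0 := by
  have h : T0 * Y * s1 ≤ T0 * Y * s0 := mul_le_mul_of_nonneg_left h4 (mul_nonneg hT0 hY)
  nlinarith

lemma aux_big {N0 s0 T0 B1 B z s : ℝ} (hN0p : 0 < N0) (hs0p : 0 < s0) (hT0p : 0 < T0)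
    (hNs : N0 ≤ s0 ^ 2) (h3 : (512 * B1) ^ 2 * (N0 ^ 7 * s0 ^ 6) ≤ T0 ^ 6) (hB : B ≤ B1)
    (hz0 : 0 ≤ z) (hz : z ≤ N0) (hs0 : 0 ≤ s) (hs : s ≤ s0) (hB1 : 0 ≤ B1) :
    B * z * s ^ 2 ≤ (T0 / (8 * N0)) ^ 3 := by
  have h4 : (512 * B1 * (N0 * s0 ^ 2)) ^ 2 ≤ ((T0 / N0) ^ 3) ^ 2 := by
    have h5 : ((T0 / N0) ^ 3) ^ 2 = T0 ^ 6 / N0 ^ 6 := by field_simp
    rw [h5, le_div_iff₀ (by positivity)]
    calc (512 * B1 * (N0 * s0 ^ 2)) ^ 2 * N0 ^ 6
        = (512 * B1 : ℝ) ^ 2 * (N0 ^ 7 * (s0 ^ 4 * N0)) := by ring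
      _ ≤ (512 * B1 : ℝ) ^ 2 * (N0 ^ 7 * (s0 ^ 4 * s0 ^ 2)) := by gcongr
      _ = (512 * B1 : ℝ) ^ 2 * (N0 ^ 7 * s0 ^ 6) := by ring
      _ ≤ T0 ^ 6 := h3
  have h6 : 512 * B1 * (N0 * s0 ^ 2) ≤ (T0 / N0) ^ 3 :=
    le_of_pow_le_pow_left₀ (by norm_num) (by positivity) h4
  have h7 : (T0 / (8 * N0)) ^ 3 = (T0 / N0) ^ 3 / 512 := by field_simp; ring
  rw [h7, le_div_iff₀ (by norm_num)]
  calc B * z * s ^ 2 * 512 ≤ B1 * N0 * s0 ^ 2 * 512 := by
        have h8 : B * z * s ^ 2 ≤ B1 * z * s ^ 2 := by gcongr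
        have h9 : B1 * z * s ^ 2 ≤ B1 * N0 * s0 ^ 2 := by gcongr
        linarith
    _ = 512 * B1 * (N0 * s0 ^ 2) := by ring
    _ ≤ (T0 / N0) ^ 3 := h6

lemma aux_sub {T0 N0 A y W s : ℝ} (hN0p : 0 < N0) (hT0p : 0 < T0) (hy : 0 ≤ y) (hW : 0 ≤ W)
    (hs : 0 ≤ s) (h : A ≤ T0 * (y * W * s) / N0) :
    A ≤ (10 : ℝ) ^ 9 * y * W * (T0 / (8 * N0)) * s := by
  have h7 : (10 : ℝ) ^ 9 * y * W * (T0 / (8 * N0)) * s =
      (10 ^ 9 / 8) * (T0 * (y * W * s) / N0) := by field_simp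
  rw [h7]
  have h8 : 0 ≤ T0 * (y * W * s) / N0 := by positivity
  nlinarith

/-- **D3a**: regular configurations -/
theorem exists_reg (r : α × β → α × β → Prop) (hs : ∀ z w, r z w → r w z)
    (h1 : ∀ z w, r z w → z.1 ≠ w.1) (h2 : ∀ z w, r z w → z.2 ≠ w.2)
    (hbad : ∀ B : ℕ, ∃ Z : Finset (α × β), B * (Z.card ^ 7 * ss Z ^ 6) < TT r Z ^ 6)
    (B : ℝ) :
    ∃ (Z : Finset (α × β)) (L : ℝ), Reg r (10 ^ 9) B Z L := by
  classical
  obtain ⟨B1, hB1⟩ : ∃ B1 : ℕ, 1 ≤ B1 ∧ B ≤ B1 := by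
    obtain ⟨n, hn⟩ := exists_nat_ge B
    exact ⟨n + 1, by omega, by push_cast; linarith⟩
  obtain ⟨Z0, hext, hbig⟩ := exists_ext r ((512 * B1) ^ 2) (hbad _)
  have hne0 : Z0.Nonempty := by
    rw [nonempty_iff_ne_empty]
    rintro rfl
    simp [TT, EE] at hbig
  obtain ⟨N0, hN0⟩ : ∃ N0 : ℝ, N0 = (Z0.card : ℝ) := ⟨_, rfl⟩
  obtain ⟨s0, hs0⟩ : ∃ s0 : ℝ, s0 = (ss Z0 : ℝ) := ⟨_, rfl⟩
  obtain ⟨T0, hT0⟩ : ∃ T0 : ℝ, T0 = (TT r Z0 : ℝ) := ⟨_, rfl⟩
  have hN0p : 0 < N0 := by rw [hN0]; exact_mod_cast card_pos.2 hne0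
  have hs0p : 0 < s0 := by rw [hs0]; exact_mod_cast ss_pos hne0
  have hT0p : 0 < T0 := by
    rw [hT0]
    have : 0 < TT r Z0 ^ 6 := by omega
    have h3 : 0 < TT r Z0 := Nat.pos_of_ne_zero (by rintro h; rw [h] at this; simp at this)
    exact_mod_cast h3
  have hNs : N0 ≤ s0 ^ 2 := by
    rw [hN0, hs0]; exact_mod_cast card_le_ss_sq Z0
  have hbigR : (512 * (B1 : ℝ)) ^ 2 * (N0 ^ 7 * s0 ^ 6) ≤ T0 ^ 6 := by
    rw [hN0, hs0, hT0]
    have : (((512 * B1) ^ 2 * (Z0.card ^ 7 * ss Z0 ^ 6) : ℕ) : ℝ) ≤ ((TT r Z0 ^ 6 : ℕ) : ℝ) :=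
      Nat.cast_le.2 hbig.le
    push_cast at this
    exact this
  clear hbig
  -- heavy points
  obtain ⟨M, hM⟩ : ∃ M : ℝ, M = 2 * 12 ^ 6 := ⟨_, rfl⟩
  set Y : Finset (α × β) := Z0.filter fun z => M * T0 < deg r Z0 z * N0 with hYdef
  have hYsub : Y ⊆ Z0 := filter_subset _ _
  have hYcard : (Y.card : ℝ) * M ≤ N0 := by
    have h3 : (∑ _z ∈ Y, M * T0 : ℝ) ≤ ∑ z ∈ Y, (deg r Z0 z : ℝ) * N0 :=
      sum_le_sum fun z hz => (mem_filter.1 hz).2.le
    have h4 : (∑ z ∈ Y, (deg r Z0 z : ℝ) * N0) ≤ T0 * N0 := by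
      rw [← sum_mul]
      refine mul_le_mul_of_nonneg_right ?_ hN0p.le
      rw [hT0]
      unfold TT EE
      push_cast
      exact sum_le_sum_of_subset_of_nonneg hYsub fun _ _ _ => by positivity
    rw [sum_const, nsmul_eq_mul] at h3
    have h5 : (Y.card * M) * T0 ≤ N0 * T0 := by nlinarith
    exact le_of_mul_le_mul_right h5 hT0p
  -- edges at heavy points
  have hheavy : (TT r (Z0 \ Y) : ℝ) ≥ 3 / 4 * T0 := by
    have hdisj : Disjoint Y (Z0 \ Y) := disjoint_sdiff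
    have hun : Y ∪ (Z0 \ Y) = Z0 := union_sdiff_of_subset hYsub
    have hTT : TT r Z0 = TT r Y + 2 * EE r Y (Z0 \ Y) + TT r (Z0 \ Y) := by
      have := TT_union hs hdisj
      rwa [hun] at this
    have hM2 : M * (1 / 12) ^ 6 = 2 := by rw [hM]; norm_num
    have hYN : 2 * (Y.card : ℝ) ≤ (1 / 12) ^ 6 * N0 := by
      have : M * (2 * (Y.card : ℝ)) ≤ M * ((1 / 12) ^ 6 * N0) := by
        calc M * (2 * (Y.card : ℝ)) = 2 * (Y.card * M) := by ring
          _ ≤ 2 * N0 := by linarith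
          _ = M * ((1 / 12) ^ 6 * N0) := by rw [← mul_assoc, hM2]
      exact le_of_mul_le_mul_left this (by rw [hM]; norm_num)
    have hYle : 2 * Y.card ≤ Z0.card := by
      have : 2 * (Y.card : ℝ) ≤ N0 := by nlinarith
      rw [hN0] at this
      exact_mod_cast this
    -- T(Y)
    have hTY : (TT r Y : ℝ) ≤ T0 / 12 := by
      have h3 := hext.le hne0 (Y := Y) (by omega) (y := 1 / 12) (by norm_num)
        (by have : (0 : ℝ) ≤ Y.card := Nat.cast_nonneg _
            rw [← hN0]; linarith)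
      rw [← hN0, ← hs0, ← hT0] at h3
      have h4 : (ss Y : ℝ) ≤ s0 := by rw [hs0]; exact_mod_cast ss_mono hYsub
      have h5 : (Y.card : ℝ) ≤ N0 := by rw [hN0]; exact_mod_cast card_le_card hYsub
      have h6 : T0 * (1 / 12 * Y.card * ss Y) ≤ T0 / 12 * (N0 * s0) := by
        calc T0 * (1 / 12 * Y.card * ss Y) ≤ T0 * (1 / 12 * N0 * s0) := by gcongr
          _ = T0 / 12 * (N0 * s0) := by ring
      exact le_of_mul_le_mul_right (h3.trans h6) (by positivity)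
    -- cross edges
    have hcross : (EE r Y (Z0 \ Y) : ℝ) ≤ T0 / 12 := by
      rcases Y.eq_empty_or_nonempty with hYe | hYne
      · rw [hYe]; simp only [EE, sum_empty, Nat.cast_zero]; positivity
      have hcd : (Z0 \ Y).card = Z0.card - Y.card := card_sdiff_of_subset hYsub
      obtain ⟨Y', hY's, hY'c, hY'w⟩ := exists_top (fun z => deg r Y z) (Z0 \ Y) Y.card (by omega)
      have hdis : Disjoint Y Y' := disjoint_of_subset_right hY's hdisj
      have hT3 : TT r (Y ∪ Y') = TT r Y + 2 * EE r Y Y' + TT r Y' := TT_union hs hdis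
      have hc3 : (Y ∪ Y').card = 2 * Y.card := by
        rw [card_union_of_disjoint hdis, hY'c]; ring
      have h3 := hext.le hne0 (Y := Y ∪ Y') (by omega) (y := 1 / 12) (by norm_num)
        (by rw [hc3, ← hN0]; push_cast; linarith)
      rw [← hN0, ← hs0, ← hT0, hc3] at h3
      have h4 : (ss (Y ∪ Y') : ℝ) ≤ s0 := by
        rw [hs0]
        exact_mod_cast ss_mono (union_subset hYsub (hY's.trans sdiff_subset))
      have h5 : (TT r (Y ∪ Y') : ℝ) * N0 ≤ T0 * (1 / 6) * Y.card := by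
        have : (TT r (Y ∪ Y') : ℝ) * N0 * s0 ≤ T0 * (1 / 6) * Y.card * s0 := by
          rw [Nat.cast_mul, Nat.cast_ofNat] at h3
          exact aux_five hT0p.le (Nat.cast_nonneg _) h3 h4
        exact le_of_mul_le_mul_right this hs0p
      have h6 : (2 * EE r Y Y' : ℝ) ≤ TT r (Y ∪ Y') := by
        have : 2 * EE r Y Y' ≤ TT r (Y ∪ Y') := by omega
        exact_mod_cast this
      have h7 : (Y.card : ℝ) * EE r Y (Z0 \ Y) ≤ N0 * EE r Y Y' := by
        have h8 : ∑ z ∈ Z0 \ Y, deg r Y z = EE r Y (Z0 \ Y) := by rw [EE_comm hs]; rfl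
        have h9 : ∑ z ∈ Y', deg r Y z = EE r Y Y' := by rw [EE_comm hs]; rfl
        rw [h8, h9] at hY'w
        have h10 : Y.card * EE r Y (Z0 \ Y) ≤ Z0.card * EE r Y Y' :=
          hY'w.trans (Nat.mul_le_mul_right _ (by omega))
        rw [hN0]
        exact_mod_cast h10
      have hYp : (0 : ℝ) < Y.card := by exact_mod_cast card_pos.2 hYne
      have h11 : (Y.card : ℝ) * EE r Y (Z0 \ Y) ≤ Y.card * (T0 / 12) := by
        calc (Y.card : ℝ) * EE r Y (Z0 \ Y) ≤ N0 * EE r Y Y' := h7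
          _ = (2 * EE r Y Y') * N0 / 2 := by ring
          _ ≤ TT r (Y ∪ Y') * N0 / 2 := by gcongr
          _ ≤ (T0 * (1 / 6) * Y.card) / 2 := by gcongr
          _ = Y.card * (T0 / 12) := by ring
      exact le_of_mul_le_mul_left h11 hYp
    have hTT' : T0 = TT r Y + 2 * EE r Y (Z0 \ Y) + TT r (Z0 \ Y) := by
      rw [hT0, hTT]; push_cast; ring
    linarith
  -- the maximiser
  set Z1 := Z0 \ Y with hZ1
  have hZ1sub : Z1 ⊆ Z0 := sdiff_subset
  let G : Finset (α × β) → ℝ := fun W => TT r W - T0 / 4 * (W.card / N0) - T0 / 4 * (ss W / s0)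
  obtain ⟨Z, hZmem, hZmax⟩ := exists_max_image Z1.powerset G ⟨Z1, mem_powerset_self _⟩
  rw [mem_powerset] at hZmem
  have hZsub : Z ⊆ Z0 := hZmem.trans hZ1sub
  have hcardle : (Z.card : ℝ) ≤ N0 := by rw [hN0]; exact_mod_cast card_le_card hZsub
  have hssle : (ss Z : ℝ) ≤ s0 := by rw [hs0]; exact_mod_cast ss_mono hZsub
  have hTZ : T0 / 4 ≤ TT r Z := by
    have h3 := hZmax Z1 (mem_powerset_self _)
    have h4 : (Z1.card : ℝ) / N0 ≤ 1 := by
      rw [div_le_one hN0p, hN0]; exact_mod_cast card_le_card hZ1sub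
    have h5 : (ss Z1 : ℝ) / s0 ≤ 1 := by
      rw [div_le_one hs0p, hs0]; exact_mod_cast ss_mono hZ1sub
    have h6 : (0 : ℝ) ≤ Z.card / N0 := by positivity
    have h7 : (0 : ℝ) ≤ ss Z / s0 := by positivity
    simp only [G] at h3
    nlinarith
  have hZne : Z.Nonempty := by
    rw [nonempty_iff_ne_empty]
    rintro h
    rw [h] at hTZ
    simp [TT, EE] at hTZ
    linarith
  have hssge : s0 ≤ 4 * ss Z := by
    have h3 := hext.le hne0 (Y := Z) (card_le_card hZsub) (y := 1) (by norm_num)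
      (by rw [← hN0]; linarith)
    rw [← hN0, ← hs0, ← hT0] at h3
    have h4 : T0 / 4 * (N0 * s0) ≤ T0 * (1 * N0 * ss Z) := by
      calc T0 / 4 * (N0 * s0) ≤ TT r Z * (N0 * s0) := by gcongr
        _ ≤ T0 * (1 * Z.card * ss Z) := h3
        _ ≤ T0 * (1 * N0 * ss Z) := by gcongr
    have h5 : (T0 * N0) * s0 ≤ (T0 * N0) * (4 * ss Z) := by linarith
    exact le_of_mul_le_mul_left h5 (by positivity)
  -- removing a set without internal edges
  have hremove : ∀ F : Finset (α × β), F ⊆ Z → TT r F = 0 →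
      ((TT r (Z \ F) : ℝ) = TT r Z - 2 * EE r F Z) := by
    intro F hF hF0
    have hd : Disjoint F (Z \ F) := disjoint_sdiff
    have hu : F ∪ (Z \ F) = Z := union_sdiff_of_subset hF
    have h3 : TT r Z = TT r F + 2 * EE r F (Z \ F) + TT r (Z \ F) := by
      have := TT_union hs hd
      rwa [hu] at this
    have h4 : EE r F Z = EE r F F + EE r F (Z \ F) := by
      have := EE_union_right (r := r) (A := F) hd
      rwa [hu] at this
    have h5 : EE r F F = 0 := hF0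
    rw [h5, zero_add] at h4
    rw [hF0, zero_add] at h3
    rw [h3, h4]; push_cast; ring
  have hfib : ∀ F : Finset (α × β), F ⊆ Z → TT r F = 0 → ss (Z \ F) + 1 ≤ ss Z →
      T0 / (8 * s0) ≤ EE r F Z := by
    intro F hF hF0 hFs
    have h3 := hZmax (Z \ F) (mem_powerset.2 (sdiff_subset.trans hZmem))
    simp only [G] at h3
    rw [hremove F hF hF0] at h3
    have h4 : ((Z \ F).card : ℝ) / N0 ≤ Z.card / N0 := by
      gcongr
      exact sdiff_subset
    have h5 : (ss (Z \ F) : ℝ) / s0 + 1 / s0 ≤ ss Z / s0 := by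
      rw [← add_div]
      gcongr
      exact_mod_cast hFs
    have h6 : T0 / 4 * (1 / s0) ≤ 2 * EE r F Z := by nlinarith
    have h7 : T0 / (8 * s0) = (T0 / 4 * (1 / s0)) / 2 := by field_simp; ring
    rw [h7]; linarith
  have hpt : ∀ z ∈ Z, T0 / (8 * N0) ≤ deg r Z z := by
    intro z hz
    have hF : ({z} : Finset (α × β)) ⊆ Z := singleton_subset_iff.2 hz
    have hF0 : TT r ({z} : Finset (α × β)) = 0 := by
      unfold TT EE deg
      rw [sum_singleton, card_eq_zero, eq_empty_iff_forall_notMem]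
      intro w hw
      rw [mem_nb, mem_singleton] at hw
      rw [hw.1] at hw
      exact h1 _ _ hw.2 rfl
    have h3 := hZmax (Z \ {z}) (mem_powerset.2 (sdiff_subset.trans hZmem))
    simp only [G] at h3
    rw [hremove _ hF hF0] at h3
    have h4 : ((Z \ {z}).card : ℝ) / N0 + 1 / N0 ≤ Z.card / N0 := by
      rw [← add_div]
      gcongr
      have : (Z \ {z}).card + 1 ≤ Z.card := by
        rw [card_sdiff_of_subset hF, card_singleton]
        have := card_pos.2 hZne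
        omega
      exact_mod_cast this
    have h5 : (ss (Z \ {z}) : ℝ) / s0 ≤ ss Z / s0 := by
      gcongr
      exact ss_mono sdiff_subset
    have h6 : EE r {z} Z = deg r Z z := by unfold EE; rw [sum_singleton]
    rw [h6] at h3
    have h7 : T0 / 4 * (1 / N0) ≤ 2 * deg r Z z := by nlinarith
    have h8 : T0 / (8 * N0) = (T0 / 4 * (1 / N0)) / 2 := by field_simp; ring
    rw [h8]; linarith
  have hZcp : (0 : ℝ) < Z.card := by exact_mod_cast card_pos.2 hZne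
  have hssp : (0 : ℝ) < ss Z := by exact_mod_cast ss_pos hZne
  -- fibre inequality in the required form
  have hfinal : ∀ e : ℝ, T0 / (8 * s0) ≤ e →
      T0 / (8 * N0) * Z.card ≤ 10 ^ 9 * ss Z * e := by
    intro e he
    have he0 : 0 ≤ T0 / (8 * s0) := by positivity
    calc T0 / (8 * N0) * Z.card ≤ T0 / (8 * N0) * N0 := by gcongr
      _ = s0 * (T0 / (8 * s0)) := by field_simp
      _ ≤ (4 * ss Z) * e := by gcongr
      _ ≤ 10 ^ 9 * ss Z * e := by nlinarith [mul_nonneg hssp.le (he0.trans he)]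
  refine ⟨Z, T0 / (8 * N0), ⟨hZne, by positivity, hpt, ?_, ?_, ?_, ?_, ?_⟩⟩
  · intro z hz
    have hz1 : z ∉ Y := (mem_sdiff.1 (hZmem hz)).2
    have hz0 : z ∈ Z0 := hZsub hz
    have h3 : (deg r Z0 z : ℝ) * N0 ≤ M * T0 := by
      by_contra hcon
      exact hz1 (mem_filter.2 ⟨hz0, not_le.1 hcon⟩)
    have h4 : (deg r Z z : ℝ) ≤ deg r Z0 z := by exact_mod_cast deg_mono hZsub z
    have h5 : (deg r Z z : ℝ) * N0 ≤ M * T0 := le_trans (by gcongr) h3
    have h6 : (deg r Z z : ℝ) ≤ M * T0 / N0 := by rwa [le_div_iff₀ hN0p]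
    refine h6.trans ?_
    have h7 : (10 : ℝ) ^ 9 * (T0 / (8 * N0)) = (10 ^ 9 / 8) * T0 / N0 := by field_simp
    rw [h7, hM]
    gcongr
    norm_num
  · intro a F hF hFne
    have hFZ : F ⊆ Z := fun z hz => ((hF z).1 hz).1
    refine hfinal _ (hfib F hFZ ?_ ?_)
    · unfold TT EE deg
      rw [sum_eq_zero_iff]
      intro z hz
      rw [card_eq_zero, eq_empty_iff_forall_notMem]
      intro w hw
      rw [mem_nb] at hw
      exact h1 _ _ hw.2 (((hF z).1 hz).2.trans ((hF w).1 hw.1).2.symm)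
    · unfold ss
      have h3 : ((Z \ F).image Prod.fst) ⊆ (Z.image Prod.fst).erase a := by
        intro x hx
        rw [mem_image] at hx
        obtain ⟨z, hz, rfl⟩ := hx
        rw [mem_sdiff] at hz
        rw [mem_erase]
        refine ⟨fun h => hz.2 ((hF z).2 ⟨hz.1, h⟩), mem_image_of_mem _ hz.1⟩
      have h4 := card_le_card h3
      have h5 : a ∈ Z.image Prod.fst := by
        obtain ⟨z, hz⟩ := hFne
        have := (hF z).1 hz
        rw [← this.2]
        exact mem_image_of_mem _ this.1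
      rw [card_erase_of_mem h5] at h4
      have h6 : 0 < (Z.image Prod.fst).card := card_pos.2 ⟨a, h5⟩
      have h7 : ((Z \ F).image Prod.snd).card ≤ (Z.image Prod.snd).card :=
        card_le_card (image_subset_image sdiff_subset)
      omega
  · intro a F hF hFne
    have hFZ : F ⊆ Z := fun z hz => ((hF z).1 hz).1
    refine hfinal _ (hfib F hFZ ?_ ?_)
    · unfold TT EE deg
      rw [sum_eq_zero_iff]
      intro z hz
      rw [card_eq_zero, eq_empty_iff_forall_notMem]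
      intro w hw
      rw [mem_nb] at hw
      exact h2 _ _ hw.2 (((hF z).1 hz).2.trans ((hF w).1 hw.1).2.symm)
    · unfold ss
      have h3 : ((Z \ F).image Prod.snd) ⊆ (Z.image Prod.snd).erase a := by
        intro x hx
        rw [mem_image] at hx
        obtain ⟨z, hz, rfl⟩ := hx
        rw [mem_sdiff] at hz
        rw [mem_erase]
        refine ⟨fun h => hz.2 ((hF z).2 ⟨hz.1, h⟩), mem_image_of_mem _ hz.1⟩
      have h4 := card_le_card h3
      have h5 : a ∈ Z.image Prod.snd := by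
        obtain ⟨z, hz⟩ := hFne
        have := (hF z).1 hz
        rw [← this.2]
        exact mem_image_of_mem _ this.1
      rw [card_erase_of_mem h5] at h4
      have h6 : 0 < (Z.image Prod.snd).card := card_pos.2 ⟨a, h5⟩
      have h7 : ((Z \ F).image Prod.fst).card ≤ (Z.image Prod.fst).card :=
        card_le_card (image_subset_image sdiff_subset)
      omega
  · intro W hW y hy hWy
    have h3 := hext.le hne0 (Y := W) (card_le_card (hW.trans hZsub)) hy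
      (hWy.trans (by rw [← hN0]; gcongr))
    rw [← hN0, ← hs0, ← hT0] at h3
    -- T(W) * N0 * s0 ≤ T0 * (y |W| s(W))
    have h4 : (TT r W : ℝ) * ss Z ≤ (TT r W : ℝ) * s0 := by gcongr
    have h5 : (TT r W : ℝ) * s0 * N0 ≤ T0 * (y * W.card * ss W) := by linarith
    have h6 : (TT r W : ℝ) * s0 ≤ T0 * (y * W.card * ss W) / N0 := by rwa [le_div_iff₀ hN0p]
    exact aux_sub hN0p hT0p hy (Nat.cast_nonneg _) (Nat.cast_nonneg _) (h4.trans h6)
  · exact aux_big hN0p hs0p hT0p hNs hbigR hB1.2 (Nat.cast_nonneg _) hcardle (Nat.cast_nonneg _)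
      hssle (Nat.cast_nonneg _)

/-- regular configurations exist if the main inequality fails -/
theorem exists_reg_nul (h : ¬ MainD3) (B : ℝ) :
    ∃ (Z : Finset PP) (L : ℝ), Reg Nul (10 ^ 9) B Z L := by
  refine exists_reg Nul nul_symm (fun z w h => h.2) (fun z w h => h.ne_snd) (fun B => ?_) B
  by_contra hcon
  push Not at hcon
  exact h ⟨B, hcon⟩

/-- STEP A and STEP B imply the main inequality for d = 3 -/
theorem mainD3_of (hA : StepA (10 ^ 9)) (hB : StepB (10 ^ 9)) : MainD3 := by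
  by_contra h
  obtain ⟨ε, hε, hB⟩ := hB
  obtain ⟨c, B0, hc, hA⟩ := hA ε hε
  obtain ⟨B0', hB⟩ := hB c hc
  obtain ⟨Z, L, hreg⟩ := exists_reg_nul h (max B0 B0')
  obtain ⟨SS, hSS, hunc⟩ := hA Z L (max B0 B0') (le_max_left _ _) hreg
  exact hB Z L (max B0 B0') (le_max_right _ _) hreg SS hSS hunc

end Crest.Agent.R065.D3a235
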