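import Crest.Agent.R065.Top_348
import Crest.Agent.R065.D3defs_235

/-!
# Row 65, d = 3: from the main theorem D3 to S0087
-/

set_option autoImplicit false

namespace Crest.Agent.R065.D3fin812

open Crest.Agent.R065.Top348

/-- three dimensional Euclidean space -/
abbrev E3 : Type := EuclideanSpace ℝ (Fin 3)

/-- null pairs of points of `E3 × E3` -/
def Nul (z w : E3 × E3) : Prop := dist z.1 w.1 = dist z.2 w.2 ∧ z.1 ≠ w.1

open Classical in
/-- the degree -/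
noncomputable def dg (Z : Finset (E3 × E3)) (z : E3 × E3) : ℕ := (Z.filter fun w => Nul z w).card

/-- the number of null pairs -/
noncomputable def TT (Z : Finset (E3 × E3)) : ℕ := ∑ z ∈ Z, dg Z z

open Classical in
/-- the sum of the sizes of the two projections -/
noncomputable def ss (Z : Finset (E3 × E3)) : ℕ := (Z.image Prod.fst).card + (Z.image Prod.snd).card

open Classical in
/-- the distance set as a Finset -/
noncomputable def DS (P : Finset E3) : Finset ℝ :=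
  ((P ×ˢ P).filter fun x => x.1 ≠ x.2).image fun x => dist x.1 x.2

lemma nd_eq_card (P : Finset E3) : nd P = (DS P).card := by
  classical
  unfold nd
  rw [← Set.ncard_coe_finset]
  congr 1
  ext t
  simp only [DS, Finset.coe_image, Finset.coe_filter, Finset.mem_product, Set.mem_image,
    Set.mem_ofPred_eq, Prod.exists]
  constructor
  · rintro ⟨p, hp, q, hq, hpq, rfl⟩
    exact ⟨p, q, ⟨⟨hp, hq⟩, hpq⟩, rfl⟩
  · rintro ⟨p, q, ⟨⟨hp, hq⟩, hpq⟩, rfl⟩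
    exact ⟨p, hp, q, hq, hpq, rfl⟩

open Classical in
/-- ordered pairs at distance `t` -/
noncomputable def pr (P : Finset E3) (t : ℝ) : Finset (E3 × E3) :=
  (P ×ˢ P).filter fun x => x.1 ≠ x.2 ∧ dist x.1 x.2 = t

lemma sum_pr (P : Finset E3) : ∑ t ∈ DS P, (pr P t).card = P.card ^ 2 - P.card := by
  classical
  have h1 : ((P ×ˢ P).filter fun x => x.1 ≠ x.2).card = ∑ t ∈ DS P, (pr P t).card := by
    rw [Finset.card_eq_sum_card_image (fun x : E3 × E3 => dist x.1 x.2)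
      ((P ×ˢ P).filter fun x => x.1 ≠ x.2)]
    refine Finset.sum_congr rfl fun t _ => ?_
    congr 1
    unfold pr
    rw [Finset.filter_filter]
  rw [← h1]
  have h2 : ((P ×ˢ P).filter fun x : E3 × E3 => x.1 ≠ x.2) = P.offDiag := by
    ext x
    simp [Finset.mem_offDiag, and_assoc]
  rw [h2, Finset.offDiag_card, sq]

lemma TT_prod (P : Finset E3) : ∑ t ∈ DS P, (pr P t).card ^ 2 ≤ TT (P ×ˢ P) := by
  classical
  -- the set of null pairs
  have hT : TT (P ×ˢ P) =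
      (((P ×ˢ P) ×ˢ (P ×ˢ P)).filter fun x : (E3 × E3) × (E3 × E3) => Nul x.1 x.2).card := by
    have e := Finset.card_filter (fun x : (E3 × E3) × (E3 × E3) => Nul x.1 x.2)
      ((P ×ˢ P) ×ˢ (P ×ˢ P))
    rw [e, Finset.sum_product]
    unfold TT
    refine Finset.sum_congr rfl fun z _ => ?_
    unfold dg
    rw [Finset.card_filter]
  rw [hT]
  -- the map ((a,b),(c,e)) ↦ ((a,c),(b,e)) on the disjoint union of the squares
  have hsq : ∑ t ∈ DS P, (pr P t).card ^ 2 = ((DS P).sigma fun t => pr P t ×ˢ pr P t).card := by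
    rw [Finset.card_sigma]
    refine Finset.sum_congr rfl fun t _ => ?_
    rw [Finset.card_product, sq]
  rw [hsq]
  refine Finset.card_le_card_of_injOn
    (fun x : (Σ _ : ℝ, (E3 × E3) × (E3 × E3)) => ((x.2.1.1, x.2.2.1), (x.2.1.2, x.2.2.2))) ?_ ?_
  · rintro ⟨t, ⟨a, b⟩, ⟨c, e⟩⟩ hx
    simp only [Finset.coe_sigma, Set.mem_sigma_iff, Finset.mem_coe, Finset.mem_product, pr,
      Finset.mem_filter] at hx
    obtain ⟨_, ⟨⟨ha, hb⟩, hab, hd1⟩, ⟨⟨hc, he⟩, hce, hd2⟩⟩ := hx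
    simp only [Finset.coe_filter, Finset.mem_product, Set.mem_ofPred_eq]
    refine ⟨⟨⟨ha, hc⟩, hb, he⟩, ?_, hab⟩
    show dist a b = dist c e
    rw [hd1, hd2]
  · rintro ⟨t, ⟨a, b⟩, ⟨c, e⟩⟩ hx ⟨t', ⟨a', b'⟩, ⟨c', e'⟩⟩ hx' h
    simp only [Finset.coe_sigma, Set.mem_sigma_iff, Finset.mem_coe, Finset.mem_product, pr,
      Finset.mem_filter] at hx hx'
    simp only [Prod.mk.injEq] at h
    obtain ⟨⟨h1, h2⟩, h3, h4⟩ := h
    subst h1 h2 h3 h4
    have : t = t' := by rw [← hx.2.1.2.2, ← hx'.2.1.2.2]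
    subst this
    rfl

lemma cauchy (P : Finset E3) :
    ((P.card ^ 2 - P.card : ℕ) : ℝ) ^ 2 ≤ (nd P : ℝ) * (TT (P ×ˢ P) : ℝ) := by
  classical
  rw [← sum_pr, nd_eq_card]
  push_cast
  have h1 := sq_sum_le_card_mul_sum_sq (s := DS P) (f := fun t => ((pr P t).card : ℝ))
  refine h1.trans ?_
  have h2 : (∑ t ∈ DS P, ((pr P t).card : ℝ) ^ 2) ≤ (TT (P ×ˢ P) : ℝ) := by
    exact_mod_cast TT_prod P
  exact mul_le_mul_of_nonneg_left h2 (Nat.cast_nonneg _)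

lemma ss_prod {P : Finset E3} (hP : P.Nonempty) : ss (P ×ˢ P) = 2 * P.card := by
  classical
  unfold ss
  rw [Finset.product_image_fst hP, Finset.product_image_snd hP]
  ring

/-- the main theorem of the branch `d = 3`, real constant -/
def MainD3' : Prop := ∃ B : ℝ, ∀ Z : Finset (E3 × E3),
  (TT Z : ℝ) ^ 6 ≤ B * (Z.card : ℝ) ^ 7 * (ss Z : ℝ) ^ 6

/-- `n² ≤ (A t)³` -/
theorem bound_of_main' (H : MainD3') : ∃ A : ℝ, 0 < A ∧ ∀ P : Finset E3, 2 ≤ P.card →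
    (P.card : ℝ) ^ 2 ≤ (A * (nd P : ℝ)) ^ 3 := by
  obtain ⟨B₀, hB₀⟩ := H
  -- enlarge B to a sixth power
  obtain ⟨b, hb1, hb⟩ : ∃ b : ℝ, 1 ≤ b ∧ B₀ ≤ b ^ 6 := by
    refine ⟨max 1 B₀, le_max_left _ _, (le_max_right 1 B₀).trans ?_⟩
    exact le_self_pow₀ (le_max_left _ _) (by norm_num)
  refine ⟨64 * b, by positivity, fun P hP => ?_⟩
  have hne : P.Nonempty := Finset.card_pos.1 (by omega)
  set n : ℝ := (P.card : ℝ) with hn
  have hn2 : (2 : ℝ) ≤ n := by rw [hn]; exact_mod_cast hP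
  set t : ℝ := (nd P : ℝ) with ht
  have ht0 : 0 ≤ t := Nat.cast_nonneg _
  set T : ℝ := (TT (P ×ˢ P) : ℝ) with hT
  have hT0 : 0 ≤ T := Nat.cast_nonneg _
  have h1 : T ^ 6 ≤ b ^ 6 * (n ^ 2) ^ 7 * (2 * n) ^ 6 := by
    have := hB₀ (P ×ˢ P)
    rw [ss_prod hne, Finset.card_product] at this
    push_cast at this
    rw [← hn, ← hT] at this
    refine this.trans ?_
    rw [show n * n = n ^ 2 by ring]
    have h0 : 0 ≤ (n ^ 2) ^ 7 * (2 * n) ^ 6 := by positivity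
    nlinarith [mul_le_mul_of_nonneg_right hb h0]
  have h2 : (n ^ 2 - n) ^ 2 ≤ t * T := by
    have := cauchy P
    rw [Nat.cast_sub (by nlinarith [hP])] at this
    push_cast at this
    exact this
  have h3 : n ^ 2 / 2 ≤ n ^ 2 - n := by nlinarith
  have h4 : n ^ 4 / 4 ≤ t * T := by
    refine le_trans ?_ h2
    have := pow_le_pow_left₀ (by positivity) h3 2
    calc n ^ 4 / 4 = (n ^ 2 / 2) ^ 2 := by ring
      _ ≤ _ := this
  have h5 : (n ^ 4 / 4) ^ 6 ≤ t ^ 6 * (b ^ 6 * (n ^ 2) ^ 7 * (2 * n) ^ 6) := by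
    calc (n ^ 4 / 4) ^ 6 ≤ (t * T) ^ 6 := pow_le_pow_left₀ (by positivity) h4 6
      _ = t ^ 6 * T ^ 6 := by ring
      _ ≤ _ := mul_le_mul_of_nonneg_left h1 (by positivity)
  have h6 : (n ^ 2) ^ 2 ≤ ((64 * b * t) ^ 3) ^ 2 := by
    have hn20 : 0 < n ^ 20 := by positivity
    have h7 : n ^ 20 * n ^ 4 ≤ n ^ 20 * (4 ^ 6 * 2 ^ 6 * b ^ 6 * t ^ 6) := by
      have e1 : n ^ 20 * n ^ 4 = 4 ^ 6 * (n ^ 4 / 4) ^ 6 := by ring
      rw [e1]
      calc 4 ^ 6 * (n ^ 4 / 4) ^ 6 ≤ 4 ^ 6 * (t ^ 6 * (b ^ 6 * (n ^ 2) ^ 7 * (2 * n) ^ 6)) :=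
            mul_le_mul_of_nonneg_left h5 (by positivity)
        _ = _ := by ring
    have h8 := le_of_mul_le_mul_left h7 hn20
    calc (n ^ 2) ^ 2 = n ^ 4 := by ring
      _ ≤ 4 ^ 6 * 2 ^ 6 * b ^ 6 * t ^ 6 := h8
      _ ≤ 64 ^ 6 * b ^ 6 * t ^ 6 := by
        have : 0 ≤ b ^ 6 * t ^ 6 := by positivity
        nlinarith
      _ = ((64 * b * t) ^ 3) ^ 2 := by ring
  exact (sq_le_sq₀ (by positivity) (by positivity)).1 h6

lemma TT_eq (Z : Finset (E3 × E3)) : D3.TT D3.Nul Z = TT Z := by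
  classical
  unfold D3.TT D3.EE TT
  refine Finset.sum_congr rfl fun z _ => ?_
  unfold D3.deg dg D3.nb
  congr 1

lemma ss_eq (Z : Finset (E3 × E3)) : D3.ss Z = ss Z := by
  unfold D3.ss ss
  congr 2 <;> (congr; exact Subsingleton.elim _ _)

theorem main'_of_main (H : D3.MainD3) : MainD3' := by
  obtain ⟨B, hB⟩ := H
  refine ⟨(B : ℝ), fun Z => ?_⟩
  have h := hB Z
  rw [TT_eq, ss_eq] at h
  have h' : ((TT Z ^ 6 : ℕ) : ℝ) ≤ ((B * (Z.card ^ 7 * ss Z ^ 6) : ℕ) : ℝ) := by exact_mod_cast h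
  push_cast at h'
  rw [mul_assoc]
  exact h'

/-- `n² ≤ (A t)³` from 235's `MainD3` -/
theorem bound_of_main (H : D3.MainD3) : ∃ A : ℝ, 0 < A ∧ ∀ P : Finset E3, 2 ≤ P.card →
    (P.card : ℝ) ^ 2 ≤ (A * (nd P : ℝ)) ^ 3 := bound_of_main' (main'_of_main H)

/-- **S0087 for d = 3** from the main theorem D3 -/
theorem result_three (H : D3.MainD3) :
    ∃ c : ℝ, 0 < c ∧ ∀ P : Finset (EuclideanSpace ℝ (Fin 3)), 2 ≤ P.card →
      c * (P.card : ℝ) ^ ((2 : ℝ) / ((3 : ℕ) : ℝ)) ≤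
        ({t : ℝ | ∃ p ∈ P, ∃ q ∈ P, p ≠ q ∧ dist p q = t}.ncard : ℝ) := by
  obtain ⟨A, hA, h⟩ := bound_of_main H
  exact result_of_bound (d := 3) (by norm_num) A hA h

end Crest.Agent.R065.D3fin812
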