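import Crest.Agent.R065.RankIn3_649
import Crest.Agent.R065.ExtrP_203
import Crest.Agent.R065.Swept1_392

/-!
# Row 65, `d = 3`: `RankIn`, unconditional
-/

set_option autoImplicit false

open MvPolynomial Module

namespace Crest.Agent.R065.Plane649

open Crest.Agent.R065.Glue795 Crest.Agent.R065.Rank417

theorem rankIn : D3in855.RankIn :=
  rankIn_of (Extr203.extrP (K1 2) 2) (sweptP_of Cod1q392.swept1Set)

/-- `RankD (e + 1)` of 96, unconditional -/
theorem rankD {e : ℕ} (he : 0 < e) : M4.RankD (e + 1) :=
  rankD_of he (Extr203.extrP (K1 e) e) (sweptP_of Cod1q392.swept1Set)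

end Crest.Agent.R065.Plane649
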