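import Crest.Agent.R065.D3main_855
import Crest.Agent.R065.D3fin_812
import Crest.Agent.R065.RankIn3f_649
import Crest.Agent.R065.L0fin_143

/-!
# Row 65, `d = 3`, unconditional
-/

set_option autoImplicit false

namespace Crest.Agent.R065.D3all855

open Crest.Agent.R065.D3

/-- the main theorem for `d = 3` -/
theorem mainD3 : MainD3 := D3main855.mainD3 Plane649.rankIn L0fin143.l0in

/-- **S0087 for `d = 3`** -/
theorem result_three :
    ∃ c : ℝ, 0 < c ∧ ∀ P : Finset (EuclideanSpace ℝ (Fin 3)), 2 ≤ P.card →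
      c * (P.card : ℝ) ^ ((2 : ℝ) / (3 : ℕ)) ≤
        ({t : ℝ | ∃ p ∈ P, ∃ q ∈ P, p ≠ q ∧ dist p q = t}.ncard : ℝ) :=
  D3fin812.result_three mainD3

end Crest.Agent.R065.D3all855
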