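import Crest.Agent.R065.D3in_855

/-!
# Row 65, `d = 3`: the bad set is small
-/

set_option autoImplicit false

open MvPolynomial Module Finset

namespace Crest.Agent.R065.D3bad855

open Crest.Agent.R065.HF669 Crest.Agent.R065.Base348 Crest.Agent.R065.Top348
  Crest.Agent.R065.Pins348 Crest.Agent.R065.D3 Crest.Agent.R065.D3blk812
  Crest.Agent.R065.D3in855

lemma zcp_inj : Function.Injective zcp := by
  intro z w h
  obtain ⟨h1, h2⟩ := zc_injective h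
  exact Prod.ext h1 h2

section reg

variable {C0 B L : ℝ} {Z : Finset PP}

lemma card_pos' (h : Reg Nul C0 B Z L) : (0 : ℝ) < Z.card := by
  exact_mod_cast card_pos.2 h.ne

lemma L_le_card (h : Reg Nul C0 B Z L) : L ≤ Z.card := by
  obtain ⟨z, hz⟩ := h.ne
  refine (h.deg_ge z hz).trans ?_
  exact_mod_cast deg_le_card Z z

lemma one_le_t (h : Reg Nul C0 B Z L) : 1 ≤ (Z.card : ℝ) / L := by
  rw [le_div_iff₀ h.L_pos, one_mul]
  exact L_le_card h

lemma card_le_sq : (Z.card : ℝ) ≤ (ss Z : ℝ) ^ 2 := by exact_mod_cast card_le_ss_sq Z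

lemma one_le_u (h : Reg Nul C0 B Z L) : 1 ≤ (ss Z : ℝ) ^ 2 / Z.card := by
  rw [le_div_iff₀ (card_pos' h), one_mul]
  exact card_le_sq

lemma ss_pos' (h : Reg Nul C0 B Z L) : (1 : ℝ) ≤ ss Z := by
  exact_mod_cast ss_pos h.ne

/-- `t³ u ≤ n / B` -/
lemma t3u_le (h : Reg Nul C0 B Z L) (hB : 0 < B) :
    ((Z.card : ℝ) / L) ^ 3 * ((ss Z : ℝ) ^ 2 / Z.card) ≤ Z.card / B := by
  have hL := h.L_pos
  have hn := card_pos' h
  have hb := h.big
  rw [div_pow, div_mul_div_comm, div_le_div_iff₀ (by positivity) hB]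
  calc (Z.card : ℝ) ^ 3 * (ss Z : ℝ) ^ 2 * B = Z.card ^ 2 * (B * Z.card * (ss Z : ℝ) ^ 2) := by ring
    _ ≤ Z.card ^ 2 * L ^ 3 := by gcongr
    _ = Z.card * (L ^ 3 * Z.card) := by ring

/-- `t³ ≤ n / B` -/
lemma t3_le (h : Reg Nul C0 B Z L) (hB : 0 < B) : ((Z.card : ℝ) / L) ^ 3 ≤ Z.card / B := by
  have hL := h.L_pos
  have hn := card_pos' h
  refine le_trans ?_ (t3u_le h hB)
  calc ((Z.card : ℝ) / L) ^ 3 = ((Z.card : ℝ) / L) ^ 3 * 1 := (mul_one _).symm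
    _ ≤ _ := by
      gcongr
      exact one_le_u h

/-- `B s² ≤ L²` -/
lemma sq_le (h : Reg Nul C0 B Z L) (hB : 0 < B) : B * (ss Z : ℝ) ^ 2 ≤ L ^ 2 := by
  have hL := h.L_pos
  have hb := h.big
  have h1 : B * L * (ss Z : ℝ) ^ 2 ≤ L ^ 3 := by
    refine le_trans ?_ hb
    gcongr
    exact L_le_card h
  have h2 : L * (B * (ss Z : ℝ) ^ 2) ≤ L * L ^ 2 := by
    calc L * (B * (ss Z : ℝ) ^ 2) = B * L * (ss Z : ℝ) ^ 2 := by ring
      _ ≤ L ^ 3 := h1
      _ = L * L ^ 2 := by ring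
  exact le_of_mul_le_mul_left h2 hL

/-- `t s ≤ n / √B` -/
lemma ts_le (h : Reg Nul C0 B Z L) (hB : 0 < B) :
    ((Z.card : ℝ) / L) * ss Z ≤ Z.card / Real.sqrt B := by
  have hL := h.L_pos
  have hn := card_pos' h
  have h1 : Real.sqrt B * ss Z ≤ L := by
    have h2 : (Real.sqrt B * ss Z) ^ 2 ≤ L ^ 2 := by
      rw [mul_pow, Real.sq_sqrt hB.le]
      exact sq_le h hB
    exact (sq_le_sq₀ (by positivity) hL.le).1 h2
  have hsB : 0 < Real.sqrt B := Real.sqrt_pos.2 hB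
  rw [div_mul_eq_mul_div, div_le_div_iff₀ hL hsB]
  calc (Z.card : ℝ) * ss Z * Real.sqrt B = Z.card * (Real.sqrt B * ss Z) := by ring
    _ ≤ Z.card * L := by gcongr

end reg

lemma card_le_ss_of_injOn {α β : Type*} {Y Z : Finset (α × β)} (hY : Y ⊆ Z)
    (hinj : Set.InjOn Prod.fst (Y : Set (α × β))) : Y.card ≤ ss Z := by
  classical
  unfold ss
  refine le_trans ?_ (Nat.le_add_right _ _)
  rw [← card_image_of_injOn hinj]
  exact card_le_card (image_subset_image hY)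

/-- a pairwise null set of pairs has at most `s` elements -/
lemma card_le_of_null {Z Y : Finset PP} (hY : Y ⊆ Z)
    (h : ∀ z ∈ Y, ∀ w ∈ Y, Null (zcp z) (zcp w)) : Y.card ≤ ss Z := by
  refine card_le_ss_of_injOn hY ?_
  intro z hz w hw he
  have h1 := (null_zcp z w).1 (h z hz w hw)
  rw [he, dist_self] at h1
  exact Prod.ext he (dist_eq_zero.1 h1.symm)

/-- the bad set is small -/
theorem bad_small (hL0 : L0in) (h1 : O1curve) (h2 : O1surf) (C0 C1 η : ℝ) (hC0 : 1 ≤ C0)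
    (hC1 : 1 ≤ C1) (hη : 0 < η) : ∃ B0 : ℝ, ∀ (B : ℝ) (Z : Finset PP) (L : ℝ), B0 ≤ B →
      Reg Nul C0 B Z L → ∀ m : ℕ, 1 ≤ m → (m : ℝ) ≤ 2 * C1 * (Z.card / L) →
      ∀ f : MvPolynomial (Pr 3 ⊕ Fin 3) ℂ, f ≠ 0 → f.totalDegree ≤ m →
      ∀ Y ⊆ Z, (∀ z ∈ Y, res (zcp z) f = 0) → (Y.card : ℝ) ≤ η * Z.card := by
  classical
  obtain ⟨C, hC, hL0⟩ := hL0
  obtain ⟨B1, h1⟩ := h1 C0 hC0
  obtain ⟨C2, hC2, B2, h2⟩ := h2 C0 hC0
  set K : ℝ := C * (8 * C1 ^ 3 + 32 * C0 * C1 ^ 2 + 2 * C1 * C2 + 2 * C1) with hK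
  have hKpos : 0 < K := by positivity
  refine ⟨max (max B1 B2) (max 1 ((K / η) ^ 2)), ?_⟩
  intro B Z L hB hR m hm hmt f hf hfm Y hYZ hY
  have hB1 : B1 ≤ B := (le_max_left _ _).trans ((le_max_left _ _).trans hB)
  have hB2 : B2 ≤ B := (le_max_right _ _).trans ((le_max_left _ _).trans hB)
  have hB3 : 1 ≤ B := (le_max_left _ _).trans ((le_max_right _ _).trans hB)
  have hB4 : (K / η) ^ 2 ≤ B := (le_max_right _ _).trans ((le_max_right _ _).trans hB)
  have hBpos : 0 < B := by linarith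
  set t : ℝ := Z.card / L with ht
  set u : ℝ := (ss Z : ℝ) ^ 2 / Z.card with hu
  have ht1 : 1 ≤ t := one_le_t hR
  have hu1 : 1 ≤ u := one_le_u hR
  have hs1 : (1 : ℝ) ≤ ss Z := ss_pos' hR
  have hn := card_pos' hR
  -- apply L0
  have hcardY : (Y.image zcp).card = Y.card := card_image_of_injective _ zcp_inj
  have hres : ∀ w ∈ Y.image zcp, res w f = 0 := by
    intro w hw
    obtain ⟨z, hz, rfl⟩ := mem_image.1 hw
    exact hY z hz
  have honP : ∀ P : Ideal (MvPolynomial (Fin 3 ⊕ Fin 3) ℂ),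
      (onP (Y.image zcp) P).card ≤ (ZP Z P).card := by
    intro P
    rw [← card_image_of_injective (ZP Z P) zcp_inj]
    apply card_le_card
    intro w hw
    rw [onP, mem_filter] at hw
    obtain ⟨z, hz, rfl⟩ := mem_image.1 hw.1
    exact mem_image_of_mem _ (mem_filter.2 ⟨hYZ hz, hw.2⟩)
  have key := hL0 m f (Y.image zcp) (8 * C0 * t * u) (C2 * t ^ 2 * u) (ss Z) hm hf hfm hres
    (by
      calc (1 : ℝ) = 1 * 1 * 1 := by norm_num
        _ ≤ 8 * C0 * t * u := by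
          gcongr
          linarith)
    (by
      calc (1 : ℝ) = 1 * 1 ^ 2 * 1 := by norm_num
        _ ≤ C2 * t ^ 2 * u := by gcongr)
    hs1
    (by
      intro P hP hd
      refine le_trans ?_ (h1 B Z L hB1 hR P hP hd)
      exact_mod_cast honP P)
    (by
      intro P hP hd
      refine le_trans ?_ (h2 B Z L hB2 hR P hP hd)
      exact_mod_cast honP P)
    (by
      intro Y' hY' hnull
      set Y'' := Y.filter fun z => zcp z ∈ Y' with hY''
      have e1 : Y''.image zcp = Y' := by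
        ext w
        rw [mem_image]
        constructor
        · rintro ⟨z, hz, rfl⟩
          exact (mem_filter.1 hz).2
        · intro hw
          obtain ⟨z, hz, rfl⟩ := mem_image.1 (hY' hw)
          exact ⟨z, mem_filter.2 ⟨hz, hw⟩, rfl⟩
      have e2 : Y'.card = Y''.card := by
        rw [← e1, card_image_of_injective _ zcp_inj]
      rw [e2]
      have := card_le_of_null (Z := Z) (Y := Y'') ((filter_subset _ _).trans hYZ) (by
        intro z hz w hw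
        exact hnull _ (mem_filter.1 hz).2 _ (mem_filter.1 hw).2)
      exact_mod_cast this)
  rw [hcardY] at key
  refine key.trans ?_
  have hm0 : (0 : ℝ) ≤ m := Nat.cast_nonneg _
  have e1 : (m : ℝ) ^ 3 ≤ 8 * C1 ^ 3 * (t ^ 3 * u) := by
    calc (m : ℝ) ^ 3 ≤ (2 * C1 * t) ^ 3 := by gcongr
      _ = 8 * C1 ^ 3 * (t ^ 3 * 1) := by ring
      _ ≤ 8 * C1 ^ 3 * (t ^ 3 * u) := by gcongr
  have e2 : (m : ℝ) ^ 2 * (8 * C0 * t * u) ≤ 32 * C0 * C1 ^ 2 * (t ^ 3 * u) := by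
    calc (m : ℝ) ^ 2 * (8 * C0 * t * u) ≤ (2 * C1 * t) ^ 2 * (8 * C0 * t * u) := by gcongr
      _ = _ := by ring
  have e3 : (m : ℝ) * (C2 * t ^ 2 * u) ≤ 2 * C1 * C2 * (t ^ 3 * u) := by
    calc (m : ℝ) * (C2 * t ^ 2 * u) ≤ (2 * C1 * t) * (C2 * t ^ 2 * u) := by gcongr
      _ = _ := by ring
  have e4 : (m : ℝ) * ss Z ≤ 2 * C1 * (t * ss Z) := by
    calc (m : ℝ) * ss Z ≤ (2 * C1 * t) * ss Z := by gcongr
      _ = _ := by ring
  have hsB : 0 < Real.sqrt B := Real.sqrt_pos.2 hBpos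
  have hsB1 : Real.sqrt B ≤ B := by
    rw [Real.sqrt_le_left hBpos.le]
    nlinarith
  have e5 : t ^ 3 * u ≤ Z.card / Real.sqrt B := by
    refine (t3u_le hR hBpos).trans ?_
    gcongr
  have e6 : t * ss Z ≤ Z.card / Real.sqrt B := ts_le hR hBpos
  have e7 : K / η ≤ Real.sqrt B := by
    apply Real.le_sqrt_of_sq_le hB4
  calc C * ((m : ℝ) ^ 3 + (m : ℝ) ^ 2 * (8 * C0 * t * u) + m * (C2 * t ^ 2 * u) + m * ss Z)
      ≤ C * (8 * C1 ^ 3 * (t ^ 3 * u) + 32 * C0 * C1 ^ 2 * (t ^ 3 * u) +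
        2 * C1 * C2 * (t ^ 3 * u) + 2 * C1 * (t * ss Z)) := by gcongr
    _ ≤ C * (8 * C1 ^ 3 * (Z.card / Real.sqrt B) + 32 * C0 * C1 ^ 2 * (Z.card / Real.sqrt B) +
        2 * C1 * C2 * (Z.card / Real.sqrt B) + 2 * C1 * (Z.card / Real.sqrt B)) := by
        gcongr
    _ = K * Z.card / Real.sqrt B := by rw [hK]; ring
    _ ≤ η * Z.card := by
        rw [div_le_iff₀ hsB]
        have : K ≤ η * Real.sqrt B := by
          rw [div_le_iff₀ hη] at e7
          linarith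
        nlinarith

end Crest.Agent.R065.D3bad855
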