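import Crest.Agent.R065.Top_348
import Crest.Agent.R065.D3defs_235

/-!
# Row 65, d = 3: the isotropic spaces `D_{n,κ}` and the block system
-/

set_option autoImplicit false

open Matrix

namespace Crest.Agent.R065.D3blk812

open Crest.Agent.R065.Top348 Crest.Agent.R065.Base348 Crest.Agent.R065.D3

section alg

variable {k : Type*} [Field k]

/-- membership in `D_{n,κ} = {(δ,η) : n·δ = 0, n × η = κ δ}` -/
def inD (n : Fin 3 → k) (κ : k) (v : Pt 3 k) : Prop :=
  n ⬝ᵥ v.1 = 0 ∧ n ⨯₃ v.2 = κ • v.1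

lemma inD_zero (n : Fin 3 → k) (κ : k) : inD n κ 0 := by
  constructor <;> simp

lemma inD_add {n : Fin 3 → k} {κ : k} {v w : Pt 3 k} (hv : inD n κ v) (hw : inD n κ w) :
    inD n κ (v + w) := by
  refine ⟨?_, ?_⟩
  · rw [Prod.fst_add, dotProduct_add, hv.1, hw.1, add_zero]
  · rw [Prod.snd_add, Prod.fst_add, map_add, hv.2, hw.2, smul_add]

lemma inD_neg {n : Fin 3 → k} {κ : k} {v : Pt 3 k} (hv : inD n κ v) : inD n κ (-v) := by
  refine ⟨?_, ?_⟩
  · rw [Prod.fst_neg, dotProduct_neg, hv.1, neg_zero]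
  · rw [Prod.snd_neg, Prod.fst_neg, map_neg, hv.2, smul_neg]

lemma inD_sub {n : Fin 3 → k} {κ : k} {v w : Pt 3 k} (hv : inD n κ v) (hw : inD n κ w) :
    inD n κ (v - w) := by
  rw [sub_eq_add_neg]; exact inD_add hv (inD_neg hw)

lemma inD_smul_iff {n : Fin 3 → k} {κ c : k} (hc : c ≠ 0) {v : Pt 3 k} :
    inD (c • n) (c * κ) v ↔ inD n κ v := by
  unfold inD
  rw [smul_dotProduct, map_smul, LinearMap.smul_apply, smul_eq_mul, mul_eq_zero, mul_smul]
  constructor
  · rintro ⟨h1, h2⟩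
    exact ⟨h1.resolve_left hc, smul_right_injective _ hc h2⟩
  · rintro ⟨h1, h2⟩
    exact ⟨Or.inr h1, by rw [h2]⟩

/-- a vector with vanishing cross product with `n ≠ 0` is a multiple of `n` -/
lemma exists_smul_of_cross {n u : Fin 3 → k} (hn : n ≠ 0) (h : n ⨯₃ u = 0) :
    ∃ c : k, u = c • n := by
  have h0 := congrFun h 0
  have h1 := congrFun h 1
  have h2 := congrFun h 2
  simp only [cross_apply, Matrix.cons_val_zero, Matrix.cons_val_one, Matrix.cons_val,
    Pi.zero_apply] at h0 h1 h2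
  obtain ⟨i, hi⟩ : ∃ i, n i ≠ 0 := by
    by_contra hcon
    push Not at hcon
    exact hn (funext hcon)
  refine ⟨u i / n i, ?_⟩
  funext j
  rw [Pi.smul_apply, smul_eq_mul, div_mul_eq_mul_div, eq_div_iff hi]
  fin_cases i <;> fin_cases j <;> simp only [Fin.zero_eta, Fin.mk_one, Fin.reduceFinMk] <;>
    first
    | ring1
    | linear_combination h0
    | linear_combination -h0
    | linear_combination h1
    | linear_combination -h1
    | linear_combination h2
    | linear_combination -h2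

/-- `D_{n,κ}` is isotropic -/
lemma q_eq_zero_of_inD {n : Fin 3 → k} {κ : k} (hn : n ≠ 0) {v : Pt 3 k} (h : inD n κ v) :
    q v = 0 := by
  have hq : q v = v.1 ⬝ᵥ v.2 := rfl
  rw [hq]
  by_cases hκ : κ = 0
  · have h2 := h.2
    rw [hκ, zero_smul] at h2
    obtain ⟨c, hc⟩ := exists_smul_of_cross hn h2
    rw [hc, dotProduct_smul, dotProduct_comm, h.1, smul_zero]
  · have h3 : κ • (v.1 ⬝ᵥ v.2) = 0 := by
      rw [← smul_dotProduct, ← h.2, dotProduct_comm]
      exact dot_cross_self _ _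
    rw [smul_eq_mul, mul_eq_zero] at h3
    exact h3.resolve_left hκ

/-- two different spaces `D_{n,κ}` meet in a line -/
theorem exists_common {n n' : Fin 3 → k} {κ κ' : k} (hn : n ≠ 0) (hn' : n' ≠ 0)
    (hne : ¬ ∃ c : k, n' = c • n ∧ κ' = c * κ) :
    ∃ v0 : Pt 3 k, ∀ v : Pt 3 k, inD n κ v → inD n' κ' v → ∃ a : k, v = a • v0 := by
  by_cases hc : n ⨯₃ n' = 0
  · obtain ⟨c, hcc⟩ := exists_smul_of_cross hn hc
    refine ⟨(0, n), fun v hv hv' => ?_⟩
    have h1 : (κ' - c * κ) • v.1 = 0 := by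
      have h2 := hv'.2
      rw [hcc, map_smul, LinearMap.smul_apply, hv.2] at h2
      rw [sub_smul, mul_smul, h2, sub_self]
    have h3 : κ' - c * κ ≠ 0 := fun h0 => hne ⟨c, hcc, by linear_combination h0⟩
    have hδ : v.1 = 0 := (smul_eq_zero.1 h1).resolve_left h3
    have h4 := hv.2
    rw [hδ, smul_zero] at h4
    obtain ⟨a, ha⟩ := exists_smul_of_cross hn h4
    refine ⟨a, Prod.ext ?_ ?_⟩
    · simpa using hδ
    · simpa using ha
  · refine ⟨(n ⨯₃ n', κ • n' - κ' • n), fun v hv hv' => ?_⟩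
    -- the δ part
    have h1 : (n ⨯₃ n') ⨯₃ v.1 = 0 := by
      have e : (n ⨯₃ n') ⨯₃ v.1 = (n ⬝ᵥ v.1) • n' - (n' ⬝ᵥ v.1) • n := by
        funext i
        fin_cases i <;>
          simp [cross_apply, dotProduct, Fin.sum_univ_three] <;> ring
      rw [e, hv.1, hv'.1, zero_smul, zero_smul, sub_zero]
    obtain ⟨a, ha⟩ := exists_smul_of_cross hc h1
    -- the remaining η part
    set η1 : Fin 3 → k := v.2 - a • (κ • n' - κ' • n) with hη1
    have h2 : n ⨯₃ η1 = 0 := by
      rw [hη1, map_sub, hv.2, ha, map_smul, map_sub, map_smul, map_smul, cross_self, smul_zero,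
        sub_zero, smul_comm, sub_self]
    have h3 : n' ⨯₃ η1 = 0 := by
      have hh : n' ⨯₃ n = -(n ⨯₃ n') := (cross_anticomm n n').symm
      rw [hη1, map_sub, hv'.2, ha, map_smul, map_sub, map_smul, map_smul, cross_self, smul_zero,
        zero_sub, hh, smul_neg, smul_neg, smul_neg, neg_neg, smul_comm, sub_self]
    have h4 : η1 = 0 := by
      by_contra hη
      have h2' : η1 ⨯₃ n = 0 := by rw [← cross_anticomm, h2, neg_zero]
      have h3' : η1 ⨯₃ n' = 0 := by rw [← cross_anticomm, h3, neg_zero]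
      obtain ⟨s, hs⟩ := exists_smul_of_cross hη h2'
      obtain ⟨s', hs'⟩ := exists_smul_of_cross hη h3'
      apply hc
      rw [hs, hs']
      simp [cross_self]
    refine ⟨a, Prod.ext ?_ ?_⟩
    · simpa using ha
    · have : v.2 = a • (κ • n' - κ' • n) := sub_eq_zero.1 h4
      simpa using this

/-- the vector of a skew `3 × 3` matrix: `S x = vec S × x` -/
def vecS (S : Pr 3 → k) : Fin 3 → k :=
  ![-S ⟨(1, 2), by decide⟩, S ⟨(0, 2), by decide⟩, -S ⟨(0, 1), by decide⟩]

lemma act_eq_cross (S : Pr 3 → k) (x : Fin 3 → k) : act S x = vecS S ⨯₃ x := by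
  funext i
  fin_cases i <;> simp [act, sk, vecS, cross_apply, Fin.sum_univ_three] <;> ring

/-- the leaf of `z, w` is contained in the plane `n · s = κ` iff `w - z ∈ D_{n,κ}` -/
theorem leaf_subset_plane_iff [NeZero (2 : k)] {z w : Pt 3 k} (hne : z.1 ≠ w.1) (hN : Null z w)
    (n : Fin 3 → k) (κ : k) :
    (∀ S ∈ Leaf z w, n ⬝ᵥ vecS S = κ) ↔ inD n κ (w - z) := by
  have hδ : (w - z).1 ≠ 0 := sub_ne_zero.2 hne.symm
  have key : ∀ s δ : Fin 3 → k, n ⨯₃ (s ⨯₃ δ) = (n ⬝ᵥ δ) • s - (n ⬝ᵥ s) • δ := by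
    intro s δ
    funext i
    fin_cases i <;>
      simp [cross_apply, dotProduct, Fin.sum_univ_three] <;> ring
  have hleaf : ∀ S ∈ Leaf z w, vecS S ⨯₃ (w - z).1 = -(w - z).2 := by
    intro S hS
    have : act S (w.1 - z.1) = z.2 - w.2 := hS
    rw [act_eq_cross] at this
    rw [Prod.fst_sub, this, Prod.snd_sub, neg_sub]
  constructor
  · intro h
    obtain ⟨S, hS⟩ := leaf_nonempty hne hN
    have hn : n ⬝ᵥ (w - z).1 = 0 := by
      -- the leaf contains the whole line
      obtain ⟨T, hT⟩ : ∃ T : Pr 3 → k, vecS T = (w - z).1 := by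
        refine ⟨fun p => if p.1 = (1, 2) then -(w - z).1 0 else
          if p.1 = (0, 2) then (w - z).1 1 else -(w - z).1 2, ?_⟩
        funext i
        fin_cases i <;> simp [vecS]
      have hST : S + T ∈ Leaf z w := by
        show act (S + T) (w.1 - z.1) = z.2 - w.2
        rw [act_add_left, show act S (w.1 - z.1) = z.2 - w.2 from hS, act_eq_cross T, hT,
          Prod.fst_sub, cross_self, add_zero]
      have e1 := h S hS
      have e2 := h _ hST
      have e3 : vecS (S + T) = vecS S + vecS T := by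
        funext i
        fin_cases i <;> simp [vecS] <;> ring
      rw [e3, dotProduct_add, e1, hT] at e2
      exact left_eq_add.1 e2.symm
    refine ⟨hn, ?_⟩
    have e := key (vecS S) (w - z).1
    rw [hleaf S hS, map_neg, hn, zero_smul, zero_sub, h S hS, neg_inj] at e
    exact e
  · intro h S hS
    have e := key (vecS S) (w - z).1
    rw [hleaf S hS, map_neg, h.1, zero_smul, zero_sub, h.2, neg_inj] at e
    have e' : (κ - n ⬝ᵥ vecS S) • (w - z).1 = 0 := by rw [sub_smul, e, sub_self]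
    exact (sub_eq_zero.1 ((smul_eq_zero.1 e').resolve_right hδ)).symm

end alg

/-! ### the block system of a finite set of real pairs -/

/-- the complex point of a pair -/
noncomputable def zcp (z : PP) : Pt 3 ℂ := zc z.1 z.2

open scoped Classical in
/-- the block `Z ∩ (z + D_{n,κ})` -/
noncomputable def blockOf (Z : Finset PP) (n : Fin 3 → ℂ) (κ : ℂ) (z : PP) : Finset PP :=
  Z.filter fun w => inD n κ (zcp w - zcp z)

lemma mem_blockOf {Z : Finset PP} {n : Fin 3 → ℂ} {κ : ℂ} {z w : PP} :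
    w ∈ blockOf Z n κ z ↔ w ∈ Z ∧ inD n κ (zcp w - zcp z) := by
  classical
  simp [blockOf]

lemma self_mem_blockOf {Z : Finset PP} {n : Fin 3 → ℂ} {κ : ℂ} {z : PP} (hz : z ∈ Z) :
    z ∈ blockOf Z n κ z := by
  rw [mem_blockOf, sub_self]
  exact ⟨hz, inD_zero _ _⟩

open scoped Classical in
/-- all blocks of `Z` -/
noncomputable def SSof (Z : Finset PP) : Finset (Finset PP) :=
  Z.powerset.filter fun X => ∃ z ∈ Z, ∃ (n : Fin 3 → ℂ) (κ : ℂ), n ≠ 0 ∧ X = blockOf Z n κ z

lemma mem_SSof {Z : Finset PP} {X : Finset PP} :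
    X ∈ SSof Z ↔ ∃ z ∈ Z, ∃ (n : Fin 3 → ℂ) (κ : ℂ), n ≠ 0 ∧ X = blockOf Z n κ z := by
  classical
  unfold SSof
  rw [Finset.mem_filter, Finset.mem_powerset]
  constructor
  · exact fun h => h.2
  · rintro ⟨z, hz, n, κ, hn, rfl⟩
    refine ⟨?_, z, hz, n, κ, hn, rfl⟩
    intro w hw
    exact (mem_blockOf.1 hw).1

lemma blockOf_mem_SSof {Z : Finset PP} {n : Fin 3 → ℂ} {κ : ℂ} {z : PP} (hz : z ∈ Z)
    (hn : n ≠ 0) : blockOf Z n κ z ∈ SSof Z := mem_SSof.2 ⟨z, hz, n, κ, hn, rfl⟩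

lemma inD_diff {Z : Finset PP} {n : Fin 3 → ℂ} {κ : ℂ} {z u v : PP}
    (hu : u ∈ blockOf Z n κ z) (hv : v ∈ blockOf Z n κ z) : inD n κ (zcp u - zcp v) := by
  have := inD_sub (mem_blockOf.1 hu).2 (mem_blockOf.1 hv).2
  rwa [sub_sub_sub_cancel_right] at this

lemma blockOf_eq {Z : Finset PP} {n : Fin 3 → ℂ} {κ : ℂ} {z u : PP}
    (hu : u ∈ blockOf Z n κ z) : blockOf Z n κ z = blockOf Z n κ u := by
  ext w
  constructor
  · intro hw
    exact mem_blockOf.2 ⟨(mem_blockOf.1 hw).1, inD_diff hw hu⟩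
  · intro hw
    rw [mem_blockOf] at *
    refine ⟨hw.1, ?_⟩
    have := inD_add hw.2 hu.2
    rwa [sub_add_sub_cancel] at this

lemma null_zcp (z w : PP) : Null (zcp z) (zcp w) ↔ dist z.1 w.1 = dist z.2 w.2 :=
  null_zc z.1 z.2 w.1 w.2

lemma half_diff (z w : PP) (i : Fin 3) :
    (zcp z - zcp w).1 i - (zcp z - zcp w).2 i = 2 * ((z.1 i - w.1 i : ℝ) : ℂ) := by
  simp only [zcp, zc, zp, Prod.fst_sub, Prod.snd_sub, Pi.sub_apply, Pi.add_apply]
  push_cast
  ring

theorem blocks (Z : Finset PP) : Blocks Z (SSof Z) where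
  sub := by
    intro X hX
    obtain ⟨z, hz, n, κ, hn, rfl⟩ := mem_SSof.1 hX
    intro w hw
    exact (mem_blockOf.1 hw).1
  iso := by
    intro X hX u hu v hv
    obtain ⟨z, hz, n, κ, hn, rfl⟩ := mem_SSof.1 hX
    rw [← null_zcp]
    exact q_eq_zero_of_inD hn (inD_diff hu hv)
  col := by
    intro X hX X' hX' hne
    obtain ⟨z, hz, n, κ, hn, rfl⟩ := mem_SSof.1 hX
    obtain ⟨z', hz', n', κ', hn', rfl⟩ := mem_SSof.1 hX'
    by_cases hex : ∃ u, u ∈ blockOf Z n κ z ∧ u ∈ blockOf Z n' κ' z'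
    · obtain ⟨u0, hu0, hu0'⟩ := hex
      have hnot : ¬ ∃ c : ℂ, n' = c • n ∧ κ' = c * κ := by
        rintro ⟨c, hc1, hc2⟩
        have hc : c ≠ 0 := by
          rintro rfl
          exact hn' (by rw [hc1, zero_smul])
        apply hne
        rw [blockOf_eq hu0, blockOf_eq hu0']
        ext w
        rw [mem_blockOf, mem_blockOf, hc1, hc2, inD_smul_iff hc]
      obtain ⟨v0, hv0⟩ := exists_common hn hn' hnot
      have hcoef : ∀ u, u ∈ blockOf Z n κ z → u ∈ blockOf Z n' κ' z' →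
          ∃ a : ℂ, ∀ i, 2 * ((u.1 i - u0.1 i : ℝ) : ℂ) = a * (v0.1 i - v0.2 i) := by
        intro u hu hu'
        obtain ⟨a, ha⟩ := hv0 _ (inD_diff hu hu0) (inD_diff hu' hu0')
        refine ⟨a, fun i => ?_⟩
        rw [← half_diff, ha]
        simp only [Prod.smul_fst, Prod.smul_snd, Pi.smul_apply, smul_eq_mul]
        ring
      have hmem : u0.1 ∈ {a : EuclideanSpace ℝ (Fin 3) | ∃ u, u ∈ blockOf Z n κ z ∧
          u ∈ blockOf Z n' κ' z' ∧ u.1 = a} := ⟨u0, hu0, hu0', rfl⟩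
      rw [collinear_iff_of_mem hmem]
      by_cases hall : ∀ u, u ∈ blockOf Z n κ z → u ∈ blockOf Z n' κ' z' → u.1 = u0.1
      · refine ⟨0, ?_⟩
        rintro _ ⟨u, hu, hu', rfl⟩
        exact ⟨0, by rw [hall u hu hu']; simp⟩
      · push Not at hall
        obtain ⟨u1, hu1, hu1', hu10⟩ := hall
        refine ⟨u1.1 - u0.1, ?_⟩
        obtain ⟨a1, ha1⟩ := hcoef u1 hu1 hu1'
        obtain ⟨i, hi⟩ : ∃ i, u1.1 i - u0.1 i ≠ 0 := by
          by_contra hcon
          push Not at hcon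
          apply hu10
          ext i
          have := hcon i
          linarith
        have ha10 : a1 ≠ 0 := by
          rintro rfl
          have := ha1 i
          rw [zero_mul] at this
          apply hi
          have h2 : ((u1.1 i - u0.1 i : ℝ) : ℂ) = 0 := by
            rcases mul_eq_zero.1 this with h | h
            · norm_num at h
            · exact h
          exact_mod_cast h2
        rintro _ ⟨u, hu, hu', rfl⟩
        obtain ⟨a, ha⟩ := hcoef u hu hu'
        refine ⟨(u.1 i - u0.1 i) / (u1.1 i - u0.1 i), ?_⟩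
        -- the ratio a / a1 is real
        have hiC : ((u1.1 i - u0.1 i : ℝ) : ℂ) ≠ 0 := by exact_mod_cast hi
        have hratio : ∀ j, (u.1 j - u0.1 j) * (u1.1 i - u0.1 i) =
            (u.1 i - u0.1 i) * (u1.1 j - u0.1 j) := by
          intro j
          have e : ((u.1 j - u0.1 j : ℝ) : ℂ) * ((u1.1 i - u0.1 i : ℝ) : ℂ) =
              ((u.1 i - u0.1 i : ℝ) : ℂ) * ((u1.1 j - u0.1 j : ℝ) : ℂ) := by
            have h1 := ha j
            have h2 := ha1 i
            have h3 := ha i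
            have h4 := ha1 j
            have : (4 : ℂ) * (((u.1 j - u0.1 j : ℝ) : ℂ) * ((u1.1 i - u0.1 i : ℝ) : ℂ)) =
                4 * (((u.1 i - u0.1 i : ℝ) : ℂ) * ((u1.1 j - u0.1 j : ℝ) : ℂ)) := by
              linear_combination (2 * ((u1.1 i - u0.1 i : ℝ) : ℂ)) * h1 +
                (a * (v0.1 j - v0.2 j)) * h2 - (2 * ((u1.1 j - u0.1 j : ℝ) : ℂ)) * h3 -
                (a * (v0.1 i - v0.2 i)) * h4
            exact mul_left_cancel₀ (by norm_num) this
          exact_mod_cast e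
        ext j
        simp only [vadd_eq_add, PiLp.add_apply, PiLp.smul_apply, PiLp.sub_apply, smul_eq_mul]
        have := hratio j
        field_simp
        linear_combination this
    · have : {a : EuclideanSpace ℝ (Fin 3) | ∃ u, u ∈ blockOf Z n κ z ∧
          u ∈ blockOf Z n' κ' z' ∧ u.1 = a} = ∅ := by
        ext a
        simp only [Set.mem_ofPred_eq, Set.mem_empty_iff_false, iff_false]
        rintro ⟨u, hu, hu', _⟩
        exact hex ⟨u, hu, hu'⟩
      rw [this]
      exact collinear_empty _ _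

end Crest.Agent.R065.D3blk812
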