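import Mathlib

/-!
# Row 65, `d = 3`: first and second moments over `j`-subsets
-/

set_option autoImplicit false

open Finset

namespace Crest.Agent.R065.D3cnt855

variable {α : Type*} [DecidableEq α]

lemma mul_choose_pred {n j : ℕ} (hn : 1 ≤ n) (hj : 1 ≤ j) :
    n * (n - 1).choose (j - 1) = j * n.choose j := by
  obtain ⟨n, rfl⟩ : ∃ n', n = n' + 1 := ⟨n - 1, by omega⟩
  obtain ⟨j, rfl⟩ : ∃ j', j = j' + 1 := ⟨j - 1, by omega⟩
  have := Nat.add_one_mul_choose_eq n j
  simp only [Nat.add_sub_cancel]
  rw [this, mul_comm]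

/-- number of `j`-subsets containing `w` -/
lemma card_mem {V : Finset α} {w : α} (hw : w ∈ V) {j : ℕ} (hj : 1 ≤ j) :
    V.card * ((V.powersetCard j).filter fun Om => w ∈ Om).card = j * V.card.choose j := by
  have h1 : ((V.powersetCard j).filter fun Om => w ∈ Om) =
      (V.powersetCard j).filter fun Om => ({w} : Finset α) ⊆ Om := by
    ext Om; simp
  rw [h1, card_filter_powersetCard_subset _ _ _ (by simpa using hw) (by simpa using hj),
    card_singleton]
  exact mul_choose_pred (card_pos.2 ⟨w, hw⟩) hj

/-- number of `j`-subsets containing `w ≠ w'` -/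
lemma card_mem_mem {V : Finset α} {w w' : α} (hw : w ∈ V) (hw' : w' ∈ V) (hne : w ≠ w') {j : ℕ} :
    V.card ^ 2 * ((V.powersetCard j).filter fun Om => w ∈ Om ∧ w' ∈ Om).card ≤
      j ^ 2 * V.card.choose j := by
  have hc2 : ({w, w'} : Finset α).card = 2 := card_pair hne
  have hn2 : 2 ≤ V.card := by
    rw [← hc2]
    exact card_le_card (by
      intro x hx
      simp only [mem_insert, mem_singleton] at hx
      rcases hx with rfl | rfl <;> assumption)
  by_cases hj : 2 ≤ j
  · have h1 : ((V.powersetCard j).filter fun Om => w ∈ Om ∧ w' ∈ Om) =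
        (V.powersetCard j).filter fun Om => ({w, w'} : Finset α) ⊆ Om := by
      ext Om
      simp [insert_subset_iff]
    rw [h1, card_filter_powersetCard_subset _ _ _ (by
      intro x hx
      simp only [mem_insert, mem_singleton] at hx
      rcases hx with rfl | rfl <;> assumption) (by rw [hc2]; exact hj), hc2]
    set n := V.card with hn
    by_cases hjn : j ≤ n
    · have e1 := mul_choose_pred (n := n) (j := j) (by omega) (by omega)
      have e2 := mul_choose_pred (n := n - 1) (j := j - 1) (by omega) (by omega)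
      have e3 : n - 1 - 1 = n - 2 := by omega
      have e4 : j - 1 - 1 = j - 2 := by omega
      rw [e3, e4] at e2
      -- n (n-1) C(n-2, j-2) = j (j-1) C(n,j)
      have e5 : n * (n - 1) * (n - 2).choose (j - 2) = j * (j - 1) * n.choose j := by
        calc n * (n - 1) * (n - 2).choose (j - 2) = n * ((n - 1) * (n - 2).choose (j - 2)) := by ring
          _ = n * ((j - 1) * (n - 1).choose (j - 1)) := by rw [e2]
          _ = (j - 1) * (n * (n - 1).choose (j - 1)) := by ring
          _ = (j - 1) * (j * n.choose j) := by rw [e1]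
          _ = _ := by ring
      have e6 : n * (j - 1) ≤ j * (n - 1) := by
        obtain ⟨a, rfl⟩ : ∃ a, j = a + 1 := ⟨j - 1, by omega⟩
        obtain ⟨b, hb⟩ : ∃ b, n = b + 1 := ⟨n - 1, by omega⟩
        rw [hb]
        simp only [Nat.add_sub_cancel]
        have : a ≤ b := by omega
        nlinarith
      -- multiply by n - 1 and cancel
      have hpos : 0 < n - 1 := by omega
      apply Nat.le_of_mul_le_mul_left _ hpos
      calc (n - 1) * (n ^ 2 * (n - 2).choose (j - 2))
          = n * (n * (n - 1) * (n - 2).choose (j - 2)) := by ring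
        _ = n * (j * (j - 1) * n.choose j) := by rw [e5]
        _ = (n * (j - 1)) * (j * n.choose j) := by ring
        _ ≤ (j * (n - 1)) * (j * n.choose j) := Nat.mul_le_mul_right _ e6
        _ = (n - 1) * (j ^ 2 * n.choose j) := by ring
    · have : (n - 2).choose (j - 2) = 0 := Nat.choose_eq_zero_of_lt (by omega)
      rw [this, mul_zero]
      exact Nat.zero_le _
  · have h1 : ((V.powersetCard j).filter fun Om => w ∈ Om ∧ w' ∈ Om) = ∅ := by
      rw [filter_eq_empty_iff]
      rintro Om hOm ⟨h2, h3⟩
      have h4 := (mem_powersetCard.1 hOm).2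
      have h5 : ({w, w'} : Finset α).card ≤ Om.card := card_le_card (by
        intro x hx
        simp only [mem_insert, mem_singleton] at hx
        rcases hx with rfl | rfl <;> assumption)
      omega
    rw [h1, card_empty, mul_zero]
    exact Nat.zero_le _

/-- second moment of `|Om ∩ N|` -/
theorem second_moment (V N : Finset α) (hN : N ⊆ V) {j : ℕ} (hj : 1 ≤ j) (hV : V.Nonempty) :
    ∑ Om ∈ V.powersetCard j, (((Om.filter fun w => w ∈ N).card : ℝ)) ^ 2 ≤
      ((N.card * (j / V.card : ℝ)) ^ 2 + N.card * (j / V.card : ℝ)) * V.card.choose j := by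
  have hn : (0 : ℝ) < V.card := by exact_mod_cast card_pos.2 hV
  have h1 : ∀ Om ∈ V.powersetCard j, (((Om.filter fun w => w ∈ N).card : ℝ)) ^ 2 =
      ∑ w ∈ N, ∑ w' ∈ N, (if w ∈ Om ∧ w' ∈ Om then (1 : ℝ) else 0) := by
    intro Om hOm
    have h2 : ((Om.filter fun w => w ∈ N).card : ℝ) = ∑ w ∈ N, (if w ∈ Om then (1 : ℝ) else 0) := by
      rw [← sum_filter, sum_const, nsmul_eq_mul, mul_one]
      congr 2
      ext w
      simp only [mem_filter]
      tauto
    rw [h2, sq, sum_mul_sum]
    refine sum_congr rfl fun w _ => sum_congr rfl fun w' _ => ?_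
    by_cases ha : w ∈ Om <;> by_cases hb : w' ∈ Om <;> simp [ha, hb]
  rw [sum_congr rfl h1, sum_comm]
  have h3 : ∀ w ∈ N, ∑ Om ∈ V.powersetCard j, ∑ w' ∈ N,
      (if w ∈ Om ∧ w' ∈ Om then (1 : ℝ) else 0) ≤
      (N.card * (j / V.card : ℝ) ^ 2 + (j / V.card : ℝ)) * V.card.choose j := by
    intro w hw
    rw [sum_comm]
    have h4 : ∀ w' ∈ N, ∑ Om ∈ V.powersetCard j, (if w ∈ Om ∧ w' ∈ Om then (1 : ℝ) else 0) ≤
        (j / V.card : ℝ) ^ 2 * V.card.choose j +
          (if w' = w then (j / V.card : ℝ) * V.card.choose j else 0) := by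
      intro w' hw'
      rw [← sum_filter, sum_const, nsmul_eq_mul, mul_one]
      by_cases hww : w' = w
      · subst hww
        rw [if_pos rfl]
        have h5 := card_mem (hN hw) hj (j := j)
        have h6 : ((V.powersetCard j).filter fun Om => w' ∈ Om ∧ w' ∈ Om) =
            (V.powersetCard j).filter fun Om => w' ∈ Om := by
          ext Om; simp
        rw [h6]
        have h7 : (V.card : ℝ) * (((V.powersetCard j).filter fun Om => w' ∈ Om).card : ℝ) =
            j * V.card.choose j := by exact_mod_cast h5
        have h8 : (((V.powersetCard j).filter fun Om => w' ∈ Om).card : ℝ) =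
            (j / V.card : ℝ) * V.card.choose j := by
          field_simp
          linarith [h7]
        rw [h8]
        have : 0 ≤ (j / V.card : ℝ) ^ 2 * V.card.choose j := by positivity
        linarith
      · rw [if_neg hww, add_zero]
        have h5 := card_mem_mem (hN hw) (hN hw') (fun h => hww h.symm) (j := j)
        have h6 : (V.card : ℝ) ^ 2 *
            (((V.powersetCard j).filter fun Om => w ∈ Om ∧ w' ∈ Om).card : ℝ) ≤
            j ^ 2 * V.card.choose j := by exact_mod_cast h5
        rw [div_pow, div_mul_eq_mul_div, le_div_iff₀ (by positivity), mul_comm]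
        exact h6
    refine (sum_le_sum h4).trans ?_
    rw [sum_add_distrib, sum_const, nsmul_eq_mul, sum_ite_eq', if_pos hw]
    apply le_of_eq
    ring
  refine (sum_le_sum h3).trans ?_
  rw [sum_const, nsmul_eq_mul]
  apply le_of_eq
  ring

end Crest.Agent.R065.D3cnt855
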