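import Crest.Agent.R065.Prime_669
import Crest.Agent.R065.Pins_348
import Crest.Agent.R065.D3defs_235
import Crest.Agent.R065.D3blk_812

/-!
# Row 65, `d = 3`: the leaf statements used by STEP A (272's scheme)

* `Engine` : exchange lemma (134), purely finite
* `RankIn` : the rank lemma (272) for `d = 3`
* `Overfull` : expectation of the overfull pairs (789)
* `O1curve`, `O1surf` : Lemmas 4.1, 4.2 (477)
* `L0in` : input L0(3) (143 ...)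
-/

set_option autoImplicit false

open MvPolynomial Module Finset

namespace Crest.Agent.R065.D3in855

open Crest.Agent.R065.HF669 Crest.Agent.R065.Base348 Crest.Agent.R065.Top348
  Crest.Agent.R065.Pins348 Crest.Agent.R065.D3 Crest.Agent.R065.D3blk812

open scoped Classical in
/-- (S1) the exchange engine -/
def Engine : Prop :=
  ∀ (V : Finset PP) (k : ℕ) (NN : PP → PP → Prop) (o : Finset PP → PP → PP → ℕ∞),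
    (∀ z w, NN z w → NN w z) → (∀ z, ¬ NN z z) → 4 * (k + 1) ≤ V.card →
    ((((V ×ˢ V).filter fun p => NN p.1 p.2).card : ℝ) * (k + 1)) * (V.card.choose (k + 1)) ≤
      4 * V.card * ∑ Om ∈ V.powersetCard (k + 1), ∑ z ∈ V \ Om,
        ((Om.filter fun w => NN z w ∧ o (Om.erase w) w z ≤ o (Om.erase w) z w).card : ℝ)

/-- `f ∈ I_m(Om)` -/
def IsI (m : ℕ) (Om : Finset (Pt 3 ℂ)) (f : MvPolynomial (Pr 3 ⊕ Fin 3) ℂ) : Prop :=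
  f.totalDegree ≤ m ∧ ∀ w ∈ Om, res w f = 0

/-- `z` is bad for `Om` -/
def IsBad (m : ℕ) (Om : Finset (Pt 3 ℂ)) (z : Pt 3 ℂ) : Prop :=
  ∀ f : MvPolynomial (Pr 3 ⊕ Fin 3) ℂ, IsI m Om f → res z f = 0

open scoped Classical in
/-- (S2) the rank lemma in the case `d = 3`, for the order function `o` -/
def RankIn : Prop :=
  ∃ (o : ℕ → Finset (Pt 3 ℂ) → Pt 3 ℂ → Pt 3 ℂ → ℕ∞) (C : ℝ), 0 < C ∧
    ∀ (m : ℕ) (Om : Finset (Pt 3 ℂ)) (z : Pt 3 ℂ), 1 ≤ m → ¬ IsBad m Om z → ∀ Sg ⊆ Om,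
      (∀ w ∈ Sg, Null z w ∧ (∀ i, w.1 i ≠ z.1 i) ∧
        o m (Om.erase w) w z ≤ o m (Om.erase w) z w) →
      ∃ D : Finset ((Fin 3 → ℂ) × ℂ), D.card ≤ m ∧ (∀ p ∈ D, p.1 ≠ 0) ∧
        ((Sg.filter fun w => ∀ p ∈ D, ¬ inD p.1 p.2 (w - z)).card : ℝ) ≤ C * (m : ℝ) ^ 2

/-- constant of the block threshold: `k₀ = ε L² / (KK C1 |Z|)` -/
def KK : ℝ := 2 ^ 21

open scoped Classical in
/-- (S3) the overfull pairs are rare (789) -/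
def Overfull : Prop :=
  ∀ C0 ε C1 : ℝ, 1 ≤ C0 → 0 < ε → ε ≤ 1 → 1 ≤ C1 → ∃ B0 : ℝ, ∀ (B : ℝ) (Z : Finset PP) (L : ℝ),
    B0 ≤ B → Reg Nul C0 B Z L → ∀ SS : Finset (Finset PP), Blocks Z SS →
    ∀ k r : ℕ, ((k + 1 : ℕ) : ℝ) ≤ (C1 * (Z.card / L)) ^ 3 / 15 →
      ε * C1 ^ 2 * (Z.card / L) / 61440 ≤ r →
      ∑ Om ∈ Z.powersetCard (k + 1), ∑ z ∈ Z,
        ((Om.filter fun w => Nul z w ∧
          ∃ X ∈ SS, z ∈ X ∧ w ∈ X ∧ (X.card : ℝ) < ε / (KK * C1) * L ^ 2 / Z.card ∧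
            2 * r + 2 ≤ (Om ∩ X).card).card : ℝ) ≤
        ε / 64 * (k + 1) * L * (Z.card.choose (k + 1))

open scoped Classical in
/-- the pairs of `Z` in the zero set of `P` -/
noncomputable def ZP (Z : Finset PP) (P : Ideal (MvPolynomial (Fin 3 ⊕ Fin 3) ℂ)) : Finset PP :=
  Z.filter fun z => ∀ g ∈ P, eval (toFn (zcp z)) g = 0

/-- LEMMA 4.1 (477) -/
def O1curve : Prop :=
  ∀ C0 : ℝ, 1 ≤ C0 → ∃ B0 : ℝ, ∀ (B : ℝ) (Z : Finset PP) (L : ℝ), B0 ≤ B → Reg Nul C0 B Z L →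
    ∀ P : Ideal (MvPolynomial (Fin 3 ⊕ Fin 3) ℂ), P.IsPrime → dimP P = 1 →
      ((ZP Z P).card : ℝ) ≤ 8 * C0 * (Z.card / L) * ((ss Z : ℝ) ^ 2 / Z.card) * degP P

/-- LEMMA 4.2 (477) -/
def O1surf : Prop :=
  ∀ C0 : ℝ, 1 ≤ C0 → ∃ C : ℝ, 1 ≤ C ∧ ∃ B0 : ℝ, ∀ (B : ℝ) (Z : Finset PP) (L : ℝ), B0 ≤ B →
    Reg Nul C0 B Z L → ∀ P : Ideal (MvPolynomial (Fin 3 ⊕ Fin 3) ℂ), P.IsPrime → dimP P = 2 →
      ((ZP Z P).card : ℝ) ≤ C * (Z.card / L) ^ 2 * ((ss Z : ℝ) ^ 2 / Z.card) * degP P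

open scoped Classical in
/-- the points of `Sg` in the zero set of `P` -/
noncomputable def onP (Sg : Finset (Pt 3 ℂ)) (P : Ideal (MvPolynomial (Fin 3 ⊕ Fin 3) ℂ)) :
    Finset (Pt 3 ℂ) :=
  Sg.filter fun w => ∀ g ∈ P, eval (toFn w) g = 0

/-- INPUT L0(3) -/
def L0in : Prop :=
  ∃ C : ℝ, 0 < C ∧ ∀ (m : ℕ) (f : MvPolynomial (Pr 3 ⊕ Fin 3) ℂ) (Sg : Finset (Pt 3 ℂ))
    (τ₁ τ₂ ν : ℝ), 1 ≤ m → f ≠ 0 → f.totalDegree ≤ m → (∀ w ∈ Sg, res w f = 0) →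
    1 ≤ τ₁ → 1 ≤ τ₂ → 1 ≤ ν →
    (∀ P : Ideal (MvPolynomial (Fin 3 ⊕ Fin 3) ℂ), P.IsPrime → dimP P = 1 →
      ((onP Sg P).card : ℝ) ≤ τ₁ * degP P) →
    (∀ P : Ideal (MvPolynomial (Fin 3 ⊕ Fin 3) ℂ), P.IsPrime → dimP P = 2 →
      ((onP Sg P).card : ℝ) ≤ τ₂ * degP P) →
    (∀ Y ⊆ Sg, (∀ w ∈ Y, ∀ w' ∈ Y, Null w w') → (Y.card : ℝ) ≤ ν) →
    (Sg.card : ℝ) ≤ C * ((m : ℝ) ^ 3 + (m : ℝ) ^ 2 * τ₁ + m * τ₂ + m * ν)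

/-- general position: all `x`-coordinates of different points are different -/
def GPall (Z : Finset PP) : Prop :=
  ∀ z ∈ Z, ∀ w ∈ Z, z ≠ w → ∀ i, (zcp z).1 i ≠ (zcp w).1 i

end Crest.Agent.R065.D3in855
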