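import Crest.Agent.R065.D3in_855
import Crest.Agent.R065.D3d_477
import Crest.Agent.R065.D3cons_275
import Crest.Agent.R065.Cut_477

/-!
# Row 65, d = 3: Lemmas 4.1 and 4.2 in the form of `D3in_855`
-/

set_option autoImplicit false

open MvPolynomial Module Finset

namespace Crest.Agent.R065.D3o1477

open Crest.Agent.R065.HF669 Crest.Agent.R065.Base348 Crest.Agent.R065.Top348
  Crest.Agent.R065.Pins348 Crest.Agent.R065.D3 Crest.Agent.R065.D3blk812
  Crest.Agent.R065.D3d477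

lemma ZP_eq (Z : Finset PP) (P : Ideal (MvPolynomial (Fin 3 ⊕ Fin 3) ℂ)) :
    D3in855.ZP Z P = D3d477.ZP Z P := by
  classical
  ext z
  rw [mem_ZP, D3in855.ZP, mem_filter]
  rfl

lemma cut2 (P : Ideal (MvPolynomial (Fin 3 ⊕ Fin 3) ℂ)) [P.IsPrime] (hP : dimP P = 2) :
    Cut2 P := by
  intro g hg he
  obtain ⟨S, h1, _, h3, h4⟩ := Cut477.exists_cut hg he
  refine ⟨S, fun Q hQ => ⟨(h1 Q hQ).1, ?_⟩, h3, h4⟩
  have := (h1 Q hQ).2.2.2
  omega

variable {C0 B L : ℝ} {Z : Finset PP}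

lemma lineBd (hR : Reg Nul C0 B Z L) : LineBd C0 L Z :=
  lineBd_of (D3cons275.fst_line' hR) hR.L_pos.le

lemma tau1_le' (hR : Reg Nul C0 B Z L) :
    tau1 C0 L Z ≤ 8 * C0 * ((Z.card : ℝ) / L) * ((ss Z : ℝ) ^ 2 / Z.card) := by
  have hC := D3cons275.one_le_C0 hR
  have hZ : (0 : ℝ) < Z.card := by exact_mod_cast card_pos.2 hR.ne
  have hL := hR.L_pos
  have hs : (Z.card : ℝ) ≤ (ss Z : ℝ) ^ 2 := by exact_mod_cast card_le_ss_sq Z
  have e : 8 * C0 * ((Z.card : ℝ) / L) * ((ss Z : ℝ) ^ 2 / Z.card) =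
      8 * C0 * (ss Z : ℝ) ^ 2 / L := by
    field_simp
  rw [e]
  unfold tau1
  have hs0 : (0 : ℝ) ≤ (ss Z : ℝ) ^ 2 := by positivity
  refine max_le ?_ ?_
  · rw [← mul_div_assoc]
    refine div_le_div_of_nonneg_right ?_ hL.le
    nlinarith
  · refine div_le_div_of_nonneg_right ?_ hL.le
    nlinarith

theorem o1curve : D3in855.O1curve := by
  intro C0 hC0
  refine ⟨64, fun B Z L hB hR P hP hd => ?_⟩
  rw [ZP_eq]
  have := hP
  refine (card_ZP_le_tau1 hR hB (lineBd hR) P (by omega)).trans ?_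
  exact mul_le_mul_of_nonneg_right (tau1_le' hR) (Nat.cast_nonneg _)

theorem o1surf : D3in855.O1surf := by
  intro C0 hC0
  refine ⟨24 * C0, by linarith, 64, fun B Z L hB hR P hP hd => ?_⟩
  rw [ZP_eq]
  have := hP
  refine (surfaces hR hB (lineBd hR) P (cut2 P hd)).trans ?_
  refine mul_le_mul_of_nonneg_right ?_ (Nat.cast_nonneg _)
  have ht := one_le_t hR
  have h1 : 3 * ((Z.card : ℝ) / L) * tau1 C0 L Z ≤
      3 * ((Z.card : ℝ) / L) * (8 * C0 * ((Z.card : ℝ) / L) * ((ss Z : ℝ) ^ 2 / Z.card)) :=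
    mul_le_mul_of_nonneg_left (tau1_le' hR) (by linarith)
  refine h1.trans (le_of_eq ?_)
  ring

end Crest.Agent.R065.D3o1477

#print axioms Crest.Agent.R065.D3o1477.o1curve
#print axioms Crest.Agent.R065.D3o1477.o1surf
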