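import Crest.Agent.R065.D3samp_789
import Crest.Agent.R065.D3cons_275
import Crest.Agent.R065.D3in_855

/-!
# Row 65, `d = 3`: overfull pairs are rare (S3)
-/

set_option autoImplicit false

namespace Crest.Agent.R065.D3over789

open Finset Crest.Agent.R065.D3 Crest.Agent.R065.D3samp789 Crest.Agent.R065.D3cons275

section Hyper

variable {α : Type*} [DecidableEq α]

lemma choose_sub_le (n K : ℕ) (hK : K ≤ n) (hn : 0 < n) (j : ℕ) (hj : j ≤ K) :
    (((n - j).choose (K - j) : ℕ) : ℝ) ≤ ((K : ℝ) / n) ^ j * (n.choose K) := by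
  induction j with
  | zero => simp
  | succ j ih =>
    have ih' := ih (by omega)
    obtain ⟨a, ha⟩ : ∃ a, n = j + 1 + a := ⟨n - (j + 1), by omega⟩
    obtain ⟨b, hb⟩ : ∃ b, K = j + 1 + b := ⟨K - (j + 1), by omega⟩
    have h1 : n - j = a + 1 := by omega
    have h2 : K - j = b + 1 := by omega
    have h3 : n - (j + 1) = a := by omega
    have h4 : K - (j + 1) = b := by omega
    rw [h1, h2] at ih'
    rw [h3, h4]
    have h5 := Nat.add_one_mul_choose_eq a b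
    have h6 : ((a : ℝ) + 1) * (a.choose b) = ((a + 1).choose (b + 1)) * ((b : ℝ) + 1) := by
      exact_mod_cast h5
    have hba : b ≤ a := by omega
    have hn' : (0 : ℝ) < n := by exact_mod_cast hn
    have h7 : ((b : ℝ) + 1) / (a + 1) ≤ (K : ℝ) / n := by
      rw [div_le_div_iff₀ (by positivity) hn']
      have e1 : (n : ℝ) = j + 1 + a := by rw [ha]; push_cast; ring
      have e2 : (K : ℝ) = j + 1 + b := by rw [hb]; push_cast; ring
      have e3 : (b : ℝ) ≤ a := by exact_mod_cast hba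
      rw [e1, e2]
      nlinarith [Nat.cast_nonneg (α := ℝ) j]
    have h8 : ((a.choose b : ℕ) : ℝ) = ((b : ℝ) + 1) / (a + 1) * ((a + 1).choose (b + 1)) := by
      field_simp
      linarith
    rw [h8, pow_succ]
    calc ((b : ℝ) + 1) / (a + 1) * ((a + 1).choose (b + 1)) ≤
          ((K : ℝ) / n) * (((K : ℝ) / n) ^ j * (n.choose K)) :=
          mul_le_mul h7 ih' (by positivity) (by positivity)
      _ = _ := by ring

lemma hyper {Z R : Finset α} (hR : R ⊆ Z) {K : ℕ} (hK : K ≤ Z.card) (hZ : 0 < Z.card) :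
    ((((Z.powersetCard K).filter fun Om => R ⊆ Om).card : ℕ) : ℝ) ≤
      ((K : ℝ) / Z.card) ^ R.card * (Z.card.choose K) := by
  by_cases hRK : R.card ≤ K
  · refine le_trans ?_ (choose_sub_le Z.card K hK hZ R.card hRK)
    have h1 : ((Z.powersetCard K).filter fun Om => R ⊆ Om).card ≤
        ((Z \ R).powersetCard (K - R.card)).card := by
      apply Finset.card_le_card_of_injOn (fun Om => Om \ R)
      · intro Om hOm
        obtain ⟨h2, h3⟩ := Finset.mem_filter.1 (Finset.mem_coe.1 hOm)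
        obtain ⟨h4, h5⟩ := Finset.mem_powersetCard.1 h2
        rw [Finset.mem_coe, Finset.mem_powersetCard]
        refine ⟨Finset.sdiff_subset_sdiff h4 subset_rfl, ?_⟩
        rw [Finset.card_sdiff_of_subset h3, h5]
      · intro Om hOm Om' hOm' h
        obtain ⟨_, h3⟩ := Finset.mem_filter.1 (Finset.mem_coe.1 hOm)
        obtain ⟨_, h3'⟩ := Finset.mem_filter.1 (Finset.mem_coe.1 hOm')
        have h' : Om \ R = Om' \ R := h
        rw [← Finset.sdiff_union_of_subset h3, ← Finset.sdiff_union_of_subset h3', h']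
    rw [Finset.card_powersetCard, Finset.card_sdiff_of_subset hR] at h1
    exact_mod_cast h1
  · have h1 : (Z.powersetCard K).filter (fun Om => R ⊆ Om) = ∅ := by
      rw [Finset.filter_eq_empty_iff]
      intro Om hOm h
      have := Finset.card_le_card h
      have h2 := (Finset.mem_powersetCard.1 hOm).2
      omega
    rw [h1, Finset.card_empty]
    simp only [Nat.cast_zero]
    positivity

lemma hyper_tail {Z D : Finset α} {w : α} (hw : w ∈ Z) (hD : D ⊆ Z) (hwD : w ∉ D) {K : ℕ}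
    (hK : K ≤ Z.card) (r : ℕ) :
    ∑ Om ∈ Z.powersetCard K, (if w ∈ Om ∧ r ≤ (D ∩ Om).card then (1 : ℝ) else 0) ≤
      ((K : ℝ) / Z.card) * ((D.card.choose r : ℝ) * ((K : ℝ) / Z.card) ^ r) *
        (Z.card.choose K) := by
  have hZ : 0 < Z.card := Finset.card_pos.2 ⟨w, hw⟩
  have h2 : ∀ Om ∈ Z.powersetCard K, (if w ∈ Om ∧ r ≤ (D ∩ Om).card then (1 : ℝ) else 0) ≤
      ∑ R ∈ D.powersetCard r, if insert w R ⊆ Om then (1 : ℝ) else 0 := by
    intro Om _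
    split_ifs with h
    · obtain ⟨R, hR, hRc⟩ := Finset.exists_subset_card_eq h.2
      have hRD : R ⊆ D := hR.trans Finset.inter_subset_left
      have hRT : R ⊆ Om := hR.trans Finset.inter_subset_right
      have hmem : R ∈ D.powersetCard r := Finset.mem_powersetCard.2 ⟨hRD, hRc⟩
      have := Finset.single_le_sum (f := fun R => if insert w R ⊆ Om then (1 : ℝ) else 0)
        (fun i _ => by split_ifs <;> norm_num) hmem
      refine le_trans ?_ this
      rw [if_pos (Finset.insert_subset h.1 hRT)]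
    · exact Finset.sum_nonneg fun i _ => by split_ifs <;> norm_num
  refine (Finset.sum_le_sum h2).trans ?_
  rw [Finset.sum_comm]
  have h3 : ∀ R ∈ D.powersetCard r,
      ∑ Om ∈ Z.powersetCard K, (if insert w R ⊆ Om then (1 : ℝ) else 0) ≤
        ((K : ℝ) / Z.card) ^ (r + 1) * (Z.card.choose K) := by
    intro R hR
    obtain ⟨hRD, hRc⟩ := Finset.mem_powersetCard.1 hR
    rw [← Finset.sum_filter, Finset.sum_const, nsmul_eq_mul, mul_one]
    have h4 := hyper (Finset.insert_subset hw (hRD.trans hD)) hK hZ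
    rw [Finset.card_insert_of_notMem (fun h => hwD (hRD h)), hRc] at h4
    exact h4
  refine (Finset.sum_le_sum h3).trans ?_
  rw [Finset.sum_const, Finset.card_powersetCard, nsmul_eq_mul]
  apply le_of_eq; ring

end Hyper

/-- numerical facts for `overfull` -/
theorem numeric2 (C0 ε C1 : ℝ) (hC0 : 1 ≤ C0) (hε : 0 < ε) (hC1 : 1 ≤ C1) :
    ∃ T0 : ℝ, ∃ B0 : ℝ, 1 ≤ B0 ∧ ∀ (B n L s : ℝ) (K r : ℕ), B0 ≤ B → 0 < n → 0 < L → 0 < s →
      B * n * s ^ 2 ≤ L ^ 3 → T0 * L ≤ n →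
      (K : ℝ) ≤ (C1 * (n / L)) ^ 3 / 15 → ε * C1 ^ 2 * (n / L) / 61440 ≤ r →
      ∀ q k0 : ℝ, q = K / n → k0 = ε / (2 ^ 21 * C1) * L ^ 2 / n →
      0 < k0 ∧ Real.exp 1 * k0 * q ≤ 1 / 128 * ((r + 1 : ℕ) : ℝ) ∧
      Real.exp 1 * (2 * C0 * s ^ 2 / L) * q ≤ 1 / 128 * ((r + 1 : ℕ) : ℝ) ∧
      2 * (C0 * L) / k0 * ((1 : ℝ) / 128) ^ (r + 1) ≤ ε / (128 * C0) ∧
      ((1 : ℝ) / 128) ^ (r + 1) ≤ ε / (128 * C0) := by
  have hC0' : 0 < C0 := by linarith
  have hC1' : 0 < C1 := by linarith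
  set δ : ℝ := ε / (128 * C0) with hδdef
  have hδ : 0 < δ := by positivity
  set γ : ℝ := ε * C1 ^ 2 / 61440 with hγ
  have hγ0 : 0 < γ := by positivity
  obtain ⟨X1, hX1⟩ := exists_pow_exp 1 (2 ^ 22 * C0 * C1 / (ε * γ)) δ hδ
  obtain ⟨X2, hX2⟩ := exists_pow_exp 0 1 δ hδ
  refine ⟨max (X1 / γ) (X2 / γ), max 1 (2 ^ 22 * C0 * C1 / ε), le_max_left _ _, ?_⟩
  intro B n L s K r hB hn hL hs F1 hT hK hr q k0 hq hk0
  have hB1 : 1 ≤ B := (le_max_left _ _).trans hB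
  have hB2 : 2 ^ 22 * C0 * C1 / ε ≤ B := (le_max_right _ _).trans hB
  set t : ℝ := n / L with ht
  have ht0 : 0 < t := by positivity
  have hnt : n = t * L := by rw [ht]; field_simp
  have hk0pos : 0 < k0 := by rw [hk0]; positivity
  have hq0 : 0 ≤ q := by rw [hq]; positivity
  have hTt : max (X1 / γ) (X2 / γ) ≤ t := by
    rw [ht, le_div_iff₀ hL]; exact hT
  have hrt : γ * t ≤ r := by rw [hγ]; linarith
  have hr1 : ((r + 1 : ℕ) : ℝ) = r + 1 := by push_cast; ring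
  -- q k0 ≤ r / 512
  have hqk : q * k0 ≤ r / 512 := by
    have h1 : q * k0 ≤ (C1 * t) ^ 3 / 15 / n * k0 := by
      rw [hq]; gcongr
    have h2 : (C1 * t) ^ 3 / 15 / n * k0 = γ * t / 512 := by
      rw [hk0, hγ, hnt]; field_simp; norm_num
    rw [h2] at h1
    linarith
  have he : Real.exp 1 ≤ 3 := by linarith [Real.exp_one_lt_d9]
  have hr0 : (0 : ℝ) ≤ r := Nat.cast_nonneg _
  have hmain : Real.exp 1 * k0 * q ≤ 1 / 128 * ((r + 1 : ℕ) : ℝ) := by
    have h1 : Real.exp 1 * (q * k0) ≤ 3 * (r / 512) :=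
      mul_le_mul he hqk (by positivity) (by norm_num)
    have h2 : Real.exp 1 * k0 * q = Real.exp 1 * (q * k0) := by ring
    rw [h2, hr1]
    linarith
  have hρ : 2 * C0 * s ^ 2 / L ≤ k0 := by
    have h1 : s ^ 2 * (B * n) ≤ L ^ 3 := by
      calc s ^ 2 * (B * n) = B * n * s ^ 2 := by ring
        _ ≤ L ^ 3 := F1
    have h2 : 2 * C0 * s ^ 2 / L ≤ 2 * C0 * L ^ 2 / (B * n) := by
      rw [div_le_div_iff₀ hL (by positivity)]
      calc 2 * C0 * s ^ 2 * (B * n) = 2 * C0 * (s ^ 2 * (B * n)) := by ring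
        _ ≤ 2 * C0 * L ^ 3 := mul_le_mul_of_nonneg_left h1 (by positivity)
        _ = 2 * C0 * L ^ 2 * L := by ring
    have h3 : 2 * C0 * L ^ 2 / (B * n) ≤ k0 := by
      rw [hk0, div_le_div_iff₀ (by positivity) hn]
      have h4 : 2 ^ 22 * C0 * C1 ≤ B * ε := by
        rwa [div_le_iff₀ hε] at hB2
      have h5 : 2 * C0 ≤ ε / (2 ^ 21 * C1) * B := by
        rw [div_mul_eq_mul_div, le_div_iff₀ (by positivity)]
        linarith
      calc 2 * C0 * L ^ 2 * n ≤ (ε / (2 ^ 21 * C1) * B) * L ^ 2 * n := by gcongr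
        _ = ε / (2 ^ 21 * C1) * L ^ 2 * (B * n) := by ring
    exact h2.trans h3
  have hpow : ((1 : ℝ) / 128) ^ (r + 1) ≤ Real.exp (-(γ * t)) := by
    have h1 : ((1 : ℝ) / 128) ≤ Real.exp (-1) := by
      rw [Real.exp_neg, one_div]
      apply inv_anti₀ (Real.exp_pos _)
      linarith
    calc ((1 : ℝ) / 128) ^ (r + 1) ≤ (1 / 128) ^ r :=
          pow_le_pow_of_le_one (by norm_num) (by norm_num) (by omega)
      _ ≤ (Real.exp (-1)) ^ r := pow_le_pow_left₀ (by norm_num) h1 r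
      _ = Real.exp (-(r : ℝ)) := by rw [← Real.exp_nat_mul]; congr 1; ring
      _ ≤ Real.exp (-(γ * t)) := Real.exp_le_exp.2 (by linarith)
  have hX1' : X1 ≤ γ * t := by
    have := (le_max_left _ _).trans hTt
    rw [div_le_iff₀ hγ0] at this
    linarith
  have hX2' : X2 ≤ γ * t := by
    have := (le_max_right _ _).trans hTt
    rw [div_le_iff₀ hγ0] at this
    linarith
  refine ⟨hk0pos, hmain, ?_, ?_, ?_⟩
  · calc Real.exp 1 * (2 * C0 * s ^ 2 / L) * q ≤ Real.exp 1 * k0 * q := by gcongr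
      _ ≤ _ := hmain
  · have h2 : 2 * (C0 * L) / k0 = 2 ^ 22 * C0 * C1 / ε * t := by
      rw [hk0, hnt]; field_simp
    rw [h2]
    calc 2 ^ 22 * C0 * C1 / ε * t * ((1 : ℝ) / 128) ^ (r + 1) ≤
          2 ^ 22 * C0 * C1 / ε * t * Real.exp (-(γ * t)) :=
          mul_le_mul_of_nonneg_left hpow (by positivity)
      _ = 2 ^ 22 * C0 * C1 / (ε * γ) * ((γ * t) ^ 1 * Real.exp (-(γ * t))) := by
          field_simp
      _ ≤ δ := hX1 _ hX1'
  · have h4 := hX2 _ hX2'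
    rw [pow_zero, one_mul, one_mul] at h4
    exact hpow.trans h4

section Main

open scoped Classical in
/-- a fixed pair `(z, w)` -/
lemma pair_bound {C0 B L : ℝ} {Z : Finset PP} (h : Reg Nul C0 B Z L) {SS : Finset (Finset PP)}
    (hB : Blocks Z SS) {z w : PP} (hz : z ∈ Z) (hw : w ∈ Z) (hzw : Nul z w) {K r : ℕ}
    (hK : K ≤ Z.card) {q k0 M δ : ℝ} (hq : q = K / Z.card) (hk0 : 0 < k0) (hM : 0 < M)
    (hl : LineBd Z M) (h1 : Real.exp 1 * k0 * q ≤ 1 / 128 * ((r + 1 : ℕ) : ℝ))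
    (h2 : Real.exp 1 * M * q ≤ 1 / 128 * ((r + 1 : ℕ) : ℝ))
    (h3 : 2 * (C0 * L) / k0 * ((1 : ℝ) / 128) ^ (r + 1) ≤ δ)
    (h4 : ((1 : ℝ) / 128) ^ (r + 1) ≤ δ) :
    ∑ Om ∈ Z.powersetCard K, (if w ∈ Om ∧ ∃ X ∈ SS, z ∈ X ∧ w ∈ X ∧ (X.card : ℝ) < k0 ∧
      2 * r + 2 ≤ (Om ∩ X).card then (1 : ℝ) else 0) ≤ q * (2 * δ) * (Z.card.choose K) := by
  have hq0 : 0 ≤ q := by rw [hq]; positivity
  set RR : Finset PP := (Rz Z z w).erase w with hRR
  set DD : Finset (Finset PP) := (SS.filter fun X => z ∈ X ∧ w ∈ X ∧ (X.card : ℝ) < k0).image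
    fun X => X \ Rz Z z w with hDD
  have hDmem : ∀ D ∈ DD, ∃ X ∈ SS, z ∈ X ∧ w ∈ X ∧ (X.card : ℝ) < k0 ∧ D = X \ Rz Z z w := by
    intro D hD
    obtain ⟨X, hX, rfl⟩ := Finset.mem_image.1 hD
    obtain ⟨hXS, hzX, hwX, hXk⟩ := Finset.mem_filter.1 hX
    exact ⟨X, hXS, hzX, hwX, hXk, rfl⟩
  have hpt : ∀ Om ∈ Z.powersetCard K, (if w ∈ Om ∧ ∃ X ∈ SS, z ∈ X ∧ w ∈ X ∧
      (X.card : ℝ) < k0 ∧ 2 * r + 2 ≤ (Om ∩ X).card then (1 : ℝ) else 0) ≤
      ∑ D ∈ DD, (if w ∈ Om ∧ r + 1 ≤ (D ∩ Om).card then (1 : ℝ) else 0) +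
        (if w ∈ Om ∧ r + 1 ≤ (RR ∩ Om).card then (1 : ℝ) else 0) := by
    intro Om _
    have hnn : ∀ D ∈ DD, (0 : ℝ) ≤ (if w ∈ Om ∧ r + 1 ≤ (D ∩ Om).card then (1 : ℝ) else 0) :=
      fun D _ => by split_ifs <;> norm_num
    have hnn' : (0 : ℝ) ≤ (if w ∈ Om ∧ r + 1 ≤ (RR ∩ Om).card then (1 : ℝ) else 0) := by
      split_ifs <;> norm_num
    by_cases hcon : w ∈ Om ∧ ∃ X ∈ SS, z ∈ X ∧ w ∈ X ∧
      (X.card : ℝ) < k0 ∧ 2 * r + 2 ≤ (Om ∩ X).card
    · rw [if_pos hcon]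
      obtain ⟨hwO, X, hXS, hzX, hwX, hXk, hXc⟩ := hcon
      have hsub : Om ∩ X ⊆ ((X \ Rz Z z w) ∩ Om) ∪ ((RR ∩ Om) ∪ {w}) := by
        intro y hy
        obtain ⟨hyO, hyX⟩ := Finset.mem_inter.1 hy
        simp only [hRR, Finset.mem_union, Finset.mem_inter, Finset.mem_sdiff, Finset.mem_erase,
          Finset.mem_singleton]
        tauto
      have h5 := Finset.card_le_card hsub
      have h6 := Finset.card_union_le ((X \ Rz Z z w) ∩ Om) ((RR ∩ Om) ∪ {w})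
      have h7 := Finset.card_union_le (RR ∩ Om) ({w} : Finset PP)
      rw [Finset.card_singleton] at h7
      by_cases hA : r + 1 ≤ ((X \ Rz Z z w) ∩ Om).card
      · have hmem : X \ Rz Z z w ∈ DD :=
          Finset.mem_image.2 ⟨X, Finset.mem_filter.2 ⟨hXS, hzX, hwX, hXk⟩, rfl⟩
        have h8 := Finset.single_le_sum hnn hmem
        rw [if_pos ⟨hwO, hA⟩] at h8
        linarith
      · have hb : r + 1 ≤ (RR ∩ Om).card := by omega
        have h8 := Finset.sum_nonneg hnn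
        rw [if_pos ⟨hwO, hb⟩]
        linarith
    · rw [if_neg hcon]
      exact add_nonneg (Finset.sum_nonneg hnn) hnn'
  refine (Finset.sum_le_sum hpt).trans ?_
  rw [Finset.sum_add_distrib, Finset.sum_comm]
  have hA : ∀ D ∈ DD, ∑ Om ∈ Z.powersetCard K,
      (if w ∈ Om ∧ r + 1 ≤ (D ∩ Om).card then (1 : ℝ) else 0) ≤
      q * (Z.card.choose K) * ((D.card.choose (r + 1) : ℝ) * q ^ (r + 1)) := by
    intro D hD
    obtain ⟨X, hXS, hzX, hwX, hXk, rfl⟩ := hDmem D hD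
    have h5 := hyper_tail (Z := Z) (D := X \ Rz Z z w) (w := w) hw
      (fun y hy => hB.sub X hXS (Finset.mem_sdiff.1 hy).1)
      (fun hy => (Finset.mem_sdiff.1 hy).2 (right_mem_Rz hw hzw)) hK (r + 1)
    rw [← hq] at h5
    refine h5.trans (le_of_eq ?_)
    ring
  have hR := hyper_tail (Z := Z) (D := RR) (w := w) hw
      (fun y hy => (mem_Rz.1 (Finset.mem_of_mem_erase hy)).1)
      (Finset.notMem_erase _ _) hK (r + 1)
  rw [← hq] at hR
  have hsumA : ∑ D ∈ DD, (D.card.choose (r + 1) : ℝ) * q ^ (r + 1) ≤ δ := by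
    have h5 := sum_tail DD id (nb Nul Z z) (r := r + 1) (M := k0) (q := q)
      (x := 1 / 128) (by omega) hk0 hq0 (by norm_num) h1 ?_ ?_ ?_ ?_
    · refine h5.trans (le_trans ?_ h3)
      apply mul_le_mul_of_nonneg_right _ (by positivity)
      apply div_le_div_of_nonneg_right _ hk0.le
      have h6 : ((nb Nul Z z).card : ℝ) ≤ C0 * L := h.deg_le z hz
      linarith
    · intro D hD _
      obtain ⟨X, hXS, hzX, hwX, hXk, rfl⟩ := hDmem D hD
      have h6 : ((X \ Rz Z z w).card : ℝ) ≤ X.card := by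
        exact_mod_cast Finset.card_le_card Finset.sdiff_subset
      exact h6.trans hXk.le
    · intro D _ _
      simp only [id]; omega
    · intro D hD
      obtain ⟨X, hXS, hzX, hwX, hXk, rfl⟩ := hDmem D hD
      intro y hy
      simp only [id] at hy
      obtain ⟨hyX, hyR⟩ := Finset.mem_sdiff.1 hy
      rw [mem_nb]
      refine ⟨hB.sub X hXS hyX, hB.iso X hXS z hzX y hyX, ?_⟩
      intro hzy
      apply hyR
      have h6 : z = y := by
        refine Prod.ext hzy ?_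
        have := hB.iso X hXS z hzX y hyX
        rw [hzy, dist_self] at this
        exact dist_eq_zero.1 this.symm
      rw [← h6]
      exact left_mem_Rz hz hzw
    · intro D hD D' hD' hne
      obtain ⟨X, hXS, hzX, hwX, hXk, rfl⟩ := hDmem D hD
      obtain ⟨X', hXS', hzX', hwX', hXk', rfl⟩ := hDmem D' hD'
      have hXX : X ≠ X' := fun h => hne (by rw [h])
      rw [Finset.disjoint_left]
      intro y hy hy'
      simp only [id] at hy hy'
      obtain ⟨hyX, hyR⟩ := Finset.mem_sdiff.1 hy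
      obtain ⟨hyX', _⟩ := Finset.mem_sdiff.1 hy'
      exact hyR (inter_sub_Rz hB hzw hXS hXS' hXX hzX hwX hzX' hwX' hyX hyX')
  have hsumR : ((RR.card.choose (r + 1) : ℕ) : ℝ) * q ^ (r + 1) ≤ δ := by
    have hn : ((RR.card : ℕ) : ℝ) ≤ M := by
      refine le_trans ?_ (card_Rz hl hzw)
      exact_mod_cast Finset.card_le_card (Finset.erase_subset _ _)
    have h5 := tail_bound (n := RR.card) (r := r + 1) (M := M) (q := q) (x := 1 / 128)
      (by omega) hM hn hq0 h2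
    refine h5.trans (le_trans ?_ h4)
    have h6 : ((RR.card : ℕ) : ℝ) / M ≤ 1 := (div_le_one hM).2 hn
    calc _ ≤ 1 * ((1 : ℝ) / 128) ^ (r + 1) := mul_le_mul_of_nonneg_right h6 (by positivity)
      _ = _ := one_mul _
  have hc0 : (0 : ℝ) ≤ q * (Z.card.choose K) := by positivity
  calc _ ≤ ∑ D ∈ DD, q * (Z.card.choose K) * ((D.card.choose (r + 1) : ℝ) * q ^ (r + 1)) +
        q * (((RR.card.choose (r + 1) : ℕ) : ℝ) * q ^ (r + 1)) * (Z.card.choose K) :=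
        add_le_add (Finset.sum_le_sum hA) hR
    _ = q * (Z.card.choose K) * (∑ D ∈ DD, (D.card.choose (r + 1) : ℝ) * q ^ (r + 1) +
        ((RR.card.choose (r + 1) : ℕ) : ℝ) * q ^ (r + 1)) := by
        rw [← Finset.mul_sum]; ring
    _ ≤ q * (Z.card.choose K) * (δ + δ) :=
        mul_le_mul_of_nonneg_left (add_le_add hsumA hsumR) hc0
    _ = _ := by ring

lemma lineBd_of_reg {C0 B L : ℝ} {Z : Finset PP} (h : Reg Nul C0 B Z L) :
    LineBd Z (2 * C0 * (ss Z : ℝ) ^ 2 / L) := by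
  intro a b hab W hW
  rw [le_div_iff₀ h.L_pos]
  refine fst_line h ?_ (collinear_filter hab fun x hx => (hW x (Finset.mem_coe.1 hx)).2)
  intro x hx
  obtain ⟨z, hz, rfl⟩ := (hW x hx).1
  exact Finset.mem_image_of_mem _ hz

open scoped Classical in
/-- **(S3)** the overfull pairs are rare -/
theorem overfull : D3in855.Overfull := by
  intro C0 ε C1 hC0 hε hε1 hC1
  obtain ⟨T0, B1, hB11, hnum⟩ := numeric2 C0 ε C1 hC0 hε hC1
  obtain ⟨B2, hB2⟩ := t_large C0 T0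
  refine ⟨max B1 B2, ?_⟩
  intro B Z L hB h SS hBl k r hk hr
  have hL := h.L_pos
  have hn : (0 : ℝ) < Z.card := card_pos' h
  have hs : (0 : ℝ) < ss Z := by exact_mod_cast ss_pos h.ne
  have hT := hB2 B Z L ((le_max_right _ _).trans hB) h
  obtain ⟨g1, g2, g3, g4, g5⟩ := hnum B Z.card L (ss Z) (k + 1) r ((le_max_left _ _).trans hB)
    hn hL hs h.big hT hk hr _ _ rfl rfl
  set q : ℝ := ((k + 1 : ℕ) : ℝ) / Z.card with hq
  set δ : ℝ := ε / (128 * C0) with hδ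
  set k0 : ℝ := ε / (2 ^ 21 * C1) * L ^ 2 / Z.card with hk0
  have hq0 : 0 ≤ q := by rw [hq]; positivity
  have hC0' : 0 < C0 := by linarith
  have hδ0 : 0 < δ := by rw [hδ]; positivity
  by_cases hK : k + 1 ≤ Z.card
  swap
  · rw [Finset.powersetCard_eq_empty.2 (by omega), Finset.sum_empty]
    positivity
  have hM : (0 : ℝ) < 2 * C0 * (ss Z : ℝ) ^ 2 / L := by positivity
  have hpair : ∀ z ∈ Z, ∀ w ∈ nb Nul Z z,
      ∑ Om ∈ Z.powersetCard (k + 1), (if w ∈ Om ∧ ∃ X ∈ SS, z ∈ X ∧ w ∈ X ∧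
        (X.card : ℝ) < k0 ∧ 2 * r + 2 ≤ (Om ∩ X).card then (1 : ℝ) else 0) ≤
        q * (2 * δ) * (Z.card.choose (k + 1)) := by
    intro z hz w hw
    obtain ⟨hwZ, hzw⟩ := mem_nb.1 hw
    exact pair_bound h hBl hz hwZ hzw hK hq g1 hM (lineBd_of_reg h) g2 g3 g4 g5
  have hpt : ∀ Om ∈ Z.powersetCard (k + 1), ∀ z ∈ Z,
      ((Om.filter fun w => Nul z w ∧ ∃ X ∈ SS, z ∈ X ∧ w ∈ X ∧
        (X.card : ℝ) < ε / (D3in855.KK * C1) * L ^ 2 / Z.card ∧
            2 * r + 2 ≤ (Om ∩ X).card).card : ℝ) ≤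
      ∑ w ∈ nb Nul Z z, (if w ∈ Om ∧ ∃ X ∈ SS, z ∈ X ∧ w ∈ X ∧
        (X.card : ℝ) < k0 ∧ 2 * r + 2 ≤ (Om ∩ X).card then (1 : ℝ) else 0) := by
    intro Om hOm z hz
    have hOZ := (Finset.mem_powersetCard.1 hOm).1
    set S : Finset PP := Om.filter fun w => Nul z w ∧ ∃ X ∈ SS, z ∈ X ∧ w ∈ X ∧
        (X.card : ℝ) < ε / (D3in855.KK * C1) * L ^ 2 / Z.card ∧
            2 * r + 2 ≤ (Om ∩ X).card with hS
    have hSmem : ∀ w ∈ S, w ∈ nb Nul Z z ∧ (w ∈ Om ∧ ∃ X ∈ SS, z ∈ X ∧ w ∈ X ∧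
        (X.card : ℝ) < k0 ∧ 2 * r + 2 ≤ (Om ∩ X).card) := by
      intro w hw
      obtain ⟨hwO, hzw, X, hXS, hzX, hwX, hXk, hXc⟩ := Finset.mem_filter.1 hw
      exact ⟨mem_nb.2 ⟨hOZ hwO, hzw⟩, hwO, X, hXS, hzX, hwX, hXk, hXc⟩
    have h1 : ∀ w ∈ S, (1 : ℝ) ≤ (if w ∈ Om ∧ ∃ X ∈ SS, z ∈ X ∧ w ∈ X ∧
        (X.card : ℝ) < k0 ∧ 2 * r + 2 ≤ (Om ∩ X).card then (1 : ℝ) else 0) := by
      intro w hw
      rw [if_pos (hSmem w hw).2]
    have h2 := Finset.sum_le_sum h1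
    rw [Finset.sum_const, nsmul_eq_mul, mul_one] at h2
    refine h2.trans ?_
    apply Finset.sum_le_sum_of_subset_of_nonneg (fun w hw => (hSmem w hw).1)
    intro i _ _
    split_ifs <;> norm_num
  have hdeg : ∀ z ∈ Z, ((nb Nul Z z).card : ℝ) ≤ C0 * L := fun z hz => h.deg_le z hz
  calc _ ≤ ∑ Om ∈ Z.powersetCard (k + 1), ∑ z ∈ Z, ∑ w ∈ nb Nul Z z,
        (if w ∈ Om ∧ ∃ X ∈ SS, z ∈ X ∧ w ∈ X ∧
          (X.card : ℝ) < k0 ∧ 2 * r + 2 ≤ (Om ∩ X).card then (1 : ℝ) else 0) :=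
        Finset.sum_le_sum fun Om hOm => Finset.sum_le_sum fun z hz => hpt Om hOm z hz
    _ = ∑ z ∈ Z, ∑ w ∈ nb Nul Z z, ∑ Om ∈ Z.powersetCard (k + 1),
        (if w ∈ Om ∧ ∃ X ∈ SS, z ∈ X ∧ w ∈ X ∧
          (X.card : ℝ) < k0 ∧ 2 * r + 2 ≤ (Om ∩ X).card then (1 : ℝ) else 0) := by
        rw [Finset.sum_comm]
        exact Finset.sum_congr rfl fun z _ => Finset.sum_comm
    _ ≤ ∑ z ∈ Z, ∑ w ∈ nb Nul Z z, q * (2 * δ) * (Z.card.choose (k + 1)) :=
        Finset.sum_le_sum fun z hz => Finset.sum_le_sum fun w hw => hpair z hz w hw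
    _ ≤ ∑ z ∈ Z, C0 * L * (q * (2 * δ) * (Z.card.choose (k + 1))) := by
        apply Finset.sum_le_sum
        intro z hz
        rw [Finset.sum_const, nsmul_eq_mul]
        exact mul_le_mul_of_nonneg_right (hdeg z hz) (by positivity)
    _ = Z.card * (C0 * L * (q * (2 * δ) * (Z.card.choose (k + 1)))) := by
        rw [Finset.sum_const, nsmul_eq_mul]
    _ = ε / 64 * (k + 1) * L * (Z.card.choose (k + 1)) := by
        rw [hq, hδ]
        push_cast
        field_simp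
        ring

end Main

end Crest.Agent.R065.D3over789
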