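import Crest.Agent.R065.GenAll_812

/-!
# Row 65, `d = 3`: STEP A for sets which are generic in all coordinates
-/

set_option autoImplicit false

open Module

namespace Crest.Agent.R065.D3rot812

open Crest.Agent.R065.Top348 Crest.Agent.R065.Base348 Crest.Agent.R065.D3

/-- the map `(a, c) ↦ (Q a, R c)` -/
noncomputable def rot2 (Q R : E3 ≃ₗᵢ[ℝ] E3) : E3 × E3 ≃ E3 × E3 := Equiv.prodCongr Q.toEquiv R.toEquiv

@[simp] lemma rot2_fst (Q R : E3 ≃ₗᵢ[ℝ] E3) (z : E3 × E3) : (rot2 Q R z).1 = Q z.1 := rfl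
@[simp] lemma rot2_snd (Q R : E3 ≃ₗᵢ[ℝ] E3) (z : E3 × E3) : (rot2 Q R z).2 = R z.2 := rfl

section inv

variable (Q R : E3 ≃ₗᵢ[ℝ] E3)

lemma nul_rot2 (z w : PP) : Nul (rot2 Q R z) (rot2 Q R w) ↔ Nul z w := by
  unfold Nul
  rw [rot2_fst, rot2_fst, rot2_snd, rot2_snd, LinearIsometryEquiv.dist_map,
    LinearIsometryEquiv.dist_map]
  have h : Q z.1 ≠ Q w.1 ↔ z.1 ≠ w.1 := Q.injective.ne_iff
  simp [h]

lemma mem_map_rot2 {Z : Finset PP} {z : PP} :
    rot2 Q R z ∈ Z.map (rot2 Q R).toEmbedding ↔ z ∈ Z := by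
  rw [Finset.mem_map]
  constructor
  · rintro ⟨w, hw, h⟩
    have : w = z := (rot2 Q R).injective h
    rwa [← this]
  · intro h
    exact ⟨z, h, rfl⟩

lemma card_map_rot2 (Z : Finset PP) : (Z.map (rot2 Q R).toEmbedding).card = Z.card :=
  Finset.card_map _

lemma deg_rot2 (Z : Finset PP) (z : PP) :
    deg Nul (Z.map (rot2 Q R).toEmbedding) (rot2 Q R z) = deg Nul Z z := by
  classical
  unfold deg nb
  rw [Finset.filter_map, Finset.card_map]
  congr 1
  ext w
  simp only [Finset.mem_filter, Function.comp]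
  exact and_congr_right fun _ => nul_rot2 Q R z w

lemma EE_rot2 (A B : Finset PP) :
    EE Nul (A.map (rot2 Q R).toEmbedding) (B.map (rot2 Q R).toEmbedding) = EE Nul A B := by
  unfold EE
  rw [Finset.sum_map]
  exact Finset.sum_congr rfl fun z _ => deg_rot2 Q R B z

lemma TT_rot2 (A : Finset PP) : TT Nul (A.map (rot2 Q R).toEmbedding) = TT Nul A :=
  EE_rot2 Q R A A

lemma card_image_map_eq (Z : Finset PP) (S : E3 ≃ₗᵢ[ℝ] E3) (f : PP → E3)
    (hf : ∀ z, f (rot2 Q R z) = S (f z)) (i1 i2 : DecidableEq E3) :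
    (@Finset.image _ _ i1 f (Z.map (rot2 Q R).toEmbedding)).card =
      (@Finset.image _ _ i2 f Z).card := by
  have h1 : @Finset.image _ _ i1 f (Z.map (rot2 Q R).toEmbedding) =
      @Finset.image _ _ i1 S (@Finset.image _ _ i2 f Z) := by
    ext a
    simp only [Finset.mem_image, Finset.mem_map]
    constructor
    · rintro ⟨_, ⟨z, hz, rfl⟩, h⟩
      exact ⟨f z, ⟨z, hz, rfl⟩, by rw [← hf]; exact h⟩
    · rintro ⟨_, ⟨z, hz, rfl⟩, h⟩
      exact ⟨_, ⟨z, hz, rfl⟩, by rw [← h]; exact hf z⟩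
  rw [h1]
  exact @Finset.card_image_of_injective E3 E3 S i1 (@Finset.image _ _ i2 f Z) S.injective

lemma ss_rot2 (Z : Finset PP) : ss (Z.map (rot2 Q R).toEmbedding) = ss Z := by
  classical
  unfold ss
  congr 1
  · exact card_image_map_eq Q R Z Q Prod.fst (fun _ => rfl) _ _
  · exact card_image_map_eq Q R Z R Prod.snd (fun _ => rfl) _ _

/-- every subset of the image is an image -/
lemma exists_map_eq2 {Z Y : Finset PP} (h : Y ⊆ Z.map (rot2 Q R).toEmbedding) :
    ∃ X ⊆ Z, X.map (rot2 Q R).toEmbedding = Y := by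
  classical
  refine ⟨Z.filter fun z => rot2 Q R z ∈ Y, Finset.filter_subset _ _, ?_⟩
  ext y
  rw [Finset.mem_map]
  constructor
  · rintro ⟨z, hz, rfl⟩
    exact (Finset.mem_filter.1 hz).2
  · intro hy
    obtain ⟨z, hz, rfl⟩ := Finset.mem_map.1 (h hy)
    exact ⟨z, Finset.mem_filter.2 ⟨hz, hy⟩, rfl⟩

theorem reg_rot2 {C0 B L : ℝ} {Z : Finset PP} (h : Reg Nul C0 B Z L) :
    Reg Nul C0 B (Z.map (rot2 Q R).toEmbedding) L where
  ne := h.ne.map
  L_pos := h.L_pos
  deg_ge := by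
    intro z hz
    obtain ⟨w, hw, rfl⟩ := Finset.mem_map.1 hz
    rw [Equiv.coe_toEmbedding, deg_rot2]
    exact h.deg_ge w hw
  deg_le := by
    intro z hz
    obtain ⟨w, hw, rfl⟩ := Finset.mem_map.1 hz
    rw [Equiv.coe_toEmbedding, deg_rot2]
    exact h.deg_le w hw
  fst_ge := by
    intro a F hF hne
    have hsub : F ⊆ Z.map (rot2 Q R).toEmbedding := fun z hz => ((hF z).1 hz).1
    obtain ⟨X, hX, rfl⟩ := exists_map_eq2 Q R hsub
    rw [card_map_rot2, ss_rot2, EE_rot2]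
    refine h.fst_ge (Q.symm a) X (fun z => ?_) (by rwa [Finset.map_nonempty] at hne)
    have := hF (rot2 Q R z)
    rw [mem_map_rot2, mem_map_rot2, rot2_fst] at this
    rw [this]
    refine and_congr_right fun _ => ?_
    constructor
    · intro h1
      rw [← h1, LinearIsometryEquiv.symm_apply_apply]
    · intro h1
      rw [h1, LinearIsometryEquiv.apply_symm_apply]
  snd_ge := by
    intro a F hF hne
    have hsub : F ⊆ Z.map (rot2 Q R).toEmbedding := fun z hz => ((hF z).1 hz).1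
    obtain ⟨X, hX, rfl⟩ := exists_map_eq2 Q R hsub
    rw [card_map_rot2, ss_rot2, EE_rot2]
    refine h.snd_ge (R.symm a) X (fun z => ?_) (by rwa [Finset.map_nonempty] at hne)
    have := hF (rot2 Q R z)
    rw [mem_map_rot2, mem_map_rot2, rot2_snd] at this
    rw [this]
    refine and_congr_right fun _ => ?_
    constructor
    · intro h1
      rw [← h1, LinearIsometryEquiv.symm_apply_apply]
    · intro h1
      rw [h1, LinearIsometryEquiv.apply_symm_apply]
  sub := by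
    intro Y hY y hy hcard
    obtain ⟨X, hX, rfl⟩ := exists_map_eq2 Q R hY
    rw [card_map_rot2, card_map_rot2] at hcard
    rw [TT_rot2, ss_rot2, ss_rot2, card_map_rot2]
    exact h.sub X hX y hy hcard
  big := by
    rw [ss_rot2, card_map_rot2]
    exact h.big

open scoped Classical in
/-- pull back of a family of sets -/
noncomputable def pull2 (SS : Finset (Finset PP)) : Finset (Finset PP) :=
  SS.image fun X => X.map (rot2 Q R).symm.toEmbedding

lemma mem_map_symm2 {X : Finset PP} {z : PP} :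
    z ∈ X.map (rot2 Q R).symm.toEmbedding ↔ rot2 Q R z ∈ X := by
  rw [Finset.mem_map]
  constructor
  · rintro ⟨w, hw, rfl⟩
    rw [Equiv.coe_toEmbedding, Equiv.apply_symm_apply]
    exact hw
  · intro h
    exact ⟨rot2 Q R z, h, by rw [Equiv.coe_toEmbedding, Equiv.symm_apply_apply]⟩

lemma collinear_map_iff (S : E3 ≃ₗᵢ[ℝ] E3) (A : Set E3) (h : Collinear ℝ (S '' A)) :
    Collinear ℝ A := by
  rw [collinear_iff_exists_forall_eq_smul_vadd] at h ⊢
  obtain ⟨p₀, v, hv⟩ := h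
  refine ⟨S.symm p₀, S.symm v, fun p hp => ?_⟩
  obtain ⟨r, hr⟩ := hv (S p) ⟨p, hp, rfl⟩
  refine ⟨r, ?_⟩
  have h1 : p = S.symm (r • v +ᵥ p₀) := by rw [← hr, LinearIsometryEquiv.symm_apply_apply]
  rw [h1, vadd_eq_add, vadd_eq_add, map_add, map_smul]

theorem blocks_rot2 {Z : Finset PP} {SS : Finset (Finset PP)}
    (h : Blocks (Z.map (rot2 Q R).toEmbedding) SS) : Blocks Z (pull2 Q R SS) where
  sub := by
    intro X hX z hz
    obtain ⟨Y, hY, rfl⟩ := Finset.mem_image.1 hX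
    rw [mem_map_symm2] at hz
    exact (mem_map_rot2 Q R).1 (h.sub Y hY hz)
  iso := by
    intro X hX u hu v hv
    obtain ⟨Y, hY, rfl⟩ := Finset.mem_image.1 hX
    rw [mem_map_symm2] at hu hv
    have := h.iso Y hY _ hu _ hv
    rwa [rot2_fst, rot2_fst, rot2_snd, rot2_snd, LinearIsometryEquiv.dist_map,
      LinearIsometryEquiv.dist_map] at this
  col := by
    intro X hX X' hX' hne
    obtain ⟨Y, hY, rfl⟩ := Finset.mem_image.1 hX
    obtain ⟨Y', hY', rfl⟩ := Finset.mem_image.1 hX'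
    have hne' : Y ≠ Y' := by
      rintro rfl
      exact hne rfl
    refine collinear_map_iff Q _ ((h.col Y hY Y' hY' hne').subset ?_)
    rintro _ ⟨a, ⟨u, hu, hu', rfl⟩, rfl⟩
    rw [mem_map_symm2] at hu hu'
    exact ⟨rot2 Q R u, hu, hu', rfl⟩

theorem uncov_rot2 (Z : Finset PP) (SS : Finset (Finset PP)) (k : ℝ) :
    (uncov Z (pull2 Q R SS) k).card = (uncov (Z.map (rot2 Q R).toEmbedding) SS k).card := by
  classical
  refine Finset.card_bij (fun p _ => (rot2 Q R p.1, rot2 Q R p.2)) ?_ ?_ ?_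
  · intro p hp
    unfold uncov at hp ⊢
    rw [Finset.mem_filter, Finset.mem_product] at hp ⊢
    refine ⟨⟨(mem_map_rot2 Q R).2 hp.1.1, (mem_map_rot2 Q R).2 hp.1.2⟩,
      (nul_rot2 Q R _ _).2 hp.2.1, ?_⟩
    intro X hX h1 h2
    have := hp.2.2 (X.map (rot2 Q R).symm.toEmbedding) (Finset.mem_image_of_mem _ hX)
      ((mem_map_symm2 Q R).2 h1) ((mem_map_symm2 Q R).2 h2)
    rwa [Finset.card_map] at this
  · intro p _ q _ h
    rw [Prod.mk.injEq] at h
    exact Prod.ext ((rot2 Q R).injective h.1) ((rot2 Q R).injective h.2)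
  · intro q hq
    unfold uncov at hq
    rw [Finset.mem_filter, Finset.mem_product] at hq
    obtain ⟨z, hz, h1⟩ := Finset.mem_map.1 hq.1.1
    obtain ⟨w, hw, h2⟩ := Finset.mem_map.1 hq.1.2
    rw [Equiv.coe_toEmbedding] at h1 h2
    refine ⟨(z, w), ?_, Prod.ext h1 h2⟩
    unfold uncov
    rw [Finset.mem_filter, Finset.mem_product]
    refine ⟨⟨hz, hw⟩, ?_, ?_⟩
    · have := hq.2.1
      rw [← h1, ← h2] at this
      exact (nul_rot2 Q R _ _).1 this
    · intro X hX h3 h4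
      obtain ⟨Y, hY, rfl⟩ := Finset.mem_image.1 hX
      rw [mem_map_symm2] at h3 h4
      rw [Finset.card_map]
      exact hq.2.2 Y hY (h1 ▸ h3) (h2 ▸ h4)

end inv

/-- two isometries making a finite set generic in all coordinates -/
theorem exists_genAll (Z : Finset PP) :
    ∃ Q R : E3 ≃ₗᵢ[ℝ] E3, GenAll (Z.map (rot2 Q R).toEmbedding) := by
  obtain ⟨Q, R, hR⟩ := exists_generic2 (d := 3) (by norm_num) Z
  refine ⟨Q, R, ?_⟩
  intro z' hz' w' hw' hne
  rw [Finset.mem_map] at hz' hw'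
  obtain ⟨z, hz, rfl⟩ := hz'
  obtain ⟨w, hw, rfl⟩ := hw'
  exact hR z hz w hw (fun h => hne (by rw [h]))

lemma GenAll.gen {d : ℕ} (hd : 1 ≤ d)
    {Z : Finset (EuclideanSpace ℝ (Fin d) × EuclideanSpace ℝ (Fin d))} (h : GenAll Z) : Gen Z :=
  fun z hz w hw hne h0 => h z hz w hw hne ⟨0, hd⟩ (by rw [h0])

/-- STEP A for sets generic in all coordinates -/
def StepAGenAll (C0 : ℝ) : Prop :=
  ∀ ε : ℝ, 0 < ε → ∃ c B0 : ℝ, 0 < c ∧ ∀ (Z : Finset PP) (L B : ℝ), B0 ≤ B → Reg Nul C0 B Z L →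
    GenAll Z →
    ∃ SS : Finset (Finset PP), Blocks Z SS ∧
      ((uncov Z SS (c * L ^ 2 / Z.card)).card : ℝ) ≤ ε * L * Z.card

/-- it suffices to prove STEP A for sets generic in all coordinates -/
theorem stepA_of_genAll {C0 : ℝ} (H : StepAGenAll C0) : StepA C0 := by
  intro ε hε
  obtain ⟨c, B0, hc, h⟩ := H ε hε
  refine ⟨c, B0, hc, fun Z L B hB hreg => ?_⟩
  obtain ⟨Q, R, hR⟩ := exists_genAll Z
  obtain ⟨SS, hb, hu⟩ := h _ L B hB (reg_rot2 Q R hreg) hR
  refine ⟨pull2 Q R SS, blocks_rot2 Q R hb, ?_⟩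
  rw [uncov_rot2]
  rw [card_map_rot2] at hu
  exact hu

/-- the version with `Gen` follows from the version with `GenAll` -/
theorem stepAGen_of_genAll {C0 : ℝ} (H : StepAGenAll C0) : StepAGen C0 := by
  intro ε hε
  obtain ⟨c, B0, hc, h⟩ := stepA_of_genAll H ε hε
  exact ⟨c, B0, hc, fun Z L B hB hreg _ => h Z L B hB hreg⟩

end Crest.Agent.R065.D3rot812
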