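import Mathlib

/-!
# Row 65: the exchange lemma (helper272 #14572 (2'), helper855's `Engine`)

For a finite set `V` and any function `F` of `(Om, z, w)`, summing over `k`-subsets `Om` and
points `w ∉ Om` is the same as summing over `(k+1)`-subsets `Om` and points `w ∈ Om`
(`exch`).  Orienting each related pair by an arbitrary order function gives `engine`.
-/

set_option autoImplicit false

open Finset

namespace Crest.Agent.R065.Exch134

variable {α : Type*} [DecidableEq α]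

/-- **Exchange.** -/
theorem exch {M : Type*} [AddCommMonoid M] (V : Finset α) (k : ℕ) (F : Finset α → α → α → M) :
    ∑ Om ∈ V.powersetCard k, ∑ z ∈ V \ Om, ∑ w ∈ (V \ Om).erase z, F Om z w =
      ∑ Om ∈ V.powersetCard (k + 1), ∑ z ∈ V \ Om, ∑ w ∈ Om, F (Om.erase w) z w := by
  classical
  simp only [Finset.sum_sigma']
  refine Finset.sum_bij' (fun x _ => ⟨insert x.2.2 x.1, ⟨x.2.1, x.2.2⟩⟩)
    (fun x _ => ⟨x.1.erase x.2.2, ⟨x.2.1, x.2.2⟩⟩) ?_ ?_ ?_ ?_ ?_
  · rintro ⟨Om, z, w⟩ h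
    simp only [mem_sigma, mem_powersetCard, mem_sdiff, mem_erase] at h
    obtain ⟨⟨h1, h2⟩, ⟨hz1, hz2⟩, hwz, hw1, hw2⟩ := h
    simp only [mem_sigma, mem_powersetCard, mem_sdiff, mem_insert]
    refine ⟨⟨insert_subset hw1 h1, ?_⟩, ⟨hz1, ?_⟩, Or.inl trivial⟩
    · rw [card_insert_of_notMem hw2, h2]
    · rintro (h | h)
      · exact hwz h.symm
      · exact hz2 h
  · rintro ⟨Om, z, w⟩ h
    simp only [mem_sigma, mem_powersetCard, mem_sdiff] at h
    obtain ⟨⟨h1, h2⟩, ⟨hz1, hz2⟩, hw⟩ := h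
    simp only [mem_sigma, mem_powersetCard, mem_sdiff, mem_erase]
    refine ⟨⟨(erase_subset _ _).trans h1, ?_⟩, ⟨hz1, fun h => hz2 h.2⟩, ?_, h1 hw, fun h => h.1 rfl⟩
    · rw [card_erase_of_mem hw, h2]; rfl
    · rintro rfl
      exact hz2 hw
  · rintro ⟨Om, z, w⟩ h
    simp only [mem_sigma, mem_powersetCard, mem_sdiff, mem_erase] at h
    obtain ⟨⟨h1, h2⟩, ⟨hz1, hz2⟩, hwz, hw1, hw2⟩ := h
    simp only [erase_insert hw2]
  · rintro ⟨Om, z, w⟩ h
    simp only [mem_sigma, mem_powersetCard, mem_sdiff] at h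
    obtain ⟨⟨h1, h2⟩, ⟨hz1, hz2⟩, hw⟩ := h
    simp only [insert_erase hw]
  · rintro ⟨Om, z, w⟩ h
    simp only [mem_sigma, mem_powersetCard, mem_sdiff, mem_erase] at h
    obtain ⟨⟨h1, h2⟩, ⟨hz1, hz2⟩, hwz, hw1, hw2⟩ := h
    simp only [erase_insert hw2]

/-- the number of `k`-subsets avoiding two points -/
lemma card_avoid (V : Finset α) (k : ℕ) {z w : α} (hz : z ∈ V) (hw : w ∈ V) (hne : z ≠ w) :
    ((V.powersetCard k).filter fun Om => z ∉ Om ∧ w ∉ Om).card = (V.card - 2).choose k := by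
  have h : ((V.powersetCard k).filter fun Om => z ∉ Om ∧ w ∉ Om) =
      ((V.erase z).erase w).powersetCard k := by
    ext Om
    simp only [mem_filter, mem_powersetCard]
    constructor
    · rintro ⟨⟨h1, h2⟩, h3, h4⟩
      refine ⟨fun x hx => ?_, h2⟩
      rw [mem_erase, mem_erase]
      exact ⟨fun h => h4 (h ▸ hx), fun h => h3 (h ▸ hx), h1 hx⟩
    · rintro ⟨h1, h2⟩
      refine ⟨⟨fun x hx => mem_of_mem_erase (mem_of_mem_erase (h1 hx)), h2⟩, ?_, ?_⟩
      · intro h
        have := mem_of_mem_erase (h1 h)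
        exact (mem_erase.1 this).1 rfl
      · intro h
        exact (mem_erase.1 (h1 h)).1 rfl
  rw [h, card_powersetCard, card_erase_of_mem (mem_erase.2 ⟨hne.symm, hw⟩), card_erase_of_mem hz]
  rfl

open scoped Classical in
/-- double counting of related pairs outside `Om` -/
lemma sum_outside (V : Finset α) (k : ℕ) (NN : α → α → Prop) (irr : ∀ z, ¬ NN z z) :
    ∑ Om ∈ V.powersetCard k, ∑ z ∈ V \ Om, (((V \ Om).erase z).filter fun w => NN z w).card =
      ((V ×ˢ V).filter fun p => NN p.1 p.2).card * (V.card - 2).choose k := by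
  have h1 : ∀ Om ∈ V.powersetCard k,
      ∑ z ∈ V \ Om, (((V \ Om).erase z).filter fun w => NN z w).card =
      ∑ p ∈ (V ×ˢ V).filter fun p => NN p.1 p.2, if p.1 ∉ Om ∧ p.2 ∉ Om then 1 else 0 := by
    intro Om _
    rw [← card_filter, ← card_sigma]
    refine card_bij (fun x _ => (x.1, x.2)) ?_ ?_ ?_
    · rintro ⟨z, w⟩ h
      simp only [mem_sigma, mem_sdiff, mem_filter, mem_erase] at h
      obtain ⟨⟨hz1, hz2⟩, ⟨_, hw1, hw2⟩, h3⟩ := h
      simp only [mem_filter, mem_product]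
      exact ⟨⟨⟨hz1, hw1⟩, h3⟩, hz2, hw2⟩
    · rintro ⟨z, w⟩ _ ⟨z', w'⟩ _ h
      simp only [Prod.mk.injEq] at h
      obtain ⟨rfl, rfl⟩ := h
      rfl
    · rintro ⟨z, w⟩ h
      simp only [mem_filter, mem_product] at h
      obtain ⟨⟨⟨hz1, hw1⟩, h3⟩, hz2, hw2⟩ := h
      refine ⟨⟨z, w⟩, ?_, rfl⟩
      simp only [mem_sigma, mem_sdiff, mem_filter, mem_erase]
      have hwz : w ≠ z := by
        rintro rfl
        exact irr w h3
      exact ⟨⟨hz1, hz2⟩, ⟨hwz, hw1, hw2⟩, h3⟩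
  rw [sum_congr rfl h1, sum_comm, ← smul_eq_mul, ← sum_const]
  refine sum_congr rfl ?_
  rintro ⟨z, w⟩ h
  simp only [mem_filter, mem_product] at h
  obtain ⟨⟨hz, hw⟩, h3⟩ := h
  rw [← card_filter]
  have hzw : z ≠ w := by
    rintro rfl
    exact irr z h3
  exact card_avoid V k hz hw hzw

open scoped Classical in
/-- one `Om`: every related pair outside `Om` is counted in at least one orientation -/
lemma orient (U : Finset α) (NN : α → α → Prop) (hs : ∀ z w, NN z w → NN w z)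
    (g : α → α → ℕ∞) :
    ∑ z ∈ U, ((U.erase z).filter fun w => NN z w).card ≤
      2 * ∑ z ∈ U, ((U.erase z).filter fun w => NN z w ∧ g w z ≤ g z w).card := by
  have h1 : ∑ z ∈ U, ((U.erase z).filter fun w => NN z w ∧ g z w ≤ g w z).card =
      ∑ z ∈ U, ((U.erase z).filter fun w => NN z w ∧ g w z ≤ g z w).card := by
    rw [← card_sigma, ← card_sigma]
    refine card_bij (fun x _ => ⟨x.2, x.1⟩) ?_ ?_ ?_
    · rintro ⟨z, w⟩ h
      simp only [mem_sigma, mem_filter, mem_erase] at h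
      obtain ⟨hz, ⟨hwz, hw⟩, h3, h4⟩ := h
      simp only [mem_sigma, mem_filter, mem_erase]
      exact ⟨hw, ⟨fun h => hwz h.symm, hz⟩, hs _ _ h3, h4⟩
    · rintro ⟨z, w⟩ _ ⟨z', w'⟩ _ h
      simp only [Sigma.mk.injEq, heq_eq_eq] at h
      obtain ⟨rfl, rfl⟩ := h
      rfl
    · rintro ⟨z, w⟩ h
      simp only [mem_sigma, mem_filter, mem_erase] at h
      obtain ⟨hz, ⟨hwz, hw⟩, h3, h4⟩ := h
      refine ⟨⟨w, z⟩, ?_, rfl⟩
      simp only [mem_sigma, mem_filter, mem_erase]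
      exact ⟨hw, ⟨fun h => hwz h.symm, hz⟩, hs _ _ h3, h4⟩
  rw [two_mul]
  nth_rewrite 2 [← h1]
  rw [← sum_add_distrib]
  refine sum_le_sum fun z _ => ?_
  refine le_trans (card_le_card ?_) (card_union_le _ _)
  intro w hw
  rw [mem_filter] at hw
  rw [mem_union, mem_filter, mem_filter]
  rcases le_total (g w z) (g z w) with h | h
  · exact Or.inl ⟨hw.1, hw.2, h⟩
  · exact Or.inr ⟨hw.1, hw.2, h⟩

open scoped Classical in
/-- **Engine, exact form.** -/
theorem engine_nat (V : Finset α) (k : ℕ) (NN : α → α → Prop) (o : Finset α → α → α → ℕ∞)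
    (hs : ∀ z w, NN z w → NN w z) (irr : ∀ z, ¬ NN z z) :
    ((V ×ˢ V).filter fun p => NN p.1 p.2).card * (V.card - 2).choose k ≤
      2 * ∑ Om ∈ V.powersetCard (k + 1), ∑ z ∈ V \ Om,
        (Om.filter fun w => NN z w ∧ o (Om.erase w) w z ≤ o (Om.erase w) z w).card := by
  rw [← sum_outside V k NN irr]
  have h1 := exch V k (fun Om z w => if NN z w ∧ o Om w z ≤ o Om z w then (1 : ℕ) else 0)
  simp only [← card_filter] at h1
  rw [← h1, mul_sum]
  exact sum_le_sum fun Om _ => orient (V \ Om) NN hs fun z w => o Om z w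

open scoped Classical in
/-- **Engine** (`D3in855.Engine` with irreflexivity). -/
theorem engine (V : Finset α) (k : ℕ) (NN : α → α → Prop) (o : Finset α → α → α → ℕ∞)
    (hs : ∀ z w, NN z w → NN w z) (irr : ∀ z, ¬ NN z z) (hk : 4 * (k + 1) ≤ V.card) :
    ((((V ×ˢ V).filter fun p => NN p.1 p.2).card : ℝ) * (k + 1)) * (V.card.choose (k + 1)) ≤
      4 * V.card * ∑ Om ∈ V.powersetCard (k + 1), ∑ z ∈ V \ Om,
        ((Om.filter fun w => NN z w ∧ o (Om.erase w) w z ≤ o (Om.erase w) z w).card : ℝ) := by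
  have h1 := engine_nat V k NN o hs irr
  obtain ⟨n, hn⟩ : ∃ n, V.card = n + 2 := ⟨V.card - 2, by omega⟩
  rw [hn] at h1 hk ⊢
  have e1 : (n + 2).choose (k + 1) * (k + 1) = (n + 2) * (n + 1).choose k :=
    (Nat.add_one_mul_choose_eq (n + 1) k).symm
  have e2 : (n + 1).choose k * (n + 1 - k) = (n + 1) * n.choose k := by
    have := Nat.choose_mul_succ_eq n k
    rw [← this]; ring
  have e3 : (n + 1).choose k ≤ 2 * n.choose k := by
    have h3 : (n + 1).choose k * (n + 1) ≤ 2 * n.choose k * (n + 1) := by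
      calc (n + 1).choose k * (n + 1) ≤ (n + 1).choose k * (2 * (n + 1 - k)) :=
            Nat.mul_le_mul_left _ (by omega)
        _ = 2 * ((n + 1).choose k * (n + 1 - k)) := by ring
        _ = 2 * n.choose k * (n + 1) := by rw [e2]; ring
    exact Nat.le_of_mul_le_mul_right h3 (Nat.succ_pos n)
  have h2 : ((((V ×ˢ V).filter fun p => NN p.1 p.2).card * (k + 1)) * (n + 2).choose (k + 1)) ≤
      4 * (n + 2) * ∑ Om ∈ V.powersetCard (k + 1), ∑ z ∈ V \ Om,
        (Om.filter fun w => NN z w ∧ o (Om.erase w) w z ≤ o (Om.erase w) z w).card := by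
    generalize ((V ×ˢ V).filter fun p => NN p.1 p.2).card = T at *
    generalize (∑ Om ∈ V.powersetCard (k + 1), ∑ z ∈ V \ Om,
        (Om.filter fun w => NN z w ∧ o (Om.erase w) w z ≤ o (Om.erase w) z w).card) = X at *
    have h3 : T * n.choose k ≤ 2 * X := by simpa using h1
    calc T * (k + 1) * (n + 2).choose (k + 1) = T * ((n + 2).choose (k + 1) * (k + 1)) := by ring
      _ = T * ((n + 2) * (n + 1).choose k) := by rw [e1]
      _ ≤ T * ((n + 2) * (2 * n.choose k)) := by gcongr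
      _ = 2 * (n + 2) * (T * n.choose k) := by ring
      _ ≤ 2 * (n + 2) * (2 * X) := by gcongr
      _ = 4 * (n + 2) * X := by ring
  exact_mod_cast h2

end Crest.Agent.R065.Exch134
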