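import Crest.Agent.R065.D3stepA_855
import Crest.Agent.R065.D3rot2_812
import Crest.Agent.R065.Exch_134
import Crest.Agent.R065.D3over_789
import Crest.Agent.R065.D3o1_477
import Crest.Agent.R065.D3a_235
import Crest.Agent.R065.D3B_235

/-!
# Row 65, `d = 3`: the main theorem from the rank lemma and L0(3)
-/

set_option autoImplicit false

open Finset

namespace Crest.Agent.R065.D3main855

open Crest.Agent.R065.D3 Crest.Agent.R065.D3in855 Crest.Agent.R065.D3stepA855

/-- the exchange engine (134) -/
theorem engine : Engine := by
  intro V k NN o hs irr hk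
  have h := Exch134.engine V k NN o hs irr hk
  convert h

/-- **the case `d = 3`** from the rank lemma and L0(3) -/
theorem mainD3 (hR : RankIn) (hL0 : L0in) : MainD3 :=
  D3a235.mainD3_of
    (D3rot812.stepA_of_genAll
      (stepAall engine hR D3over789.overfull D3o1477.o1curve D3o1477.o1surf hL0 (10 ^ 9)))
    (D3B235.stepB (by norm_num))

end Crest.Agent.R065.D3main855
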