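import Crest.Agent.R065.Top_348
import Crest.Agent.R065.D3defs_235

/-!
# Row 65: generic rotation of the second coordinates
-/

set_option autoImplicit false

open Module

namespace Crest.Agent.R065.D3rot812

open Crest.Agent.R065.Top348 Crest.Agent.R065.Base348 Crest.Agent.R065.D3

section general

variable {E : Type*} [NormedAddCommGroup E] [InnerProductSpace ℝ E]

/-- a linear isometry moving finitely many nonzero vectors away from given positions -/
theorem exists_isometry_ne (hE : 2 ≤ finrank ℝ E) (Q : Finset (E × E))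
    (hQ : ∀ p ∈ Q, p.2 ≠ 0) : ∃ R : E ≃ₗᵢ[ℝ] E, ∀ p ∈ Q, p.1 + R p.2 ≠ 0 := by
  classical
  -- the bad subspaces
  set s : Finset (Submodule ℝ E) :=
    Q.image (fun p => (ℝ ∙ p.2)ᗮ) ∪ Q.image (fun p => ℝ ∙ (p.2 - p.1)) ∪ {⊥} with hs
  have htop : ⊤ ∉ s := by
    rw [hs, Finset.mem_union, Finset.mem_union, Finset.mem_image, Finset.mem_image,
      Finset.mem_singleton]
    rintro ((⟨p, hp, h⟩ | ⟨p, hp, h⟩) | h)
    · have h1 : (ℝ ∙ p.2 : Submodule ℝ E) = ⊥ := by
        rw [← Submodule.orthogonal_eq_top_iff]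
        exact h
      rw [Submodule.span_singleton_eq_bot] at h1
      exact hQ p hp h1
    · have h1 : finrank ℝ (ℝ ∙ (p.2 - p.1) : Submodule ℝ E) ≤ 1 := by
        have := finrank_span_le_card (R := ℝ) ({p.2 - p.1} : Set E)
        simpa using this
      rw [h, finrank_top] at h1
      omega
    · have h1 : finrank ℝ (⊤ : Submodule ℝ E) = 0 := by rw [h]; exact finrank_bot ℝ E
      rw [finrank_top] at h1
      omega
  have hne := Subspace.biUnion_ne_univ_of_top_notMem htop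
  obtain ⟨n, hn⟩ : ∃ n : E, n ∉ ⋃ p ∈ s, (p : Set E) := by
    by_contra hcon
    push Not at hcon
    exact hne (Set.eq_univ_of_forall hcon)
  have hn' : ∀ p ∈ s, n ∉ p := by
    intro p hp hnp
    exact hn (Set.mem_biUnion hp hnp)
  have hn0 : n ≠ 0 := by
    rintro rfl
    exact hn' ⊥ (by rw [hs]; simp) (Submodule.zero_mem _)
  refine ⟨(ℝ ∙ n).reflection, fun p hp h => ?_⟩
  rw [Submodule.reflection_singleton_apply] at h
  have h1 : inner ℝ n p.2 ≠ 0 := by
    intro h0
    apply hn' ((ℝ ∙ p.2)ᗮ)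
      (by rw [hs]; exact Finset.mem_union_left _ (Finset.mem_union_left _
        (Finset.mem_image_of_mem _ hp)))
    rw [Submodule.mem_orthogonal_singleton_iff_inner_right, real_inner_comm]
    exact h0
  have h2 : (2 : ℝ) * (inner ℝ n p.2 / ‖n‖ ^ 2) ≠ 0 :=
    mul_ne_zero two_ne_zero (div_ne_zero h1 (pow_ne_zero _ (norm_ne_zero_iff.2 hn0)))
  apply hn' (ℝ ∙ (p.2 - p.1))
    (by rw [hs]; exact Finset.mem_union_left _ (Finset.mem_union_right _
      (Finset.mem_image_of_mem _ hp)))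
  rw [Submodule.mem_span_singleton]
  refine ⟨((2 : ℝ) * (inner ℝ n p.2 / ‖n‖ ^ 2))⁻¹, ?_⟩
  have h3 : p.2 - p.1 = ((2 : ℝ) * (inner ℝ n p.2 / ‖n‖ ^ 2)) • n := by
    have h4 : (2 : ℕ) • ((inner ℝ n p.2 / ((‖n‖ : ℝ) ^ 2)) • n) =
        ((2 : ℝ) * (inner ℝ n p.2 / ‖n‖ ^ 2)) • n := by
      rw [two_nsmul, mul_smul, two_smul]
    have h5 : p.1 + ((2 : ℕ) • ((inner ℝ n p.2 / ((‖n‖ : ℝ) ^ 2)) • n) - p.2) = 0 := h
    rw [h4] at h5
    have h6 : ((2 : ℝ) * (inner ℝ n p.2 / ‖n‖ ^ 2)) • n =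
        (p.1 + (((2 : ℝ) * (inner ℝ n p.2 / ‖n‖ ^ 2)) • n - p.2)) + (p.2 - p.1) := by abel
    rw [h6, h5, zero_add]
  rw [h3, smul_smul, inv_mul_cancel₀ h2, one_smul]

/-- after a linear isometry of the second coordinates the `x`-coordinates `a + R c` of the points
of a finite set are different -/
theorem exists_generic (hE : 2 ≤ finrank ℝ E) (Z : Finset (E × E)) :
    ∃ R : E ≃ₗᵢ[ℝ] E, ∀ z ∈ Z, ∀ w ∈ Z, z ≠ w → z.1 + R z.2 ≠ w.1 + R w.2 := by
  classical
  obtain ⟨R, hR⟩ := exists_isometry_ne hE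
    (((Z ×ˢ Z).filter fun p => p.1.2 ≠ p.2.2).image fun p => (p.1.1 - p.2.1, p.1.2 - p.2.2)) (by
      intro p hp
      rw [Finset.mem_image] at hp
      obtain ⟨q, hq, rfl⟩ := hp
      exact sub_ne_zero.2 (Finset.mem_filter.1 hq).2)
  refine ⟨R, fun z hz w hw hne h => ?_⟩
  by_cases h2 : z.2 = w.2
  · rw [h2] at h
    exact hne (Prod.ext (add_right_cancel h) h2)
  · refine hR (z.1 - w.1, z.2 - w.2) ?_ ?_
    · rw [Finset.mem_image]
      exact ⟨(z, w), Finset.mem_filter.2 ⟨Finset.mem_product.2 ⟨hz, hw⟩, h2⟩, rfl⟩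
    · show (z.1 - w.1) + R (z.2 - w.2) = 0
      rw [map_sub]
      have : (z.1 - w.1) + (R z.2 - R w.2) = (z.1 + R z.2) - (w.1 + R w.2) := by abel
      rw [this, h, sub_self]

/-- the map `(a, c) ↦ (a, R c)` -/
def rot (R : E ≃ₗᵢ[ℝ] E) : E × E ≃ E × E := Equiv.prodCongr (Equiv.refl E) R.toEquiv

@[simp] lemma rot_fst (R : E ≃ₗᵢ[ℝ] E) (z : E × E) : (rot R z).1 = z.1 := rfl
@[simp] lemma rot_snd (R : E ≃ₗᵢ[ℝ] E) (z : E × E) : (rot R z).2 = R z.2 := rfl

end general

/-- genericity of a finite set of pairs: different points have different `x`-coordinates -/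
def Gen {d : ℕ} (Z : Finset (EuclideanSpace ℝ (Fin d) × EuclideanSpace ℝ (Fin d))) : Prop :=
  ∀ z ∈ Z, ∀ w ∈ Z, z ≠ w → (zc z.1 z.2).1 ≠ (zc w.1 w.2).1

lemma zc_fst_ne {d : ℕ} {z w : EuclideanSpace ℝ (Fin d) × EuclideanSpace ℝ (Fin d)}
    (h : z.1 + z.2 ≠ w.1 + w.2) : (zc z.1 z.2).1 ≠ (zc w.1 w.2).1 := by
  intro h0
  apply h
  ext i
  have h1 := congrFun h0 i
  simp only [zc, zp, Pi.add_apply] at h1
  simp only [PiLp.add_apply]
  exact_mod_cast h1

/-- generic rotation, all dimensions `≥ 2` -/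
theorem exists_gen {d : ℕ} (hd : 2 ≤ d)
    (Z : Finset (EuclideanSpace ℝ (Fin d) × EuclideanSpace ℝ (Fin d))) :
    ∃ R : EuclideanSpace ℝ (Fin d) ≃ₗᵢ[ℝ] EuclideanSpace ℝ (Fin d),
      Gen (Z.map (rot R).toEmbedding) := by
  obtain ⟨R, hR⟩ := exists_generic (E := EuclideanSpace ℝ (Fin d))
    (by rw [finrank_euclideanSpace_fin]; exact hd) Z
  refine ⟨R, ?_⟩
  intro z' hz' w' hw' hne
  rw [Finset.mem_map] at hz' hw'
  obtain ⟨z, hz, rfl⟩ := hz'
  obtain ⟨w, hw, rfl⟩ := hw'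
  apply zc_fst_ne
  exact hR z hz w hw (fun h => hne (by rw [h]))

/-! ### invariance of everything, `d = 3` -/

abbrev E3 : Type := EuclideanSpace ℝ (Fin 3)

section inv

variable (R : E3 ≃ₗᵢ[ℝ] E3)

lemma nul_rot (z w : PP) : Nul (rot R z) (rot R w) ↔ Nul z w := by
  unfold Nul
  rw [rot_fst, rot_fst, rot_snd, rot_snd, LinearIsometryEquiv.dist_map]

lemma mem_map_rot {Z : Finset PP} {z : PP} : rot R z ∈ Z.map (rot R).toEmbedding ↔ z ∈ Z := by
  rw [Finset.mem_map]
  constructor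
  · rintro ⟨w, hw, h⟩
    have : w = z := (rot R).injective h
    rwa [← this]
  · intro h
    exact ⟨z, h, rfl⟩

lemma card_map_rot (Z : Finset PP) : (Z.map (rot R).toEmbedding).card = Z.card :=
  Finset.card_map _

lemma deg_rot (Z : Finset PP) (z : PP) :
    deg Nul (Z.map (rot R).toEmbedding) (rot R z) = deg Nul Z z := by
  classical
  unfold deg nb
  rw [Finset.filter_map, Finset.card_map]
  congr 1
  ext w
  simp only [Finset.mem_filter, Function.comp]
  exact and_congr_right fun _ => nul_rot R z w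

lemma EE_rot (A B : Finset PP) :
    EE Nul (A.map (rot R).toEmbedding) (B.map (rot R).toEmbedding) = EE Nul A B := by
  unfold EE
  rw [Finset.sum_map]
  exact Finset.sum_congr rfl fun z _ => deg_rot R B z

lemma TT_rot (A : Finset PP) : TT Nul (A.map (rot R).toEmbedding) = TT Nul A := EE_rot R A A

lemma ss_rot (Z : Finset PP) : ss (Z.map (rot R).toEmbedding) = ss Z := by
  classical
  unfold ss
  congr 1
  · congr 1
    ext a
    simp only [Finset.mem_image, Finset.mem_map]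
    constructor
    · rintro ⟨_, ⟨z, hz, rfl⟩, h⟩
      exact ⟨z, hz, h⟩
    · rintro ⟨z, hz, h⟩
      exact ⟨_, ⟨z, hz, rfl⟩, h⟩
  · have e : ∀ (i1 i2 : DecidableEq E3),
        (@Finset.image _ _ i1 Prod.snd (Z.map (rot R).toEmbedding)).card =
          (@Finset.image _ _ i2 Prod.snd Z).card := by
      intro i1 i2
      have h1 : @Finset.image _ _ i1 Prod.snd (Z.map (rot R).toEmbedding) =
          @Finset.image _ _ i1 R (@Finset.image _ _ i2 Prod.snd Z) := by
        ext a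
        simp only [Finset.mem_image, Finset.mem_map]
        constructor
        · rintro ⟨_, ⟨z, hz, rfl⟩, h⟩
          exact ⟨z.2, ⟨z, hz, rfl⟩, h⟩
        · rintro ⟨_, ⟨z, hz, rfl⟩, h⟩
          exact ⟨_, ⟨z, hz, rfl⟩, h⟩
      rw [h1]
      have h2 := @Finset.card_image_of_injective E3 E3 R i1 (@Finset.image _ _ i2 Prod.snd Z)
        R.injective
      exact h2
    exact e _ _

/-- every subset of the image is an image -/
lemma exists_map_eq {Z Y : Finset PP} (h : Y ⊆ Z.map (rot R).toEmbedding) :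
    ∃ X ⊆ Z, X.map (rot R).toEmbedding = Y := by
  classical
  refine ⟨Z.filter fun z => rot R z ∈ Y, Finset.filter_subset _ _, ?_⟩
  ext y
  rw [Finset.mem_map]
  constructor
  · rintro ⟨z, hz, rfl⟩
    exact (Finset.mem_filter.1 hz).2
  · intro hy
    obtain ⟨z, hz, rfl⟩ := Finset.mem_map.1 (h hy)
    exact ⟨z, Finset.mem_filter.2 ⟨hz, hy⟩, rfl⟩

theorem reg_rot {C0 B L : ℝ} {Z : Finset PP} (h : Reg Nul C0 B Z L) :
    Reg Nul C0 B (Z.map (rot R).toEmbedding) L where
  ne := h.ne.map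
  L_pos := h.L_pos
  deg_ge := by
    intro z hz
    obtain ⟨w, hw, rfl⟩ := Finset.mem_map.1 hz
    rw [Equiv.coe_toEmbedding, deg_rot]
    exact h.deg_ge w hw
  deg_le := by
    intro z hz
    obtain ⟨w, hw, rfl⟩ := Finset.mem_map.1 hz
    rw [Equiv.coe_toEmbedding, deg_rot]
    exact h.deg_le w hw
  fst_ge := by
    intro a F hF hne
    have hsub : F ⊆ Z.map (rot R).toEmbedding := fun z hz => ((hF z).1 hz).1
    obtain ⟨X, hX, rfl⟩ := exists_map_eq R hsub
    rw [card_map_rot, ss_rot, EE_rot]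
    refine h.fst_ge a X (fun z => ?_) (by rwa [Finset.map_nonempty] at hne)
    have := hF (rot R z)
    rw [mem_map_rot, mem_map_rot] at this
    exact this
  snd_ge := by
    intro a F hF hne
    have hsub : F ⊆ Z.map (rot R).toEmbedding := fun z hz => ((hF z).1 hz).1
    obtain ⟨X, hX, rfl⟩ := exists_map_eq R hsub
    rw [card_map_rot, ss_rot, EE_rot]
    refine h.snd_ge (R.symm a) X (fun z => ?_) (by rwa [Finset.map_nonempty] at hne)
    have := hF (rot R z)
    rw [mem_map_rot, mem_map_rot, rot_snd] at this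
    rw [this]
    refine and_congr_right fun _ => ?_
    constructor
    · intro h1
      rw [← h1, LinearIsometryEquiv.symm_apply_apply]
    · intro h1
      rw [h1, LinearIsometryEquiv.apply_symm_apply]
  sub := by
    intro Y hY y hy hcard
    obtain ⟨X, hX, rfl⟩ := exists_map_eq R hY
    rw [card_map_rot, card_map_rot] at hcard
    rw [TT_rot, ss_rot, ss_rot, card_map_rot]
    exact h.sub X hX y hy hcard
  big := by
    rw [ss_rot, card_map_rot]
    exact h.big

open scoped Classical in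
/-- pull back of a family of sets -/
noncomputable def pull (SS : Finset (Finset PP)) : Finset (Finset PP) :=
  SS.image fun X => X.map (rot R).symm.toEmbedding

lemma mem_map_symm {X : Finset PP} {z : PP} :
    z ∈ X.map (rot R).symm.toEmbedding ↔ rot R z ∈ X := by
  rw [Finset.mem_map]
  constructor
  · rintro ⟨w, hw, rfl⟩
    rw [Equiv.coe_toEmbedding, Equiv.apply_symm_apply]
    exact hw
  · intro h
    exact ⟨rot R z, h, by rw [Equiv.coe_toEmbedding, Equiv.symm_apply_apply]⟩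

theorem blocks_rot {Z : Finset PP} {SS : Finset (Finset PP)}
    (h : Blocks (Z.map (rot R).toEmbedding) SS) : Blocks Z (pull R SS) where
  sub := by
    intro X hX z hz
    obtain ⟨Y, hY, rfl⟩ := Finset.mem_image.1 hX
    rw [mem_map_symm] at hz
    exact (mem_map_rot R).1 (h.sub Y hY hz)
  iso := by
    intro X hX u hu v hv
    obtain ⟨Y, hY, rfl⟩ := Finset.mem_image.1 hX
    rw [mem_map_symm] at hu hv
    have := h.iso Y hY _ hu _ hv
    rwa [rot_fst, rot_fst, rot_snd, rot_snd, LinearIsometryEquiv.dist_map] at this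
  col := by
    intro X hX X' hX' hne
    obtain ⟨Y, hY, rfl⟩ := Finset.mem_image.1 hX
    obtain ⟨Y', hY', rfl⟩ := Finset.mem_image.1 hX'
    have hne' : Y ≠ Y' := by
      rintro rfl
      exact hne rfl
    refine (h.col Y hY Y' hY' hne').subset ?_
    rintro a ⟨u, hu, hu', rfl⟩
    rw [mem_map_symm] at hu hu'
    exact ⟨rot R u, hu, hu', rfl⟩

theorem uncov_rot (Z : Finset PP) (SS : Finset (Finset PP)) (k : ℝ) :
    (uncov Z (pull R SS) k).card = (uncov (Z.map (rot R).toEmbedding) SS k).card := by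
  classical
  refine Finset.card_bij (fun p _ => (rot R p.1, rot R p.2)) ?_ ?_ ?_
  · intro p hp
    unfold uncov at hp ⊢
    rw [Finset.mem_filter, Finset.mem_product] at hp ⊢
    refine ⟨⟨(mem_map_rot R).2 hp.1.1, (mem_map_rot R).2 hp.1.2⟩, (nul_rot R _ _).2 hp.2.1, ?_⟩
    intro X hX h1 h2
    have := hp.2.2 (X.map (rot R).symm.toEmbedding) (Finset.mem_image_of_mem _ hX)
      ((mem_map_symm R).2 h1) ((mem_map_symm R).2 h2)
    rwa [Finset.card_map] at this
  · intro p _ q _ h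
    rw [Prod.mk.injEq] at h
    exact Prod.ext ((rot R).injective h.1) ((rot R).injective h.2)
  · intro q hq
    unfold uncov at hq
    rw [Finset.mem_filter, Finset.mem_product] at hq
    obtain ⟨z, hz, h1⟩ := Finset.mem_map.1 hq.1.1
    obtain ⟨w, hw, h2⟩ := Finset.mem_map.1 hq.1.2
    rw [Equiv.coe_toEmbedding] at h1 h2
    refine ⟨(z, w), ?_, Prod.ext h1 h2⟩
    unfold uncov
    rw [Finset.mem_filter, Finset.mem_product]
    refine ⟨⟨hz, hw⟩, ?_, ?_⟩
    · have := hq.2.1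
      rw [← h1, ← h2] at this
      exact (nul_rot R _ _).1 this
    · intro X hX h3 h4
      obtain ⟨Y, hY, rfl⟩ := Finset.mem_image.1 hX
      rw [mem_map_symm] at h3 h4
      rw [Finset.card_map]
      exact hq.2.2 Y hY (h1 ▸ h3) (h2 ▸ h4)

end inv

/-- STEP A for generic sets (all `x`-coordinates different) -/
def StepAGen (C0 : ℝ) : Prop :=
  ∀ ε : ℝ, 0 < ε → ∃ c B0 : ℝ, 0 < c ∧ ∀ (Z : Finset PP) (L B : ℝ), B0 ≤ B → Reg Nul C0 B Z L →
    Gen Z →
    ∃ SS : Finset (Finset PP), Blocks Z SS ∧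
      ((uncov Z SS (c * L ^ 2 / Z.card)).card : ℝ) ≤ ε * L * Z.card

/-- it suffices to prove STEP A for generic sets -/
theorem stepA_of_gen {C0 : ℝ} (H : StepAGen C0) : StepA C0 := by
  intro ε hε
  obtain ⟨c, B0, hc, h⟩ := H ε hε
  refine ⟨c, B0, hc, fun Z L B hB hreg => ?_⟩
  obtain ⟨R, hR⟩ := exists_gen (d := 3) (by norm_num) Z
  obtain ⟨SS, hb, hu⟩ := h _ L B hB (reg_rot R hreg) hR
  refine ⟨pull R SS, blocks_rot R hb, ?_⟩
  rw [uncov_rot]
  rw [card_map_rot] at hu
  exact hu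

end Crest.Agent.R065.D3rot812
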