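import Mathlib
import Crest.Agent.R065.D3defs_235

/-!
# Row 65, case d = 3 (r65_d3 section 5): the sampling lemma
Part 1: Bernoulli sampling of a finite set, by pure finite sums.
-/

set_option autoImplicit false

namespace Crest.Agent.R065.D3samp789

open Finset

section Prob

variable {α : Type*} [DecidableEq α]

/-- the Bernoulli(q) weight of the subset `T` of `Z` -/
noncomputable def wt (Z : Finset α) (q : ℝ) (T : Finset α) : ℝ :=
  q ^ T.card * (1 - q) ^ (Z \ T).card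

/-- expectation over random subsets of `Z` -/
noncomputable def EE (Z : Finset α) (q : ℝ) (g : Finset α → ℝ) : ℝ :=
  ∑ T ∈ Z.powerset, wt Z q T * g T

lemma wt_nonneg {Z : Finset α} {q : ℝ} (h0 : 0 ≤ q) (h1 : q ≤ 1) (T : Finset α) :
    0 ≤ wt Z q T := by
  unfold wt
  have : 0 ≤ 1 - q := by linarith
  positivity

lemma EE_mono {Z : Finset α} {q : ℝ} (h0 : 0 ≤ q) (h1 : q ≤ 1) {g h : Finset α → ℝ}
    (H : ∀ T, T ⊆ Z → g T ≤ h T) : EE Z q g ≤ EE Z q h := by
  unfold EE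
  refine Finset.sum_le_sum fun T hT => ?_
  exact mul_le_mul_of_nonneg_left (H T (Finset.mem_powerset.1 hT)) (wt_nonneg h0 h1 T)

lemma EE_add {Z : Finset α} {q : ℝ} (g h : Finset α → ℝ) :
    EE Z q (fun T => g T + h T) = EE Z q g + EE Z q h := by
  unfold EE
  rw [← Finset.sum_add_distrib]
  exact Finset.sum_congr rfl fun T _ => by ring

lemma EE_mul {Z : Finset α} {q : ℝ} (c : ℝ) (g : Finset α → ℝ) :
    EE Z q (fun T => c * g T) = c * EE Z q g := by
  unfold EE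
  rw [Finset.mul_sum]
  exact Finset.sum_congr rfl fun T _ => by ring

lemma EE_sum {Z : Finset α} {q : ℝ} {ι : Type*} (s : Finset ι) (g : ι → Finset α → ℝ) :
    EE Z q (fun T => ∑ i ∈ s, g i T) = ∑ i ∈ s, EE Z q (g i) := by
  unfold EE
  rw [Finset.sum_comm]
  exact Finset.sum_congr rfl fun T _ => by rw [Finset.mul_sum]

lemma EE_sub {Z R : Finset α} {q : ℝ} (hR : R ⊆ Z) :
    EE Z q (fun T => if R ⊆ T then (1 : ℝ) else 0) = q ^ R.card := by
  have h := Finset.prod_add (fun _ : α => q) (fun i => if i ∈ R then (0 : ℝ) else 1 - q) Z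
  have h1 : ∏ i ∈ Z, (q + if i ∈ R then (0 : ℝ) else 1 - q) = q ^ R.card := by
    have : ∀ i ∈ Z, (q + if i ∈ R then (0 : ℝ) else 1 - q) = if i ∈ R then q else 1 := by
      intro i _; split_ifs <;> ring
    rw [Finset.prod_congr rfl this, Finset.prod_ite]
    simp only [prod_const, one_pow, mul_one]
    congr 2
    ext x
    simp only [mem_filter]
    exact ⟨fun h => h.2, fun h => ⟨hR h, h⟩⟩
  rw [h1] at h
  unfold EE
  rw [h]
  refine Finset.sum_congr rfl fun T hT => ?_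
  unfold wt
  rw [Finset.mem_powerset] at hT
  rw [Finset.prod_const, mul_assoc]
  congr 1
  show (1 - q) ^ (Z \ T).card * (if R ⊆ T then (1 : ℝ) else 0) = _
  by_cases hRT : R ⊆ T
  · rw [if_pos hRT, mul_one, ← Finset.prod_const]
    refine Finset.prod_congr rfl fun x hx => ?_
    rw [if_neg]
    intro hxR
    exact (Finset.mem_sdiff.1 hx).2 (hRT hxR)
  · rw [if_neg hRT, mul_zero]
    obtain ⟨x, hxR, hxT⟩ := Finset.not_subset.1 hRT
    symm
    apply Finset.prod_eq_zero (i := x) (Finset.mem_sdiff.2 ⟨hR hxR, hxT⟩)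
    rw [if_pos hxR]

lemma EE_const {Z : Finset α} {q : ℝ} (c : ℝ) : EE Z q (fun _ => c) = c := by
  have h := EE_sub (Z := Z) (R := ∅) (q := q) (Finset.empty_subset _)
  simp only [Finset.empty_subset, if_true, Finset.card_empty, pow_zero] at h
  have h2 := EE_mul (Z := Z) (q := q) c (fun _ => (1 : ℝ))
  rw [h, mul_one] at h2
  simpa using h2

/-- if the expectation is `< c` then some subset has a value `< c` -/
lemma exists_lt {Z : Finset α} {q : ℝ} (h0 : 0 ≤ q) (h1 : q ≤ 1) {g : Finset α → ℝ} {c : ℝ}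
    (h : EE Z q g < c) : ∃ T, T ⊆ Z ∧ g T < c := by
  by_contra hc
  push Not at hc
  have := EE_mono h0 h1 (g := fun _ => c) (h := g) (fun T hT => hc T hT)
  rw [EE_const] at this
  linarith

lemma card_inter_eq (N T : Finset α) :
    ((N ∩ T).card : ℝ) = ∑ w ∈ N, if ({w} : Finset α) ⊆ T then (1 : ℝ) else 0 := by
  rw [← Finset.sum_filter, Finset.sum_const, nsmul_eq_mul, mul_one]
  congr 2
  ext x; simp

lemma EE_card {Z N : Finset α} {q : ℝ} (hN : N ⊆ Z) :
    EE Z q (fun T => ((N ∩ T).card : ℝ)) = q * N.card := by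
  simp only [card_inter_eq]
  rw [EE_sum]
  have : ∀ w ∈ N, EE Z q (fun T => if ({w} : Finset α) ⊆ T then (1 : ℝ) else 0) = q := by
    intro w hw
    rw [EE_sub (Finset.singleton_subset_iff.2 (hN hw)), Finset.card_singleton, pow_one]
  rw [Finset.sum_congr rfl this, Finset.sum_const, nsmul_eq_mul, mul_comm]

lemma EE_card_sq {Z N : Finset α} {q : ℝ} (hN : N ⊆ Z) :
    EE Z q (fun T => ((N ∩ T).card : ℝ) ^ 2) ≤ (q * N.card) ^ 2 + q * N.card := by
  have h1 : ∀ T : Finset α, ((N ∩ T).card : ℝ) ^ 2 =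
      ∑ w ∈ N, ∑ w' ∈ N, if ({w, w'} : Finset α) ⊆ T then (1 : ℝ) else 0 := by
    intro T
    rw [sq, card_inter_eq, Finset.sum_mul_sum]
    refine Finset.sum_congr rfl fun w _ => Finset.sum_congr rfl fun w' _ => ?_
    have : (({w, w'} : Finset α) ⊆ T) ↔ (({w} : Finset α) ⊆ T ∧ ({w'} : Finset α) ⊆ T) := by
      simp [Finset.insert_subset_iff]
    by_cases hw : ({w} : Finset α) ⊆ T <;> by_cases hw' : ({w'} : Finset α) ⊆ T <;>
      simp [this, hw, hw']
  simp only [h1]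
  rw [EE_sum]
  have h2 : ∀ w ∈ N, EE Z q (fun T => ∑ w' ∈ N,
      if ({w, w'} : Finset α) ⊆ T then (1 : ℝ) else 0) ≤ q ^ 2 * N.card + q := by
    intro w hw
    rw [EE_sum]
    have h3 : ∀ w' ∈ N, EE Z q (fun T => if ({w, w'} : Finset α) ⊆ T then (1 : ℝ) else 0) ≤
        q ^ 2 + if w = w' then q else 0 := by
      intro w' hw'
      rw [EE_sub]
      · by_cases h : w = w'
        · subst h
          rw [if_pos rfl]
          simp only [Finset.pair_eq_singleton, Finset.card_singleton, pow_one]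
          nlinarith [sq_nonneg q]
        · rw [if_neg h, Finset.card_pair h, add_zero]
      · intro x hx
        rw [Finset.mem_insert, Finset.mem_singleton] at hx
        rcases hx with rfl | rfl
        · exact hN hw
        · exact hN hw'
    refine (Finset.sum_le_sum h3).trans ?_
    rw [Finset.sum_add_distrib, Finset.sum_const, nsmul_eq_mul, Finset.sum_ite_eq, if_pos hw]
    linarith
  refine (Finset.sum_le_sum h2).trans ?_
  rw [Finset.sum_const, nsmul_eq_mul]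
  apply le_of_eq; ring

lemma EE_var {Z N : Finset α} {q : ℝ} (hN : N ⊆ Z) :
    EE Z q (fun T => (((N ∩ T).card : ℝ) - q * N.card) ^ 2) ≤ q * N.card := by
  have h1 : (fun T : Finset α => (((N ∩ T).card : ℝ) - q * N.card) ^ 2) =
      fun T => (((N ∩ T).card : ℝ) ^ 2 + (-(2 * (q * N.card))) * ((N ∩ T).card : ℝ)) +
        (q * N.card) ^ 2 := by
    funext T; ring
  rw [h1, EE_add (fun T => ((N ∩ T).card : ℝ) ^ 2 + (-(2 * (q * N.card))) * ((N ∩ T).card : ℝ)),
    EE_add, EE_mul, EE_card hN, EE_const]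
  have := EE_card_sq (q := q) hN
  nlinarith [this]

/-- the joint tail event -/
lemma EE_tail {Z D : Finset α} {q : ℝ} (h0 : 0 ≤ q) (h1 : q ≤ 1) {w : α} (hw : w ∈ Z)
    (hD : D ⊆ Z) (hwD : w ∉ D) (r : ℕ) :
    EE Z q (fun T => if w ∈ T ∧ r ≤ (D ∩ T).card then (1 : ℝ) else 0) ≤
      q * ((D.card.choose r : ℝ) * q ^ r) := by
  have h2 : ∀ T, T ⊆ Z → (if w ∈ T ∧ r ≤ (D ∩ T).card then (1 : ℝ) else 0) ≤
      ∑ R ∈ D.powersetCard r, if insert w R ⊆ T then (1 : ℝ) else 0 := by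
    intro T _
    split_ifs with h
    · obtain ⟨R, hR, hRc⟩ := Finset.exists_subset_card_eq h.2
      have hRD : R ⊆ D := hR.trans Finset.inter_subset_left
      have hRT : R ⊆ T := hR.trans Finset.inter_subset_right
      have hmem : R ∈ D.powersetCard r := Finset.mem_powersetCard.2 ⟨hRD, hRc⟩
      have := Finset.single_le_sum (f := fun R => if insert w R ⊆ T then (1 : ℝ) else 0)
        (fun i _ => by split_ifs <;> norm_num) hmem
      refine le_trans ?_ this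
      rw [if_pos (Finset.insert_subset h.1 hRT)]
    · exact Finset.sum_nonneg fun i _ => by split_ifs <;> norm_num
  refine (EE_mono h0 h1 h2).trans ?_
  rw [EE_sum]
  have h3 : ∀ R ∈ D.powersetCard r,
      EE Z q (fun T => if insert w R ⊆ T then (1 : ℝ) else 0) = q * q ^ r := by
    intro R hR
    obtain ⟨hRD, hRc⟩ := Finset.mem_powersetCard.1 hR
    rw [EE_sub (Finset.insert_subset hw (hRD.trans hD)),
      Finset.card_insert_of_notMem (fun h => hwD (hRD h)), hRc, pow_succ, mul_comm]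
  rw [Finset.sum_congr rfl h3, Finset.sum_const, Finset.card_powersetCard, nsmul_eq_mul]
  apply le_of_eq; ring

/-- `w` is bad in the sample `T` -/
def Bad (Fam : Finset (Finset α × ℕ)) (T : Finset α) : Prop :=
  ∃ D ∈ Fam, D.2 ≤ (D.1 ∩ T).card

open Classical in
lemma EE_bad {Z : Finset α} {q : ℝ} (h0 : 0 ≤ q) (h1 : q ≤ 1) {w : α} (hw : w ∈ Z)
    (Fam : Finset (Finset α × ℕ)) (hF : ∀ D ∈ Fam, D.1 ⊆ Z ∧ w ∉ D.1) {δ : ℝ}
    (hδ : ∑ D ∈ Fam, (D.1.card.choose D.2 : ℝ) * q ^ D.2 ≤ δ) :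
    EE Z q (fun T => if w ∈ T ∧ Bad Fam T then (1 : ℝ) else 0) ≤ q * δ := by
  have h2 : ∀ T, T ⊆ Z → (if w ∈ T ∧ Bad Fam T then (1 : ℝ) else 0) ≤
      ∑ D ∈ Fam, if w ∈ T ∧ D.2 ≤ (D.1 ∩ T).card then (1 : ℝ) else 0 := by
    intro T _
    split_ifs with h
    · obtain ⟨hwT, D, hD, hDT⟩ := h
      have := Finset.single_le_sum
        (f := fun D : Finset α × ℕ => if w ∈ T ∧ D.2 ≤ (D.1 ∩ T).card then (1 : ℝ) else 0)
        (fun i _ => by split_ifs <;> norm_num) hD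
      refine le_trans ?_ this
      rw [if_pos ⟨hwT, hDT⟩]
    · exact Finset.sum_nonneg fun i _ => by split_ifs <;> norm_num
  refine (EE_mono h0 h1 h2).trans ?_
  rw [EE_sum]
  refine (Finset.sum_le_sum fun D hD =>
    EE_tail h0 h1 hw (hF D hD).1 (hF D hD).2 D.2).trans ?_
  rw [← Finset.mul_sum]
  exact mul_le_mul_of_nonneg_left hδ h0

open Classical in
/-- **Abstract sampling theorem.** -/
theorem abstract_sampling (Z : Finset α) {q : ℝ} (hq0 : 0 < q) (hq1 : q ≤ 1) (Z1 : Finset α)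
    (N : α → Finset α) (hN : ∀ z ∈ Z1, N z ⊆ Z) {n n' δ : ℝ} (hn : 0 < n) (hδ0 : 0 ≤ δ)
    (hlow : ∀ z ∈ Z1, n ≤ (N z).card) (hup : ∀ z ∈ Z1, ((N z).card : ℝ) ≤ n')
    (Fam : α → α → Finset (Finset α × ℕ))
    (hF : ∀ z ∈ Z1, ∀ w ∈ N z, ∀ D ∈ Fam z w, D.1 ⊆ Z ∧ w ∉ D.1)
    (hδ : ∀ z ∈ Z1, ∀ w ∈ N z, ∑ D ∈ Fam z w, (D.1.card.choose D.2 : ℝ) * q ^ D.2 ≤ δ)
    (hZ : 4 ≤ q * Z.card) (h4 : 64 ≤ q * n) (h5 : 32 * (n' * δ) ≤ n) :
    ∃ Z', Z' ⊆ Z ∧ (Z'.card : ℝ) ≤ 2 * (q * Z.card) ∧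
      ∃ Z2, Z2 ⊆ Z1 ∧ Z1.card ≤ 2 * Z2.card ∧
        ∀ z ∈ Z2, q * n / 4 ≤ (((Z' ∩ N z).filter fun w => ¬ Bad (Fam z w) Z').card : ℝ) := by
  rcases Z1.eq_empty_or_nonempty with rfl | hne
  · refine ⟨∅, Finset.empty_subset _, ?_, ∅, Finset.empty_subset _, by simp, by simp⟩
    rw [Finset.card_empty]; push_cast; linarith
  -- the bad events
  let A1 : α → Finset α → Prop := fun z T => ((N z ∩ T).card : ℝ) < q * (N z).card / 2
  let DD : α → Finset α → ℝ := fun z T =>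
    (((T ∩ N z).filter fun w => Bad (Fam z w) T).card : ℝ)
  let A2 : α → Finset α → Prop := fun z T => q * n / 4 < DD z T
  have hqZ : 0 < q * Z.card := by linarith
  have hZ1 : (0 : ℝ) < Z1.card := by exact_mod_cast hne.card_pos
  have E1 : ∀ z ∈ Z1, EE Z q (fun T => if A1 z T then (1 : ℝ) else 0) ≤ 1 / 16 := by
    intro z hz
    have hNz : n ≤ (N z).card := hlow z hz
    have hqN : 64 ≤ q * (N z).card := h4.trans (mul_le_mul_of_nonneg_left hNz hq0.le)
    have hpos : 0 < q * (N z).card := by linarith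
    have h2 : ∀ T, T ⊆ Z → (if A1 z T then (1 : ℝ) else 0) ≤
        (4 / (q * (N z).card) ^ 2) * (((N z ∩ T).card : ℝ) - q * (N z).card) ^ 2 := by
      intro T _
      split_ifs with h
      · have h3 : ((N z ∩ T).card : ℝ) < q * (N z).card / 2 := h
        have h4 : (q * (N z).card / 2) ^ 2 ≤ (((N z ∩ T).card : ℝ) - q * (N z).card) ^ 2 := by
          have h5 : (0 : ℝ) ≤ (N z ∩ T).card := by positivity
          nlinarith
        rw [div_mul_eq_mul_div, le_div_iff₀ (by positivity)]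
        nlinarith
      · positivity
    refine (EE_mono hq0.le hq1 h2).trans ?_
    rw [EE_mul]
    have hv := EE_var (q := q) (hN z hz)
    calc 4 / (q * (N z).card) ^ 2 * EE Z q _ ≤ 4 / (q * (N z).card) ^ 2 * (q * (N z).card) :=
          mul_le_mul_of_nonneg_left hv (by positivity)
      _ = 4 / (q * (N z).card) := by field_simp
      _ ≤ 1 / 16 := by
          rw [div_le_div_iff₀ hpos (by norm_num)]
          linarith
  have E2 : ∀ z ∈ Z1, EE Z q (fun T => if A2 z T then (1 : ℝ) else 0) ≤ 1 / 8 := by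
    intro z hz
    have h2 : ∀ T, T ⊆ Z → (if A2 z T then (1 : ℝ) else 0) ≤ (4 / (q * n)) *
        ∑ w ∈ N z, (if w ∈ T ∧ Bad (Fam z w) T then (1 : ℝ) else 0) := by
      intro T _
      have h3 : ∑ w ∈ N z, (if w ∈ T ∧ Bad (Fam z w) T then (1 : ℝ) else 0) = DD z T := by
        rw [← Finset.sum_filter, Finset.sum_const, nsmul_eq_mul, mul_one]
        simp only [DD]
        congr 2
        ext x
        simp only [mem_filter, mem_inter]
        tauto
      rw [h3]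
      have hDD : 0 ≤ DD z T := by simp only [DD]; positivity
      split_ifs with h
      · have h4 : q * n / 4 < DD z T := h
        rw [div_mul_eq_mul_div, le_div_iff₀ (by positivity)]
        linarith
      · positivity
    refine (EE_mono hq0.le hq1 h2).trans ?_
    rw [EE_mul, EE_sum]
    have h3 : ∑ w ∈ N z, EE Z q (fun T => if w ∈ T ∧ Bad (Fam z w) T then (1 : ℝ) else 0) ≤
        n' * (q * δ) := by
      calc _ ≤ ∑ w ∈ N z, q * δ := Finset.sum_le_sum fun w hw =>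
            EE_bad hq0.le hq1 (hN z hz hw) (Fam z w) (hF z hz w hw) (hδ z hz w hw)
        _ = (N z).card * (q * δ) := by rw [Finset.sum_const, nsmul_eq_mul]
        _ ≤ n' * (q * δ) := mul_le_mul_of_nonneg_right (hup z hz) (by positivity)
    calc 4 / (q * n) * _ ≤ 4 / (q * n) * (n' * (q * δ)) :=
          mul_le_mul_of_nonneg_left h3 (by positivity)
      _ = 4 * (n' * δ) / n := by field_simp
      _ ≤ 1 / 8 := by
          rw [div_le_div_iff₀ hn (by norm_num)]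
          linarith
  -- the functional
  let G : Finset α → ℝ := fun T =>
    (∑ z ∈ Z1, 2 * ((if A1 z T then (1 : ℝ) else 0) + (if A2 z T then (1 : ℝ) else 0))) +
      (Z1.card / (q * Z.card) ^ 2) * (((Z ∩ T).card : ℝ) - q * Z.card) ^ 2
  have hG : EE Z q G < Z1.card := by
    have h1 : EE Z q G =
        (∑ z ∈ Z1, 2 * (EE Z q (fun T => if A1 z T then (1 : ℝ) else 0) +
          EE Z q (fun T => if A2 z T then (1 : ℝ) else 0))) +
        (Z1.card / (q * Z.card) ^ 2) *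
          EE Z q (fun T => (((Z ∩ T).card : ℝ) - q * Z.card) ^ 2) := by
      simp only [G]
      rw [EE_add, EE_mul, EE_sum]
      congr 1
      refine Finset.sum_congr rfl fun z _ => ?_
      rw [EE_mul, EE_add]
    rw [h1]
    have h2 : ∑ z ∈ Z1, 2 * (EE Z q (fun T => if A1 z T then (1 : ℝ) else 0) +
          EE Z q (fun T => if A2 z T then (1 : ℝ) else 0)) ≤ ∑ z ∈ Z1, (1 / 2 : ℝ) := by
      refine Finset.sum_le_sum fun z hz => ?_
      have := E1 z hz
      have := E2 z hz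
      linarith
    rw [Finset.sum_const, nsmul_eq_mul] at h2
    have h3 : (Z1.card / (q * Z.card) ^ 2) *
          EE Z q (fun T => (((Z ∩ T).card : ℝ) - q * Z.card) ^ 2) ≤ Z1.card * (1 / 4) := by
      calc _ ≤ (Z1.card / (q * Z.card) ^ 2) * (q * Z.card) :=
            mul_le_mul_of_nonneg_left (EE_var subset_rfl) (by positivity)
        _ = Z1.card * (1 / (q * Z.card)) := by field_simp
        _ ≤ Z1.card * (1 / 4) := by
            apply mul_le_mul_of_nonneg_left _ hZ1.le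
            exact one_div_le_one_div_of_le (by norm_num) hZ
    linarith
  obtain ⟨T, hTZ, hT⟩ := exists_lt hq0.le hq1 hG
  have hsum0 : 0 ≤ ∑ z ∈ Z1, 2 * ((if A1 z T then (1 : ℝ) else 0) +
      (if A2 z T then (1 : ℝ) else 0)) :=
    Finset.sum_nonneg fun z _ => by
      have : (0 : ℝ) ≤ if A1 z T then (1 : ℝ) else 0 := by split_ifs <;> norm_num
      have : (0 : ℝ) ≤ if A2 z T then (1 : ℝ) else 0 := by split_ifs <;> norm_num
      linarith
  refine ⟨T, hTZ, ?_, Z1.filter fun z => ¬ A1 z T ∧ ¬ A2 z T, Finset.filter_subset _ _, ?_, ?_⟩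
  · -- cardinality
    have h1 : (Z1.card / (q * Z.card) ^ 2) * (((Z ∩ T).card : ℝ) - q * Z.card) ^ 2 < Z1.card := by
      have : G T < Z1.card := hT
      simp only [G] at this
      linarith
    rw [div_mul_eq_mul_div, div_lt_iff₀ (by positivity)] at h1
    have h2 : (((Z ∩ T).card : ℝ) - q * Z.card) ^ 2 < (q * Z.card) ^ 2 :=
      lt_of_mul_lt_mul_left h1 hZ1.le
    have h3 := abs_lt_of_sq_lt_sq h2 hqZ.le
    rw [Finset.inter_eq_right.2 hTZ] at h3
    linarith [(abs_lt.1 h3).2]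
  · -- many good z
    have h1 : ∑ z ∈ Z1, 2 * ((if A1 z T then (1 : ℝ) else 0) +
        (if A2 z T then (1 : ℝ) else 0)) < Z1.card := by
      have h2 : G T < Z1.card := hT
      simp only [G] at h2
      have : 0 ≤ (Z1.card / (q * Z.card) ^ 2) * (((Z ∩ T).card : ℝ) - q * Z.card) ^ 2 := by
        positivity
      linarith
    have h2 : (2 : ℝ) * ((Z1.filter fun z => ¬ (¬ A1 z T ∧ ¬ A2 z T)).card : ℝ) ≤
        ∑ z ∈ Z1, 2 * ((if A1 z T then (1 : ℝ) else 0) + (if A2 z T then (1 : ℝ) else 0)) := by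
      rw [← Finset.mul_sum]
      apply mul_le_mul_of_nonneg_left _ (by norm_num)
      have h3 : ((Z1.filter fun z => ¬ (¬ A1 z T ∧ ¬ A2 z T)).card : ℝ) =
          ∑ z ∈ Z1, if ¬ (¬ A1 z T ∧ ¬ A2 z T) then (1 : ℝ) else 0 := by
        rw [← Finset.sum_filter, Finset.sum_const, nsmul_eq_mul, mul_one]
      rw [h3]
      refine Finset.sum_le_sum fun z _ => ?_
      by_cases ha : A1 z T <;> by_cases hb : A2 z T <;> simp [ha, hb]
    have h3 : (Z1.filter fun z => ¬ A1 z T ∧ ¬ A2 z T).card +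
        (Z1.filter fun z => ¬ (¬ A1 z T ∧ ¬ A2 z T)).card = Z1.card :=
      Finset.card_filter_add_card_filter_not _
    have h4 : (((Z1.filter fun z => ¬ A1 z T ∧ ¬ A2 z T).card +
        (Z1.filter fun z => ¬ (¬ A1 z T ∧ ¬ A2 z T)).card : ℕ) : ℝ) = Z1.card := by
      rw [h3]
    push_cast at h4
    have h5 : (Z1.card : ℝ) ≤ 2 * (Z1.filter fun z => ¬ A1 z T ∧ ¬ A2 z T).card := by
      linarith
    exact_mod_cast h5
  · -- good z
    intro z hz
    obtain ⟨hz1, ha, hb⟩ := Finset.mem_filter.1 hz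
    have ha' : q * (N z).card / 2 ≤ ((N z ∩ T).card : ℝ) := not_lt.1 ha
    have hb' : DD z T ≤ q * n / 4 := not_lt.1 hb
    have h1 : ((T ∩ N z).filter fun w => Bad (Fam z w) T).card +
        ((T ∩ N z).filter fun w => ¬ Bad (Fam z w) T).card = (T ∩ N z).card :=
      Finset.card_filter_add_card_filter_not _
    have h2 : ((((T ∩ N z).filter fun w => Bad (Fam z w) T).card +
        ((T ∩ N z).filter fun w => ¬ Bad (Fam z w) T).card : ℕ) : ℝ) = (T ∩ N z).card := by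
      rw [h1]
    push_cast at h2
    rw [Finset.inter_comm] at ha'
    have h3 : q * n / 2 ≤ q * (N z).card / 2 := by
      have := mul_le_mul_of_nonneg_left (hlow z hz1) hq0.le
      linarith
    have h4 : DD z T = (((T ∩ N z).filter fun w => Bad (Fam z w) T).card : ℝ) := rfl
    linarith

end Prob

section Geo

variable {V : Type*} [NormedAddCommGroup V] [InnerProductSpace ℝ V]

lemma not_three_equidist {p x y z : V} (hc : Collinear ℝ ({x, y, z} : Set V)) (hxy : x ≠ y)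
    (hyz : y ≠ z) (hxz : x ≠ z) (h1 : dist p x = dist p y) (h2 : dist p y = dist p z) :
    False := by
  rw [dist_comm p x, dist_comm p y] at h1
  rw [dist_comm p y, dist_comm p z] at h2
  rcases hc.wbtw_or_wbtw_or_wbtw with h | h | h
  · have := Sbtw.dist_lt_max_dist p (⟨h, hxy.symm, hyz⟩ : Sbtw ℝ x y z)
    rw [h1, h2, max_self] at this
    exact lt_irrefl _ this
  · have := Sbtw.dist_lt_max_dist p (⟨h, hyz.symm, hxz.symm⟩ : Sbtw ℝ y z x)
    rw [h1, h2, max_self] at this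
    exact lt_irrefl _ this
  · have := Sbtw.dist_lt_max_dist p (⟨h, hxz, hxy⟩ : Sbtw ℝ z x y)
    rw [h1, h2, max_self] at this
    exact lt_irrefl _ this

/-- `x` lies on the line `ab` -/
lemma onL_iff {a b x : V} (hab : a ≠ b) :
    Collinear ℝ ({a, b, x} : Set V) ↔ x ∈ line[ℝ, a, b] := by
  constructor
  · intro h
    exact h.mem_affineSpan_of_mem_of_ne (p₁ := a) (p₂ := b) (p₃ := x) (by simp) (by simp)
      (by simp) hab
  · intro h
    exact collinear_triple_of_mem_affineSpan_pair (left_mem_affineSpan_pair ℝ a b)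
      (right_mem_affineSpan_pair ℝ a b) h

lemma card_line_sphere {S : Finset V} {b b' p : V} {ρ : ℝ} (hb : b ≠ b')
    (h : ∀ x ∈ S, Collinear ℝ ({b, b', x} : Set V) ∧ dist p x = ρ) : S.card ≤ 2 := by
  by_contra hc
  push Not at hc
  obtain ⟨x, y, z, hx, hy, hz, hxy, hxz, hyz⟩ := Finset.two_lt_card_iff.1 hc
  have hx' := h x hx
  have hy' := h y hy
  have hz' := h z hz
  rw [onL_iff hb] at hx' hy' hz'
  exact not_three_equidist (p := p)
    (collinear_triple_of_mem_affineSpan_pair hx'.1 hy'.1 hz'.1) hxy hyz hxz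
    (by rw [hx'.2, hy'.2]) (by rw [hy'.2, hz'.2])

/-- the line through `a, b` is the line through two of its points -/
lemma onL_congr {a b x u : V} (hab : a ≠ b) (hx : Collinear ℝ ({a, b, x} : Set V))
    (hax : a ≠ x) : Collinear ℝ ({a, b, u} : Set V) ↔ Collinear ℝ ({a, x, u} : Set V) := by
  have hx1 : x ∈ line[ℝ, a, b] := (onL_iff hab).1 hx
  have hb1 : b ∈ line[ℝ, a, x] := by
    have : Collinear ℝ ({a, x, b} : Set V) := by
      have h : ({a, x, b} : Set V) = {a, b, x} := by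
        ext y; simp only [Set.mem_insert_iff, Set.mem_singleton_iff]; tauto
      rw [h]; exact hx
    exact (onL_iff hax).1 this
  constructor
  · intro h
    have hu := (onL_iff hab).1 h
    exact collinear_triple_of_mem_affineSpan_pair (left_mem_affineSpan_pair ℝ a b) hx1 hu
  · intro h
    have hu := (onL_iff hax).1 h
    exact collinear_triple_of_mem_affineSpan_pair (left_mem_affineSpan_pair ℝ a x) hb1 hu

lemma det_point {z1 w1 y1 z2 w2 y2 : V} {r : ℝ} (hy : y1 = z1 + r • (w1 - z1))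
    (hzw : dist z1 w1 = dist z2 w2) (h1 : dist z1 y1 = dist z2 y2)
    (h2 : dist w1 y1 = dist w2 y2) : y2 = z2 + r • (w2 - z2) := by
  set U := w1 - z1 with hU
  set u := w2 - z2 with hu
  set v := y2 - z2 with hv
  have e1 : ‖u‖ = ‖U‖ := by
    rw [hu, hU, ← dist_eq_norm, ← dist_eq_norm, dist_comm, ← hzw, dist_comm]
  have e2 : ‖v‖ = ‖r • U‖ := by
    have : ‖r • U‖ = dist z1 y1 := by
      rw [hy, dist_comm, dist_eq_norm]; congr 1; abel
    rw [this, h1, dist_comm, dist_eq_norm]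
  have e3 : ‖v - u‖ = ‖r • U - U‖ := by
    have h3 : ‖r • U - U‖ = dist w1 y1 := by
      rw [hy, dist_comm, dist_eq_norm]; congr 1; rw [hU]; abel
    rw [h3, h2, dist_comm, dist_eq_norm]; congr 1; rw [hv, hu]; abel
  have e4 : ‖v - r • u‖ ^ 2 = 0 := by
    have a1 := norm_sub_sq_real v u
    have a2 := norm_sub_sq_real v (r • u)
    have a3 := norm_sub_sq_real (r • U) U
    rw [e3, e2, e1] at a1
    rw [e2] at a2
    rw [norm_smul, Real.norm_eq_abs, mul_pow, sq_abs] at a1 a2 a3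
    rw [norm_smul, Real.norm_eq_abs, mul_pow, sq_abs, e1] at a2
    rw [inner_smul_right] at a2
    rw [real_inner_smul_left, real_inner_self_eq_norm_sq] at a3
    have : inner ℝ v u = r * ‖U‖ ^ 2 := by linarith
    rw [a2, this]; ring
  have e5 : v - r • u = 0 := by
    rw [← norm_eq_zero]
    exact pow_eq_zero_iff (two_ne_zero) |>.1 e4
  have e6 : v = r • u := sub_eq_zero.1 e5
  rw [← e6, hv]; abel

lemma det_unique {z1 w1 z2 w2 y1 y2 y2' : V} (hne : z1 ≠ w1)
    (hc : Collinear ℝ ({z1, w1, y1} : Set V)) (hzw : dist z1 w1 = dist z2 w2)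
    (h1 : dist z1 y1 = dist z2 y2) (h2 : dist w1 y1 = dist w2 y2)
    (h1' : dist z1 y1 = dist z2 y2') (h2' : dist w1 y1 = dist w2 y2') : y2 = y2' := by
  have hm := (onL_iff hne).1 hc
  rw [mem_affineSpan_pair_iff_exists_lineMap_eq] at hm
  obtain ⟨r, hr⟩ := hm
  have hy : y1 = z1 + r • (w1 - z1) := by
    rw [← hr, AffineMap.lineMap_apply]
    simp only [vsub_eq_sub, vadd_eq_add]
    abel
  rw [det_point hy hzw h1 h2, det_point hy hzw h1' h2']

end Geo

section Num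

lemma tail_bound {n r : ℕ} {M q x : ℝ} (hr : 1 ≤ r) (hM : 0 < M) (hn : (n : ℝ) ≤ M)
    (hq : 0 ≤ q) (hx : Real.exp 1 * M * q ≤ x * r) :
    (n.choose r : ℝ) * q ^ r ≤ n / M * x ^ r := by
  have h1 : (n.choose r : ℝ) ≤ (n : ℝ) ^ r / r.factorial := Nat.choose_le_pow_div r n
  have h2 : (r : ℝ) ^ r / r.factorial ≤ Real.exp r :=
    Real.pow_div_factorial_le_exp _ (by positivity) r
  have hexp : Real.exp (r : ℝ) = Real.exp 1 ^ r := by rw [← Real.exp_nat_mul, mul_one]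
  have hf : (0 : ℝ) < r.factorial := by exact_mod_cast r.factorial_pos
  have hr0 : (0 : ℝ) < r := by exact_mod_cast hr
  have hx0 : 0 ≤ x := by
    have : 0 ≤ Real.exp 1 * M * q := by positivity
    exact nonneg_of_mul_nonneg_left (this.trans hx) hr0
  have h3 : (M * q) ^ r ≤ x ^ r * r.factorial := by
    have e1 : (Real.exp 1 * M * q) ^ r ≤ (x * r) ^ r := pow_le_pow_left₀ (by positivity) hx r
    have e2 : (r : ℝ) ^ r ≤ Real.exp 1 ^ r * r.factorial := by
      rw [← hexp]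
      rw [div_le_iff₀ hf] at h2
      exact h2
    have e3 : Real.exp 1 ^ r * (M * q) ^ r ≤ Real.exp 1 ^ r * (x ^ r * r.factorial) := by
      calc Real.exp 1 ^ r * (M * q) ^ r = (Real.exp 1 * M * q) ^ r := by
            rw [← mul_pow]; congr 1; ring
        _ ≤ (x * r) ^ r := e1
        _ = x ^ r * (r : ℝ) ^ r := mul_pow _ _ _
        _ ≤ x ^ r * (Real.exp 1 ^ r * r.factorial) :=
            mul_le_mul_of_nonneg_left e2 (by positivity)
        _ = Real.exp 1 ^ r * (x ^ r * r.factorial) := by ring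
    exact le_of_mul_le_mul_left e3 (by positivity)
  have h4 : ((n : ℝ) / M) ^ r ≤ (n : ℝ) / M :=
    pow_le_of_le_one (by positivity) ((div_le_one hM).2 hn) (by omega)
  calc (n.choose r : ℝ) * q ^ r ≤ (n : ℝ) ^ r / r.factorial * q ^ r :=
        mul_le_mul_of_nonneg_right h1 (by positivity)
    _ = ((n : ℝ) / M) ^ r * ((M * q) ^ r / r.factorial) := by
        rw [div_pow, mul_pow]; field_simp
    _ ≤ ((n : ℝ) / M) * x ^ r := by
        apply mul_le_mul h4 _ (by positivity) (by positivity)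
        rw [div_le_iff₀ hf]; exact h3

lemma sum_tail {α : Type*} [DecidableEq α] (DD : Finset (Finset α)) (gen : Finset α → Finset α)
    (Nz : Finset α) {r : ℕ} {M q x : ℝ} (hr : 1 ≤ r) (hM : 0 < M) (hq : 0 ≤ q) (hx0 : 0 ≤ x)
    (hx : Real.exp 1 * M * q ≤ x * r) (h1 : ∀ D ∈ DD, r ≤ D.card → (D.card : ℝ) ≤ M)
    (h2 : ∀ D ∈ DD, r ≤ D.card → D.card ≤ 2 * (gen D).card) (h3 : ∀ D ∈ DD, gen D ⊆ Nz)
    (h4 : ∀ D ∈ DD, ∀ D' ∈ DD, D ≠ D' → Disjoint (gen D) (gen D')) :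
    ∑ D ∈ DD, (D.card.choose r : ℝ) * q ^ r ≤ 2 * Nz.card / M * x ^ r := by
  have h5 : ∀ D ∈ DD, (D.card.choose r : ℝ) * q ^ r ≤ (2 / M * x ^ r) * (gen D).card := by
    intro D hD
    by_cases hrD : r ≤ D.card
    · refine (tail_bound hr hM (h1 D hD hrD) hq hx).trans ?_
      have h6 : (D.card : ℝ) ≤ 2 * (gen D).card := by exact_mod_cast h2 D hD hrD
      calc (D.card : ℝ) / M * x ^ r ≤ (2 * (gen D).card) / M * x ^ r := by gcongr
        _ = (2 / M * x ^ r) * (gen D).card := by ring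
    · rw [Nat.choose_eq_zero_of_lt (not_le.1 hrD)]
      simp only [Nat.cast_zero, zero_mul]
      positivity
  refine (Finset.sum_le_sum h5).trans ?_
  rw [← Finset.mul_sum]
  have h6 : ∑ D ∈ DD, (gen D).card ≤ Nz.card := by
    rw [← Finset.card_biUnion]
    · apply Finset.card_le_card
      intro x hx
      obtain ⟨D, hD, hxD⟩ := Finset.mem_biUnion.1 hx
      exact h3 D hD hxD
    · intro D hD D' hD' hne
      exact h4 D hD D' hD' hne
  have h7 : (∑ D ∈ DD, ((gen D).card : ℝ)) ≤ Nz.card := by exact_mod_cast h6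
  calc 2 / M * x ^ r * ∑ D ∈ DD, ((gen D).card : ℝ) ≤ 2 / M * x ^ r * Nz.card :=
        mul_le_mul_of_nonneg_left h7 (by positivity)
    _ = 2 * Nz.card / M * x ^ r := by ring

lemma sum_union_le {ι : Type*} [DecidableEq ι] (A B : Finset ι) (f : ι → ℝ)
    (hf : ∀ i ∈ A ∪ B, 0 ≤ f i) : ∑ i ∈ A ∪ B, f i ≤ ∑ i ∈ A, f i + ∑ i ∈ B, f i := by
  rw [← Finset.sum_union_inter]
  have : 0 ≤ ∑ i ∈ A ∩ B, f i := Finset.sum_nonneg fun i hi =>
    hf i (Finset.mem_union_left _ (Finset.mem_inter.1 hi).1)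
  linarith

lemma exp_one_div_four (r : ℕ) : (Real.exp 1 / 4) ^ r ≤ Real.exp (-(r : ℝ) / 4) := by
  have h1 : Real.exp 1 / 4 ≤ Real.exp (-1 / 4) := by
    rw [div_le_iff₀ (by norm_num)]
    have h2 : Real.exp 1 = Real.exp (-1 / 4) * Real.exp (5 / 4) := by
      rw [← Real.exp_add]; norm_num
    rw [h2]
    apply mul_le_mul_of_nonneg_left _ (Real.exp_pos _).le
    have h3 : Real.exp (5 / 4) ^ 4 ≤ 4 ^ 4 := by
      rw [← Real.exp_nat_mul]
      have h4 : ((4 : ℕ) : ℝ) * (5 / 4) = ((5 : ℕ) : ℝ) * 1 := by norm_num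
      rw [h4, Real.exp_nat_mul]
      have h5 : Real.exp 1 ≤ 3 := by linarith [Real.exp_one_lt_d9]
      calc Real.exp 1 ^ 5 ≤ 3 ^ 5 := pow_le_pow_left₀ (Real.exp_pos _).le h5 5
        _ ≤ 4 ^ 4 := by norm_num
    exact le_of_pow_le_pow_left₀ (by norm_num) (by norm_num) h3
  calc (Real.exp 1 / 4) ^ r ≤ (Real.exp (-1 / 4)) ^ r :=
        pow_le_pow_left₀ (by positivity) h1 r
    _ = Real.exp (-(r : ℝ) / 4) := by
        rw [← Real.exp_nat_mul]; congr 1; ring

lemma half_pow (r : ℕ) : ((1 : ℝ) / 2) ^ r ≤ Real.exp (-(r : ℝ) / 2) := by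
  have h1 : (1 : ℝ) / 2 ≤ Real.exp (-1 / 2) := by
    have := Real.add_one_le_exp (-1 / 2 : ℝ)
    linarith
  calc ((1 : ℝ) / 2) ^ r ≤ (Real.exp (-1 / 2)) ^ r := pow_le_pow_left₀ (by positivity) h1 r
    _ = Real.exp (-(r : ℝ) / 2) := by
        rw [← Real.exp_nat_mul]; congr 1; ring

lemma sixteenth_pow (r : ℕ) : ((1 : ℝ) / 16) ^ r ≤ Real.exp (-(2 * (r : ℝ))) := by
  have h1 : (1 : ℝ) / 16 ≤ Real.exp (-2) := by
    rw [Real.exp_neg, one_div]
    apply inv_anti₀ (Real.exp_pos _)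
    have h2 : Real.exp 2 = Real.exp 1 ^ 2 := by rw [← Real.exp_nat_mul]; norm_num
    rw [h2]
    have h5 : Real.exp 1 ≤ 3 := by linarith [Real.exp_one_lt_d9]
    nlinarith [Real.exp_pos 1]
  calc ((1 : ℝ) / 16) ^ r ≤ (Real.exp (-2)) ^ r := pow_le_pow_left₀ (by positivity) h1 r
    _ = Real.exp (-(2 * (r : ℝ))) := by
        rw [← Real.exp_nat_mul]; congr 1; ring

lemma exists_pow_exp (n : ℕ) (A δ : ℝ) (hδ : 0 < δ) :
    ∃ X : ℝ, ∀ x, X ≤ x → A * (x ^ n * Real.exp (-x)) ≤ δ := by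
  have h := (Real.tendsto_pow_mul_exp_neg_atTop_nhds_zero n).const_mul A
  rw [mul_zero] at h
  have h2 := h.eventually (gt_mem_nhds hδ)
  obtain ⟨X, hX⟩ := Filter.eventually_atTop.1 h2
  exact ⟨X, fun x hx => (hX x hx).le⟩

lemma exists_max5 (a1 a2 a3 a4 a5 : ℝ) :
    ∃ T : ℝ, a1 ≤ T ∧ a2 ≤ T ∧ a3 ≤ T ∧ a4 ≤ T ∧ a5 ≤ T :=
  ⟨max a1 (max a2 (max a3 (max a4 a5))), by simp⟩

lemma exists_max6 (a1 a2 a3 a4 a5 a6 : ℝ) :
    ∃ T : ℝ, a1 ≤ T ∧ a2 ≤ T ∧ a3 ≤ T ∧ a4 ≤ T ∧ a5 ≤ T ∧ a6 ≤ T :=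
  ⟨max a1 (max a2 (max a3 (max a4 (max a5 a6)))), by simp⟩

set_option maxHeartbeats 1600000 in
/-- all numerical facts used in the sampling lemma -/
theorem numeric (C0 K ε C1 c : ℝ) (hC0 : 1 ≤ C0) (hK : 1 ≤ K) (hε : 0 < ε) (hC1 : 1 ≤ C1)
    (hc : 0 < c) : ∃ B0 : ℝ, 1 ≤ B0 ∧ ∀ (B N L s : ℝ) (m : ℕ), B0 ≤ B → 0 < N → 0 < L → 0 < s →
      B * N * s ^ 2 ≤ L ^ 3 → L ^ 3 ≤ K * s * N ^ 2 → N ≤ s ^ 2 →
      C1 * (N / L) ≤ m → (m : ℝ) ≤ C1 * (N / L) + 1 →
      ∀ q k0 : ℝ, q = c * m ^ 3 / N → k0 = ε * L / (256 * m) →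
      (1 : ℝ) ≤ m ∧ 0 < q ∧ q ≤ 1 ∧ 0 < k0 ∧ 4 ≤ q * N ∧ 64 ≤ q * (ε * L / 2) ∧
      1 / 2 ≤ q * k0 ∧ 8 ≤ N / L ∧
      (∀ r : ℕ, 4 * (q * k0) ≤ r → 2 * (C0 * L) / k0 * (Real.exp 1 / 4) ^ r ≤ ε / (192 * C0)) ∧
      Real.exp 1 * (2 * C0 * s ^ 2 / L) ≤ k0 ∧
      (∀ r : ℕ, 2 * (q * k0) ≤ r → ((1 : ℝ) / 2) ^ r ≤ ε / (192 * C0)) ∧
      (∀ r : ℕ, N / L < r + 1 → Real.exp 1 * (4 * C0 * s ^ 2 / L) * q ≤ 1 / 16 * r ∧
        2 * (C0 * L) / (4 * C0 * s ^ 2 / L) * ((1 : ℝ) / 16) ^ r ≤ ε / (192 * C0)) := by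
  have hC0' : 0 < C0 := by linarith
  have hK' : 0 < K := by linarith
  have hC1' : 0 < C1 := by linarith
  set δ : ℝ := ε / (192 * C0) with hδdef
  have hδ : 0 < δ := by positivity
  set γ : ℝ := c * ε / 256 with hγ
  have hγ0 : 0 < γ := by positivity
  obtain ⟨X1, hX1⟩ := exists_pow_exp 1 (512 * C0 / (ε * γ)) δ hδ
  obtain ⟨X2, hX2⟩ := exists_pow_exp 0 1 δ hδ
  obtain ⟨X3, hX3⟩ := exists_pow_exp 4 (K ^ 2) δ hδ
  obtain ⟨T0, hT0⟩ : ∃ T0 : ℝ, 8 ≤ T0 ∧ 4 / c ≤ T0 ∧ 128 / (c * ε) ≤ T0 ∧ X1 / γ ≤ T0 ∧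
      X2 / γ ≤ T0 ∧ X3 ≤ T0 := by
    exact exists_max6 _ _ _ _ _ _
  obtain ⟨t8, t1, t2, t3, t4, t5⟩ := hT0
  obtain ⟨B0, hB0⟩ : ∃ B0 : ℝ, 1 ≤ B0 ∧ K ^ 2 * T0 ^ 3 ≤ B0 ∧ 8 * c * C1 ^ 3 ≤ B0 ∧
      3072 * (C0 * C1) / ε ≤ B0 ∧ 16 * (64 * 3 * C0 * c * C1 ^ 3) ≤ B0 := by
    exact exists_max5 _ _ _ _ _
  obtain ⟨B1, B2, B3, B4, B5⟩ := hB0
  refine ⟨B0, B1, ?_⟩
  intro B N L s m hB hN hL hs F1 F2 F3 hm1 hm2 q k0 hq hk0
  have hBp : 0 < B := by linarith
  set t : ℝ := N / L with ht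
  have ht0 : 0 < t := by positivity
  have hNt : N = t * L := by rw [ht]; field_simp
  -- t is large
  have hLt : L ≤ K * s * t ^ 2 := by
    have : L ^ 2 * L ≤ L ^ 2 * (K * s * t ^ 2) := by
      calc L ^ 2 * L = L ^ 3 := by ring
        _ ≤ K * s * N ^ 2 := F2
        _ = L ^ 2 * (K * s * t ^ 2) := by rw [hNt]; ring
    exact le_of_mul_le_mul_left this (by positivity)
  have hBt : B * t * s ^ 2 ≤ L ^ 2 := by
    have : L * (B * t * s ^ 2) ≤ L * L ^ 2 := by
      calc L * (B * t * s ^ 2) = B * N * s ^ 2 := by rw [hNt]; ring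
        _ ≤ L ^ 3 := F1
        _ = L * L ^ 2 := by ring
    exact le_of_mul_le_mul_left this hL
  have hBK : B ≤ K ^ 2 * t ^ 3 := by
    have h1 : L ^ 2 ≤ (K * s * t ^ 2) ^ 2 := pow_le_pow_left₀ hL.le hLt 2
    have h2 : (t * s ^ 2) * B ≤ (t * s ^ 2) * (K ^ 2 * t ^ 3) := by
      calc (t * s ^ 2) * B = B * t * s ^ 2 := by ring
        _ ≤ (K * s * t ^ 2) ^ 2 := hBt.trans h1
        _ = (t * s ^ 2) * (K ^ 2 * t ^ 3) := by ring
    exact le_of_mul_le_mul_left h2 (by positivity)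
  have hT0t : T0 ≤ t := by
    by_contra hcon
    push Not at hcon
    have h1 : t ^ 3 < T0 ^ 3 := pow_lt_pow_left₀ hcon ht0.le (by norm_num)
    have h2 : K ^ 2 * t ^ 3 < K ^ 2 * T0 ^ 3 := mul_lt_mul_of_pos_left h1 (by positivity)
    linarith
  have htm : t ≤ m := by
    calc t = 1 * t := (one_mul t).symm
      _ ≤ C1 * t := mul_le_mul_of_nonneg_right hC1 ht0.le
      _ ≤ m := hm1
  have hm0 : (1 : ℝ) ≤ m := by linarith
  have hmp : (0 : ℝ) < m := by linarith
  have hm3 : (m : ℝ) ≤ 2 * (C1 * t) := by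
    have : 1 ≤ C1 * t := by nlinarith
    linarith
  have hqpos : 0 < q := by rw [hq]; positivity
  have hk0pos : 0 < k0 := by rw [hk0]; positivity
  have hqN : q * N = c * m ^ 3 := by rw [hq]; field_simp
  have hm_cube : (m : ℝ) ^ 3 ≤ 8 * C1 ^ 3 * t ^ 3 := by
    calc (m : ℝ) ^ 3 ≤ (2 * (C1 * t)) ^ 3 := pow_le_pow_left₀ hmp.le hm3 3
      _ = 8 * C1 ^ 3 * t ^ 3 := by ring
  -- t^3 ≤ N^2 / (B s^2) ... in the form  B s^2 t^3 ≤ N^2
  have hts : B * s ^ 2 * t ^ 3 ≤ N ^ 2 := by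
    calc B * s ^ 2 * t ^ 3 = t ^ 2 * (B * t * s ^ 2) := by ring
      _ ≤ t ^ 2 * L ^ 2 := mul_le_mul_of_nonneg_left hBt (by positivity)
      _ = N ^ 2 := by rw [hNt]; ring
  have hqs : q * s ^ 2 * B ≤ 8 * c * C1 ^ 3 * N := by
    have h1 : q * s ^ 2 * B * N ≤ 8 * c * C1 ^ 3 * N * N := by
      calc q * s ^ 2 * B * N = (q * N) * (B * s ^ 2) := by ring
        _ = c * m ^ 3 * (B * s ^ 2) := by rw [hqN]
        _ ≤ c * (8 * C1 ^ 3 * t ^ 3) * (B * s ^ 2) := by gcongr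
        _ = 8 * c * C1 ^ 3 * (B * s ^ 2 * t ^ 3) := by ring
        _ ≤ 8 * c * C1 ^ 3 * N ^ 2 := mul_le_mul_of_nonneg_left hts (by positivity)
        _ = 8 * c * C1 ^ 3 * N * N := by ring
    exact le_of_mul_le_mul_right h1 hN
  have hq1 : q ≤ 1 := by
    have h1 : q * (N * B) ≤ 1 * (N * B) := by
      calc q * (N * B) ≤ q * (s ^ 2 * B) := by gcongr
        _ = q * s ^ 2 * B := by ring
        _ ≤ 8 * c * C1 ^ 3 * N := hqs
        _ ≤ B0 * N := by gcongr
        _ ≤ B * N := by gcongr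
        _ = 1 * (N * B) := by ring
    exact le_of_mul_le_mul_right h1 (by positivity)
  have hqk : q * k0 = γ * (m ^ 2 / t) := by
    rw [hq, hk0, hγ, hNt]; field_simp
  have hmt : (m : ℝ) ≤ m ^ 2 / t := by
    rw [le_div_iff₀ ht0, sq]
    exact mul_le_mul_of_nonneg_left htm hmp.le
  have hqk2 : γ * m ≤ q * k0 := by rw [hqk]; exact mul_le_mul_of_nonneg_left hmt hγ0.le
  have hγm : γ * T0 ≤ γ * m := mul_le_mul_of_nonneg_left (hT0t.trans htm) hγ0.le
  have h128 : 1 / 2 ≤ γ * m := by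
    have h1 : γ * (128 / (c * ε)) ≤ γ * T0 := mul_le_mul_of_nonneg_left t2 hγ0.le
    have h2 : γ * (128 / (c * ε)) = 1 / 2 := by rw [hγ]; field_simp; norm_num
    linarith
  refine ⟨hm0, hqpos, hq1, hk0pos, ?_, ?_, ?_, ?_, ?_, ?_, ?_, ?_⟩
  · -- 4 ≤ q N
    rw [hqN]
    have h1 : 4 ≤ c * m := by
      have h2 : 4 / c ≤ m := t1.trans (hT0t.trans htm)
      rw [div_le_iff₀ hc] at h2
      linarith
    have h2 : (m : ℝ) ≤ m ^ 3 := by
      calc (m : ℝ) = m ^ 1 := (pow_one _).symm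
        _ ≤ m ^ 3 := pow_le_pow_right₀ hm0 (by norm_num)
    calc (4 : ℝ) ≤ c * m := h1
      _ ≤ c * m ^ 3 := mul_le_mul_of_nonneg_left h2 hc.le
  · -- 64 ≤ q * (ε L / 2)
    have h1 : q * (ε * L / 2) = 128 * m * (q * k0) := by
      rw [hk0]; field_simp; norm_num
    rw [h1]
    have h2 : 1 / 2 ≤ q * k0 := h128.trans hqk2
    nlinarith
  · exact h128.trans hqk2
  · exact t8.trans hT0t
  · -- (A)
    intro r hr
    have h1 : (Real.exp 1 / 4) ^ r ≤ Real.exp (-(γ * m)) := by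
      refine (exp_one_div_four r).trans (Real.exp_le_exp.2 ?_)
      linarith
    have h2 : 2 * (C0 * L) / k0 = 512 * C0 / ε * m := by
      rw [hk0]; field_simp; norm_num
    rw [h2]
    have h3 : X1 ≤ γ * m := by
      have : X1 / γ ≤ m := t3.trans (hT0t.trans htm)
      rw [div_le_iff₀ hγ0] at this
      linarith
    calc 512 * C0 / ε * m * (Real.exp 1 / 4) ^ r ≤ 512 * C0 / ε * m * Real.exp (-(γ * m)) :=
          mul_le_mul_of_nonneg_left h1 (by positivity)
      _ = 512 * C0 / (ε * γ) * ((γ * m) ^ 1 * Real.exp (-(γ * m))) := by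
          field_simp
      _ ≤ δ := hX1 _ h3
  · -- e ρ ≤ k0
    have he : Real.exp 1 ≤ 3 := by linarith [Real.exp_one_lt_d9]
    have h1 : 2 * C0 * s ^ 2 / L ≤ 2 * C0 * L / (B * t) := by
      rw [div_le_div_iff₀ hL (by positivity)]
      calc 2 * C0 * s ^ 2 * (B * t) = 2 * C0 * (B * t * s ^ 2) := by ring
        _ ≤ 2 * C0 * L ^ 2 := mul_le_mul_of_nonneg_left hBt (by positivity)
        _ = 2 * C0 * L * L := by ring
    have h2 : 3 * (2 * C0 * L / (B * t)) ≤ ε * L / (512 * (C1 * t)) := by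
      rw [mul_div_assoc', div_le_div_iff₀ (by positivity) (by positivity)]
      have h3 : 3072 * (C0 * C1) ≤ ε * B := by
        have := B4.trans hB
        rw [div_le_iff₀ hε] at this
        linarith
      calc 3 * (2 * C0 * L) * (512 * (C1 * t)) = (3072 * (C0 * C1)) * (L * t) := by ring
        _ ≤ (ε * B) * (L * t) := mul_le_mul_of_nonneg_right h3 (by positivity)
        _ = ε * L * (B * t) := by ring
    have h3 : ε * L / (512 * (C1 * t)) ≤ k0 := by
      rw [hk0]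
      apply div_le_div_of_nonneg_left (by positivity) (by positivity)
      nlinarith
    calc Real.exp 1 * (2 * C0 * s ^ 2 / L) ≤ 3 * (2 * C0 * s ^ 2 / L) :=
          mul_le_mul_of_nonneg_right he (by positivity)
      _ ≤ 3 * (2 * C0 * L / (B * t)) := mul_le_mul_of_nonneg_left h1 (by norm_num)
      _ ≤ k0 := h2.trans h3
  · -- (R)
    intro r hr
    have h1 : ((1 : ℝ) / 2) ^ r ≤ Real.exp (-(γ * m)) := by
      refine (half_pow r).trans (Real.exp_le_exp.2 ?_)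
      linarith
    have h3 : X2 ≤ γ * m := by
      have : X2 / γ ≤ m := t4.trans (hT0t.trans htm)
      rw [div_le_iff₀ hγ0] at this
      linarith
    have h4 := hX2 _ h3
    rw [pow_zero, one_mul, one_mul] at h4
    exact h1.trans h4
  · -- (b)
    intro r hr
    have hr2 : t / 2 ≤ r := by linarith
    constructor
    · have he : Real.exp 1 ≤ 3 := by linarith [Real.exp_one_lt_d9]
      -- 3 * 4 C0 s^2 q / L ≤ t / 32
      have h1 : 3 * (4 * C0 * s ^ 2 / L) * q ≤ t / 32 := by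
        have h2 : 3 * (4 * C0 * s ^ 2 / L) * q = 12 * C0 * (q * s ^ 2) / L := by ring
        rw [h2, div_le_div_iff₀ hL (by norm_num)]
        have h3 : 12 * C0 * (q * s ^ 2) * 32 * B ≤ t * L * B := by
          calc 12 * C0 * (q * s ^ 2) * 32 * B = 384 * C0 * (q * s ^ 2 * B) := by ring
            _ ≤ 384 * C0 * (8 * c * C1 ^ 3 * N) :=
                mul_le_mul_of_nonneg_left hqs (by positivity)
            _ = 16 * (64 * 3 * C0 * c * C1 ^ 3) * N := by ring
            _ ≤ B0 * N := mul_le_mul_of_nonneg_right B5 hN.le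
            _ ≤ B * N := mul_le_mul_of_nonneg_right hB hN.le
            _ = t * L * B := by rw [hNt]; ring
        exact le_of_mul_le_mul_right h3 hBp
      calc Real.exp 1 * (4 * C0 * s ^ 2 / L) * q ≤ 3 * (4 * C0 * s ^ 2 / L) * q := by
            gcongr
        _ ≤ t / 32 := h1
        _ ≤ 1 / 16 * r := by linarith
    · have h1 : ((1 : ℝ) / 16) ^ r ≤ Real.exp (-t) := by
        refine (sixteenth_pow r).trans (Real.exp_le_exp.2 ?_)
        linarith
      have h2 : 2 * (C0 * L) / (4 * C0 * s ^ 2 / L) ≤ K ^ 2 * t ^ 4 := by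
        have h3 : 2 * (C0 * L) / (4 * C0 * s ^ 2 / L) = L ^ 2 / (2 * s ^ 2) := by
          field_simp; norm_num
        rw [h3, div_le_iff₀ (by positivity)]
        calc L ^ 2 ≤ (K * s * t ^ 2) ^ 2 := pow_le_pow_left₀ hL.le hLt 2
          _ ≤ K ^ 2 * t ^ 4 * (2 * s ^ 2) := by
              have : 0 ≤ K ^ 2 * t ^ 4 * s ^ 2 := by positivity
              nlinarith
      have h4 := hX3 t (t5.trans hT0t)
      calc 2 * (C0 * L) / (4 * C0 * s ^ 2 / L) * ((1 : ℝ) / 16) ^ r ≤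
            (K ^ 2 * t ^ 4) * Real.exp (-t) := by
            apply mul_le_mul h2 h1 (by positivity) (by positivity)
        _ = K ^ 2 * (t ^ 4 * Real.exp (-t)) := by ring
        _ ≤ δ := h4

end Num

section Main

open Crest.Agent.R065.D3

/-- points of `Z` null to `z` on the product of the lines `w.1 w'.1` and `w.2 w'.2` -/
noncomputable def Yl (Z : Finset PP) (z w w' : PP) : Finset PP :=
  open scoped Classical in
  Z.filter fun y => Nul z y ∧ Collinear ℝ ({w.1, w'.1, y.1} : Set (EuclideanSpace ℝ (Fin 3))) ∧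
    Collinear ℝ ({w.2, w'.2, y.2} : Set (EuclideanSpace ℝ (Fin 3)))

lemma mem_Yl {Z : Finset PP} {z w w' y : PP} : y ∈ Yl Z z w w' ↔ y ∈ Z ∧ Nul z y ∧
    Collinear ℝ ({w.1, w'.1, y.1} : Set (EuclideanSpace ℝ (Fin 3))) ∧
    Collinear ℝ ({w.2, w'.2, y.2} : Set (EuclideanSpace ℝ (Fin 3))) := by
  unfold Yl; simp

/-- points of `Z` over the line `z.1 w.1`, with the right distances -/
noncomputable def Rz (Z : Finset PP) (z w : PP) : Finset PP :=
  open scoped Classical in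
  Z.filter fun y => Collinear ℝ ({z.1, w.1, y.1} : Set (EuclideanSpace ℝ (Fin 3))) ∧
    dist z.1 y.1 = dist z.2 y.2 ∧ dist w.1 y.1 = dist w.2 y.2

lemma mem_Rz {Z : Finset PP} {z w y : PP} : y ∈ Rz Z z w ↔ y ∈ Z ∧
    Collinear ℝ ({z.1, w.1, y.1} : Set (EuclideanSpace ℝ (Fin 3))) ∧
    dist z.1 y.1 = dist z.2 y.2 ∧ dist w.1 y.1 = dist w.2 y.2 := by
  unfold Rz; simp

lemma Yl_fib_fst {Z : Finset PP} {z w w' : PP} (h2 : w.2 ≠ w'.2)
    (a : EuclideanSpace ℝ (Fin 3)) (W : Finset PP) (hW : ∀ y ∈ W, y ∈ Yl Z z w w' ∧ y.1 = a) :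
    W.card ≤ 2 := by
  classical
  have h : (W.image Prod.snd).card = W.card := by
    apply Finset.card_image_of_injOn
    intro x hx y hy hxy
    exact Prod.ext ((hW x hx).2.trans (hW y hy).2.symm) hxy
  rw [← h]
  apply card_line_sphere (b := w.2) (b' := w'.2) (p := z.2) (ρ := dist z.1 a) h2
  intro x hx
  obtain ⟨y, hy, rfl⟩ := Finset.mem_image.1 hx
  obtain ⟨hY, rfl⟩ := hW y hy
  rw [mem_Yl] at hY
  exact ⟨hY.2.2.2, hY.2.1.1.symm⟩

lemma Yl_fib_snd {Z : Finset PP} {z w w' : PP} (h1 : w.1 ≠ w'.1)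
    (b : EuclideanSpace ℝ (Fin 3)) (W : Finset PP) (hW : ∀ y ∈ W, y ∈ Yl Z z w w' ∧ y.2 = b) :
    W.card ≤ 2 := by
  classical
  have h : (W.image Prod.fst).card = W.card := by
    apply Finset.card_image_of_injOn
    intro x hx y hy hxy
    exact Prod.ext hxy ((hW x hx).2.trans (hW y hy).2.symm)
  rw [← h]
  apply card_line_sphere (b := w.1) (b' := w'.1) (p := z.1) (ρ := dist z.2 b) h1
  intro x hx
  obtain ⟨y, hy, rfl⟩ := Finset.mem_image.1 hx
  obtain ⟨hY, rfl⟩ := hW y hy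
  rw [mem_Yl] at hY
  exact ⟨hY.2.2.1, hY.2.1.1⟩

/-- hypothesis: no line contains too many first coordinates -/
def LineBd (Z : Finset PP) (M : ℝ) : Prop :=
  ∀ a b : EuclideanSpace ℝ (Fin 3), a ≠ b → ∀ W : Finset (EuclideanSpace ℝ (Fin 3)),
    (∀ x ∈ W, (∃ z ∈ Z, z.1 = x) ∧ Collinear ℝ ({a, b, x} : Set (EuclideanSpace ℝ (Fin 3)))) →
    (W.card : ℝ) ≤ M

lemma card_Yl {Z : Finset PP} {M : ℝ} (hl : LineBd Z M) {z w w' : PP} (h1 : w.1 ≠ w'.1)
    (h2 : w.2 ≠ w'.2) : ((Yl Z z w w').card : ℝ) ≤ 2 * M := by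
  classical
  have h3 := Finset.card_le_mul_card_image (f := Prod.fst) (Yl Z z w w') 2 (by
    intro a _
    apply Yl_fib_fst (Z := Z) (z := z) h2 a
    intro y hy
    exact Finset.mem_filter.1 hy)
  have h4 : (((Yl Z z w w').image Prod.fst).card : ℝ) ≤ M := by
    apply hl w.1 w'.1 h1
    intro x hx
    obtain ⟨y, hy, rfl⟩ := Finset.mem_image.1 hx
    rw [mem_Yl] at hy
    exact ⟨⟨y, hy.1, rfl⟩, hy.2.2.1⟩
  have h5 : ((Yl Z z w w').card : ℝ) ≤ 2 * ((Yl Z z w w').image Prod.fst).card := by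
    exact_mod_cast h3
  linarith

lemma card_Rz {Z : Finset PP} {M : ℝ} (hl : LineBd Z M) {z w : PP} (h : Nul z w) :
    ((Rz Z z w).card : ℝ) ≤ M := by
  classical
  have h1 : ((Rz Z z w).image Prod.fst).card = (Rz Z z w).card := by
    apply Finset.card_image_of_injOn
    intro x hx y hy hxy
    have hx' := mem_Rz.1 (Finset.mem_coe.1 hx)
    have hy' := mem_Rz.1 (Finset.mem_coe.1 hy)
    refine Prod.ext hxy ?_
    have hxy' : x.1 = y.1 := hxy
    exact det_unique h.2 hx'.2.1 h.1 hx'.2.2.1 hx'.2.2.2 (by rw [hxy']; exact hy'.2.2.1)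
      (by rw [hxy']; exact hy'.2.2.2)
  rw [← h1]
  apply hl z.1 w.1 h.2
  intro x hx
  obtain ⟨y, hy, rfl⟩ := Finset.mem_image.1 hx
  rw [mem_Rz] at hy
  exact ⟨⟨y, hy.1, rfl⟩, hy.2.1⟩

lemma collinear_pair_left (a b : EuclideanSpace ℝ (Fin 3)) :
    Collinear ℝ ({a, b, a} : Set (EuclideanSpace ℝ (Fin 3))) := by
  have : ({a, b, a} : Set (EuclideanSpace ℝ (Fin 3))) = {a, b} := by
    ext x; simp only [Set.mem_insert_iff, Set.mem_singleton_iff]; tauto
  rw [this]; exact collinear_pair ℝ a b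

lemma collinear_pair_right (a b : EuclideanSpace ℝ (Fin 3)) :
    Collinear ℝ ({a, b, b} : Set (EuclideanSpace ℝ (Fin 3))) := by
  have : ({a, b, b} : Set (EuclideanSpace ℝ (Fin 3))) = {a, b} := by
    ext x; simp only [Set.mem_insert_iff, Set.mem_singleton_iff]; tauto
  rw [this]; exact collinear_pair ℝ a b

lemma left_mem_Rz {Z : Finset PP} {z w : PP} (hz : z ∈ Z) (h : Nul z w) : z ∈ Rz Z z w := by
  rw [mem_Rz]
  refine ⟨hz, collinear_pair_left _ _, by simp, ?_⟩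
  rw [dist_comm, h.1, dist_comm]

lemma right_mem_Rz {Z : Finset PP} {z w : PP} (hw : w ∈ Z) (h : Nul z w) : w ∈ Rz Z z w := by
  rw [mem_Rz]
  exact ⟨hw, collinear_pair_right _ _, h.1, by simp⟩

lemma inter_sub_Rz {Z : Finset PP} {SS : Finset (Finset PP)} (hB : Blocks Z SS) {z w : PP}
    (h : Nul z w) {X X' : Finset PP} (hX : X ∈ SS) (hX' : X' ∈ SS) (hne : X ≠ X')
    (hzX : z ∈ X) (hwX : w ∈ X) (hzX' : z ∈ X') (hwX' : w ∈ X') {y : PP} (hy : y ∈ X)
    (hy' : y ∈ X') : y ∈ Rz Z z w := by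
  rw [mem_Rz]
  refine ⟨hB.sub X hX hy, ?_, hB.iso X hX z hzX y hy, hB.iso X hX w hwX y hy⟩
  refine (hB.col X hX X' hX' hne).subset ?_
  intro x hx
  simp only [Set.mem_insert_iff, Set.mem_singleton_iff] at hx
  rcases hx with rfl | rfl | rfl
  · exact ⟨z, hzX, hzX', rfl⟩
  · exact ⟨w, hwX, hwX', rfl⟩
  · exact ⟨y, hy, hy', rfl⟩

/-- the line families agree when they share a generic point -/
lemma Yl_eq {Z : Finset PP} {z w w' w'' y : PP} (h1 : w'.1 ≠ w.1) (h2 : w'.2 ≠ w.2)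
    (h1' : w''.1 ≠ w.1) (h2' : w''.2 ≠ w.2) (hy : y ∈ Yl Z z w w') (hy' : y ∈ Yl Z z w w'')
    (hy1 : y.1 ≠ w.1) (hy2 : y.2 ≠ w.2) : Yl Z z w w' = Yl Z z w w'' := by
  rw [mem_Yl] at hy hy'
  ext u
  rw [mem_Yl, mem_Yl, onL_congr h1.symm hy.2.2.1 hy1.symm, onL_congr h2.symm hy.2.2.2 hy2.symm,
    onL_congr h1'.symm hy'.2.2.1 hy1.symm, onL_congr h2'.symm hy'.2.2.2 hy2.symm]

set_option maxHeartbeats 1600000 in
/-- **Sampling lemma (r65_d3, section 5).** -/
theorem sampling (C0 K ε C1 c : ℝ) (hC0 : 1 ≤ C0) (hK : 1 ≤ K) (hε : 0 < ε) (hC1 : 1 ≤ C1)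
    (hc : 0 < c) : ∃ B0 : ℝ, ∀ (B : ℝ) (Z : Finset PP) (L : ℝ), B0 ≤ B → Reg Nul C0 B Z L →
      LineBd Z (2 * C0 * (ss Z : ℝ) ^ 2 / L) →
      L ^ 3 ≤ K * ss Z * (Z.card : ℝ) ^ 2 →
      ∀ m : ℕ, C1 * (Z.card / L) ≤ m → (m : ℝ) ≤ C1 * (Z.card / L) + 1 →
      ∀ SS : Finset (Finset PP), Blocks Z SS →
      ∀ NN : PP → PP → Prop, (∀ z w, NN z w → Nul z w) →
      (∀ z w, NN z w → ∀ X ∈ SS, z ∈ X → w ∈ X → (X.card : ℝ) ≤ ε * L / (256 * m)) →
      ∀ Z1 ⊆ Z, (∀ z ∈ Z1, ∃ W ⊆ Z, (∀ w ∈ W, NN z w) ∧ ε * L / 2 ≤ (W.card : ℝ)) →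
      ∃ Z' ⊆ Z, (Z'.card : ℝ) ≤ 2 * (c * m ^ 3) ∧ ∃ Z2 ⊆ Z1, Z1.card ≤ 2 * Z2.card ∧
        ∀ z ∈ Z2, ∃ Sg ⊆ Z', (∀ w ∈ Sg, NN z w) ∧
          c * m ^ 3 * (ε * L) / (8 * Z.card) ≤ (Sg.card : ℝ) ∧
          (∀ X ∈ SS, z ∈ X → ∀ W ⊆ Sg, W ⊆ X → 4 * m * (W.card : ℝ) ≤ Sg.card) ∧
          (∀ a a' b b' : EuclideanSpace ℝ (Fin 3), a ≠ a' → b ≠ b' → ∀ W ⊆ Sg,
            (∀ w ∈ W, Collinear ℝ ({a, a', w.1} : Set (EuclideanSpace ℝ (Fin 3))) ∧
              Collinear ℝ ({b, b', w.2} : Set (EuclideanSpace ℝ (Fin 3)))) →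
            (W.card : ℝ) ≤ Z.card / L) := by
  classical
  obtain ⟨B0, hB01, hnum⟩ := numeric C0 K ε C1 c hC0 hK hε hC1 hc
  refine ⟨B0, ?_⟩
  intro B Z L hB hReg hl h15 m hm1 hm2 SS hBl NN hNN hNNX Z1 hZ1 hZ1W
  have hL := hReg.L_pos
  have hN : (0 : ℝ) < Z.card := by exact_mod_cast hReg.ne.card_pos
  have hs : (0 : ℝ) < ss Z := by exact_mod_cast ss_pos hReg.ne
  have F3 : (Z.card : ℝ) ≤ (ss Z : ℝ) ^ 2 := by exact_mod_cast card_le_ss_sq Z
  obtain ⟨hm0, hq0, hq1, hk0, hqN, hqn, hqk, ht8, hA, hRk, hR, hb⟩ :=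
    hnum B Z.card L (ss Z) m hB hN hL hs hReg.big h15 F3 hm1 hm2 _ _ rfl rfl
  set q : ℝ := c * m ^ 3 / Z.card with hqdef
  set k0 : ℝ := ε * L / (256 * m) with hk0def
  set δ : ℝ := ε / (192 * C0) with hδdef
  have hC0' : 0 < C0 := by linarith
  have hδ : 0 < δ := by positivity
  set ra : ℕ := ⌈4 * (q * k0)⌉₊ with hra
  set rR : ℕ := ⌈2 * (q * k0)⌉₊ with hrR
  set rb : ℕ := ⌊(Z.card : ℝ) / L⌋₊ with hrb
  have hra1 : 4 * (q * k0) ≤ ra := Nat.le_ceil _
  have hrR1 : 2 * (q * k0) ≤ rR := Nat.le_ceil _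
  have hra2 : (ra : ℝ) < 4 * (q * k0) + 1 := Nat.ceil_lt_add_one (by positivity)
  have hrR2 : (rR : ℝ) < 2 * (q * k0) + 1 := Nat.ceil_lt_add_one (by positivity)
  have hrb1 : (rb : ℝ) ≤ Z.card / L := Nat.floor_le (by positivity)
  have hrb2 : (Z.card : ℝ) / L < rb + 1 := Nat.lt_floor_add_one _
  have hrb8 : 8 ≤ rb := Nat.le_floor (by exact_mod_cast ht8)
  have hra0 : 1 ≤ ra := by
    have : (0 : ℝ) < ra := lt_of_lt_of_le (by linarith) hra1
    exact_mod_cast this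
  have hrR0 : 1 ≤ rR := by
    have : (0 : ℝ) < rR := lt_of_lt_of_le (by linarith) hrR1
    exact_mod_cast this
  -- the families
  let Nf : PP → Finset PP := fun z => Z.filter fun w => NN z w
  let DDa : PP → PP → Finset (Finset PP) := fun z w =>
    (SS.filter fun X => z ∈ X ∧ w ∈ X).image fun X => X \ Rz Z z w
  let DDb : PP → PP → Finset (Finset PP) := fun z w =>
    ((nb Nul Z z).filter fun w' => w'.1 ≠ w.1 ∧ w'.2 ≠ w.2).image fun w' =>
      (Yl Z z w w').erase w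
  let Fam : PP → PP → Finset (Finset PP × ℕ) := fun z w =>
    ((DDa z w).image fun D => (D, ra)) ∪
      (((DDb z w).image fun D => (D, rb)) ∪ {((Rz Z z w).erase w, rR)})
  have hnb : ∀ z ∈ Z, ((nb Nul Z z).card : ℝ) ≤ C0 * L := fun z hz => hReg.deg_le z hz
  have hNf : ∀ z, Nf z ⊆ nb Nul Z z := by
    intro z w hw
    obtain ⟨h1, h2⟩ := Finset.mem_filter.1 hw
    exact mem_nb.2 ⟨h1, hNN z w h2⟩
  -- sum bounds
  have hsumA : ∀ z ∈ Z1, ∀ w ∈ Nf z,
      ∑ D ∈ DDa z w, (D.card.choose ra : ℝ) * q ^ ra ≤ δ := by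
    intro z hz w hw
    have hzZ := hZ1 hz
    obtain ⟨hwZ, hNzw⟩ := Finset.mem_filter.1 hw
    have hzw : Nul z w := hNN z w hNzw
    have h := sum_tail (DDa z w) id (nb Nul Z z) (r := ra) (M := k0) (q := q)
      (x := Real.exp 1 / 4) hra0 hk0 hq0.le (by positivity) ?_ ?_ ?_ ?_ ?_
    · refine h.trans (le_trans ?_ (hA ra hra1))
      apply mul_le_mul_of_nonneg_right _ (by positivity)
      apply div_le_div_of_nonneg_right _ hk0.le
      have := hnb z hzZ
      linarith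
    · have : Real.exp 1 * k0 * q = Real.exp 1 / 4 * (4 * (q * k0)) := by ring
      rw [this]
      exact mul_le_mul_of_nonneg_left hra1 (by positivity)
    · intro D hD _
      obtain ⟨X, hX, rfl⟩ := Finset.mem_image.1 hD
      obtain ⟨hXS, hzX, hwX⟩ := Finset.mem_filter.1 hX
      have h1 : ((X \ Rz Z z w).card : ℝ) ≤ X.card := by
        exact_mod_cast Finset.card_le_card Finset.sdiff_subset
      exact h1.trans (hNNX z w hNzw X hXS hzX hwX)
    · intro D _ _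
      simp only [id]; omega
    · intro D hD
      obtain ⟨X, hX, rfl⟩ := Finset.mem_image.1 hD
      obtain ⟨hXS, hzX, hwX⟩ := Finset.mem_filter.1 hX
      intro y hy
      simp only [id] at hy
      obtain ⟨hyX, hyR⟩ := Finset.mem_sdiff.1 hy
      rw [mem_nb]
      refine ⟨hBl.sub X hXS hyX, hBl.iso X hXS z hzX y hyX, ?_⟩
      intro hzy
      apply hyR
      have h2 : z = y := by
        refine Prod.ext hzy ?_
        have := hBl.iso X hXS z hzX y hyX
        rw [hzy, dist_self] at this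
        exact dist_eq_zero.1 this.symm
      rw [← h2]
      exact left_mem_Rz hzZ hzw
    · intro D hD D' hD' hne
      obtain ⟨X, hX, rfl⟩ := Finset.mem_image.1 hD
      obtain ⟨hXS, hzX, hwX⟩ := Finset.mem_filter.1 hX
      obtain ⟨X', hX', rfl⟩ := Finset.mem_image.1 hD'
      obtain ⟨hXS', hzX', hwX'⟩ := Finset.mem_filter.1 hX'
      have hXX : X ≠ X' := fun h => hne (by rw [h])
      rw [Finset.disjoint_left]
      intro y hy hy'
      simp only [id] at hy hy'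
      obtain ⟨hyX, hyR⟩ := Finset.mem_sdiff.1 hy
      obtain ⟨hyX', _⟩ := Finset.mem_sdiff.1 hy'
      exact hyR (inter_sub_Rz hBl hzw hXS hXS' hXX hzX hwX hzX' hwX' hyX hyX')
  have hsumB : ∀ z ∈ Z1, ∀ w ∈ Nf z,
      ∑ D ∈ DDb z w, (D.card.choose rb : ℝ) * q ^ rb ≤ δ := by
    intro z hz w hw
    have hzZ := hZ1 hz
    obtain ⟨hwZ, hNzw⟩ := Finset.mem_filter.1 hw
    have hzw : Nul z w := hNN z w hNzw
    obtain ⟨hb1, hb2⟩ := hb rb hrb2
    have hM : (0 : ℝ) < 4 * C0 * (ss Z : ℝ) ^ 2 / L := by positivity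
    have h := sum_tail (DDb z w) (fun D => D.filter fun y => y.1 ≠ w.1 ∧ y.2 ≠ w.2)
      (nb Nul Z z) (r := rb) (M := 4 * C0 * (ss Z : ℝ) ^ 2 / L) (q := q)
      (x := 1 / 16) (by omega) hM hq0.le (by norm_num) hb1 ?_ ?_ ?_ ?_
    · refine h.trans (le_trans ?_ hb2)
      apply mul_le_mul_of_nonneg_right _ (by positivity)
      apply div_le_div_of_nonneg_right _ hM.le
      have := hnb z hzZ
      linarith
    · intro D hD _
      obtain ⟨w', hw', rfl⟩ := Finset.mem_image.1 hD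
      obtain ⟨_, h1, h2⟩ := Finset.mem_filter.1 hw'
      have h3 : (((Yl Z z w w').erase w).card : ℝ) ≤ (Yl Z z w w').card := by
        exact_mod_cast Finset.card_le_card (Finset.erase_subset _ _)
      have h4 := card_Yl hl (z := z) h1.symm h2.symm
      have h5 : 2 * (2 * C0 * (ss Z : ℝ) ^ 2 / L) = 4 * C0 * (ss Z : ℝ) ^ 2 / L := by ring
      linarith
    · intro D hD hrD
      obtain ⟨w', hw', rfl⟩ := Finset.mem_image.1 hD
      obtain ⟨_, h1, h2⟩ := Finset.mem_filter.1 hw'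
      set D := (Yl Z z w w').erase w with hDdef
      have h3 : D ⊆ (D.filter fun y => y.1 ≠ w.1 ∧ y.2 ≠ w.2) ∪
          ((D.filter fun y => y.1 = w.1) ∪ (D.filter fun y => y.2 = w.2)) := by
        intro y hy
        simp only [Finset.mem_union, Finset.mem_filter]
        tauto
      have h4 : (D.filter fun y => y.1 = w.1).card ≤ 2 := by
        apply Yl_fib_fst (Z := Z) (z := z) h2.symm w.1
        intro y hy
        obtain ⟨hy1, hy2⟩ := Finset.mem_filter.1 hy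
        exact ⟨Finset.mem_of_mem_erase hy1, hy2⟩
      have h5 : (D.filter fun y => y.2 = w.2).card ≤ 2 := by
        apply Yl_fib_snd (Z := Z) (z := z) h1.symm w.2
        intro y hy
        obtain ⟨hy1, hy2⟩ := Finset.mem_filter.1 hy
        exact ⟨Finset.mem_of_mem_erase hy1, hy2⟩
      have h6 := Finset.card_le_card h3
      have h7 := Finset.card_union_le (D.filter fun y => y.1 ≠ w.1 ∧ y.2 ≠ w.2)
        ((D.filter fun y => y.1 = w.1) ∪ (D.filter fun y => y.2 = w.2))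
      have h8 := Finset.card_union_le (D.filter fun y => y.1 = w.1) (D.filter fun y => y.2 = w.2)
      have h9 : rb ≤ D.card := hrD
      show D.card ≤ 2 * (D.filter fun y => y.1 ≠ w.1 ∧ y.2 ≠ w.2).card
      omega
    · intro D hD
      obtain ⟨w', hw', rfl⟩ := Finset.mem_image.1 hD
      intro y hy
      have hy1 := Finset.mem_of_mem_erase (Finset.mem_filter.1 hy).1
      rw [mem_Yl] at hy1
      exact mem_nb.2 ⟨hy1.1, hy1.2.1⟩
    · intro D hD D' hD' hne
      obtain ⟨w', hw', rfl⟩ := Finset.mem_image.1 hD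
      obtain ⟨_, h1, h2⟩ := Finset.mem_filter.1 hw'
      obtain ⟨w'', hw'', rfl⟩ := Finset.mem_image.1 hD'
      obtain ⟨_, h1', h2'⟩ := Finset.mem_filter.1 hw''
      rw [Finset.disjoint_left]
      intro y hy hy'
      apply hne
      obtain ⟨hyD, hy1, hy2⟩ := Finset.mem_filter.1 hy
      obtain ⟨hyD', _, _⟩ := Finset.mem_filter.1 hy'
      rw [Yl_eq h1 h2 h1' h2' (Finset.mem_of_mem_erase hyD) (Finset.mem_of_mem_erase hyD')
        hy1 hy2]
  have hsumR : ∀ z ∈ Z1, ∀ w ∈ Nf z,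
      ((((Rz Z z w).erase w).card.choose rR : ℕ) : ℝ) * q ^ rR ≤ δ := by
    intro z hz w hw
    obtain ⟨hwZ, hNzw⟩ := Finset.mem_filter.1 hw
    have hzw : Nul z w := hNN z w hNzw
    have hM : (0 : ℝ) < 2 * C0 * (ss Z : ℝ) ^ 2 / L := by positivity
    have hn : ((((Rz Z z w).erase w).card : ℕ) : ℝ) ≤ 2 * C0 * (ss Z : ℝ) ^ 2 / L := by
      refine le_trans ?_ (card_Rz hl hzw)
      exact_mod_cast Finset.card_le_card (Finset.erase_subset _ _)
    have h := tail_bound (n := ((Rz Z z w).erase w).card) (r := rR)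
      (M := 2 * C0 * (ss Z : ℝ) ^ 2 / L) (q := q) (x := 1 / 2) hrR0 hM hn hq0.le ?_
    · refine h.trans (le_trans ?_ (hR rR hrR1))
      have h2 : ((((Rz Z z w).erase w).card : ℕ) : ℝ) / (2 * C0 * (ss Z : ℝ) ^ 2 / L) ≤ 1 :=
        (div_le_one hM).2 hn
      calc _ ≤ 1 * ((1 : ℝ) / 2) ^ rR := mul_le_mul_of_nonneg_right h2 (by positivity)
        _ = _ := one_mul _
    · calc Real.exp 1 * (2 * C0 * (ss Z : ℝ) ^ 2 / L) * q ≤ k0 * q :=
            mul_le_mul_of_nonneg_right hRk hq0.le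
        _ = 1 / 2 * (2 * (q * k0)) := by ring
        _ ≤ 1 / 2 * rR := mul_le_mul_of_nonneg_left hrR1 (by norm_num)
  -- apply the abstract theorem
  obtain ⟨Z', hZ'Z, hZ'c, Z2, hZ2, hZ2c, hgood⟩ := abstract_sampling Z hq0 hq1 Z1 Nf
    (fun z _ => Finset.filter_subset _ _) (n := ε * L / 2) (n' := C0 * L) (δ := 3 * δ)
    (by positivity) (by positivity)
    (by
      intro z hz
      obtain ⟨W, hWZ, hWN, hWc⟩ := hZ1W z hz
      refine hWc.trans ?_
      have : W ⊆ Nf z := fun w hw => Finset.mem_filter.2 ⟨hWZ hw, hWN w hw⟩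
      exact_mod_cast Finset.card_le_card this)
    (by
      intro z hz
      refine le_trans ?_ (hnb z (hZ1 hz))
      exact_mod_cast Finset.card_le_card (hNf z))
    Fam
    (by
      intro z hz w hw D hD
      obtain ⟨hwZ, hNzw⟩ := Finset.mem_filter.1 hw
      have hzw : Nul z w := hNN z w hNzw
      rcases Finset.mem_union.1 hD with hD | hD
      · obtain ⟨D', hD', rfl⟩ := Finset.mem_image.1 hD
        obtain ⟨X, hX, rfl⟩ := Finset.mem_image.1 hD'
        obtain ⟨hXS, hzX, hwX⟩ := Finset.mem_filter.1 hX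
        refine ⟨fun y hy => hBl.sub X hXS (Finset.mem_sdiff.1 hy).1, fun hy => ?_⟩
        exact (Finset.mem_sdiff.1 hy).2 (right_mem_Rz hwZ hzw)
      · rcases Finset.mem_union.1 hD with hD | hD
        · obtain ⟨D', hD', rfl⟩ := Finset.mem_image.1 hD
          obtain ⟨w', hw', rfl⟩ := Finset.mem_image.1 hD'
          exact ⟨fun y hy => (mem_Yl.1 (Finset.mem_of_mem_erase hy)).1,
            Finset.notMem_erase _ _⟩
        · rw [Finset.mem_singleton] at hD
          subst hD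
          exact ⟨fun y hy => (mem_Rz.1 (Finset.mem_of_mem_erase hy)).1,
            Finset.notMem_erase _ _⟩)
    (by
      intro z hz w hw
      have hnn : ∀ i : Finset PP × ℕ, 0 ≤ (i.1.card.choose i.2 : ℝ) * q ^ i.2 := by
        intro i; positivity
      refine (sum_union_le _ _ _ fun i _ => hnn i).trans ?_
      have h1 := sum_union_le ((DDb z w).image fun D => (D, rb))
        {((Rz Z z w).erase w, rR)} (fun i : Finset PP × ℕ => (i.1.card.choose i.2 : ℝ) * q ^ i.2)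
        fun i _ => hnn i
      have hinj : ∀ r : ℕ, Function.Injective fun D : Finset PP => (D, r) := by
        intro r D D' h
        exact (Prod.ext_iff.1 h).1
      have h2 := hsumA z hz w hw
      have h3 := hsumB z hz w hw
      have h4 := hsumR z hz w hw
      rw [Finset.sum_image (fun _ _ _ _ h => hinj rb h)] at h1
      rw [Finset.sum_image (fun _ _ _ _ h => hinj ra h)]
      rw [Finset.sum_singleton] at h1
      dsimp only at h1 ⊢
      linarith)
    hqN hqn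
    (by
      have : 32 * (C0 * L * (3 * δ)) = ε * L / 2 := by
        rw [hδdef]; field_simp; norm_num
      linarith)
  refine ⟨Z', hZ'Z, ?_, Z2, hZ2, hZ2c, ?_⟩
  · have : q * Z.card = c * m ^ 3 := by rw [hqdef]; field_simp
    rw [← this]; exact hZ'c
  intro z hz
  have hzZ1 := hZ2 hz
  have hzZ := hZ1 hzZ1
  set Sg := (Z' ∩ Nf z).filter fun w => ¬ Bad (Fam z w) Z' with hSg
  have hmem : ∀ w ∈ Sg, w ∈ Z' ∧ w ∈ Nf z ∧ ¬ Bad (Fam z w) Z' := by
    intro w hw
    obtain ⟨h1, h2⟩ := Finset.mem_filter.1 hw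
    obtain ⟨h3, h4⟩ := Finset.mem_inter.1 h1
    exact ⟨h3, h4, h2⟩
  have hcard : q * (ε * L / 2) / 4 ≤ (Sg.card : ℝ) := hgood z hz
  refine ⟨Sg, fun w hw => (hmem w hw).1, fun w hw => (Finset.mem_filter.1 (hmem w hw).2.1).2,
    ?_, ?_, ?_⟩
  · have : c * (m : ℝ) ^ 3 * (ε * L) / (8 * Z.card) = q * (ε * L / 2) / 4 := by
      rw [hqdef]; field_simp; norm_num
    rw [this]; exact hcard
  · -- blocks
    intro X hXS hzX W hWS hWX
    rcases W.eq_empty_or_nonempty with rfl | ⟨w, hwW⟩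
    · simp
    obtain ⟨hwZ', hwN, hwB⟩ := hmem w (hWS hwW)
    have hzw : Nul z w := hNN z w (Finset.mem_filter.1 hwN).2
    have hwX := hWX hwW
    have h1 : ((X \ Rz Z z w) ∩ Z').card < ra := by
      by_contra hcon
      push Not at hcon
      apply hwB
      refine ⟨(X \ Rz Z z w, ra), ?_, hcon⟩
      apply Finset.mem_union_left
      exact Finset.mem_image.2 ⟨X \ Rz Z z w, Finset.mem_image.2
        ⟨X, Finset.mem_filter.2 ⟨hXS, hzX, hwX⟩, rfl⟩, rfl⟩
    have h2 : (((Rz Z z w).erase w) ∩ Z').card < rR := by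
      by_contra hcon
      push Not at hcon
      apply hwB
      refine ⟨((Rz Z z w).erase w, rR), ?_, hcon⟩
      apply Finset.mem_union_right
      apply Finset.mem_union_right
      exact Finset.mem_singleton_self _
    have h3 : W ⊆ ((X \ Rz Z z w) ∩ Z') ∪ ((((Rz Z z w).erase w) ∩ Z') ∪ {w}) := by
      intro y hy
      have hyZ' := (hmem y (hWS hy)).1
      have hyX := hWX hy
      simp only [Finset.mem_union, Finset.mem_inter, Finset.mem_sdiff, Finset.mem_erase,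
        Finset.mem_singleton]
      tauto
    have h4 := Finset.card_le_card h3
    have h5 := Finset.card_union_le ((X \ Rz Z z w) ∩ Z') ((((Rz Z z w).erase w) ∩ Z') ∪ {w})
    have h6 := Finset.card_union_le (((Rz Z z w).erase w) ∩ Z') ({w} : Finset PP)
    rw [Finset.card_singleton] at h6
    have h7 : W.card + 1 ≤ ra + rR := by omega
    have h8 : (W.card : ℝ) + 1 ≤ ra + rR := by exact_mod_cast h7
    have h9 : (W.card : ℝ) ≤ 8 * (q * k0) := by linarith
    have h10 : 4 * (m : ℝ) * (8 * (q * k0)) = q * (ε * L / 2) / 4 := by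
      rw [hk0def]; field_simp; norm_num
    calc 4 * (m : ℝ) * W.card ≤ 4 * m * (8 * (q * k0)) :=
          mul_le_mul_of_nonneg_left h9 (by positivity)
      _ = q * (ε * L / 2) / 4 := h10
      _ ≤ Sg.card := hcard
  · -- lines
    intro a a' b b' haa hbb W hWS hWl
    refine le_trans ?_ hrb1
    by_contra hcon
    push Not at hcon
    have hWc : rb < W.card := by exact_mod_cast hcon
    have hW9 : 9 ≤ W.card := by omega
    have hne : W.Nonempty := by rw [← Finset.card_pos]; omega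
    obtain ⟨w, hwW⟩ := hne
    obtain ⟨hwZ', hwN, hwB⟩ := hmem w (hWS hwW)
    have hWnul : ∀ y ∈ W, y ∈ Z ∧ Nul z y := by
      intro y hy
      obtain ⟨h1, h2, _⟩ := hmem y (hWS hy)
      obtain ⟨h3, h4⟩ := Finset.mem_filter.1 h2
      exact ⟨h3, hNN z y h4⟩
    -- a generic partner
    have hfst : (W.filter fun y => y.1 = w.1).card ≤ 2 := by
      have h : ((W.filter fun y => y.1 = w.1).image Prod.snd).card =
          (W.filter fun y => y.1 = w.1).card := by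
        apply Finset.card_image_of_injOn
        intro x hx y hy hxy
        exact Prod.ext ((Finset.mem_filter.1 hx).2.trans (Finset.mem_filter.1 hy).2.symm) hxy
      rw [← h]
      apply card_line_sphere (b := b) (b' := b') (p := z.2) (ρ := dist z.1 w.1) hbb
      intro x hx
      obtain ⟨y, hy, rfl⟩ := Finset.mem_image.1 hx
      obtain ⟨hyW, hy1⟩ := Finset.mem_filter.1 hy
      refine ⟨(hWl y hyW).2, ?_⟩
      rw [← hy1]; exact (hWnul y hyW).2.1.symm
    have hsnd : (W.filter fun y => y.2 = w.2).card ≤ 2 := by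
      have h : ((W.filter fun y => y.2 = w.2).image Prod.fst).card =
          (W.filter fun y => y.2 = w.2).card := by
        apply Finset.card_image_of_injOn
        intro x hx y hy hxy
        exact Prod.ext hxy ((Finset.mem_filter.1 hx).2.trans (Finset.mem_filter.1 hy).2.symm)
      rw [← h]
      apply card_line_sphere (b := a) (b' := a') (p := z.1) (ρ := dist z.2 w.2) haa
      intro x hx
      obtain ⟨y, hy, rfl⟩ := Finset.mem_image.1 hx
      obtain ⟨hyW, hy1⟩ := Finset.mem_filter.1 hy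
      refine ⟨(hWl y hyW).1, ?_⟩
      rw [← hy1]; exact (hWnul y hyW).2.1
    have hgen : (W.filter fun y => y.1 ≠ w.1 ∧ y.2 ≠ w.2).Nonempty := by
      rw [← Finset.card_pos]
      have h3 : W ⊆ (W.filter fun y => y.1 ≠ w.1 ∧ y.2 ≠ w.2) ∪
          ((W.filter fun y => y.1 = w.1) ∪ (W.filter fun y => y.2 = w.2)) := by
        intro y hy
        simp only [Finset.mem_union, Finset.mem_filter]
        tauto
      have h6 := Finset.card_le_card h3
      have h7 := Finset.card_union_le (W.filter fun y => y.1 ≠ w.1 ∧ y.2 ≠ w.2)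
        ((W.filter fun y => y.1 = w.1) ∪ (W.filter fun y => y.2 = w.2))
      have h8 := Finset.card_union_le (W.filter fun y => y.1 = w.1) (W.filter fun y => y.2 = w.2)
      omega
    obtain ⟨w', hw'⟩ := hgen
    obtain ⟨hw'W, hw1, hw2⟩ := Finset.mem_filter.1 hw'
    -- W ⊆ {w} ∪ (Yl.erase w ∩ Z')
    have hline : ∀ {a a' x y u : EuclideanSpace ℝ (Fin 3)}, a ≠ a' →
        Collinear ℝ ({a, a', x} : Set (EuclideanSpace ℝ (Fin 3))) →
        Collinear ℝ ({a, a', y} : Set (EuclideanSpace ℝ (Fin 3))) →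
        Collinear ℝ ({a, a', u} : Set (EuclideanSpace ℝ (Fin 3))) →
        Collinear ℝ ({x, y, u} : Set (EuclideanSpace ℝ (Fin 3))) := by
      intro a a' x y u haa hx hy hu
      exact collinear_triple_of_mem_affineSpan_pair ((onL_iff haa).1 hx) ((onL_iff haa).1 hy)
        ((onL_iff haa).1 hu)
    have hsub : W ⊆ (((Yl Z z w w').erase w) ∩ Z') ∪ {w} := by
      intro y hy
      rw [Finset.mem_union, Finset.mem_singleton]
      by_cases hyw : y = w
      · right; exact hyw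
      · left
        rw [Finset.mem_inter, Finset.mem_erase, mem_Yl]
        exact ⟨⟨hyw, (hWnul y hy).1, (hWnul y hy).2,
          hline haa (hWl w hwW).1 (hWl w' hw'W).1 (hWl y hy).1,
          hline hbb (hWl w hwW).2 (hWl w' hw'W).2 (hWl y hy).2⟩, (hmem y (hWS hy)).1⟩
    have hlt : (((Yl Z z w w').erase w) ∩ Z').card < rb := by
      by_contra hcon2
      push Not at hcon2
      apply hwB
      refine ⟨((Yl Z z w w').erase w, rb), ?_, hcon2⟩
      apply Finset.mem_union_right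
      apply Finset.mem_union_left
      refine Finset.mem_image.2 ⟨(Yl Z z w w').erase w, Finset.mem_image.2 ⟨w', ?_, rfl⟩, rfl⟩
      exact Finset.mem_filter.2 ⟨mem_nb.2 (hWnul w' hw'W), hw1, hw2⟩
    have h1 := Finset.card_le_card hsub
    have h2 := Finset.card_union_le (((Yl Z z w w').erase w) ∩ Z') ({w} : Finset PP)
    rw [Finset.card_singleton] at h2
    omega

end Main

end Crest.Agent.R065.D3samp789
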