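import Crest.Agent.R065.D3in_855
import Crest.Agent.R065.D3cnt_855
import Crest.Agent.R065.D3bad_855
import Crest.Agent.R065.D3rot_812
import Crest.Agent.R065.D3cons_275

/-!
# Row 65, `d = 3`: assembly of STEP A
-/

set_option autoImplicit false

open MvPolynomial Module Finset

namespace Crest.Agent.R065.D3stepA855

open Crest.Agent.R065.HF669 Crest.Agent.R065.Base348 Crest.Agent.R065.Top348
  Crest.Agent.R065.Pins348 Crest.Agent.R065.D3 Crest.Agent.R065.D3blk812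
  Crest.Agent.R065.D3in855 Crest.Agent.R065.D3bad855 Crest.Agent.R065.D3cnt855
  Crest.Agent.R065.D3rot812

lemma card_union3 {α : Type*} [DecidableEq α] (S A B D : Finset α) (h : S ⊆ A ∪ B ∪ D) :
    (S.card : ℝ) ≤ A.card + D.card + B.card := by
  have h1 := (card_le_card h).trans ((card_union_le _ _).trans
    (Nat.add_le_add_right (card_union_le _ _) _))
  have h2 : (S.card : ℝ) ≤ A.card + B.card + D.card := by exact_mod_cast h1
  linarith

open scoped Classical in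
/-- out-neighbours of a good point -/
lemma point_count {Z : Finset PP} {o : ℕ → Finset (Pt 3 ℂ) → Pt 3 ℂ → Pt 3 ℂ → ℕ∞} {C : ℝ}
    (hrank : ∀ (m : ℕ) (Om : Finset (Pt 3 ℂ)) (z : Pt 3 ℂ), 1 ≤ m → ¬ IsBad m Om z → ∀ Sg ⊆ Om,
      (∀ w ∈ Sg, Null z w ∧ (∀ i, w.1 i ≠ z.1 i) ∧
        o m (Om.erase w) w z ≤ o m (Om.erase w) z w) →
      ∃ D : Finset ((Fin 3 → ℂ) × ℂ), D.card ≤ m ∧ (∀ p ∈ D, p.1 ≠ 0) ∧
        ((Sg.filter fun w => ∀ p ∈ D, ¬ inD p.1 p.2 (w - z)).card : ℝ) ≤ C * (m : ℝ) ^ 2)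
    (hG : GPall Z) (m r : ℕ) (hm : 1 ≤ m) (k0 : ℝ) {Om : Finset PP} (hOm : Om ⊆ Z) {z : PP}
    (hz : z ∈ Z) (hbad : ¬ IsBad m (Om.image zcp) (zcp z)) :
    ((Om.filter fun w => (z, w) ∈ uncov Z (SSof Z) k0 ∧
      o m ((Om.erase w).image zcp) (zcp w) (zcp z) ≤
        o m ((Om.erase w).image zcp) (zcp z) (zcp w)).card : ℝ) ≤
      C * (m : ℝ) ^ 2 + m * (2 * r + 1) +
      ((Om.filter fun w => Nul z w ∧ ∃ X ∈ SSof Z, z ∈ X ∧ w ∈ X ∧ (X.card : ℝ) < k0 ∧
        2 * r + 2 ≤ (Om ∩ X).card).card : ℝ) := by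
  set R : Finset PP := Om.filter fun w => (z, w) ∈ uncov Z (SSof Z) k0 ∧
      o m ((Om.erase w).image zcp) (zcp w) (zcp z) ≤
        o m ((Om.erase w).image zcp) (zcp z) (zcp w) with hR
  have hRmem : ∀ w, w ∈ R ↔ w ∈ Om ∧ (z, w) ∈ uncov Z (SSof Z) k0 ∧
      o m ((Om.erase w).image zcp) (zcp w) (zcp z) ≤
        o m ((Om.erase w).image zcp) (zcp z) (zcp w) := by
    intro w; rw [hR, mem_filter]
  have hunc : ∀ w, (z, w) ∈ uncov Z (SSof Z) k0 → Nul z w ∧ ∀ X ∈ SSof Z, z ∈ X → w ∈ X →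
      (X.card : ℝ) < k0 := by
    intro w hw
    unfold uncov at hw
    rw [mem_filter] at hw
    exact hw.2
  obtain ⟨D, hD1, hD2, hD3⟩ := hrank m (Om.image zcp) (zcp z) hm hbad (R.image zcp)
    (image_subset_image (filter_subset _ _)) (by
      intro w' hw'
      obtain ⟨w, hw, rfl⟩ := mem_image.1 hw'
      obtain ⟨hwO, hwU, hwo⟩ := (hRmem w).1 hw
      have hnul := (hunc w hwU).1
      have hne : w ≠ z := by
        rintro rfl
        exact hnul.2 rfl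
      refine ⟨(null_zcp z w).2 hnul.1, hG w (hOm hwO) z hz hne, ?_⟩
      have e : (Om.image zcp).erase (zcp w) = (Om.erase w).image zcp := by
        ext x
        rw [mem_erase, mem_image, mem_image]
        constructor
        · rintro ⟨hx, y, hy, rfl⟩
          exact ⟨y, mem_erase.2 ⟨fun h => hx (by rw [h]), hy⟩, rfl⟩
        · rintro ⟨y, hy, rfl⟩
          exact ⟨fun h => (mem_erase.1 hy).1 (zcp_inj h), y, (mem_erase.1 hy).2, rfl⟩
      rw [e]
      exact hwo)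
  set Rg : Finset PP := R.filter fun w => ∀ p ∈ D, ¬ inD p.1 p.2 (zcp w - zcp z) with hRg
  have hRgc : (Rg.card : ℝ) ≤ C * (m : ℝ) ^ 2 := by
    refine le_trans ?_ hD3
    rw [← card_image_of_injective Rg zcp_inj]
    have : Rg.image zcp ⊆ (R.image zcp).filter fun w => ∀ p ∈ D, ¬ inD p.1 p.2 (w - zcp z) := by
      intro x hx
      obtain ⟨w, hw, rfl⟩ := mem_image.1 hx
      rw [mem_filter] at hw
      exact mem_filter.2 ⟨mem_image_of_mem _ hw.1, hw.2⟩
    exact_mod_cast card_le_card this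
  set OV : Finset PP := Om.filter fun w => Nul z w ∧ ∃ X ∈ SSof Z, z ∈ X ∧ w ∈ X ∧
    (X.card : ℝ) < k0 ∧ 2 * r + 2 ≤ (Om ∩ X).card with hOV
  set U : Finset PP := (D.filter fun p => (Om ∩ blockOf Z p.1 p.2 z).card ≤ 2 * r + 1).biUnion
    fun p => Om ∩ blockOf Z p.1 p.2 z with hU
  have hUc : (U.card : ℝ) ≤ m * (2 * r + 1) := by
    have h1 : U.card ≤ (D.filter fun p => (Om ∩ blockOf Z p.1 p.2 z).card ≤ 2 * r + 1).card *
        (2 * r + 1) := by
      refine card_biUnion_le_card_mul _ _ _ ?_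
      intro p hp
      exact (mem_filter.1 hp).2
    have h2 : U.card ≤ m * (2 * r + 1) :=
      h1.trans (Nat.mul_le_mul_right _ ((card_filter_le _ _).trans hD1))
    exact_mod_cast h2
  have hsub : R ⊆ Rg ∪ OV ∪ U := by
    intro w hw
    rw [mem_union, mem_union]
    by_cases hg : ∀ p ∈ D, ¬ inD p.1 p.2 (zcp w - zcp z)
    · exact Or.inl (Or.inl (mem_filter.2 ⟨hw, hg⟩))
    · push Not at hg
      obtain ⟨p, hp, hin⟩ := hg
      obtain ⟨hwO, hwU, hwo⟩ := (hRmem w).1 hw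
      have hwb : w ∈ blockOf Z p.1 p.2 z := mem_blockOf.2 ⟨hOm hwO, hin⟩
      have hSS := blockOf_mem_SSof (Z := Z) (κ := p.2) hz (hD2 p hp)
      by_cases hc : (Om ∩ blockOf Z p.1 p.2 z).card ≤ 2 * r + 1
      · exact Or.inr (mem_biUnion.2 ⟨p, mem_filter.2 ⟨hp, hc⟩, mem_inter.2 ⟨hwO, hwb⟩⟩)
      · refine Or.inl (Or.inr (mem_filter.2 ⟨hwO, (hunc w hwU).1, _, hSS, self_mem_blockOf hz, hwb,
          (hunc w hwU).2 _ hSS (self_mem_blockOf hz) hwb, ?_⟩))
        omega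
  have hfin := card_union3 R Rg OV U hsub
  linarith

/-- the relation `NN` is symmetric -/
lemma uncov_symm {Z : Finset PP} {SS : Finset (Finset PP)} {k0 : ℝ} (z w : PP)
    (h : (z, w) ∈ uncov Z SS k0) : (w, z) ∈ uncov Z SS k0 := by
  classical
  unfold uncov at *
  rw [mem_filter, mem_product] at *
  exact ⟨⟨h.1.2, h.1.1⟩, h.2.1.symm, fun X hX h1 h2 => h.2.2 X hX h2 h1⟩

lemma not_uncov_self {Z : Finset PP} {SS : Finset (Finset PP)} {k0 : ℝ} (z : PP)
    (h : (z, z) ∈ uncov Z SS k0) : False := by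
  classical
  unfold uncov at h
  rw [mem_filter] at h
  exact h.2.1.2 rfl

lemma mem_nb_of_uncov {Z : Finset PP} {SS : Finset (Finset PP)} {k0 : ℝ} {z w : PP}
    (h : (z, w) ∈ uncov Z SS k0) : w ∈ nb Nul Z z := by
  classical
  unfold uncov at h
  rw [mem_filter, mem_product] at h
  exact mem_nb.2 ⟨h.1.2, h.2.1⟩

/-- `x ≤ a + x² / a` -/
lemma le_add_sq_div {x a : ℝ} (hx : 0 ≤ x) (ha : 0 < a) : x ≤ a + x ^ 2 / a := by
  by_cases h : x ≤ a
  · have : 0 ≤ x ^ 2 / a := by positivity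
    linarith
  · push Not at h
    have : x ≤ x ^ 2 / a := by
      rw [le_div_iff₀ ha]
      nlinarith
    linarith

open scoped Classical in
/-- the bad points -/
lemma bad_sum {Z : Finset PP} {C0 B L : ℝ} (hreg : Reg Nul C0 B Z L) (hC0 : 1 ≤ C0) {m k : ℕ}
    {A η : ℝ} (hA : 0 < A)
    (hb : ∀ Om ∈ Z.powersetCard (k + 1),
      ((Z.filter fun z => IsBad m (Om.image zcp) (zcp z)).card : ℝ) ≤ η * Z.card) :
    ∑ Om ∈ Z.powersetCard (k + 1), ∑ z ∈ Z, (if IsBad m (Om.image zcp) (zcp z) then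
        ((Om.filter fun w => w ∈ nb Nul Z z).card : ℝ) else 0) ≤
      (η * A * C0 * L * (k + 1) + (C0 * L * (k + 1) + Z.card) / A) * Z.card.choose (k + 1) := by
  have hn := card_pos' hreg
  have hL := hreg.L_pos
  set n : ℝ := (Z.card : ℝ) with hndef
  set μ : ℝ := C0 * L * (k + 1) / n with hμ
  have hμpos : 0 < μ := by positivity
  have hAμ : 0 < A * μ := by positivity
  have h1 : ∀ Om ∈ Z.powersetCard (k + 1), ∑ z ∈ Z, (if IsBad m (Om.image zcp) (zcp z) then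
        ((Om.filter fun w => w ∈ nb Nul Z z).card : ℝ) else 0) ≤
      η * n * (A * μ) + ∑ z ∈ Z, ((Om.filter fun w => w ∈ nb Nul Z z).card : ℝ) ^ 2 / (A * μ) := by
    intro Om hOm
    have h2 : ∀ z ∈ Z, (if IsBad m (Om.image zcp) (zcp z) then
        ((Om.filter fun w => w ∈ nb Nul Z z).card : ℝ) else 0) ≤
        (if IsBad m (Om.image zcp) (zcp z) then A * μ else 0) +
        ((Om.filter fun w => w ∈ nb Nul Z z).card : ℝ) ^ 2 / (A * μ) := by
      intro z _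
      split_ifs with h
      · exact le_add_sq_div (Nat.cast_nonneg _) hAμ
      · positivity
    refine (sum_le_sum h2).trans ?_
    rw [sum_add_distrib]
    refine add_le_add ?_ le_rfl
    rw [← sum_filter, sum_const, nsmul_eq_mul]
    exact mul_le_mul_of_nonneg_right (hb Om hOm) hAμ.le
  refine (sum_le_sum h1).trans ?_
  rw [sum_add_distrib, sum_const, nsmul_eq_mul, card_powersetCard, sum_comm]
  have h3 : ∀ z ∈ Z, ∑ Om ∈ Z.powersetCard (k + 1),
      ((Om.filter fun w => w ∈ nb Nul Z z).card : ℝ) ^ 2 / (A * μ) ≤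
      (μ + 1) / A * Z.card.choose (k + 1) := by
    intro z hz
    rw [← sum_div]
    have h4 := second_moment Z (nb Nul Z z) (fun w hw => (mem_nb.1 hw).1) (j := k + 1)
      (by omega) hreg.ne
    have h5 : ((nb Nul Z z).card : ℝ) * (((k + 1 : ℕ) : ℝ) / Z.card) ≤ μ := by
      have h6 : ((nb Nul Z z).card : ℝ) ≤ C0 * L := hreg.deg_le z hz
      rw [hμ, mul_div_assoc']
      push_cast
      gcongr
    have h7 : 0 ≤ ((nb Nul Z z).card : ℝ) * (((k + 1 : ℕ) : ℝ) / Z.card) := by positivity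
    rw [div_le_iff₀ hAμ]
    calc ∑ Om ∈ Z.powersetCard (k + 1), ((Om.filter fun w => w ∈ nb Nul Z z).card : ℝ) ^ 2
        ≤ (((nb Nul Z z).card * (((k + 1 : ℕ) : ℝ) / Z.card : ℝ)) ^ 2 +
          (nb Nul Z z).card * (((k + 1 : ℕ) : ℝ) / Z.card : ℝ)) * Z.card.choose (k + 1) := h4
      _ ≤ (μ ^ 2 + μ) * Z.card.choose (k + 1) := by gcongr
      _ = (μ + 1) / A * Z.card.choose (k + 1) * (A * μ) := by field_simp
  refine (add_le_add le_rfl (sum_le_sum h3)).trans ?_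
  rw [sum_const, nsmul_eq_mul, ← hndef]
  apply le_of_eq
  rw [hμ]
  field_simp

open scoped Classical in
/-- the count for one parameter choice -/
lemma count (hE : Engine) {o : ℕ → Finset (Pt 3 ℂ) → Pt 3 ℂ → Pt 3 ℂ → ℕ∞} {CR : ℝ}
    (hrank : ∀ (m : ℕ) (Om : Finset (Pt 3 ℂ)) (z : Pt 3 ℂ), 1 ≤ m → ¬ IsBad m Om z → ∀ Sg ⊆ Om,
      (∀ w ∈ Sg, Null z w ∧ (∀ i, w.1 i ≠ z.1 i) ∧
        o m (Om.erase w) w z ≤ o m (Om.erase w) z w) →
      ∃ D : Finset ((Fin 3 → ℂ) × ℂ), D.card ≤ m ∧ (∀ p ∈ D, p.1 ≠ 0) ∧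
        ((Sg.filter fun w => ∀ p ∈ D, ¬ inD p.1 p.2 (w - z)).card : ℝ) ≤ CR * (m : ℝ) ^ 2)
    (hCR : 0 < CR) {Z : Finset PP} {C0 B L : ℝ} (hreg : Reg Nul C0 B Z L) (hC0 : 1 ≤ C0)
    (hG : GPall Z) {m k r : ℕ} (hm : 1 ≤ m) (k0 : ℝ) {A η ω : ℝ} (hA : 0 < A)
    (h4 : 4 * (k + 1) ≤ Z.card)
    (hb : ∀ Om ∈ Z.powersetCard (k + 1),
      ((Z.filter fun z => IsBad m (Om.image zcp) (zcp z)).card : ℝ) ≤ η * Z.card)
    (hov : ∑ Om ∈ Z.powersetCard (k + 1), ∑ z ∈ Z,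
        ((Om.filter fun w => Nul z w ∧
          ∃ X ∈ SSof Z, z ∈ X ∧ w ∈ X ∧ (X.card : ℝ) < k0 ∧
            2 * r + 2 ≤ (Om ∩ X).card).card : ℝ) ≤ ω * (Z.card.choose (k + 1))) :
    ((uncov Z (SSof Z) k0).card : ℝ) * (k + 1) ≤
      4 * Z.card * ((η * A * C0 * L * (k + 1) + (C0 * L * (k + 1) + Z.card) / A) +
        Z.card * (CR * (m : ℝ) ^ 2 + m * (2 * r + 1)) + ω) := by
  have hn := card_pos' hreg
  have hch : (0 : ℝ) < Z.card.choose (k + 1) := by
    exact_mod_cast Nat.choose_pos (by omega)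
  have h1 := hE Z k (fun z w => (z, w) ∈ uncov Z (SSof Z) k0)
    (fun Om z w => o m (Om.image zcp) (zcp z) (zcp w)) (fun z w => uncov_symm z w)
    (fun z h => (not_uncov_self z h)) h4
  have e1 : ((Z ×ˢ Z).filter fun p : PP × PP => (p.1, p.2) ∈ uncov Z (SSof Z) k0) =
      uncov Z (SSof Z) k0 := by
    ext p
    rw [mem_filter]
    constructor
    · exact fun h => h.2
    · intro h
      refine ⟨?_, h⟩
      unfold uncov at h
      exact (mem_filter.1 h).1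
  rw [e1] at h1
  have h2 : ∑ Om ∈ Z.powersetCard (k + 1), ∑ z ∈ Z \ Om,
        ((Om.filter fun w => (z, w) ∈ uncov Z (SSof Z) k0 ∧
          o m ((Om.erase w).image zcp) (zcp w) (zcp z) ≤
            o m ((Om.erase w).image zcp) (zcp z) (zcp w)).card : ℝ) ≤
      ∑ Om ∈ Z.powersetCard (k + 1), ∑ z ∈ Z, ((if IsBad m (Om.image zcp) (zcp z) then
        ((Om.filter fun w => w ∈ nb Nul Z z).card : ℝ) else 0) +
        (CR * (m : ℝ) ^ 2 + m * (2 * r + 1)) +
        ((Om.filter fun w => Nul z w ∧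
          ∃ X ∈ SSof Z, z ∈ X ∧ w ∈ X ∧ (X.card : ℝ) < k0 ∧
            2 * r + 2 ≤ (Om ∩ X).card).card : ℝ)) := by
    refine sum_le_sum fun Om hOm => ?_
    have hOmZ := (mem_powersetCard.1 hOm).1
    refine le_trans (sum_le_sum fun z hz => ?_) (sum_le_sum_of_subset_of_nonneg
      (sdiff_subset (s := Z) (t := Om)) (fun z _ _ => ?_))
    · have hzZ := (mem_sdiff.1 hz).1
      by_cases hbad : IsBad m (Om.image zcp) (zcp z)
      · rw [if_pos hbad]
        have h3 : ((Om.filter fun w => (z, w) ∈ uncov Z (SSof Z) k0 ∧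
          o m ((Om.erase w).image zcp) (zcp w) (zcp z) ≤
            o m ((Om.erase w).image zcp) (zcp z) (zcp w)).card : ℝ) ≤
            ((Om.filter fun w => w ∈ nb Nul Z z).card : ℝ) := by
          have : (Om.filter fun w => (z, w) ∈ uncov Z (SSof Z) k0 ∧
            o m ((Om.erase w).image zcp) (zcp w) (zcp z) ≤
              o m ((Om.erase w).image zcp) (zcp z) (zcp w)) ⊆
              (Om.filter fun w => w ∈ nb Nul Z z) := by
            intro w hw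
            rw [mem_filter] at hw ⊢
            exact ⟨hw.1, mem_nb_of_uncov hw.2.1⟩
          exact_mod_cast card_le_card this
        have h5 : 0 ≤ (CR * (m : ℝ) ^ 2 + m * (2 * r + 1)) := by positivity
        have h6 : (0 : ℝ) ≤ ((Om.filter fun w => Nul z w ∧
          ∃ X ∈ SSof Z, z ∈ X ∧ w ∈ X ∧ (X.card : ℝ) < k0 ∧
            2 * r + 2 ≤ (Om ∩ X).card).card : ℝ) := Nat.cast_nonneg _
        linarith
      · rw [if_neg hbad, zero_add]
        exact point_count hrank hG m r hm k0 hOmZ hzZ hbad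
    · split_ifs <;> positivity
  have h7 : ∑ Om ∈ Z.powersetCard (k + 1), ∑ z ∈ Z, ((if IsBad m (Om.image zcp) (zcp z) then
        ((Om.filter fun w => w ∈ nb Nul Z z).card : ℝ) else 0) +
        (CR * (m : ℝ) ^ 2 + m * (2 * r + 1)) +
        ((Om.filter fun w => Nul z w ∧
          ∃ X ∈ SSof Z, z ∈ X ∧ w ∈ X ∧ (X.card : ℝ) < k0 ∧
            2 * r + 2 ≤ (Om ∩ X).card).card : ℝ)) ≤
      ((η * A * C0 * L * (k + 1) + (C0 * L * (k + 1) + Z.card) / A) +
        Z.card * (CR * (m : ℝ) ^ 2 + m * (2 * r + 1)) + ω) * Z.card.choose (k + 1) := by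
    simp only [sum_add_distrib]
    rw [add_mul, add_mul]
    refine add_le_add (add_le_add (bad_sum hreg hC0 hA hb) ?_) hov
    simp only [sum_const, nsmul_eq_mul, card_powersetCard]
    apply le_of_eq
    ring
  have h8 : (((uncov Z (SSof Z) k0).card : ℝ) * (k + 1)) * (Z.card.choose (k + 1)) ≤
      (4 * Z.card * ((η * A * C0 * L * (k + 1) + (C0 * L * (k + 1) + Z.card) / A) +
        Z.card * (CR * (m : ℝ) ^ 2 + m * (2 * r + 1)) + ω)) * Z.card.choose (k + 1) := by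
    refine h1.trans ?_
    rw [mul_assoc (4 * (Z.card : ℝ))]
    exact mul_le_mul_of_nonneg_left (h2.trans h7) (by positivity)
  exact le_of_mul_le_mul_right h8 hch

lemma card_Pr3 : Fintype.card (Pr 3) = 3 := by decide

lemma Kd3 : Kd 3 = 120 := by
  unfold Kd
  rw [card_Pr3]
  rfl

open scoped Classical in
/-- STEP A, the count -/
theorem main_count (hE : Engine) (hR : RankIn) (hO : Overfull) (h1 : O1curve) (h2 : O1surf)
    (hL0 : L0in) (C0 ε : ℝ) (hC0 : 1 ≤ C0) (hε : 0 < ε) (hε1 : ε ≤ 1) :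
    ∃ c B0 : ℝ, 0 < c ∧ ∀ (Z : Finset PP) (L B : ℝ), B0 ≤ B → Reg Nul C0 B Z L → GPall Z →
      ((uncov Z (SSof Z) (c * L ^ 2 / Z.card)).card : ℝ) ≤ ε * L * Z.card := by
  obtain ⟨o, CR, hCR, hrank⟩ := hR
  set C1 : ℝ := max 1 (3840 * CR / ε) with hC1def
  have hC1 : 1 ≤ C1 := le_max_left _ _
  have hC1' : 3840 * CR ≤ ε * C1 := by
    have := le_max_right 1 (3840 * CR / ε)
    rw [div_le_iff₀ hε] at this
    linarith
  set A : ℝ := 128 * C0 / ε with hAdef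
  have hA : 0 < A := by positivity
  set η : ℝ := ε / (64 * A * C0) with hηdef
  have hη : 0 < η := by positivity
  obtain ⟨B1, hB1⟩ := hO C0 ε C1 hC0 hε hε1 hC1
  obtain ⟨B2, hB2⟩ := bad_small hL0 h1 h2 C0 C1 η hC0 hC1 hη
  obtain ⟨B3, hB3⟩ := D3cons275.t_large C0 (122880 / ε)
  have hKK : 0 < KK := by unfold KK; norm_num
  refine ⟨ε / (KK * C1), max (max B1 B2) (max B3 (C1 ^ 3)), by positivity, ?_⟩
  intro Z L B hB hreg hgen
  have hBB1 : B1 ≤ B := (le_max_left _ _).trans ((le_max_left _ _).trans hB)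
  have hBB2 : B2 ≤ B := (le_max_right _ _).trans ((le_max_left _ _).trans hB)
  have hBB3 : B3 ≤ B := (le_max_left _ _).trans ((le_max_right _ _).trans hB)
  have hBB4 : C1 ^ 3 ≤ B := (le_max_right _ _).trans ((le_max_right _ _).trans hB)
  have hn := card_pos' hreg
  have hL := hreg.L_pos
  have hBpos : 0 < B := lt_of_lt_of_le (by positivity) hBB4
  set n : ℝ := (Z.card : ℝ) with hndef
  set t : ℝ := n / L with htdef
  have ht1 : 122880 / ε ≤ t := by
    rw [htdef, le_div_iff₀ hL]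
    exact hB3 B Z L hBB3 hreg
  have ht2 : 122880 ≤ ε * t := by
    rw [div_le_iff₀ hε] at ht1
    linarith
  have htpos : 0 < t := by positivity
  have ht3 : 122880 ≤ t := by nlinarith
  have ht4 : t ^ 3 ≤ n / B := t3_le hreg hBpos
  have hLt : L * t = n := by rw [htdef]; field_simp
  -- m
  set m : ℕ := ⌈C1 * t⌉₊ with hmdef
  have hm1 : C1 * t ≤ m := Nat.le_ceil _
  have hm2 : (m : ℝ) ≤ 2 * C1 * t := by
    have h3 : (m : ℝ) < C1 * t + 1 := Nat.ceil_lt_add_one (by positivity)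
    nlinarith
  have hmt : t ≤ m := by nlinarith
  have hm16 : (16 : ℝ) ≤ m := by linarith
  have hmpos : (0 : ℝ) < m := by linarith
  have hm1' : 1 ≤ m := by exact_mod_cast (by linarith : (1 : ℝ) ≤ (m : ℝ))
  have hm3 : (4096 : ℝ) ≤ (m : ℝ) ^ 3 := by
    calc (4096 : ℝ) = 16 ^ 3 := by norm_num
      _ ≤ (m : ℝ) ^ 3 := by gcongr
  -- k
  set kk : ℕ := ⌈(m : ℝ) ^ 3 / 240⌉₊ with hkkdef
  have hk1 : (m : ℝ) ^ 3 / 240 ≤ kk := Nat.le_ceil _
  have hk2 : (kk : ℝ) ≤ (m : ℝ) ^ 3 / 120 := by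
    have h3 : (kk : ℝ) < (m : ℝ) ^ 3 / 240 + 1 := Nat.ceil_lt_add_one (by positivity)
    linarith
  obtain ⟨k, hk⟩ : ∃ k, kk = k + 1 := by
    have h3 : (0 : ℝ) < kk := by
      have : (0 : ℝ) < (m : ℝ) ^ 3 / 240 := by positivity
      linarith
    have h4 : 0 < kk := by exact_mod_cast h3
    exact ⟨kk - 1, by omega⟩
  rw [hk] at hk1 hk2
  have hkc : (((k + 1 : ℕ)) : ℝ) = (k : ℝ) + 1 := by push_cast; ring
  rw [hkc] at hk1 hk2
  have hm3' : (m : ℝ) ^ 3 ≤ 8 * C1 ^ 3 * t ^ 3 := by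
    calc (m : ℝ) ^ 3 ≤ (2 * C1 * t) ^ 3 := by gcongr
      _ = _ := by ring
  have h4 : 4 * (k + 1) ≤ Z.card := by
    have h5 : (4 : ℝ) * (k + 1) ≤ n := by
      calc (4 : ℝ) * (k + 1) ≤ 4 * ((m : ℝ) ^ 3 / 120) := by gcongr
        _ ≤ 4 * ((8 * C1 ^ 3 * t ^ 3) / 120) := by gcongr
        _ ≤ C1 ^ 3 * t ^ 3 := by
          have : 0 ≤ C1 ^ 3 * t ^ 3 := by positivity
          linarith
        _ ≤ B * (n / B) := by gcongr
        _ = n := by field_simp
    rw [hndef] at h5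
    exact_mod_cast h5
  -- r
  set r : ℕ := ⌈ε * C1 ^ 2 * t / 61440⌉₊ with hrdef
  have hr1 : ε * C1 ^ 2 * t / 61440 ≤ r := Nat.le_ceil _
  have hr2 : (r : ℝ) ≤ ε * C1 ^ 2 * t / 61440 + 1 :=
    (Nat.ceil_lt_add_one (by positivity)).le
  -- the bad sets
  have hb : ∀ Om ∈ Z.powersetCard (k + 1),
      ((Z.filter fun z => IsBad m (Om.image zcp) (zcp z)).card : ℝ) ≤ η * Z.card := by
    intro Om hOm
    obtain ⟨f, hf1, hf2, hf3⟩ := exists_res_eq_zero' (Om.image zcp) m (by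
      rw [Kd3, card_image_of_injective _ zcp_inj, (mem_powersetCard.1 hOm).2]
      have h5 : (((k + 1 : ℕ)) : ℝ) * 120 < ((m : ℝ) + 1) ^ 3 := by
        rw [hkc]
        calc ((k : ℝ) + 1) * 120 ≤ (m : ℝ) ^ 3 / 120 * 120 := by gcongr
          _ = (m : ℝ) ^ 3 := by ring
          _ < ((m : ℝ) + 1) ^ 3 := by gcongr; linarith
      exact_mod_cast h5)
    refine hB2 B Z L hBB2 hreg m hm1' hm2 f hf2 hf1 _ (filter_subset _ _) ?_
    intro z hz
    exact (mem_filter.1 hz).2 f ⟨hf1, hf3⟩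
  have hov := hB1 B Z L hBB1 hreg (SSof Z) (blocks Z) k r (by
      rw [hkc]
      calc (k : ℝ) + 1 ≤ (m : ℝ) ^ 3 / 120 := hk2
        _ ≤ (8 * C1 ^ 3 * t ^ 3) / 120 := by gcongr
        _ = (C1 * (n / L)) ^ 3 / 15 := by rw [← htdef]; ring) hr1
  have key := count hE hrank hCR hreg hC0 hgen hm1' (ε / (KK * C1) * L ^ 2 / Z.card) hA h4 hb hov
  rw [← hndef] at key
  have hkpos : (0 : ℝ) < (k : ℝ) + 1 := by positivity
  -- numerical estimates
  have e1 : η * A * C0 * L * (k + 1) = ε / 64 * (L * (k + 1)) := by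
    rw [hηdef]
    field_simp
  have e2 : C0 * L * (k + 1) / A = ε / 128 * (L * (k + 1)) := by
    rw [hAdef]
    field_simp
  have e3 : n / A ≤ ε / 128 * (L * (k + 1)) := by
    have h5 : t ≤ k + 1 := by
      have h6 : t ≤ (m : ℝ) ^ 3 / 240 := by
        have h7 : t ^ 3 ≤ (m : ℝ) ^ 3 := by gcongr
        have h8 : 240 * t ≤ t ^ 3 := by
          have : 240 ≤ t ^ 2 := by nlinarith
          nlinarith
        linarith
      linarith
    have h6 : n / A = ε * n / (128 * C0) := by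
      rw [hAdef]
      field_simp
    rw [h6, div_le_iff₀ (by positivity), ← hLt]
    have h7 : L * t ≤ L * (k + 1) := by gcongr
    have h8 : ε * (L * t) ≤ ε * (L * (k + 1)) := by gcongr
    have h9 : 0 ≤ ε * (L * (k + 1)) := by positivity
    have h10 : ε * (L * (k + 1)) ≤ ε * (L * (k + 1)) * C0 := le_mul_of_one_le_right h9 hC0
    calc ε * (L * t) ≤ ε * (L * (k + 1)) * C0 := h8.trans h10
      _ = ε / 128 * (L * (↑k + 1)) * (128 * C0) := by ring
  -- `t CR m² ≤ ε / 16 (k+1)`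
  have e4 : n * (CR * (m : ℝ) ^ 2) ≤ ε / 16 * (L * (k + 1)) := by
    have h5 : t * (CR * (m : ℝ) ^ 2) ≤ ε / 16 * (k + 1) := by
      have h6 : 3840 * CR * t ≤ ε * m := by
        calc 3840 * CR * t ≤ ε * C1 * t := by gcongr
          _ = ε * (C1 * t) := by ring
          _ ≤ ε * m := by gcongr
      calc t * (CR * (m : ℝ) ^ 2) = (3840 * CR * t) * (m : ℝ) ^ 2 / 3840 := by ring
        _ ≤ (ε * m) * (m : ℝ) ^ 2 / 3840 := by gcongr
        _ = ε / 16 * ((m : ℝ) ^ 3 / 240) := by ring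
        _ ≤ ε / 16 * (k + 1) := by gcongr
    calc n * (CR * (m : ℝ) ^ 2) = L * (t * (CR * (m : ℝ) ^ 2)) := by rw [← hLt]; ring
      _ ≤ L * (ε / 16 * (k + 1)) := by gcongr
      _ = _ := by ring
  have e5 : n * (m * (2 * r + 1)) ≤ ε / 16 * (L * (k + 1)) := by
    have h5 : t * (m * (2 * r + 1)) ≤ ε / 16 * (k + 1) := by
      have h6 : 3840 * (t * (2 * r + 1)) ≤ ε * (m : ℝ) ^ 2 := by
        have h7 : 3840 * (2 * (r : ℝ) + 1) ≤ ε * C1 ^ 2 * t := by
          have h8 : (1 : ℝ) ≤ C1 ^ 2 := by nlinarith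
          have h9 : 122880 ≤ ε * C1 ^ 2 * t := by
            calc (122880 : ℝ) ≤ ε * t := ht2
              _ = ε * 1 * t := by ring
              _ ≤ ε * C1 ^ 2 * t := by gcongr
          linarith
        calc 3840 * (t * (2 * r + 1)) = t * (3840 * (2 * (r : ℝ) + 1)) := by ring
          _ ≤ t * (ε * C1 ^ 2 * t) := by gcongr
          _ = ε * (C1 * t) ^ 2 := by ring
          _ ≤ ε * (m : ℝ) ^ 2 := by gcongr
      calc t * (m * (2 * r + 1)) = m * (3840 * (t * (2 * r + 1))) / 3840 := by ring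
        _ ≤ m * (ε * (m : ℝ) ^ 2) / 3840 := by gcongr
        _ = ε / 16 * ((m : ℝ) ^ 3 / 240) := by ring
        _ ≤ ε / 16 * (k + 1) := by gcongr
    calc n * (m * (2 * r + 1)) = L * (t * (m * (2 * r + 1))) := by rw [← hLt]; ring
      _ ≤ L * (ε / 16 * (k + 1)) := by gcongr
      _ = _ := by ring
  have e6 : ((η * A * C0 * L * (k + 1) + (C0 * L * (k + 1) + n) / A) +
        n * (CR * (m : ℝ) ^ 2 + m * (2 * r + 1)) + ε / 64 * (k + 1) * L) ≤
        ε / 4 * (L * (k + 1)) := by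
    have h5 : ε / 64 * (k + 1) * L = ε / 64 * (L * (k + 1)) := by ring
    have h6 : 0 ≤ ε * (L * (k + 1)) := by positivity
    rw [add_div, e1, e2, mul_add, h5]
    linarith
  have e7 : ((uncov Z (SSof Z) (ε / (KK * C1) * L ^ 2 / n)).card : ℝ) * (k + 1) ≤
      (ε * L * n) * (k + 1) := by
    refine key.trans ?_
    calc 4 * n * ((η * A * C0 * L * (k + 1) + (C0 * L * (k + 1) + n) / A) +
        n * (CR * (m : ℝ) ^ 2 + m * (2 * r + 1)) + ε / 64 * (k + 1) * L)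
        ≤ 4 * n * (ε / 4 * (L * (k + 1))) := by gcongr
      _ = (ε * L * n) * (k + 1) := by ring
  exact le_of_mul_le_mul_right e7 hkpos

/-- STEP A for generic sets (all coordinates) -/
def StepAall (C0 : ℝ) : Prop :=
  ∀ ε : ℝ, 0 < ε → ∃ c B0 : ℝ, 0 < c ∧ ∀ (Z : Finset PP) (L B : ℝ), B0 ≤ B → Reg Nul C0 B Z L →
    GPall Z → ∃ SS : Finset (Finset PP), Blocks Z SS ∧
      ((uncov Z SS (c * L ^ 2 / Z.card)).card : ℝ) ≤ ε * L * Z.card

/-- STEP A for generic sets -/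
theorem stepAall (hE : Engine) (hR : RankIn) (hO : Overfull) (h1 : O1curve) (h2 : O1surf)
    (hL0 : L0in) (C0 : ℝ) : StepAall C0 := by
  intro ε hε
  by_cases hC0 : 1 ≤ C0
  · obtain ⟨c, B0, hc, h⟩ := main_count hE hR hO h1 h2 hL0 C0 (min ε 1) hC0
      (lt_min hε one_pos) (min_le_right _ _)
    refine ⟨c, B0, hc, fun Z L B hB hreg hgen => ⟨SSof Z, blocks Z, ?_⟩⟩
    refine (h Z L B hB hreg hgen).trans ?_
    have := hreg.L_pos
    gcongr
    exact min_le_left _ _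
  · exact ⟨1, 0, one_pos, fun Z L B _ hreg _ => absurd (D3cons275.one_le_C0 hreg) hC0⟩

end Crest.Agent.R065.D3stepA855
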