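import Crest.Agent.R065.ExtP_580

/-!
# Row 65, `d ≥ 4`: the finite exchange engine (272's bipartite scheme, #15513)

Pure finite combinatorics.  `X`, `Y` finite sets, `NN` a relation, `bad Om z` monotone in `Om`,
`o Om z w` arbitrary orders.
-/

set_option autoImplicit false

open Finset

namespace Crest.Agent.R065.D4eng812

open Crest.Agent.R065.ExtP580

set_option linter.unusedSectionVars false

variable {α : Type*} [DecidableEq α]

lemma sum_exchange {M : Type*} [AddCommMonoid M] (V : Finset α) (k : ℕ)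
    (F : Finset α → α → M) :
    ∑ B ∈ V.powersetCard k, ∑ y ∈ V \ B, F (insert y B) y =
      ∑ B ∈ V.powersetCard (k + 1), ∑ y ∈ B, F B y := by
  rw [Finset.sum_sigma', Finset.sum_sigma']
  refine Finset.sum_bij' (fun p _ => ⟨insert p.2 p.1, p.2⟩)
    (fun p _ => ⟨p.1.erase p.2, p.2⟩) ?_ ?_ ?_ ?_ ?_
  · rintro ⟨B, y⟩ h
    simp only [Finset.mem_sigma, Finset.mem_powersetCard, Finset.mem_sdiff] at h ⊢
    obtain ⟨⟨h1, h2⟩, h3, h4⟩ := h
    refine ⟨⟨Finset.insert_subset h3 h1, ?_⟩, Finset.mem_insert_self _ _⟩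
    rw [Finset.card_insert_of_notMem h4, h2]
  · rintro ⟨B, y⟩ h
    simp only [Finset.mem_sigma, Finset.mem_powersetCard, Finset.mem_sdiff] at h ⊢
    obtain ⟨⟨h1, h2⟩, h3⟩ := h
    refine ⟨⟨(Finset.erase_subset _ _).trans h1, ?_⟩, h1 h3, Finset.notMem_erase _ _⟩
    rw [Finset.card_erase_of_mem h3, h2]; rfl
  · rintro ⟨B, y⟩ h
    simp only [Finset.mem_sigma, Finset.mem_powersetCard, Finset.mem_sdiff] at h
    simp [Finset.erase_insert h.2.2]
  · rintro ⟨B, y⟩ h
    simp only [Finset.mem_sigma, Finset.mem_powersetCard, Finset.mem_sdiff] at h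
    simp [Finset.insert_erase h.2]
  · rintro ⟨B, y⟩ h
    rfl

lemma sum_exchange' (V : Finset α) (k : ℕ) (h : Finset α → ℝ) :
    ∑ B ∈ V.powersetCard k, ∑ y ∈ V \ B, h (insert y B) =
      (k + 1 : ℝ) * ∑ B ∈ V.powersetCard (k + 1), h B := by
  rw [sum_exchange V k (fun B _ => h B), Finset.mul_sum]
  refine Finset.sum_congr rfl fun B hB => ?_
  rw [Finset.sum_const, (Finset.mem_powersetCard.1 hB).2, nsmul_eq_mul]
  push_cast
  ring

/-- average over `k`-subsets -/
noncomputable def av (V : Finset α) (k : ℕ) (h : Finset α → ℝ) : ℝ :=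
  (∑ B ∈ V.powersetCard k, h B) / (V.card.choose k : ℝ)

lemma choose_pos {V : Finset α} {k : ℕ} (hk : k ≤ V.card) : (0 : ℝ) < (V.card.choose k : ℝ) := by
  exact_mod_cast Nat.choose_pos hk

lemma choose_succ (v k : ℕ) (hk : k ≤ v) :
    (v.choose (k + 1) : ℝ) * (k + 1) = (v.choose k : ℝ) * (v - k) := by
  have := Nat.choose_succ_right_eq v k
  have h2 : ((v.choose (k + 1) * (k + 1) : ℕ) : ℝ) = ((v.choose k * (v - k) : ℕ) : ℝ) := by
    rw [this]
  push_cast [Nat.cast_sub hk] at h2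
  exact h2

/-- exchange in average form -/
lemma av_exchange (V : Finset α) (k : ℕ) (hk : k + 1 ≤ V.card) (F : Finset α → α → ℝ) :
    av V k (fun B => ∑ y ∈ V \ B, F (insert y B) y) =
      ((V.card : ℝ) - k) / (k + 1) * av V (k + 1) (fun B => ∑ y ∈ B, F B y) := by
  unfold av
  rw [sum_exchange]
  have h1 := choose_succ V.card k (by omega)
  have h2 := choose_pos (V := V) (k := k) (by omega)
  have h3 := choose_pos (V := V) (k := k + 1) hk
  have h4 : (0 : ℝ) < (k : ℝ) + 1 := by positivity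
  have h5 : ((V.card : ℝ) - k) = (V.card.choose (k + 1) : ℝ) * (k + 1) / (V.card.choose k : ℝ) := by
    rw [eq_div_iff h2.ne']; linarith
  rw [h5]
  field_simp

lemma av_mono {V : Finset α} {k : ℕ} {f g : Finset α → ℝ}
    (h : ∀ B ∈ V.powersetCard k, f B ≤ g B) : av V k f ≤ av V k g := by
  unfold av
  exact div_le_div_of_nonneg_right (Finset.sum_le_sum h) (by positivity)

lemma av_add (V : Finset α) (k : ℕ) (f g : Finset α → ℝ) :
    av V k (fun B => f B + g B) = av V k f + av V k g := by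
  unfold av
  rw [Finset.sum_add_distrib, add_div]

lemma av_sub (V : Finset α) (k : ℕ) (f g : Finset α → ℝ) :
    av V k (fun B => f B - g B) = av V k f - av V k g := by
  unfold av
  rw [Finset.sum_sub_distrib, sub_div]

lemma av_const_mul (V : Finset α) (k : ℕ) (c : ℝ) (f : Finset α → ℝ) :
    av V k (fun B => c * f B) = c * av V k f := by
  unfold av
  rw [← Finset.mul_sum, mul_div_assoc]

lemma av_const {V : Finset α} {k : ℕ} (hk : k ≤ V.card) (c : ℝ) :
    av V k (fun _ => c) = c := by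
  unfold av
  rw [Finset.sum_const, Finset.card_powersetCard, nsmul_eq_mul]
  have := choose_pos (V := V) hk
  field_simp

lemma av_le_const {V : Finset α} {k : ℕ} (hk : k ≤ V.card) {c : ℝ} {f : Finset α → ℝ}
    (h : ∀ B ∈ V.powersetCard k, f B ≤ c) : av V k f ≤ c := by
  rw [← av_const (V := V) hk c]
  exact av_mono h

lemma av_comm (X Y : Finset α) (i j : ℕ) (g : Finset α → Finset α → ℝ) :
    av X i (fun A => av Y j (fun B => g A B)) = av Y j (fun B => av X i (fun A => g A B)) := by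
  unfold av
  simp only [Finset.sum_div]
  rw [Finset.sum_comm]
  refine Finset.sum_congr rfl fun B _ => ?_
  refine Finset.sum_congr rfl fun A _ => ?_
  rw [div_div, div_div, mul_comm]

/-- averages of monotone functions increase -/
lemma av_succ_le (V : Finset α) (k : ℕ) (hk : k + 1 ≤ V.card) (h : Finset α → ℝ)
    (hm : ∀ A B : Finset α, A ⊆ B → h A ≤ h B) : av V k h ≤ av V (k + 1) h := by
  have h1 := av_exchange V k hk (fun B _ => h B)
  have h2 : av V (k + 1) (fun B => ∑ _y ∈ B, h B) = (k + 1 : ℝ) * av V (k + 1) h := by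
    rw [← av_const_mul]
    unfold av
    congr 1
    refine Finset.sum_congr rfl fun B hB => ?_
    show ∑ _y ∈ B, h B = (k + 1 : ℝ) * h B
    rw [Finset.sum_const, (Finset.mem_powersetCard.1 hB).2, nsmul_eq_mul]
    push_cast
    ring
  have h3 : ((V.card : ℝ) - k) * av V k h ≤
      av V k (fun B => ∑ y ∈ V \ B, h (insert y B)) := by
    rw [← av_const_mul]
    refine av_mono fun B hB => ?_
    obtain ⟨hB1, hB2⟩ := Finset.mem_powersetCard.1 hB
    have hc : ((V \ B).card : ℝ) = (V.card : ℝ) - k := by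
      rw [Finset.card_sdiff_of_subset hB1, hB2, Nat.cast_sub (by omega)]
    calc ((V.card : ℝ) - k) * h B = ∑ _y ∈ V \ B, h B := by
          rw [Finset.sum_const, nsmul_eq_mul, hc]
      _ ≤ _ := Finset.sum_le_sum fun y _ => hm _ _ (Finset.subset_insert _ _)
  have hv : (0 : ℝ) < (V.card : ℝ) - k := by
    have : ((k + 1 : ℕ) : ℝ) ≤ V.card := by exact_mod_cast hk
    push_cast at this
    linarith
  have h4 : (0 : ℝ) < (k : ℝ) + 1 := by positivity
  rw [h1, h2] at h3
  have h5 : ((V.card : ℝ) - k) / (k + 1) * ((k + 1) * av V (k + 1) h) =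
      ((V.card : ℝ) - k) * av V (k + 1) h := by
    field_simp
  rw [h5] at h3
  exact le_of_mul_le_mul_left h3 hv

/-- the telescoping sum -/
lemma tele (X Y : Finset α) (k0 : ℕ) (hX : 2 * k0 ≤ X.card) (hY : 2 * k0 ≤ Y.card)
    (g : Finset α → Finset α → ℝ) (hg0 : ∀ A B, 0 ≤ g A B)
    (hm : ∀ A A' B B' : Finset α, A ⊆ A' → B ⊆ B' → g A B ≤ g A' B') (M : ℝ)
    (hM : ∀ A ∈ X.powersetCard (2 * k0), ∀ B ∈ Y.powersetCard (2 * k0), g A B ≤ M) :
    ∑ k ∈ Finset.Ico k0 (2 * k0), (av X k (fun A => av Y (k + 1) (fun B => g A B)) -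
      av X k (fun A => av Y k (fun B => g A B))) ≤ M := by
  set E : ℕ → ℝ := fun k => av X k (fun A => av Y k (fun B => g A B)) with hE
  have h1 : ∀ k ∈ Finset.Ico k0 (2 * k0),
      (av X k (fun A => av Y (k + 1) (fun B => g A B)) -
        av X k (fun A => av Y k (fun B => g A B))) ≤ E (k + 1) - E k := by
    intro k hk
    rw [Finset.mem_Ico] at hk
    refine sub_le_sub_right ?_ _
    refine av_succ_le X k (by omega) _ ?_
    intro A A' hAA
    exact av_mono fun B _ => hm _ _ _ _ hAA (Finset.Subset.refl _)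
  refine (Finset.sum_le_sum h1).trans ?_
  rw [Finset.sum_Ico_sub E (by omega)]
  have h2 : E (2 * k0) ≤ M := by
    refine av_le_const hX fun A hA => ?_
    exact av_le_const hY fun B hB => hM A hA B hB
  have h3 : 0 ≤ E k0 := by
    simp only [hE]
    unfold av
    refine div_nonneg (Finset.sum_nonneg fun A _ => ?_) (by positivity)
    exact div_nonneg (Finset.sum_nonneg fun B _ => hg0 _ _) (by positivity)
  linarith

lemma new_le (X Y : Finset α) (k : ℕ) (hX : k ≤ X.card) (hY : k + 1 ≤ Y.card)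
    (g : Finset α → Finset α → ℝ)
    (hm : ∀ A A' B B' : Finset α, A ⊆ A' → B ⊆ B' → g A B ≤ g A' B') :
    av X k (fun A => av Y k (fun B => ∑ y ∈ Y \ B, (g A (insert y B) - g A B))) ≤
      Y.card * (av X k (fun A => av Y (k + 1) (fun B => g A B)) -
        av X k (fun A => av Y k (fun B => g A B))) := by
  have hv : (0 : ℝ) ≤ (Y.card : ℝ) - k := by
    have : ((k + 1 : ℕ) : ℝ) ≤ Y.card := by exact_mod_cast hY
    push_cast at this
    linarith
  have h1 : ∀ A, av Y k (fun B => ∑ y ∈ Y \ B, (g A (insert y B) - g A B)) =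
      ((Y.card : ℝ) - k) * (av Y (k + 1) (fun B => g A B) - av Y k (fun B => g A B)) := by
    intro A
    have e1 : av Y k (fun B => ∑ y ∈ Y \ B, (g A (insert y B) - g A B)) =
        av Y k (fun B => ∑ y ∈ Y \ B, g A (insert y B)) -
          av Y k (fun B => ((Y.card : ℝ) - k) * g A B) := by
      rw [← av_sub]
      unfold av
      congr 1
      refine Finset.sum_congr rfl fun B hB => ?_
      obtain ⟨hB1, hB2⟩ := Finset.mem_powersetCard.1 hB
      have hc : ((Y \ B).card : ℝ) = (Y.card : ℝ) - k := by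
        rw [Finset.card_sdiff_of_subset hB1, hB2, Nat.cast_sub (by omega)]
      show ∑ y ∈ Y \ B, (g A (insert y B) - g A B) =
        ∑ y ∈ Y \ B, g A (insert y B) - ((Y.card : ℝ) - k) * g A B
      rw [Finset.sum_sub_distrib, Finset.sum_const, nsmul_eq_mul, hc]
    rw [e1, av_const_mul, av_exchange Y k hY (fun B _ => g A B)]
    have e2 : av Y (k + 1) (fun B => ∑ _y ∈ B, g A B) =
        (k + 1 : ℝ) * av Y (k + 1) (fun B => g A B) := by
      rw [← av_const_mul]
      unfold av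
      congr 1
      refine Finset.sum_congr rfl fun B hB => ?_
      show ∑ _y ∈ B, g A B = (k + 1 : ℝ) * g A B
      rw [Finset.sum_const, (Finset.mem_powersetCard.1 hB).2, nsmul_eq_mul]
      push_cast
      ring
    rw [e2]
    have h4 : (k : ℝ) + 1 ≠ 0 := by positivity
    field_simp
  have h2 : av X k (fun A => av Y k (fun B => ∑ y ∈ Y \ B, (g A (insert y B) - g A B))) =
      ((Y.card : ℝ) - k) * (av X k (fun A => av Y (k + 1) (fun B => g A B)) -
        av X k (fun A => av Y k (fun B => g A B))) := by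
    rw [← av_sub, ← av_const_mul]
    unfold av
    congr 1
    refine Finset.sum_congr rfl fun A _ => ?_
    exact h1 A
  rw [h2]
  refine mul_le_mul_of_nonneg_right (by linarith [(Nat.cast_nonneg k : (0 : ℝ) ≤ k)]) ?_
  rw [sub_nonneg]
  refine av_mono fun A _ => ?_
  exact av_succ_le Y k hY _ fun B B' hB => hm _ _ _ _ (Finset.Subset.refl _) hB

lemma type_le (X Y : Finset α) (k : ℕ) (hX : k ≤ X.card) (hY : k + 1 ≤ Y.card)
    (F : Finset α → Finset α → α → ℝ) (c ρ : ℝ) (hc : 0 ≤ c) (hρ : 0 ≤ ρ) (R : Finset α → ℝ)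
    (h : ∀ A ∈ X.powersetCard k, ∀ B ∈ Y.powersetCard (k + 1), ∑ y ∈ B, F A B y ≤ c * R B)
    (hR : av Y (k + 1) R ≤ ρ) :
    av X k (fun A => av Y k (fun B => ∑ y ∈ Y \ B, F A (insert y B) y)) ≤
      Y.card / (k + 1) * (c * ρ) := by
  refine av_le_const hX fun A hA => ?_
  rw [av_exchange Y k hY (fun B y => F A B y)]
  have hv : (0 : ℝ) ≤ (Y.card : ℝ) - k := by
    have : ((k + 1 : ℕ) : ℝ) ≤ Y.card := by exact_mod_cast hY
    push_cast at this
    linarith
  have h4 : (0 : ℝ) < (k : ℝ) + 1 := by positivity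
  have h1 : av Y (k + 1) (fun B => ∑ y ∈ B, F A B y) ≤ c * ρ := by
    calc av Y (k + 1) (fun B => ∑ y ∈ B, F A B y) ≤ av Y (k + 1) (fun B => c * R B) :=
          av_mono fun B hB => h A hA B hB
      _ = c * av Y (k + 1) R := av_const_mul _ _ _ _
      _ ≤ c * ρ := mul_le_mul_of_nonneg_left hR hc
  calc ((Y.card : ℝ) - k) / (k + 1) * av Y (k + 1) (fun B => ∑ y ∈ B, F A B y) ≤
        ((Y.card : ℝ) - k) / (k + 1) * (c * ρ) :=
        mul_le_mul_of_nonneg_left h1 (div_nonneg hv h4.le)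
    _ ≤ Y.card / (k + 1) * (c * ρ) := by
        refine mul_le_mul_of_nonneg_right ?_ (mul_nonneg hc hρ)
        exact div_le_div_of_nonneg_right (by linarith [(Nat.cast_nonneg k : (0 : ℝ) ≤ k)]) h4.le

/-- `T' ≤ δ T` from the square form -/
lemma le_of_sq {a b x x' δ : ℝ} (ha : 0 ≤ a) (hb : 0 ≤ b) (hx : 0 < x) (hδ : 0 ≤ δ)
    (h : a ^ 2 * x ≤ x' * b ^ 2) (h' : x' ≤ δ ^ 2 * x) : a ≤ δ * b := by
  have h1 : a ^ 2 * x ≤ (δ * b) ^ 2 * x := by
    calc a ^ 2 * x ≤ x' * b ^ 2 := h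
      _ ≤ δ ^ 2 * x * b ^ 2 := mul_le_mul_of_nonneg_right h' (by positivity)
      _ = _ := by ring
  have h2 : a ^ 2 ≤ (δ * b) ^ 2 := le_of_mul_le_mul_right h1 hx
  exact (sq_le_sq₀ ha (by positivity)).1 h2

open scoped Classical in
/-- number of bad points in `X` -/
noncomputable def nb (bad : Finset α → α → Prop) (X Om : Finset α) : ℕ :=
  (X.filter fun x => bad Om x).card

lemma nb_mono {bad : Finset α → α → Prop} (mono : ∀ Om Om' z, Om ⊆ Om' → bad Om z → bad Om' z)
    (X : Finset α) {Om Om' : Finset α} (h : Om ⊆ Om') : nb bad X Om ≤ nb bad X Om' := by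
  classical
  unfold nb
  refine Finset.card_le_card fun x hx => ?_
  rw [Finset.mem_filter] at hx ⊢
  exact ⟨hx.1, mono _ _ _ h hx.2⟩

open scoped Classical in
/-- type 1 pairs ending in `y` -/
noncomputable def F1 (NN : α → α → Prop) (bad : Finset α → α → Prop)
    (o : Finset α → α → α → ℕ∞) (X A B : Finset α) (y : α) : ℕ :=
  (X.filter fun x => y ∉ A ∧ ¬ bad (A ∪ B) x ∧ NN x y ∧
    o ((A ∪ B).erase y) y x ≤ o ((A ∪ B).erase y) x y).card

open scoped Classical in
/-- the pointwise decomposition -/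
lemma decomp (X Y : Finset α) (NN : α → α → Prop) (bad : Finset α → α → Prop)
    (mono : ∀ Om Om' z, Om ⊆ Om' → bad Om z → bad Om' z)
    (o : Finset α → α → α → ℕ∞) (hs : ∀ z w, NN z w → NN w z) (A B : Finset α) :
    (TP NN X Y : ℝ) ≤ TP NN (X ∩ (A ∪ B)) Y + TP NN X (Y ∩ (A ∪ B)) +
      TP NN (X.filter fun x => bad (A ∪ B) x) Y + TP NN X (Y.filter fun y => bad (A ∪ B) y) +
      ∑ y ∈ Y \ B, ((nb bad X (A ∪ insert y B) : ℝ) - nb bad X (A ∪ B)) +
      ∑ x ∈ X \ A, ((nb bad Y (insert x A ∪ B) : ℝ) - nb bad Y (A ∪ B)) +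
      ∑ y ∈ Y \ B, (F1 NN bad o X A (insert y B) y : ℝ) +
      ∑ x ∈ X \ A, (F1 NN bad o Y B (insert x A) x : ℝ) := by
  -- the eight sets
  set S1 := ((X ∩ (A ∪ B)) ×ˢ Y).filter fun p => NN p.1 p.2 with hS1
  set S2 := (X ×ˢ (Y ∩ (A ∪ B))).filter fun p => NN p.1 p.2 with hS2
  set S3 := ((X.filter fun x => bad (A ∪ B) x) ×ˢ Y).filter fun p => NN p.1 p.2 with hS3
  set S4 := (X ×ˢ (Y.filter fun y => bad (A ∪ B) y)).filter fun p => NN p.1 p.2 with hS4
  set S5 := (X ×ˢ (Y \ B)).filter fun p => bad (A ∪ insert p.2 B) p.1 ∧ ¬ bad (A ∪ B) p.1 with hS5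
  set S6 := ((X \ A) ×ˢ Y).filter fun p => bad (insert p.1 A ∪ B) p.2 ∧ ¬ bad (A ∪ B) p.2 with hS6
  set S7 := (X ×ˢ (Y \ B)).filter fun p => p.2 ∉ A ∧ ¬ bad (A ∪ insert p.2 B) p.1 ∧ NN p.1 p.2 ∧
    o ((A ∪ insert p.2 B).erase p.2) p.2 p.1 ≤ o ((A ∪ insert p.2 B).erase p.2) p.1 p.2 with hS7
  set S8 := ((X \ A) ×ˢ Y).filter fun p => p.1 ∉ B ∧ ¬ bad (B ∪ insert p.1 A) p.2 ∧ NN p.2 p.1 ∧
    o ((B ∪ insert p.1 A).erase p.1) p.1 p.2 ≤ o ((B ∪ insert p.1 A).erase p.1) p.2 p.1 with hS8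
  have hsub : ((X ×ˢ Y).filter fun p => NN p.1 p.2) ⊆
      S1 ∪ S2 ∪ S3 ∪ S4 ∪ S5 ∪ S6 ∪ S7 ∪ S8 := by
    rintro ⟨x, y⟩ h
    rw [Finset.mem_filter, Finset.mem_product] at h
    obtain ⟨⟨hx, hy⟩, hN⟩ := h
    simp only at hx hy hN
    by_cases h1 : x ∈ A ∪ B
    · simp only [Finset.mem_union]
      left; left; left; left; left; left; left
      simp only [hS1, Finset.mem_filter, Finset.mem_product, Finset.mem_inter]
      exact ⟨⟨⟨hx, h1⟩, hy⟩, hN⟩
    by_cases h2 : y ∈ A ∪ B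
    · simp only [Finset.mem_union]
      left; left; left; left; left; left; right
      simp only [hS2, Finset.mem_filter, Finset.mem_product, Finset.mem_inter]
      exact ⟨⟨hx, hy, h2⟩, hN⟩
    by_cases h3 : bad (A ∪ B) x
    · simp only [Finset.mem_union]
      left; left; left; left; left; right
      simp only [hS3, Finset.mem_filter, Finset.mem_product]
      exact ⟨⟨⟨hx, h3⟩, hy⟩, hN⟩
    by_cases h4 : bad (A ∪ B) y
    · simp only [Finset.mem_union]
      left; left; left; left; right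
      simp only [hS4, Finset.mem_filter, Finset.mem_product]
      exact ⟨⟨hx, hy, h4⟩, hN⟩
    rw [Finset.mem_union, not_or] at h1 h2
    by_cases h5 : bad (A ∪ insert y B) x
    · simp only [Finset.mem_union]
      left; left; left; right
      simp only [hS5, Finset.mem_filter, Finset.mem_product, Finset.mem_sdiff]
      exact ⟨⟨hx, hy, h2.2⟩, h5, h3⟩
    by_cases h6 : bad (insert x A ∪ B) y
    · simp only [Finset.mem_union]
      left; left; right
      simp only [hS6, Finset.mem_filter, Finset.mem_product, Finset.mem_sdiff]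
      exact ⟨⟨⟨hx, h1.1⟩, hy⟩, h6, h4⟩
    have e1 : (A ∪ insert y B).erase y = A ∪ B := by
      rw [Finset.union_insert, Finset.erase_insert]
      rw [Finset.mem_union, not_or]; exact h2
    have e2 : (B ∪ insert x A).erase x = A ∪ B := by
      rw [Finset.union_insert, Finset.erase_insert, Finset.union_comm]
      rw [Finset.mem_union, not_or]; exact ⟨h1.2, h1.1⟩
    have e3 : B ∪ insert x A = insert x A ∪ B := Finset.union_comm _ _
    rcases le_total (o (A ∪ B) y x) (o (A ∪ B) x y) with h7 | h7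
    · simp only [Finset.mem_union]
      left; right
      simp only [hS7, Finset.mem_filter, Finset.mem_product, Finset.mem_sdiff]
      exact ⟨⟨hx, hy, h2.2⟩, h2.1, h5, hN, by rw [e1]; exact h7⟩
    · simp only [Finset.mem_union]
      right
      simp only [hS8, Finset.mem_filter, Finset.mem_product, Finset.mem_sdiff]
      exact ⟨⟨⟨hx, h1.1⟩, hy⟩, h1.2, by rw [e3]; exact h6, hs _ _ hN, by rw [e2]; exact h7⟩
  have hcard : ((X ×ˢ Y).filter fun p => NN p.1 p.2).card ≤
      S1.card + S2.card + S3.card + S4.card + S5.card + S6.card + S7.card + S8.card := by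
    refine (Finset.card_le_card hsub).trans ?_
    have u1 := Finset.card_union_le S1 S2
    have u2 := Finset.card_union_le (S1 ∪ S2) S3
    have u3 := Finset.card_union_le (S1 ∪ S2 ∪ S3) S4
    have u4 := Finset.card_union_le (S1 ∪ S2 ∪ S3 ∪ S4) S5
    have u5 := Finset.card_union_le (S1 ∪ S2 ∪ S3 ∪ S4 ∪ S5) S6
    have u6 := Finset.card_union_le (S1 ∪ S2 ∪ S3 ∪ S4 ∪ S5 ∪ S6) S7
    have u7 := Finset.card_union_le (S1 ∪ S2 ∪ S3 ∪ S4 ∪ S5 ∪ S6 ∪ S7) S8
    omega
  have c5 : (S5.card : ℝ) = ∑ y ∈ Y \ B, ((nb bad X (A ∪ insert y B) : ℝ) - nb bad X (A ∪ B)) := by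
    rw [hS5, Finset.card_filter, Finset.sum_product_right, Nat.cast_sum]
    refine Finset.sum_congr rfl fun y _ => ?_
    rw [← Finset.card_filter]
    have h1 : (X.filter fun x => bad (A ∪ insert y B) x ∧ ¬ bad (A ∪ B) x) =
        (X.filter fun x => bad (A ∪ insert y B) x) \ (X.filter fun x => bad (A ∪ B) x) := by
      ext x
      simp only [Finset.mem_filter, Finset.mem_sdiff, not_and]
      tauto
    have h2 : (X.filter fun x => bad (A ∪ B) x) ⊆ (X.filter fun x => bad (A ∪ insert y B) x) := by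
      intro x hx
      rw [Finset.mem_filter] at hx ⊢
      exact ⟨hx.1, mono _ _ _ (Finset.union_subset_union_right (Finset.subset_insert _ _)) hx.2⟩
    rw [h1, Finset.card_sdiff_of_subset h2, Nat.cast_sub (Finset.card_le_card h2)]
    unfold nb
    simp only [Finset.filter_congr_decidable]
  have c6 : (S6.card : ℝ) = ∑ x ∈ X \ A, ((nb bad Y (insert x A ∪ B) : ℝ) - nb bad Y (A ∪ B)) := by
    rw [hS6, Finset.card_filter, Finset.sum_product, Nat.cast_sum]
    refine Finset.sum_congr rfl fun y _ => ?_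
    rw [← Finset.card_filter]
    have h1 : (Y.filter fun x => bad (insert y A ∪ B) x ∧ ¬ bad (A ∪ B) x) =
        (Y.filter fun x => bad (insert y A ∪ B) x) \ (Y.filter fun x => bad (A ∪ B) x) := by
      ext x
      simp only [Finset.mem_filter, Finset.mem_sdiff, not_and]
      tauto
    have h2 : (Y.filter fun x => bad (A ∪ B) x) ⊆ (Y.filter fun x => bad (insert y A ∪ B) x) := by
      intro x hx
      rw [Finset.mem_filter] at hx ⊢
      exact ⟨hx.1, mono _ _ _ (Finset.union_subset_union_left (Finset.subset_insert _ _)) hx.2⟩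
    rw [h1, Finset.card_sdiff_of_subset h2, Nat.cast_sub (Finset.card_le_card h2)]
    unfold nb
    simp only [Finset.filter_congr_decidable]
  have c7 : (S7.card : ℝ) = ∑ y ∈ Y \ B, (F1 NN bad o X A (insert y B) y : ℝ) := by
    rw [hS7, Finset.card_filter, Finset.sum_product_right, Nat.cast_sum]
    refine Finset.sum_congr rfl fun y _ => ?_
    rw [← Finset.card_filter]
    rfl
  have c8 : (S8.card : ℝ) = ∑ x ∈ X \ A, (F1 NN bad o Y B (insert x A) x : ℝ) := by
    rw [hS8, Finset.card_filter, Finset.sum_product, Nat.cast_sum]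
    refine Finset.sum_congr rfl fun y _ => ?_
    rw [← Finset.card_filter]
    rfl
  rw [← c5, ← c6, ← c7, ← c8]
  have h9 : (((X ×ˢ Y).filter fun p => NN p.1 p.2).card : ℝ) ≤
      ((S1.card + S2.card + S3.card + S4.card + S5.card + S6.card + S7.card + S8.card : ℕ) : ℝ) :=
    Nat.cast_le.2 hcard
  push_cast at h9
  have t0 : TP NN X Y = ((X ×ˢ Y).filter fun p => NN p.1 p.2).card := rfl
  have t1 : TP NN (X ∩ (A ∪ B)) Y = S1.card := rfl
  have t2 : TP NN X (Y ∩ (A ∪ B)) = S2.card := rfl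
  have t3 : TP NN (X.filter fun x => bad (A ∪ B) x) Y = S3.card := rfl
  have t4 : TP NN X (Y.filter fun y => bad (A ∪ B) y) = S4.card := rfl
  rw [t0, t1, t2, t3, t4]
  exact h9

open scoped Classical in
lemma sum_F1_le (X A B : Finset α) (NN : α → α → Prop) (bad : Finset α → α → Prop)
    (o : Finset α → α → α → ℕ∞) (R : ℝ) (hR : 0 ≤ R)
    (h : ∀ x ∈ X, ¬ bad (A ∪ B) x → (((B \ A).filter fun y => NN x y ∧
      o ((A ∪ B).erase y) y x ≤ o ((A ∪ B).erase y) x y).card : ℝ) ≤ R) :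
    ∑ y ∈ B, (F1 NN bad o X A B y : ℝ) ≤ X.card * R := by
  have h1 : ∑ y ∈ B, (F1 NN bad o X A B y : ℝ) =
      ∑ x ∈ X, ((B.filter fun y => y ∉ A ∧ ¬ bad (A ∪ B) x ∧ NN x y ∧
        o ((A ∪ B).erase y) y x ≤ o ((A ∪ B).erase y) x y).card : ℝ) := by
    unfold F1
    simp only [Finset.card_filter, Nat.cast_sum]
    rw [Finset.sum_comm]
  rw [h1]
  calc ∑ x ∈ X, ((B.filter fun y => y ∉ A ∧ ¬ bad (A ∪ B) x ∧ NN x y ∧
        o ((A ∪ B).erase y) y x ≤ o ((A ∪ B).erase y) x y).card : ℝ) ≤ ∑ _x ∈ X, R := by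
        refine Finset.sum_le_sum fun x hx => ?_
        by_cases hb : bad (A ∪ B) x
        · have : (B.filter fun y => y ∉ A ∧ ¬ bad (A ∪ B) x ∧ NN x y ∧
              o ((A ∪ B).erase y) y x ≤ o ((A ∪ B).erase y) x y) = ∅ := by
            rw [Finset.filter_eq_empty_iff]
            intro y _ hcon
            exact hcon.2.1 hb
          rw [this]
          simpa using hR
        · refine le_trans ?_ (h x hx hb)
          refine Nat.cast_le.2 (Finset.card_le_card fun y hy => ?_)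
          rw [Finset.mem_filter] at hy ⊢
          exact ⟨Finset.mem_sdiff.2 ⟨hy.1, hy.2.1⟩, hy.2.2.2⟩
    _ = X.card * R := by rw [Finset.sum_const, nsmul_eq_mul]

open scoped Classical in
/-- **The exchange engine** (272 #15513, (E3)): `X`, `Y` finite, `NN` symmetric, `bad` monotone,
`o` arbitrary orders. -/
theorem engine (X Y : Finset α) (NN : α → α → Prop) (hs : ∀ z w, NN z w → NN w z)
    (bad : Finset α → α → Prop)
    (mono : ∀ Om Om' z, Om ⊆ Om' → bad Om z → bad Om' z)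
    (o : Finset α → α → α → ℕ∞) (k0 : ℕ) (hk0 : 1 ≤ k0) (hX2 : 2 * k0 ≤ X.card)
    (hY2 : 2 * k0 ≤ Y.card) (η ρ : ℝ) (hη : 0 ≤ η) (hρ : 0 ≤ ρ)
    (hTX : ∀ X' ⊆ X, (TP NN X' Y : ℝ) ^ 2 * X.card ≤ X'.card * (TP NN X Y : ℝ) ^ 2)
    (hTY : ∀ Y' ⊆ Y, (TP NN X Y' : ℝ) ^ 2 * Y.card ≤ Y'.card * (TP NN X Y : ℝ) ^ 2)
    (hbX : ∀ A ⊆ X, ∀ B ⊆ Y, A.card ≤ 2 * k0 → B.card ≤ 2 * k0 →
      ((X.filter fun x => bad (A ∪ B) x).card : ℝ) ≤ η * X.card)
    (hbY : ∀ A ⊆ X, ∀ B ⊆ Y, A.card ≤ 2 * k0 → B.card ≤ 2 * k0 →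
      ((Y.filter fun y => bad (A ∪ B) y).card : ℝ) ≤ η * Y.card)
    (R1 R2 : Finset α → ℝ) (hR1 : ∀ B, 0 ≤ R1 B) (hR2 : ∀ A, 0 ≤ R2 A)
    (RX : ∀ A ⊆ X, ∀ B ⊆ Y, A.card ≤ 2 * k0 → B.card ≤ 2 * k0 → ∀ x ∈ X, ¬ bad (A ∪ B) x →
      (((B \ A).filter fun y => NN x y ∧
        o ((A ∪ B).erase y) y x ≤ o ((A ∪ B).erase y) x y).card : ℝ) ≤ R1 B)
    (RY : ∀ A ⊆ X, ∀ B ⊆ Y, A.card ≤ 2 * k0 → B.card ≤ 2 * k0 → ∀ y ∈ Y, ¬ bad (A ∪ B) y →
      (((A \ B).filter fun x => NN y x ∧
        o ((A ∪ B).erase x) x y ≤ o ((A ∪ B).erase x) y x).card : ℝ) ≤ R2 A)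
    (avY : ∀ k, k0 < k → k ≤ 2 * k0 →
      ∑ B ∈ Y.powersetCard k, R1 B ≤ ρ * (Y.card.choose k : ℝ))
    (avX : ∀ k, k0 < k → k ≤ 2 * k0 →
      ∑ A ∈ X.powersetCard k, R2 A ≤ ρ * (X.card.choose k : ℝ)) :
    (TP NN X Y : ℝ) ≤
      (√(4 * k0 / X.card) + √(4 * k0 / Y.card) + 2 * √η) * TP NN X Y +
        (X.card : ℝ) * Y.card * (2 * ρ + 2 * η) / k0 := by
  set T : ℝ := (TP NN X Y : ℝ) with hT
  have hT0 : 0 ≤ T := Nat.cast_nonneg _
  have hk0' : (0 : ℝ) < (k0 : ℝ) := by exact_mod_cast hk0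
  have hX0 : (0 : ℝ) < (X.card : ℝ) := by exact_mod_cast (by omega : 0 < X.card)
  have hY0 : (0 : ℝ) < (Y.card : ℝ) := by exact_mod_cast (by omega : 0 < Y.card)
  -- the increments
  set gX : Finset α → Finset α → ℝ := fun A B => (nb bad X (A ∪ B) : ℝ) with hgX
  set gY : Finset α → Finset α → ℝ := fun B A => (nb bad Y (A ∪ B) : ℝ) with hgY
  have mX : ∀ A A' B B' : Finset α, A ⊆ A' → B ⊆ B' → gX A B ≤ gX A' B' := by
    intro A A' B B' h1 h2
    exact Nat.cast_le.2 (nb_mono mono X (Finset.union_subset_union h1 h2))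
  have mY : ∀ B B' A A' : Finset α, B ⊆ B' → A ⊆ A' → gY B A ≤ gY B' A' := by
    intro B B' A A' h1 h2
    exact Nat.cast_le.2 (nb_mono mono Y (Finset.union_subset_union h2 h1))
  set dX : ℕ → ℝ := fun k => av X k (fun A => av Y (k + 1) (fun B => gX A B)) -
    av X k (fun A => av Y k (fun B => gX A B)) with hdX
  set dY : ℕ → ℝ := fun k => av Y k (fun B => av X (k + 1) (fun A => gY B A)) -
    av Y k (fun B => av X k (fun A => gY B A)) with hdY
  have sX : ∑ k ∈ Finset.Ico k0 (2 * k0), dX k ≤ η * X.card := by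
    refine tele X Y k0 hX2 hY2 gX (fun _ _ => Nat.cast_nonneg _) mX _ ?_
    intro A hA B hB
    rw [Finset.mem_powersetCard] at hA hB
    exact hbX A hA.1 B hB.1 hA.2.le hB.2.le
  have sY : ∑ k ∈ Finset.Ico k0 (2 * k0), dY k ≤ η * Y.card := by
    refine tele Y X k0 hY2 hX2 gY (fun _ _ => Nat.cast_nonneg _) mY _ ?_
    intro B hB A hA
    rw [Finset.mem_powersetCard] at hA hB
    exact hbY A hA.1 B hB.1 hA.2.le hB.2.le
  -- one value of `k`
  have one : ∀ k ∈ Finset.Ico k0 (2 * k0), T ≤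
      (√(4 * k0 / X.card) + √(4 * k0 / Y.card) + 2 * √η) * T +
        Y.card * dX k + X.card * dY k + 2 * ((X.card : ℝ) * Y.card * ρ / k0) := by
    intro k hk
    rw [Finset.mem_Ico] at hk
    have hkX : k + 1 ≤ X.card := by omega
    have hkY : k + 1 ≤ Y.card := by omega
    have hk4 : (2 * k : ℝ) ≤ 4 * k0 := by
      have : ((2 * k : ℕ) : ℝ) ≤ ((4 * k0 : ℕ) : ℝ) := by exact_mod_cast (by omega)
      push_cast at this; exact this
    have hkk : (k0 : ℝ) ≤ (k : ℝ) + 1 := by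
      have : ((k0 : ℕ) : ℝ) ≤ ((k + 1 : ℕ) : ℝ) := by exact_mod_cast (by omega)
      push_cast at this; exact this
    -- pointwise
    have pt : ∀ A ∈ X.powersetCard k, ∀ B ∈ Y.powersetCard k, T ≤
        (√(4 * k0 / X.card) + √(4 * k0 / Y.card) + 2 * √η) * T +
        ∑ y ∈ Y \ B, (gX A (insert y B) - gX A B) + ∑ x ∈ X \ A, (gY B (insert x A) - gY B A) +
        ∑ y ∈ Y \ B, (F1 NN bad o X A (insert y B) y : ℝ) +
        ∑ x ∈ X \ A, (F1 NN bad o Y B (insert x A) x : ℝ) := by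
      intro A hA B hB
      rw [Finset.mem_powersetCard] at hA hB
      have hAk : A.card ≤ 2 * k0 := by omega
      have hBk : B.card ≤ 2 * k0 := by omega
      have hcU : ((A ∪ B).card : ℝ) ≤ 4 * k0 := by
        have := Finset.card_union_le A B
        have h2 : (A ∪ B).card ≤ 2 * k := by omega
        have h3 : ((A ∪ B).card : ℝ) ≤ ((2 * k : ℕ) : ℝ) := by exact_mod_cast h2
        push_cast at h3
        linarith
      have d := decomp X Y NN bad mono o hs A B
      have q1 : (TP NN (X ∩ (A ∪ B)) Y : ℝ) ≤ √(4 * k0 / X.card) * T := by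
        refine le_of_sq (Nat.cast_nonneg _) hT0 hX0 (Real.sqrt_nonneg _)
          (hTX _ Finset.inter_subset_left) ?_
        rw [Real.sq_sqrt (by positivity), div_mul_cancel₀ _ hX0.ne']
        refine le_trans ?_ hcU
        exact_mod_cast Finset.card_le_card Finset.inter_subset_right
      have q2 : (TP NN X (Y ∩ (A ∪ B)) : ℝ) ≤ √(4 * k0 / Y.card) * T := by
        refine le_of_sq (Nat.cast_nonneg _) hT0 hY0 (Real.sqrt_nonneg _)
          (hTY _ Finset.inter_subset_left) ?_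
        rw [Real.sq_sqrt (by positivity), div_mul_cancel₀ _ hY0.ne']
        refine le_trans ?_ hcU
        exact_mod_cast Finset.card_le_card Finset.inter_subset_right
      have q3 : (TP NN (X.filter fun x => bad (A ∪ B) x) Y : ℝ) ≤ √η * T := by
        refine le_of_sq (Nat.cast_nonneg _) hT0 hX0 (Real.sqrt_nonneg _)
          (hTX _ (Finset.filter_subset _ _)) ?_
        rw [Real.sq_sqrt hη]
        exact hbX A hA.1 B hB.1 hAk hBk
      have q4 : (TP NN X (Y.filter fun y => bad (A ∪ B) y) : ℝ) ≤ √η * T := by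
        refine le_of_sq (Nat.cast_nonneg _) hT0 hY0 (Real.sqrt_nonneg _)
          (hTY _ (Finset.filter_subset _ _)) ?_
        rw [Real.sq_sqrt hη]
        exact hbY A hA.1 B hB.1 hAk hBk
      simp only [hgX, hgY]
      linarith
    -- averages
    have step : T ≤ av X k (fun A => av Y k (fun B =>
        ((√(4 * k0 / X.card) + √(4 * k0 / Y.card) + 2 * √η) * T +
        ∑ y ∈ Y \ B, (gX A (insert y B) - gX A B) + ∑ x ∈ X \ A, (gY B (insert x A) - gY B A) +
        ∑ y ∈ Y \ B, (F1 NN bad o X A (insert y B) y : ℝ) +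
        ∑ x ∈ X \ A, (F1 NN bad o Y B (insert x A) x : ℝ)))) := by
      calc T = av X k (fun _ => T) := (av_const (by omega) T).symm
        _ ≤ _ := by
          refine av_mono fun A hA => ?_
          calc T = av Y k (fun _ => T) := (av_const (by omega) T).symm
            _ ≤ _ := av_mono fun B hB => pt A hA B hB
    simp only [av_add] at step
    have e0 : av X k (fun _A => av Y k (fun _B =>
        (√(4 * k0 / X.card) + √(4 * k0 / Y.card) + 2 * √η) * T)) =
        (√(4 * k0 / X.card) + √(4 * k0 / Y.card) + 2 * √η) * T := by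
      rw [av_const (by omega), av_const (by omega)]
    rw [e0] at step
    have e1 := new_le X Y k (by omega) hkY gX mX
    have e2 : av X k (fun A => av Y k (fun B => ∑ x ∈ X \ A, (gY B (insert x A) - gY B A))) ≤
        X.card * dY k := by
      rw [av_comm]
      exact new_le Y X k (by omega) hkX gY mY
    have e3 : av X k (fun A => av Y k (fun B =>
        ∑ y ∈ Y \ B, (F1 NN bad o X A (insert y B) y : ℝ))) ≤
        (X.card : ℝ) * Y.card * ρ / k0 := by
      refine (type_le X Y k (by omega) hkY (fun A B y => (F1 NN bad o X A B y : ℝ)) X.card ρ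
        hX0.le hρ R1 ?_ ?_).trans ?_
      · intro A hA B hB
        rw [Finset.mem_powersetCard] at hA hB
        exact sum_F1_le X A B NN bad o (R1 B) (hR1 B) (RX A hA.1 B hB.1 (by omega) (by omega))
      · unfold av
        rw [div_le_iff₀ (choose_pos hkY)]
        exact avY (k + 1) (by omega) (by omega)
      · have : (Y.card : ℝ) / (k + 1) ≤ Y.card / k0 := div_le_div_of_nonneg_left hY0.le hk0' hkk
        calc (Y.card : ℝ) / (k + 1) * (X.card * ρ) ≤ Y.card / k0 * (X.card * ρ) :=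
              mul_le_mul_of_nonneg_right this (by positivity)
          _ = _ := by ring
    have e4 : av X k (fun A => av Y k (fun B =>
        ∑ x ∈ X \ A, (F1 NN bad o Y B (insert x A) x : ℝ))) ≤
        (X.card : ℝ) * Y.card * ρ / k0 := by
      rw [av_comm]
      refine (type_le Y X k (by omega) hkX (fun B A x => (F1 NN bad o Y B A x : ℝ)) Y.card ρ
        hY0.le hρ R2 ?_ ?_).trans ?_
      · intro B hB A hA
        rw [Finset.mem_powersetCard] at hA hB
        refine sum_F1_le Y B A NN bad o (R2 A) (hR2 A) ?_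
        rw [Finset.union_comm B A]
        exact RY A hA.1 B hB.1 (by omega) (by omega)
      · unfold av
        rw [div_le_iff₀ (choose_pos hkX)]
        exact avX (k + 1) (by omega) (by omega)
      · have : (X.card : ℝ) / (k + 1) ≤ X.card / k0 := div_le_div_of_nonneg_left hX0.le hk0' hkk
        calc (X.card : ℝ) / (k + 1) * (Y.card * ρ) ≤ X.card / k0 * (Y.card * ρ) :=
              mul_le_mul_of_nonneg_right this (by positivity)
          _ = _ := by ring
    simp only [hdX]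
    linarith
  -- sum over `k`
  have tot := Finset.sum_le_sum one
  rw [Finset.sum_const, Nat.card_Ico, nsmul_eq_mul] at tot
  have hn : ((2 * k0 - k0 : ℕ) : ℝ) = k0 := by
    rw [show 2 * k0 - k0 = k0 by omega]
  rw [hn, Finset.sum_add_distrib, Finset.sum_add_distrib, Finset.sum_add_distrib,
    Finset.sum_const, Finset.sum_const, Nat.card_Ico, nsmul_eq_mul, nsmul_eq_mul, hn,
    ← Finset.mul_sum, ← Finset.mul_sum] at tot
  have f1 : (Y.card : ℝ) * ∑ k ∈ Finset.Ico k0 (2 * k0), dX k ≤ Y.card * (η * X.card) :=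
    mul_le_mul_of_nonneg_left sX hY0.le
  have f2 : (X.card : ℝ) * ∑ k ∈ Finset.Ico k0 (2 * k0), dY k ≤ X.card * (η * Y.card) :=
    mul_le_mul_of_nonneg_left sY hX0.le
  have f3 : (k0 : ℝ) * T ≤ k0 * ((√(4 * k0 / X.card) + √(4 * k0 / Y.card) + 2 * √η) * T +
      (X.card : ℝ) * Y.card * (2 * ρ + 2 * η) / k0) := by
    have : (k0 : ℝ) * ((√(4 * k0 / X.card) + √(4 * k0 / Y.card) + 2 * √η) * T +
      (X.card : ℝ) * Y.card * (2 * ρ + 2 * η) / k0) =
      k0 * ((√(4 * k0 / X.card) + √(4 * k0 / Y.card) + 2 * √η) * T) +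
      k0 * (2 * ((X.card : ℝ) * Y.card * ρ / k0)) + 2 * (X.card * Y.card * η) := by
      field_simp
      ring
    rw [this]
    nlinarith [f1, f2, tot]
  exact le_of_mul_le_mul_left f3 hk0'

end Crest.Agent.R065.D4eng812
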