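import Crest.Agent.R065.Chardin_669

/-!
# Dimension and degree of a prime ideal through its Hilbert function
-/

set_option autoImplicit false

open MvPolynomial Module
open scoped Pointwise

namespace Crest.Agent.R065.HF669

variable {k : Type*} [Field k] {σ τ : Type*} {E : Type*} [CommRing E] [Algebra k E]

/-- a maximal independent subfamily over a domain, with a common denominator -/
lemma exists_rank_basis {A M : Type*} [CommRing A] [IsDomain A] [AddCommGroup M] [Module A M]
    (B : Set M) (hB : B.Finite) : ∃ (n : ℕ) (u : Fin n → M), (∀ i, u i ∈ B) ∧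
      LinearIndependent A u ∧ ∃ h : A, h ≠ 0 ∧ ∀ b ∈ B, h • b ∈ Submodule.span A (Set.range u) := by
  classical
  let S : Finset (Finset M) := hB.toFinset.powerset.filter fun s => LinearIndepOn A id (s : Set M)
  have hS : S.Nonempty := ⟨∅, by simp [S]⟩
  obtain ⟨s, hs, hmax⟩ := Finset.exists_max_image S Finset.card hS
  simp only [S, Finset.mem_filter, Finset.mem_powerset] at hs hmax
  obtain ⟨hsB, hli⟩ := hs
  have key : ∀ b : M, ∃ c : A, c ≠ 0 ∧ (b ∈ B → c • b ∈ Submodule.span A (s : Set M)) := by
    intro b
    by_cases hb : b ∈ B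
    · by_cases hbs : b ∈ s
      · exact ⟨1, one_ne_zero, fun _ => by
          rw [one_smul]; exact Submodule.subset_span hbs⟩
      · have hnot : ¬ LinearIndepOn A id ((insert b s : Finset M) : Set M) := by
          intro h
          have h1 := hmax (insert b s) ⟨by
            intro x hx
            rcases Finset.mem_insert.1 hx with rfl | hx
            · simpa using hb
            · exact hsB hx, h⟩
          rw [Finset.card_insert_of_notMem hbs] at h1
          omega
        rw [linearIndepOn_finset_iff] at hnot
        push Not at hnot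
        obtain ⟨f, hf, i, hi, hfi⟩ := hnot
        rw [Finset.sum_insert hbs] at hf
        have hfb : f b ≠ 0 := by
          intro h0
          rw [h0, zero_smul, zero_add] at hf
          have h1 := (linearIndepOn_finset_iff.1 hli) f hf
          rcases Finset.mem_insert.1 hi with rfl | hi
          · exact hfi h0
          · exact hfi (h1 i hi)
        refine ⟨f b, hfb, fun _ => ?_⟩
        have h2 : f b • b = - ∑ x ∈ s, f x • id x := by
          rw [eq_neg_iff_add_eq_zero]; exact hf
        rw [h2]
        exact Submodule.neg_mem _ (Submodule.sum_mem _ fun x hx =>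
          Submodule.smul_mem _ _ (Submodule.subset_span hx))
    · exact ⟨1, one_ne_zero, fun h => absurd h hb⟩
  choose c hc0 hc using key
  let e : Fin s.card ≃ s := s.equivFin.symm
  refine ⟨s.card, fun i => (e i : M), fun i => ?_, ?_, ∏ b ∈ hB.toFinset, c b, ?_, ?_⟩
  · have := hsB (e i).2
    simpa using this
  · have := hli.linearIndependent
    exact this.comp e e.injective
  · exact Finset.prod_ne_zero_iff.2 fun b _ => hc0 b
  · intro b hb
    have hr : Set.range (fun i => (e i : M)) = (s : Set M) := by
      ext x
      constructor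
      · rintro ⟨i, rfl⟩; exact (e i).2
      · intro hx
        exact ⟨e.symm ⟨x, hx⟩, by simp⟩
    rw [hr, ← Finset.mul_prod_erase _ _ (hB.mem_toFinset.2 hb), mul_comm, mul_smul]
    exact Submodule.smul_mem _ _ (hc b hb)

/-- translation of variables -/
noncomputable def shift {j : Type*} (y0 : j → k) : MvPolynomial j k →ₐ[k] MvPolynomial j k :=
  aeval fun i => X i + C (y0 i)

lemma shift_totalDegree_le {j : Type*} (y0 : j → k) (f : MvPolynomial j k) :
    (shift y0 f).totalDegree ≤ f.totalDegree := by
  have h : ∀ i, (X i + C (y0 i) : MvPolynomial j k) ∈ U k (X : j → MvPolynomial j k) 1 := fun i =>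
    Submodule.add_mem _ (self_mem_U X i) (algebraMap_mem_U X (y0 i) 1)
  have h1 : shift y0 f ∈ U k (fun i => (X i + C (y0 i) : MvPolynomial j k)) f.totalDegree :=
    aeval_mem_U le_rfl
  obtain ⟨g, hg, hg'⟩ := mem_U.1 (U_le_U h _ h1)
  rw [aeval_X_left_apply] at hg'
  rw [← hg']
  exact hg

lemma constantCoeff_shift {j : Type*} (y0 : j → k) (f : MvPolynomial j k) :
    constantCoeff (shift y0 f) = eval y0 f := by
  unfold shift
  have : (constantCoeff : MvPolynomial j k →+* k).comp
      (aeval fun i => X i + C (y0 i) : MvPolynomial j k →ₐ[k] MvPolynomial j k).toRingHom =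
      eval y0 := by
    apply MvPolynomial.ringHom_ext
    · intro r; simp
    · intro i; simp
  exact congrArg (fun g : MvPolynomial j k →+* k => g f) this

lemma aeval_sub_shift {j : Type*} (y0 : j → k) (y : j → E) (f : MvPolynomial j k) :
    aeval (fun i => y i - algebraMap k E (y0 i)) (shift y0 f) = aeval y f := by
  unfold shift
  have : ((aeval fun i => y i - algebraMap k E (y0 i) : MvPolynomial j k →ₐ[k] E).comp
      (aeval fun i => X i + C (y0 i) : MvPolynomial j k →ₐ[k] MvPolynomial j k)) =
      aeval y := by
    apply MvPolynomial.algHom_ext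
    intro i
    simp
  exact congrArg (fun g : MvPolynomial j k →ₐ[k] E => g f) this

/-- lower bound: `δ` independent elements -/
lemma le_finrank_U [Finite σ] {j : Type*} [Fintype j] {n : ℕ} {z : σ → E} {y : j → E}
    (hy1 : ∀ i, y i ∈ U k z 1) (v : Fin n → E) (b : ℕ) (hv : ∀ i, v i ∈ U k z b)
    (hind : ∀ c : Fin n → MvPolynomial j k, ∑ i, aeval y (c i) * v i = 0 → ∀ i, c i = 0) (m : ℕ) :
    n * (m + Fintype.card j).choose (Fintype.card j) ≤ finrank k (U k z (m + b)) := by
  let L : (Fin n → W k j m) →ₗ[k] U k z (m + b) :=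
    { toFun := fun c => ⟨∑ i, aeval y (c i : MvPolynomial j k) * v i,
        Submodule.sum_mem _ fun i _ => mul_mem_U
          (U_le_U hy1 m (aeval_mem_U (mem_W.1 (c i).2))) (hv i)⟩
      map_add' := by
        intro c c'
        ext
        simp [add_mul, Finset.sum_add_distrib]
      map_smul' := by
        intro r c
        ext
        simp [Finset.smul_sum] }
  have hL : Function.Injective L := by
    rw [injective_iff_map_eq_zero]
    intro c hc
    have h1 : ∑ i, aeval y (c i : MvPolynomial j k) * v i = 0 := congrArg Subtype.val hc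
    have h2 := hind (fun i => (c i : MvPolynomial j k)) h1
    funext i
    exact Subtype.ext (h2 i)
  have h3 := LinearMap.finrank_le_finrank_of_injective hL
  rw [Module.finrank_pi_fintype] at h3
  simpa [finrank_W] using h3

/-- **Dimension and degree, with projection.**  `E` is a domain generated by `z`, finite with
degree control over the subalgebra generated by `θ`, with the same fraction field. -/
theorem dim_deg_proj [Infinite k] [IsDomain E] [Finite σ] {N : ℕ} (z : σ → E)
    (hz : ∀ x : E, ∃ q, x ∈ U k z q) (θ : Fin N → E)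
    (B' : Set E) (hB' : B'.Finite) (hfin : ∀ q, U k z q ≤ Submodule.span k B' * U k θ q)
    (hbir : ∀ x : E, ∃ g : E, g ≠ 0 ∧ (∃ q, g ∈ U k θ q) ∧ ∃ q, g * x ∈ U k θ q) :
    ∃ j δ b : ℕ, 0 < δ ∧ j ≤ N ∧ (∀ m, finrank k (U k z m) ≤ δ * (m + j).choose j) ∧
      (∀ m, δ * (m + j).choose j ≤ finrank k (U k θ (m + b))) := by
  classical
  obtain ⟨j, y, B2, hjN, hy1, hy, hB2, -, hB2U⟩ := noether_normalisation (k := k) N θ
  let B : Set E := B' * B2
  have hBf : B.Finite := hB'.mul hB2
  have hU : ∀ q, U k z q ≤ Submodule.span k B * U k y q := by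
    intro q
    refine (hfin q).trans ?_
    rw [← Submodule.span_mul_span, mul_assoc]
    exact Submodule.mul_le.2 fun x hx y hy => Submodule.mul_mem_mul hx (hB2U q hy)
  let φ : MvPolynomial (Fin j) k →ₐ[k] E := aeval y
  have hφ : Function.Injective φ := hy
  let _ : Algebra (MvPolynomial (Fin j) k) E := φ.toRingHom.toAlgebra
  have hsmul : ∀ (f : MvPolynomial (Fin j) k) (x : E), f • x = φ f * x := fun f x => rfl
  obtain ⟨δ, u, huB, hli, h, hh0, hh⟩ := exists_rank_basis (A := MvPolynomial (Fin j) k) B hBf
  have htower : IsScalarTower k (MvPolynomial (Fin j) k) E := by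
    refine ⟨fun c f x => ?_⟩
    rw [hsmul, hsmul, map_smul, smul_mul_assoc]
  -- everything is in the span
  have hspan : ∀ x : E, h • x ∈ Submodule.span (MvPolynomial (Fin j) k) (Set.range u) := by
    intro x
    obtain ⟨q, hq⟩ := hz x
    have h1 := hU q hq
    have h2 : Submodule.span k B * U k y q ≤
        ((Submodule.span (MvPolynomial (Fin j) k) (Set.range u)).comap
          (LinearMap.lsmul (MvPolynomial (Fin j) k) E h)).restrictScalars k := by
      rw [Submodule.mul_le]
      intro s hs t ht
      obtain ⟨f, -, rfl⟩ := mem_U.1 ht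
      induction hs using Submodule.span_induction with
      | mem b hb =>
        change h • (b * aeval y f) ∈ Submodule.span (MvPolynomial (Fin j) k) (Set.range u)
        have e : h • (b * aeval y f) = f • (h • b) := by
          rw [hsmul, hsmul, hsmul]; change φ h * (b * φ f) = φ f * (φ h * b); ring
        rw [e]
        exact Submodule.smul_mem _ _ (hh b hb)
      | zero => rw [zero_mul]; exact Submodule.zero_mem _
      | add x y _ _ hx hy => rw [add_mul]; exact Submodule.add_mem _ hx hy
      | smul c x _ hx => rw [smul_mul_assoc]; exact Submodule.smul_mem _ _ hx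
    exact h2 h1
  -- coordinates
  let crd0 : E →ₗ[MvPolynomial (Fin j) k] (Fin δ →₀ MvPolynomial (Fin j) k) :=
    hli.repr ∘ₗ
      (LinearMap.lsmul (MvPolynomial (Fin j) k) E h).codRestrict _ hspan
  have hcrd0 : ∀ x : E, h • x = ∑ i, crd0 x i • u i := by
    intro x
    have h1 := hli.linearCombination_repr ⟨h • x, hspan x⟩
    rw [Finsupp.linearCombination_apply, Finsupp.sum_fintype _ _ (by simp)] at h1
    exact h1.symm
  have c2' : ∀ c : Fin δ → MvPolynomial (Fin j) k, ∑ i, φ (c i) * u i = 0 → ∀ i, c i = 0 := by
    intro c hc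
    exact Fintype.linearIndependent_iff.1 hli c hc
  have hcrdsmul : ∀ (f : MvPolynomial (Fin j) k) (x : E) (i : Fin δ),
      crd0 (φ f * x) i = f * crd0 x i := by
    intro f x i
    rw [← hsmul, map_smul]; rfl
  -- degree control
  obtain ⟨a, ha⟩ : ∃ a : ℕ, ∀ b ∈ B, ∀ i, (crd0 b i).totalDegree ≤ a := by
    refine ⟨hBf.toFinset.sup fun b => Finset.univ.sup fun i => (crd0 b i).totalDegree, ?_⟩
    intro b hb i
    refine le_trans ?_ (Finset.le_sup (f := fun b => Finset.univ.sup fun i =>
      (crd0 b i).totalDegree) (hBf.mem_toFinset.2 hb))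
    exact Finset.le_sup (f := fun i => (crd0 b i).totalDegree) (Finset.mem_univ i)
  have hdeg : ∀ q, ∀ x ∈ U k z q, ∀ i, (crd0 x i).totalDegree ≤ q + a := by
    intro q x hx i
    have h1 := hU q hx
    have h2 : Submodule.span k B * U k y q ≤
        (W k (Fin j) (q + a)).comap ((Finsupp.lapply i : _ →ₗ[k] _) ∘ₗ crd0.restrictScalars k) := by
      rw [Submodule.mul_le]
      intro s hs t ht
      obtain ⟨f, hf, rfl⟩ := mem_U.1 ht
      induction hs using Submodule.span_induction with
      | mem b hb =>
        change crd0 (b * aeval y f) i ∈ W k (Fin j) (q + a)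
        have e : b * aeval y f = φ f * b := by rw [mul_comm]
        rw [e, hcrdsmul]
        exact mul_mem_W (mem_W.2 hf) (mem_W.2 (ha b hb i))
      | zero => rw [zero_mul]; exact Submodule.zero_mem _
      | add x y _ _ hx hy => rw [add_mul]; exact Submodule.add_mem _ hx hy
      | smul c x _ hx => rw [smul_mul_assoc]; exact Submodule.smul_mem _ _ hx
    exact mem_W.1 (h2 h1)
  -- choose a point
  obtain ⟨y0, hy0⟩ : ∃ y0, eval y0 h ≠ 0 := by
    by_contra hcon
    push Not at hcon
    exact hh0 (MvPolynomial.funext fun b => by rw [hcon b, map_zero])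
  have hδ : 0 < δ := by
    rcases Nat.eq_zero_or_pos δ with rfl | h'
    · exfalso
      have h1 := hcrd0 1
      rw [Finset.univ_eq_empty, Finset.sum_empty, hsmul, mul_one] at h1
      exact hh0 (hφ (by rw [h1, map_zero]))
    · exact h'
  -- the lower bound
  have hg : ∀ i, ∃ g : E, g ≠ 0 ∧ (∃ q, g ∈ U k θ q) ∧ ∃ q, g * u i ∈ U k θ q := fun i => hbir (u i)
  choose g hg0 hgU hgu using hg
  choose qg hqg using hgU
  choose qu hqu using hgu
  let G : E := ∏ i, g i
  have hG0 : G ≠ 0 := Finset.prod_ne_zero_iff.2 fun i _ => hg0 i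
  let bb : ℕ := (∑ i, qg i) + ∑ i, qu i
  have hv : ∀ i, G * u i ∈ U k θ bb := by
    intro i
    have e : G * u i = (∏ l ∈ Finset.univ.erase i, g l) * (g i * u i) := by
      rw [← mul_assoc, mul_comm (∏ l ∈ Finset.univ.erase i, g l), Finset.mul_prod_erase _ _
        (Finset.mem_univ i)]
    rw [e]
    refine U_mono θ ?_ (mul_mem_U (prod_mem_U _ _ qg fun l _ => hqg l) (hqu i))
    have h1 : ∑ l ∈ Finset.univ.erase i, qg l ≤ ∑ l, qg l :=
      Finset.sum_le_sum_of_subset (Finset.erase_subset _ _)
    have h2 : qu i ≤ ∑ l, qu l := Finset.single_le_sum (fun _ _ => Nat.zero_le _)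
      (Finset.mem_univ i)
    simp only [bb]
    omega
  refine ⟨j, δ, bb, hδ, hjN, fun m => ?_, fun m => ?_⟩
  · -- upper bound
    let y' : Fin j → E := fun i => y i - algebraMap k E (y0 i)
    let φ' : MvPolynomial (Fin j) k →ₐ[k] E := aeval y'
    have hφ'φ : ∀ f, φ' (shift y0 f) = φ f := fun f => aeval_sub_shift y0 y f
    have hshift : ∀ f, shift y0 (shift (fun i => - y0 i) f) = f := by
      intro f
      have : ((shift y0).comp (shift fun i => - y0 i)) =
          AlgHom.id k (MvPolynomial (Fin j) k) := by
        apply MvPolynomial.algHom_ext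
        intro i
        simp [shift]
      exact congrArg (fun g : MvPolynomial (Fin j) k →ₐ[k] MvPolynomial (Fin j) k => g f) this
    have hshift' : ∀ f, shift (fun i => - y0 i) (shift y0 f) = f := by
      intro f
      have : ((shift fun i => - y0 i).comp (shift y0)) =
          AlgHom.id k (MvPolynomial (Fin j) k) := by
        apply MvPolynomial.algHom_ext
        intro i
        simp [shift]
      exact congrArg (fun g : MvPolynomial (Fin j) k →ₐ[k] MvPolynomial (Fin j) k => g f) this
    have hφ'eq : ∀ f, φ' f = φ (shift (fun i => - y0 i) f) := by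
      intro f
      rw [← hφ'φ, hshift]
    have hφ' : Function.Injective φ' := by
      intro f f' hff
      rw [hφ'eq, hφ'eq] at hff
      have := congrArg (shift y0) (hφ hff)
      rwa [hshift, hshift] at this
    let crd : E →ₗ[k] (Fin δ → MvPolynomial (Fin j) k) :=
      { toFun := fun x i => shift y0 (crd0 x i)
        map_add' := by intro x y; ext i; simp
        map_smul' := by
          intro c x
          funext i
          have : crd0 (c • x) = c • crd0 x := (crd0.restrictScalars k).map_smul c x
          simp only [this, Finsupp.smul_apply, map_smul, RingHom.id_apply, Pi.smul_apply] }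
    have hmain := finrank_U_le (j := Fin j) z φ' hφ' u (shift y0 h)
      (by rw [constantCoeff_shift]; exact hy0) crd (by
        intro x
        rw [hφ'φ]
        have := hcrd0 x
        rw [hsmul] at this
        rw [this]
        refine Finset.sum_congr rfl fun i _ => ?_
        rw [hsmul]
        change _ = φ' (shift y0 (crd0 x i)) * u i
        rw [hφ'φ]) (by
        intro c hc i
        have h1 : ∑ i, φ (shift (fun i => - y0 i) (c i)) * u i = 0 := by
          rw [← hc]
          refine Finset.sum_congr rfl fun i _ => ?_
          rw [hφ'eq]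
        have h2 := c2' _ h1 i
        have h3 := congrArg (shift y0) h2
        rwa [hshift, map_zero] at h3) a (by
        intro q x hx i
        exact (shift_totalDegree_le _ _).trans (hdeg q x hx i)) m
    simpa using hmain
  · have hlow := le_finrank_U (j := Fin j) (z := θ) hy1 (fun i => G * u i) bb hv (by
        intro c hc i
        have h1 : G * ∑ i, φ (c i) * u i = 0 := by
          rw [← hc, Finset.mul_sum]
          refine Finset.sum_congr rfl fun i _ => ?_
          change G * (φ (c i) * u i) = φ (c i) * (G * u i)
          ring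
        exact c2' c ((mul_eq_zero.1 h1).resolve_left hG0) i) m
    simpa using hlow

end Crest.Agent.R065.HF669
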