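import Crest.Agent.R065.Flags_669

/-!
# The dimension formula `dimP P + P.height = card σ`
-/

set_option autoImplicit false

open MvPolynomial Module Filter Topology
open scoped Pointwise Nat

namespace Crest.Agent.R065.HF669

variable {k : Type*} [Field k] {σ τ : Type*}

/-- the Hilbert function of the kernel of an evaluation, in terms of `U` -/
lemma HF_eq_of_mem_iff [Finite σ] {E : Type*} [CommRing E] [Algebra k E] (z : σ → E)
    (P : Ideal (MvPolynomial σ k)) (h : ∀ f, f ∈ P ↔ aeval z f = 0) (m : ℕ) :
    HF P m = finrank k (U k z m) := by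
  rw [← HF_ker_aeval]
  congr 1
  ext f
  rw [h, RingHom.mem_ker]

lemma U_comp_equiv {E : Type*} [CommRing E] [Algebra k E] (z : σ → E) (e : τ ≃ σ) (m : ℕ) :
    U k (z ∘ e) m = U k z m := by
  apply le_antisymm
  · exact U_le_U (fun i => self_mem_U z (e i)) m
  · refine U_le_U (fun i => ?_) m
    have := self_mem_U (k := k) (z ∘ e) (e.symm i)
    simpa using this

lemma HF_comap_rename [Finite σ] [Finite τ] (P : Ideal (MvPolynomial σ k)) (e : τ ≃ σ) (m : ℕ) :
    HF (P.comap (rename e : MvPolynomial τ k →ₐ[k] MvPolynomial σ k)) m = HF P m := by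
  rw [HF_eq_finrank_U P, HF_eq_of_mem_iff (zq P ∘ e), U_comp_equiv]
  intro f
  rw [Ideal.mem_comap, ← Ideal.Quotient.eq_zero_iff_mem]
  change Ideal.Quotient.mk P (rename e f) = 0 ↔ _
  rw [← aeval_zq, aeval_rename]

/-- heights: `≤` -/
lemma height_le [Infinite k] [Fintype σ] (P : Ideal (MvPolynomial σ k)) [hP : P.IsPrime] :
    P.height ≤ ((Fintype.card σ - dimP P : ℕ) : ℕ∞) := by
  let f : PrimeSpectrum (MvPolynomial σ k) → ℕ := fun Q =>
    Fintype.card σ - dimP Q.asIdeal
  have hf : StrictMono f := by
    intro Q Q' hlt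
    have hlt' : Q.asIdeal < Q'.asIdeal := hlt
    have h1 := dimP_lt hlt'
    have h2 := dimP_le_card Q.asIdeal
    have h3 := dimP_le_card Q'.asIdeal
    simp only [f]
    omega
  have h1 := Order.height_le_height_apply_of_strictMono f hf ⟨P, hP⟩
  rw [Order.height_nat, ← PrimeSpectrum.height_eq_orderHeight] at h1
  exact h1

section step

variable {n : ℕ} (b : Fin (n + 1) → k) (l : Fin (n + 1)) (hl : b l ≠ 0)

/-- the images of the variables in `A₁[T]` -/
noncomputable def vImg : Fin (n + 1) → Polynomial (MvPolynomial (Fin n) k) :=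
  l.insertNth (Polynomial.C (C (b l)) * Polynomial.X)
    (fun i => Polynomial.C (X i) + Polynomial.C (C (b (l.succAbove i))) * Polynomial.X)

lemma vImg_same : vImg b l l = Polynomial.C (C (b l)) * Polynomial.X := by
  simp [vImg]

lemma vImg_succAbove (i : Fin n) : vImg b l (l.succAbove i) =
    Polynomial.C (X i) + Polynomial.C (C (b (l.succAbove i))) * Polynomial.X := by
  simp [vImg]

/-- `t = (b l)⁻¹ X_l` -/
noncomputable def tImg : MvPolynomial (Fin (n + 1)) k := C (b l)⁻¹ * X l

/-- `z'_i = X_{l.succAbove i} - b_{..} t` -/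
noncomputable def zImg : Fin n → MvPolynomial (Fin (n + 1)) k := fun i =>
  X (l.succAbove i) - C (b (l.succAbove i)) * tImg b l

/-- `R → A₁[T]` -/
noncomputable def toPol : MvPolynomial (Fin (n + 1)) k →+* Polynomial (MvPolynomial (Fin n) k) :=
  eval₂Hom (Polynomial.C.comp C) (vImg b l)

/-- `A₁[T] → R` -/
noncomputable def ofPol : Polynomial (MvPolynomial (Fin n) k) →+* MvPolynomial (Fin (n + 1)) k :=
  Polynomial.eval₂RingHom (aeval (zImg b l)).toRingHom (tImg b l)

include hl in
lemma toPol_ofPol : (toPol b l).comp (ofPol b l) = RingHom.id _ := by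
  apply Polynomial.ringHom_ext'
  · apply MvPolynomial.ringHom_ext
    · intro r
      simp [toPol, ofPol]
    · intro i
      simp only [toPol, ofPol, RingHom.comp_apply, Polynomial.coe_eval₂RingHom,
        Polynomial.eval₂_C, AlgHom.toRingHom_eq_coe, RingHom.coe_coe, aeval_X, RingHom.id_apply,
        zImg, tImg, map_sub, map_mul, eval₂Hom_X', eval₂Hom_C, vImg_same, vImg_succAbove]
      rw [← mul_assoc (Polynomial.C (C (b l)⁻¹) : Polynomial (MvPolynomial (Fin n) k)),
        ← Polynomial.C_mul, ← C_mul, inv_mul_cancel₀ hl]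
      simp
  · simp only [toPol, ofPol, RingHom.comp_apply, Polynomial.coe_eval₂RingHom,
        Polynomial.eval₂_X, RingHom.id_apply, tImg, map_mul, eval₂Hom_X', eval₂Hom_C, vImg_same]
    rw [← mul_assoc (Polynomial.C (C (b l)⁻¹) : Polynomial (MvPolynomial (Fin n) k)),
        ← Polynomial.C_mul, ← C_mul, inv_mul_cancel₀ hl]
    simp

include hl in
lemma ofPol_toPol : (ofPol b l).comp (toPol b l) = RingHom.id _ := by
  apply MvPolynomial.ringHom_ext
  · intro r
    simp [toPol, ofPol]
  · intro j
    have hCt : (C (b l) : MvPolynomial (Fin (n + 1)) k) * tImg b l = X l := by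
      unfold tImg
      rw [← mul_assoc, ← C_mul, mul_inv_cancel₀ hl, C_1, one_mul]
    rcases Fin.eq_self_or_eq_succAbove l j with rfl | ⟨i, rfl⟩
    · simp only [toPol, ofPol, RingHom.comp_apply, Polynomial.coe_eval₂RingHom,
        RingHom.id_apply, eval₂Hom_X', vImg_same, Polynomial.eval₂_mul, Polynomial.eval₂_C,
        Polynomial.eval₂_X, AlgHom.toRingHom_eq_coe, RingHom.coe_coe]
      rw [MvPolynomial.algHom_C, algebraMap_eq, hCt]
    · simp only [toPol, ofPol, RingHom.comp_apply, Polynomial.coe_eval₂RingHom,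
        RingHom.id_apply, eval₂Hom_X', vImg_succAbove, Polynomial.eval₂_mul, Polynomial.eval₂_C,
        Polynomial.eval₂_X, Polynomial.eval₂_add, AlgHom.toRingHom_eq_coe, RingHom.coe_coe,
        aeval_X, zImg]
      rw [MvPolynomial.algHom_C, algebraMap_eq]
      ring

/-- `A₁[T] ≃ R` -/
noncomputable def polEquiv : Polynomial (MvPolynomial (Fin n) k) ≃+* MvPolynomial (Fin (n + 1)) k :=
  RingEquiv.ofRingHom (ofPol b l) (toPol b l) (ofPol_toPol b l hl) (toPol_ofPol b l hl)

lemma polEquiv_C (f : MvPolynomial (Fin n) k) :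
    polEquiv b l hl (Polynomial.C f) = aeval (zImg b l) f := by
  change ofPol b l (Polynomial.C f) = _
  simp [ofPol]

include hl in
/-- height increases by at least one -/
lemma height_step (P : Ideal (MvPolynomial (Fin (n + 1)) k)) [hP : P.IsPrime]
    (hne : ∃ p : Polynomial (MvPolynomial (Fin n) k), p.Monic ∧ ofPol b l p ∈ P) :
    (P.comap (aeval (zImg b l) : MvPolynomial (Fin n) k →ₐ[k] _)).height + 1 ≤ P.height := by
  set Q := P.comap (aeval (zImg b l) : MvPolynomial (Fin n) k →ₐ[k] _) with hQ
  have hQP : Q.IsPrime := Ideal.comap_isPrime _ _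
  set P' := P.comap (polEquiv b l hl) with hP'
  have hP'prime : P'.IsPrime := Ideal.comap_isPrime _ _
  have hPP' : P'.height = P.height := RingEquiv.height_comap _ _
  have hmem : ∀ f : MvPolynomial (Fin n) k, Polynomial.C f ∈ P' ↔ f ∈ Q := by
    intro f
    rw [hP', hQ, Ideal.mem_comap, Ideal.mem_comap, polEquiv_C]
  have hle : Q.map (Polynomial.C : _ →+* Polynomial (MvPolynomial (Fin n) k)) ≤ P' := by
    rw [Ideal.map_le_iff_le_comap]
    intro f hf
    exact (hmem f).2 hf
  have hmapprime : (Q.map (Polynomial.C : _ →+* Polynomial (MvPolynomial (Fin n) k))).IsPrime :=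
    Ideal.isPrime_map_C_of_isPrime
  have hne' : Q.map (Polynomial.C : _ →+* Polynomial (MvPolynomial (Fin n) k)) ≠ P' := by
    intro heq
    obtain ⟨p, hpm, hp⟩ := hne
    have h1 : p ∈ P' := hp
    rw [← heq, Ideal.mem_map_C_iff] at h1
    have h2 := h1 p.natDegree
    rw [hpm.coeff_natDegree] at h2
    exact hQP.ne_top (Ideal.eq_top_iff_one _ |>.2 h2)
  have hlt := lt_of_le_of_ne hle hne'
  have h1 := Ideal.height_add_one_le_of_lt_of_isPrime hlt
  rw [hPP'] at h1
  refine le_trans (add_le_add_left ?_ 1) h1
  have hlies : (Q.map (Polynomial.C : _ →+* Polynomial (MvPolynomial (Fin n) k))).LiesOver Q := by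
    refine ⟨?_⟩
    ext f
    change f ∈ Q ↔ Polynomial.C f ∈ Q.map (Polynomial.C : _ →+* Polynomial (MvPolynomial (Fin n) k))
    rw [Ideal.mem_map_C_iff]
    constructor
    · intro hf i
      rw [Polynomial.coeff_C]
      split_ifs
      · exact hf
      · exact Q.zero_mem
    · intro h
      simpa using h 0
  rw [Ideal.height_eq_height_add_of_liesOver_of_hasGoingDown Q
    (Q.map (Polynomial.C : _ →+* Polynomial (MvPolynomial (Fin n) k)))]
  exact le_self_add

end step

/-- elements of `TT` are polynomials in `t` of degree `< g` over the image of `z'` -/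
lemma exists_polynomial_of_mem_TT {E : Type*} [CommRing E] [Algebra k E] {t : E} {z' : τ → E}
    {g q : ℕ} {x : E} (hx : x ∈ TT k t z' g q) :
    ∃ p : Polynomial (MvPolynomial τ k), p.degree < (g : WithBot ℕ) ∧
      Polynomial.eval₂ (aeval z' : MvPolynomial τ k →ₐ[k] E).toRingHom t p = x := by
  let S : Submodule k E :=
    { carrier := {x | ∃ p : Polynomial (MvPolynomial τ k), p.degree < (g : WithBot ℕ) ∧
        Polynomial.eval₂ (aeval z' : MvPolynomial τ k →ₐ[k] E).toRingHom t p = x}
      zero_mem' := ⟨0, by rw [Polynomial.degree_zero]; exact WithBot.bot_lt_coe g, by simp⟩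
      add_mem' := by
        rintro _ _ ⟨p, hp, rfl⟩ ⟨q, hq, rfl⟩
        exact ⟨p + q, lt_of_le_of_lt (Polynomial.degree_add_le _ _) (max_lt hp hq),
          Polynomial.eval₂_add _ _⟩
      smul_mem' := by
        rintro c _ ⟨p, hp, rfl⟩
        refine ⟨Polynomial.C (C c) * p, lt_of_le_of_lt ?_ hp, ?_⟩
        · rw [← Polynomial.smul_eq_C_mul]; exact Polynomial.degree_smul_le _ _
        · rw [Polynomial.eval₂_mul, Polynomial.eval₂_C, Algebra.smul_def]
          congr 1
          simp }
  have h : TT k t z' g q ≤ S := by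
    apply TT_le
    intro i r u hu hi hr
    obtain ⟨f, hf, rfl⟩ := mem_U.1 hu
    refine ⟨Polynomial.C f * Polynomial.X ^ i, lt_of_le_of_lt
      (Polynomial.degree_C_mul_X_pow_le _ _) (by exact_mod_cast hi), ?_⟩
    rw [Polynomial.eval₂_mul, Polynomial.eval₂_C, Polynomial.eval₂_X_pow, mul_comm]
    rfl
  exact h hx

theorem le_height_fin [Infinite k] (n : ℕ) (P : Ideal (MvPolynomial (Fin n) k)) [hP : P.IsPrime] :
    ((n - dimP P : ℕ) : ℕ∞) ≤ P.height := by
  induction n with
  | zero => simp
  | succ n ih =>
    by_cases hbot : P = ⊥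
    · subst hbot
      have h1 := dimP_bot (k := k) (σ := Fin (n + 1))
      rw [Fintype.card_fin] at h1
      rw [h1]; simp
    · obtain ⟨G, hGP, hG0⟩ := Submodule.exists_mem_ne_zero_of_ne_bot hbot
      set z := zq P with hz
      have hG : aeval z G = 0 := by
        rw [hz, aeval_zq, Ideal.Quotient.eq_zero_iff_mem]; exact hGP
      have hg : 0 < G.totalDegree := by
        by_contra hcon
        have h0 : G.totalDegree = 0 := by omega
        rw [totalDegree_eq_zero_iff_eq_C] at h0
        apply hP.ne_top
        refine Ideal.eq_top_of_isUnit_mem _ hGP ?_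
        rw [h0]
        refine (IsUnit.mk0 _ ?_).map C
        intro hc
        rw [hc, map_zero] at h0
        exact hG0 h0
      have hcomp : homogeneousComponent G.totalDegree G ≠ 0 := by
        intro h0
        obtain ⟨m, hm, hm'⟩ : ∃ m ∈ G.support, m.degree = G.totalDegree := by
          obtain ⟨m, hm, hm'⟩ := Finset.exists_mem_eq_sup G.support
            (support_nonempty.2 hG0) (fun s => s.sum fun _ e => e)
          exact ⟨m, hm, by rw [totalDegree, hm', Finsupp.degree_apply]; rfl⟩
        have := congrArg (coeff m) h0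
        rw [coeff_homogeneousComponent, if_pos hm', coeff_zero] at this
        exact (mem_support_iff.1 hm) this
      obtain ⟨b, hb⟩ : ∃ b, eval b (homogeneousComponent G.totalDegree G) ≠ 0 := by
        by_contra hcon
        push Not at hcon
        exact hcomp (MvPolynomial.funext fun b => by rw [hcon b, map_zero])
      obtain ⟨l, hl⟩ : ∃ l, b l ≠ 0 := by
        by_contra hcon
        push Not at hcon
        have hb0 : b = 0 := funext hcon
        apply hb
        rw [hb0, MvPolynomial.eval_zero, constantCoeff_eq, coeff_homogeneousComponent, if_neg]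
        simpa using hg.ne
      let mk := Ideal.Quotient.mk P
      let t : MvPolynomial (Fin (n + 1)) k ⧸ P := mk (tImg b l)
      let z' : Fin n → MvPolynomial (Fin (n + 1)) k ⧸ P := fun i => mk (zImg b l i)
      have ht : t = (b l)⁻¹ • z l := by
        simp only [t, mk, tImg, hz, zq]
        rw [C_mul']; rfl
      have hz' : ∀ i, z' i = z (l.succAbove i) - b (l.succAbove i) • t := by
        intro i
        simp only [z', mk, zImg, t, hz, zq]
        rw [C_mul', map_sub]; rfl
      have hzz : ∀ i, z i - b i • t ∈ U k z' 1 := by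
        intro i
        by_cases hi : i = l
        · subst hi
          rw [ht, smul_smul, mul_inv_cancel₀ hl, one_smul, sub_self]
          exact Submodule.zero_mem _
        · obtain ⟨i', rfl⟩ := Fin.exists_succAbove_eq hi
          rw [← hz' i']
          exact self_mem_U z' i'
      have htU : t ∈ U k z 1 := by
        rw [ht]; exact Submodule.smul_mem _ _ (self_mem_U z l)
      have hz'U : ∀ i, z' i ∈ U k z 1 := fun i => by
        rw [hz' i]
        exact Submodule.sub_mem _ (self_mem_U z _) (Submodule.smul_mem _ _ htU)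
      have hint := pow_mem_TT_of_relation G hG b hb t z' hzz
      set Q := P.comap (aeval (zImg b l) : MvPolynomial (Fin n) k →ₐ[k] _) with hQ
      have hQP : Q.IsPrime := Ideal.comap_isPrime _ _
      -- `mk ∘ aeval zImg = aeval z'`
      have hmk : ∀ f : MvPolynomial (Fin n) k, mk (aeval (zImg b l) f) = aeval z' f := by
        intro f
        have : ((Ideal.Quotient.mkₐ k P).comp (aeval (zImg b l))) =
            (aeval z' : MvPolynomial (Fin n) k →ₐ[k] _) := by
          apply MvPolynomial.algHom_ext
          intro i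
          simp [z', mk]
        exact congrArg (fun g : MvPolynomial (Fin n) k →ₐ[k] _ => g f) this
      have hHFQ : ∀ m, HF Q m = finrank k (U k z' m) := by
        intro m
        apply HF_eq_of_mem_iff
        intro f
        rw [← hmk, Ideal.Quotient.eq_zero_iff_mem]; rfl
      have hdim : dimP Q ≤ dimP P := by
        refine (isDimDeg Q).dim_le (c := 0) (C := 1) (isDimDeg P)
          (Eventually.of_forall fun m => ?_)
        rw [HF_eq_finrank_U P, add_zero, hHFQ, one_mul]
        exact Submodule.finrank_mono (U_le_U hz'U m)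
      -- the monic polynomial
      obtain ⟨p, hp, hp'⟩ := exists_polynomial_of_mem_TT hint
      have hmonic : ((Polynomial.X ^ G.totalDegree - p) :
          Polynomial (MvPolynomial (Fin n) k)).Monic := by
        rw [sub_eq_add_neg]
        exact Polynomial.monic_X_pow_add (by rwa [Polynomial.degree_neg])
      have hstep := height_step b l hl P ⟨_, hmonic, by
        rw [← Ideal.Quotient.eq_zero_iff_mem]
        have h1 : ∀ p : Polynomial (MvPolynomial (Fin n) k), Ideal.Quotient.mk P (ofPol b l p) =
            Polynomial.eval₂ (aeval z' : MvPolynomial (Fin n) k →ₐ[k] _).toRingHom t p := by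
          intro p
          simp only [ofPol, Polynomial.coe_eval₂RingHom]
          rw [Polynomial.hom_eval₂]
          congr 1
          ext f
          · simp; rfl
          · simp [z', mk]
        rw [h1, Polynomial.eval₂_sub, hp']
        simp⟩
      have hih := ih Q
      rw [← hQ] at hstep
      refine le_trans ?_ hstep
      have h5 : ((n + 1 - dimP P : ℕ) : ℕ∞) ≤ ((n - dimP Q : ℕ) : ℕ∞) + 1 := by
        have h6 : dimP Q ≤ n := by
          have := dimP_le_card Q
          rwa [Fintype.card_fin] at this
        have h7 : n + 1 - dimP P ≤ (n - dimP Q) + 1 := by omega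
        exact_mod_cast h7
      exact h5.trans (add_le_add hih le_rfl)

lemma dimP_comap_rename [Infinite k] [Fintype σ] [Fintype τ] (P : Ideal (MvPolynomial σ k))
    [hP : P.IsPrime] (e : τ ≃ σ) :
    dimP (P.comap (rename e : MvPolynomial τ k →ₐ[k] MvPolynomial σ k)) = dimP P := by
  have hprime : (P.comap (rename e : MvPolynomial τ k →ₐ[k] MvPolynomial σ k)).IsPrime :=
    Ideal.comap_isPrime _ _
  apply dimP_eq_of (δ := degP P)
  have : HF (P.comap (rename e : MvPolynomial τ k →ₐ[k] MvPolynomial σ k)) = HF P :=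
    funext fun m => HF_comap_rename P e m
  rw [this]
  exact isDimDeg P

theorem le_height [Infinite k] [Fintype σ] (P : Ideal (MvPolynomial σ k)) [hP : P.IsPrime] :
    ((Fintype.card σ - dimP P : ℕ) : ℕ∞) ≤ P.height := by
  let e := (Fintype.equivFin σ).symm
  have hprime : (P.comap (rename e : MvPolynomial _ k →ₐ[k] MvPolynomial σ k)).IsPrime :=
    Ideal.comap_isPrime _ _
  have h1 := le_height_fin (Fintype.card σ)
    (P.comap (rename e : MvPolynomial _ k →ₐ[k] MvPolynomial σ k))
  rw [dimP_comap_rename] at h1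
  refine h1.trans (le_of_eq ?_)
  exact RingEquiv.height_comap (renameEquiv k e).toRingEquiv P

/-- **Dimension formula.** -/
theorem height_eq [Infinite k] [Fintype σ] (P : Ideal (MvPolynomial σ k)) [hP : P.IsPrime] :
    P.height = ((Fintype.card σ - dimP P : ℕ) : ℕ∞) :=
  le_antisymm (height_le P) (le_height P)

theorem dimP_add_height [Infinite k] [Fintype σ] (P : Ideal (MvPolynomial σ k))
    [hP : P.IsPrime] : (dimP P : ℕ∞) + P.height = (Fintype.card σ : ℕ∞) := by
  rw [height_eq]
  have := dimP_le_card P
  have h : dimP P + (Fintype.card σ - dimP P) = Fintype.card σ := by omega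
  exact_mod_cast h

end Crest.Agent.R065.HF669
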