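import Mathlib

/-!
# Row 65: product sampling (second moment), pure finite combinatorics
-/

set_option autoImplicit false

namespace Crest.Agent.R065.Samp348

open Finset

variable {α : Type*} [Fintype α] [DecidableEq α]

lemma card_fun_zero (K : ℕ) [NeZero K] (S : Finset α) :
    (univ.filter fun χ : α → Fin K => ∀ x ∈ S, χ x = 0).card * K ^ S.card =
      K ^ Fintype.card α := by
  classical
  have h1 : (univ.filter fun χ : α → Fin K => ∀ x ∈ S, χ x = 0) =
      Fintype.piFinset fun x => if x ∈ S then ({0} : Finset (Fin K)) else univ := by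
    ext χ
    simp only [mem_filter, mem_univ, true_and, Fintype.mem_piFinset]
    refine forall_congr' fun x => ?_
    split_ifs with h <;> simp [h]
  rw [h1, Fintype.card_piFinset]
  have h2 : ∀ x : α, (if x ∈ S then ({0} : Finset (Fin K)) else univ).card =
      if x ∈ S then 1 else K := by
    intro x; split_ifs <;> simp
  rw [Finset.prod_congr rfl fun x _ => h2 x, Finset.prod_ite]
  simp only [prod_const_one, one_mul, prod_const]
  rw [← pow_add]
  congr 1
  have h3 : (univ.filter fun x => x ∉ S).card = Fintype.card α - S.card := by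
    rw [← Finset.card_compl]
    congr 1
    ext x; simp
  rw [h3]
  have := Finset.card_le_univ S
  omega

variable {β : Type*} [DecidableEq β]

/-- `b` is selected by the colouring `χ` of `P` -/
def Sel {P : Finset β} {K : ℕ} [NeZero K] (χ : P → Fin K) (b : β) : Prop :=
  ∃ h : b ∈ P, χ ⟨b, h⟩ = 0

open Classical in
/-- indicator -/
noncomputable def ind {P : Finset β} {K : ℕ} [NeZero K] (χ : P → Fin K) (b : β) : ℝ :=
  if Sel χ b then 1 else 0

/-- expectation over colourings -/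
noncomputable def Ex (P : Finset β) (K : ℕ) (g : (P → Fin K) → ℝ) : ℝ :=
  (∑ χ, g χ) / (K : ℝ) ^ P.card

lemma Ex_mono {P : Finset β} {K : ℕ} {g h : (P → Fin K) → ℝ} (H : ∀ χ, g χ ≤ h χ) :
    Ex P K g ≤ Ex P K h := by
  unfold Ex
  gcongr with χ
  exact H χ

lemma Ex_sum {P : Finset β} {K : ℕ} {ι : Type*} (s : Finset ι) (g : ι → (P → Fin K) → ℝ) :
    Ex P K (fun χ => ∑ i ∈ s, g i χ) = ∑ i ∈ s, Ex P K (g i) := by
  unfold Ex
  rw [Finset.sum_comm, Finset.sum_div]

lemma Ex_mul {P : Finset β} {K : ℕ} (c : ℝ) (g : (P → Fin K) → ℝ) :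
    Ex P K (fun χ => c * g χ) = c * Ex P K g := by
  unfold Ex
  rw [← Finset.mul_sum, mul_div_assoc]

lemma Ex_const {P : Finset β} {K : ℕ} [NeZero K] (c : ℝ) : Ex P K (fun _ => c) = c := by
  unfold Ex
  have hK : (K : ℝ) ≠ 0 := by exact_mod_cast NeZero.ne K
  rw [Finset.sum_const, Finset.card_univ]
  simp only [Fintype.card_pi, Fintype.card_fin, prod_const, card_univ, Fintype.card_coe,
    nsmul_eq_mul]
  push_cast
  rw [mul_comm, mul_div_assoc, div_self (pow_ne_zero _ hK), mul_one]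

lemma Ex_ind {P : Finset β} {K : ℕ} [NeZero K] {b : β} (hb : b ∈ P) :
    Ex P K (fun χ => ind χ b) = 1 / K := by
  classical
  have hK : (K : ℝ) ≠ 0 := by exact_mod_cast NeZero.ne K
  have h := card_fun_zero K ({⟨b, hb⟩} : Finset P)
  have h1 : (univ.filter fun χ : P → Fin K => Sel χ b) =
      univ.filter fun χ : P → Fin K => ∀ x ∈ ({⟨b, hb⟩} : Finset P), χ x = 0 := by
    ext χ
    simp [Sel, hb]
  unfold Ex ind
  rw [← Finset.sum_filter, Finset.sum_const, nsmul_eq_mul, mul_one, h1,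
    div_eq_div_iff (pow_ne_zero _ hK) hK, one_mul]
  have h2 : (((univ.filter fun χ : P → Fin K =>
      ∀ x ∈ ({⟨b, hb⟩} : Finset P), χ x = 0).card * K ^ ({⟨b, hb⟩} : Finset P).card : ℕ) : ℝ) =
      ((K ^ Fintype.card P : ℕ) : ℝ) := by rw [h]
  push_cast at h2
  simpa using h2

lemma Ex_ind_ind {P : Finset β} {K : ℕ} [NeZero K] {b c : β} (hb : b ∈ P) (hc : c ∈ P) :
    Ex P K (fun χ => ind χ b * ind χ c) ≤ 1 / K ^ 2 + if b = c then 1 / (K : ℝ) else 0 := by
  classical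
  have hK : (K : ℝ) ≠ 0 := by exact_mod_cast NeZero.ne K
  by_cases hbc : b = c
  · subst hbc
    have : (fun χ : P → Fin K => ind χ b * ind χ b) = fun χ => ind χ b := by
      funext χ; unfold ind; split_ifs <;> simp
    rw [this, Ex_ind hb, if_pos rfl]
    have : (0 : ℝ) ≤ 1 / K ^ 2 := by positivity
    linarith
  · rw [if_neg hbc, add_zero]
    apply le_of_eq
    have h := card_fun_zero K ({⟨b, hb⟩, ⟨c, hc⟩} : Finset P)
    have hcard : ({⟨b, hb⟩, ⟨c, hc⟩} : Finset P).card = 2 := by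
      rw [Finset.card_pair]
      intro h'
      exact hbc (congrArg Subtype.val h')
    have h1 : (univ.filter fun χ : P → Fin K => Sel χ b ∧ Sel χ c) =
        univ.filter fun χ : P → Fin K => ∀ x ∈ ({⟨b, hb⟩, ⟨c, hc⟩} : Finset P), χ x = 0 := by
      ext χ
      simp [Sel, hb, hc]
    have h3 : (fun χ : P → Fin K => ind χ b * ind χ c) =
        fun χ => if Sel χ b ∧ Sel χ c then (1 : ℝ) else 0 := by
      funext χ
      unfold ind
      by_cases h1 : Sel χ b <;> by_cases h2 : Sel χ c <;> simp [h1, h2]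
    rw [h3]
    unfold Ex
    rw [← Finset.sum_filter, Finset.sum_const, nsmul_eq_mul, mul_one, h1,
      div_eq_div_iff (pow_ne_zero _ hK) (pow_ne_zero _ hK), one_mul]
    have h2 : (((univ.filter fun χ : P → Fin K => ∀ x ∈ ({⟨b, hb⟩, ⟨c, hc⟩} : Finset P),
        χ x = 0).card * K ^ ({⟨b, hb⟩, ⟨c, hc⟩} : Finset P).card : ℕ) : ℝ) =
        ((K ^ Fintype.card P : ℕ) : ℝ) := by rw [h]
    rw [hcard] at h2
    push_cast at h2
    simpa using h2

/-! ### the count in a product sample -/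

/-- the number of elements of `Y` in the product sample -/
noncomputable def cnt {P : Finset β} {K : ℕ} [NeZero K] (Y : Finset (β × β))
    (χ χ' : P → Fin K) : ℝ := ∑ p ∈ Y, ind χ p.1 * ind χ' p.2

/-- double expectation -/
noncomputable def Ex2 (P : Finset β) (K : ℕ) (g : (P → Fin K) → (P → Fin K) → ℝ) : ℝ :=
  Ex P K fun χ => Ex P K fun χ' => g χ χ'

lemma Ex2_mono {P : Finset β} {K : ℕ} {g h : (P → Fin K) → (P → Fin K) → ℝ}
    (H : ∀ χ χ', g χ χ' ≤ h χ χ') : Ex2 P K g ≤ Ex2 P K h :=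
  Ex_mono fun χ => Ex_mono fun χ' => H χ χ'

lemma Ex2_sum {P : Finset β} {K : ℕ} {ι : Type*} (s : Finset ι)
    (g : ι → (P → Fin K) → (P → Fin K) → ℝ) :
    Ex2 P K (fun χ χ' => ∑ i ∈ s, g i χ χ') = ∑ i ∈ s, Ex2 P K (g i) := by
  unfold Ex2
  rw [← Ex_sum]
  congr 1
  funext χ
  rw [Ex_sum]

lemma Ex2_mul {P : Finset β} {K : ℕ} (c : ℝ) (g : (P → Fin K) → (P → Fin K) → ℝ) :
    Ex2 P K (fun χ χ' => c * g χ χ') = c * Ex2 P K g := by
  unfold Ex2
  rw [← Ex_mul]
  congr 1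
  funext χ
  rw [Ex_mul]

lemma Ex2_const {P : Finset β} {K : ℕ} [NeZero K] (c : ℝ) : Ex2 P K (fun _ _ => c) = c := by
  unfold Ex2; rw [Ex_const, Ex_const]

lemma Ex2_add {P : Finset β} {K : ℕ} (g h : (P → Fin K) → (P → Fin K) → ℝ) :
    Ex2 P K (fun χ χ' => g χ χ' + h χ χ') = Ex2 P K g + Ex2 P K h := by
  unfold Ex2 Ex
  rw [← add_div, ← Finset.sum_add_distrib]
  congr 1
  refine Finset.sum_congr rfl fun χ _ => ?_
  rw [← add_div, ← Finset.sum_add_distrib]

lemma Ex2_prod {P : Finset β} {K : ℕ} (g h : (P → Fin K) → ℝ) :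
    Ex2 P K (fun χ χ' => g χ * h χ') = Ex P K g * Ex P K h := by
  unfold Ex2
  simp only [Ex_mul]
  have : (fun χ => g χ * Ex P K h) = fun χ => Ex P K h * g χ := by funext χ; ring
  rw [this, Ex_mul, mul_comm]

lemma Ex2_cnt {P : Finset β} {K : ℕ} [NeZero K] {Y : Finset (β × β)} (hY : Y ⊆ P ×ˢ P) :
    Ex2 P K (fun χ χ' => cnt Y χ χ') = Y.card / K ^ 2 := by
  unfold cnt
  rw [Ex2_sum]
  have : ∀ p ∈ Y, Ex2 P K (fun χ χ' => ind χ p.1 * ind χ' p.2) = 1 / (K : ℝ) ^ 2 := by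
    intro p hp
    have := Finset.mem_product.1 (hY hp)
    rw [Ex2_prod (fun χ => ind χ p.1) (fun χ' => ind χ' p.2), Ex_ind this.1, Ex_ind this.2]
    rw [sq, div_mul_div_comm, one_mul]
  rw [Finset.sum_congr rfl this, Finset.sum_const, nsmul_eq_mul, mul_one_div]

omit [DecidableEq β] in
lemma sum_sum_eq_le {ι : Type*} [DecidableEq ι] (Y : Finset (β × β)) (f : β × β → ι) (n : ℝ)
    (h : ∀ i, ((Y.filter fun p => f p = i).card : ℝ) ≤ n) :
    ∑ p ∈ Y, ∑ p' ∈ Y, (if f p = f p' then (1 : ℝ) else 0) ≤ n * Y.card := by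
  have : ∀ p ∈ Y, ∑ p' ∈ Y, (if f p = f p' then (1 : ℝ) else 0) ≤ n := by
    intro p _
    rw [← Finset.sum_filter, Finset.sum_const, nsmul_eq_mul, mul_one]
    refine le_trans ?_ (h (f p))
    apply le_of_eq
    congr 2
    ext q
    simp only [mem_filter]
    constructor <;> rintro ⟨h1, h2⟩ <;> exact ⟨h1, h2.symm⟩
  refine (Finset.sum_le_sum this).trans ?_
  rw [Finset.sum_const, nsmul_eq_mul, mul_comm]

lemma Ex2_cnt_sq {P : Finset β} {K : ℕ} [NeZero K] {Y : Finset (β × β)} (hY : Y ⊆ P ×ˢ P) :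
    Ex2 P K (fun χ χ' => cnt Y χ χ' ^ 2) ≤
      (Y.card / K ^ 2) ^ 2 + 2 * P.card * Y.card / K ^ 3 + Y.card / K ^ 2 := by
  have hK0 : (0 : ℝ) < K := by exact_mod_cast NeZero.pos K
  have hexp : (fun χ χ' : P → Fin K => cnt Y χ χ' ^ 2) = fun χ χ' =>
      ∑ p ∈ Y, ∑ p' ∈ Y, (ind χ p.1 * ind χ p'.1) * (ind χ' p.2 * ind χ' p'.2) := by
    funext χ χ'
    unfold cnt
    rw [sq, Finset.sum_mul_sum]
    refine Finset.sum_congr rfl fun p _ => Finset.sum_congr rfl fun p' _ => by ring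
  rw [hexp, Ex2_sum]
  have h1 : ∀ p ∈ Y, Ex2 P K (fun χ χ' => ∑ p' ∈ Y,
      (ind χ p.1 * ind χ p'.1) * (ind χ' p.2 * ind χ' p'.2)) ≤
      ∑ p' ∈ Y, (1 / (K : ℝ) ^ 4 + (1 / (K : ℝ) ^ 3) * (if p.1 = p'.1 then (1 : ℝ) else 0) +
        (1 / (K : ℝ) ^ 3) * (if p.2 = p'.2 then (1 : ℝ) else 0) +
        (1 / (K : ℝ) ^ 2) * (if p = p' then (1 : ℝ) else 0)) := by
    intro p hp
    rw [Ex2_sum]
    refine Finset.sum_le_sum fun p' hp' => ?_
    have m1 := Finset.mem_product.1 (hY hp)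
    have m2 := Finset.mem_product.1 (hY hp')
    rw [Ex2_prod (fun χ => ind χ p.1 * ind χ p'.1) (fun χ' => ind χ' p.2 * ind χ' p'.2)]
    have e1 := Ex_ind_ind (K := K) m1.1 m2.1
    have e2 := Ex_ind_ind (K := K) m1.2 m2.2
    have n2 : 0 ≤ Ex P K (fun χ' => ind χ' p.2 * ind χ' p'.2) := by
      have : Ex P K (fun _ => (0 : ℝ)) ≤ Ex P K (fun χ' => ind χ' p.2 * ind χ' p'.2) := by
        apply Ex_mono
        intro χ
        unfold ind
        positivity
      rwa [Ex_const] at this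
    have n1 : (0 : ℝ) ≤ 1 / K ^ 2 + if p.1 = p'.1 then 1 / (K : ℝ) else 0 := by positivity
    refine (mul_le_mul e1 e2 n2 n1).trans (le_of_eq ?_)
    by_cases c1 : p.1 = p'.1
    · by_cases c2 : p.2 = p'.2
      · have c3 : p = p' := Prod.ext c1 c2
        simp only [c3, if_true]
        field_simp
        ring
      · have c3 : p ≠ p' := fun h => c2 (by rw [h])
        simp only [c1, c2, c3, if_true, if_false]
        field_simp
        ring
    · have c3 : p ≠ p' := fun h => c1 (by rw [h])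
      by_cases c2 : p.2 = p'.2
      · simp only [c1, c2, c3, if_true, if_false]
        field_simp
        ring
      · simp only [c1, c2, c3, if_false]
        field_simp
        ring
  refine (Finset.sum_le_sum h1).trans ?_
  simp only [Finset.sum_add_distrib, ← Finset.mul_sum]
  have s0 : ∑ _p ∈ Y, ∑ _p' ∈ Y, (1 / (K : ℝ) ^ 4) = ((Y.card : ℝ) / (K : ℝ) ^ 2) ^ 2 := by
    simp only [Finset.sum_const, nsmul_eq_mul]
    field_simp
  have s1 := sum_sum_eq_le Y (fun p => p.1) (P.card : ℝ) (by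
    intro i
    have : (Y.filter fun p => p.1 = i).card ≤ P.card := by
      refine Finset.card_le_card_of_injOn (fun p => p.2) ?_ ?_
      · intro p hp
        exact (Finset.mem_product.1 (hY (Finset.mem_filter.1 hp).1)).2
      · intro p hp q hq h
        exact Prod.ext ((Finset.mem_filter.1 hp).2.trans (Finset.mem_filter.1 hq).2.symm) h
    exact_mod_cast this)
  have s2 := sum_sum_eq_le Y (fun p => p.2) (P.card : ℝ) (by
    intro i
    have : (Y.filter fun p => p.2 = i).card ≤ P.card := by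
      refine Finset.card_le_card_of_injOn (fun p => p.1) ?_ ?_
      · intro p hp
        exact (Finset.mem_product.1 (hY (Finset.mem_filter.1 hp).1)).1
      · intro p hp q hq h
        exact Prod.ext h ((Finset.mem_filter.1 hp).2.trans (Finset.mem_filter.1 hq).2.symm)
    exact_mod_cast this)
  have s3 := sum_sum_eq_le Y (fun p => p) (1 : ℝ) (by
    intro i
    have : (Y.filter fun p => p = i).card ≤ 1 := by
      rw [Finset.card_le_one]
      intro a ha b hb
      rw [(Finset.mem_filter.1 ha).2, (Finset.mem_filter.1 hb).2]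
    exact_mod_cast this)
  rw [s0]
  have t1 : (1 / (K : ℝ) ^ 3) * ∑ p ∈ Y, ∑ p' ∈ Y, (if p.1 = p'.1 then (1 : ℝ) else 0) ≤
      P.card * Y.card / K ^ 3 := by
    rw [one_div_mul_eq_div]
    gcongr
  have t2 : (1 / (K : ℝ) ^ 3) * ∑ p ∈ Y, ∑ p' ∈ Y, (if p.2 = p'.2 then (1 : ℝ) else 0) ≤
      P.card * Y.card / K ^ 3 := by
    rw [one_div_mul_eq_div]
    gcongr
  have t3 : (1 / (K : ℝ) ^ 2) * ∑ p ∈ Y, ∑ p' ∈ Y, (if p = p' then (1 : ℝ) else 0) ≤
      Y.card / K ^ 2 := by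
    rw [one_div_mul_eq_div]
    gcongr
    linarith
  have e : (2 : ℝ) * P.card * Y.card / K ^ 3 = P.card * Y.card / K ^ 3 + P.card * Y.card / K ^ 3 := by
    ring
  rw [e]
  linarith

open Classical in
lemma cnt_eq {P : Finset β} {K : ℕ} [NeZero K] {Y : Finset (β × β)} (χ χ' : P → Fin K) :
    cnt Y χ χ' = ((Y.filter fun p => p.1 ∈ P.filter (Sel χ) ∧ p.2 ∈ P.filter (Sel χ')).card : ℝ) := by
  unfold cnt
  rw [Finset.card_eq_sum_ones, Finset.sum_filter]
  push_cast
  refine Finset.sum_congr rfl fun p hp => ?_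
  unfold ind
  have h1 : p.1 ∈ P.filter (Sel χ) ↔ Sel χ p.1 := by
    rw [Finset.mem_filter]
    exact ⟨fun h => h.2, fun h => ⟨h.1, h⟩⟩
  have h2 : p.2 ∈ P.filter (Sel χ') ↔ Sel χ' p.2 := by
    rw [Finset.mem_filter]
    exact ⟨fun h => h.2, fun h => ⟨h.1, h⟩⟩
  by_cases c1 : Sel χ p.1 <;> by_cases c2 : Sel χ' p.2 <;> simp [c1, c2, h1, h2]

open Classical in
lemma Ex_card {P : Finset β} {K : ℕ} [NeZero K] :
    Ex P K (fun χ => ((P.filter (Sel χ)).card : ℝ)) = P.card / K := by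
  have : (fun χ : P → Fin K => ((P.filter (Sel χ)).card : ℝ)) = fun χ => ∑ b ∈ P, ind χ b := by
    funext χ
    rw [Finset.card_eq_sum_ones, Finset.sum_filter]
    push_cast
    rfl
  rw [this, Ex_sum, Finset.sum_congr rfl fun b hb => Ex_ind hb, Finset.sum_const, nsmul_eq_mul,
    mul_one_div]

open Classical in
/-- indicator of a bad index -/
noncomputable def bad {P : Finset β} {K : ℕ} [NeZero K] (Y : Finset (β × β))
    (χ χ' : P → Fin K) : ℝ := if 2 * (K : ℝ) ^ 2 * cnt Y χ χ' < Y.card then 1 else 0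

lemma Ex2_bad {P : Finset β} {K : ℕ} [NeZero K] {Y : Finset (β × β)} (hY : Y ⊆ P ×ˢ P)
    (hbig : 32 * (2 * (P.card : ℝ) * K + (K : ℝ) ^ 2) ≤ (Y.card : ℝ)) :
    Ex2 P K (fun χ χ' => bad Y χ χ') ≤ 1 / 8 := by
  have hK0 : (0 : ℝ) < K := by exact_mod_cast NeZero.pos K
  have hYpos : (0 : ℝ) < Y.card := lt_of_lt_of_le (by positivity) hbig
  set μ : ℝ := Y.card / K ^ 2 with hμ
  have hμ0 : 0 < μ := by positivity
  have h1 : ∀ χ χ' : P → Fin K, bad Y χ χ' ≤
      (4 / μ ^ 2) * cnt Y χ χ' ^ 2 + ((-(8 / μ)) * cnt Y χ χ' + 4) := by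
    intro χ χ'
    have e : (4 / μ ^ 2) * cnt Y χ χ' ^ 2 + ((-(8 / μ)) * cnt Y χ χ' + 4) =
        (4 / μ ^ 2) * (cnt Y χ χ' - μ) ^ 2 := by
      field_simp
      ring
    rw [e]
    unfold bad
    split_ifs with h
    · have h2 : cnt Y χ χ' < μ / 2 := by
        rw [hμ, div_div, lt_div_iff₀ (by positivity)]
        linarith
      have h3 : (μ / 2) ^ 2 ≤ (cnt Y χ χ' - μ) ^ 2 := by
        rw [← neg_sub, neg_sq]
        exact pow_le_pow_left₀ (by positivity) (by linarith) 2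
      calc (1 : ℝ) = (4 / μ ^ 2) * (μ / 2) ^ 2 := by field_simp; norm_num
        _ ≤ _ := by gcongr
    · positivity
  refine (Ex2_mono h1).trans ?_
  rw [Ex2_add, Ex2_mul, Ex2_add, Ex2_mul, Ex2_const, Ex2_cnt hY]
  have h2 := Ex2_cnt_sq (K := K) hY
  have h3 : (4 / μ ^ 2) * Ex2 P K (fun χ χ' => cnt Y χ χ' ^ 2) ≤
      (4 / μ ^ 2) * (μ ^ 2 + 2 * P.card * Y.card / K ^ 3 + Y.card / K ^ 2) := by gcongr
  have h4 : (4 / μ ^ 2) * (μ ^ 2 + 2 * P.card * Y.card / K ^ 3 + Y.card / K ^ 2) +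
      (-(8 / μ) * μ + 4) = 4 * (2 * P.card * K + (K : ℝ) ^ 2) / Y.card := by
    rw [hμ]
    field_simp
    ring
  have h5 : 4 * (2 * P.card * K + (K : ℝ) ^ 2) / Y.card ≤ 1 / 8 := by
    rw [div_le_div_iff₀ hYpos (by norm_num)]
    linarith
  linarith

open Classical in
/-- **Product sampling.** -/
theorem sampling {ι : Type*} (P : Finset β) (K : ℕ) [NeZero K] (F : Finset ι)
    (Y : ι → Finset (β × β)) (hY : ∀ z ∈ F, Y z ⊆ P ×ˢ P)
    (hbig : ∀ z ∈ F, 32 * (2 * (P.card : ℝ) * K + (K : ℝ) ^ 2) ≤ ((Y z).card : ℝ)) :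
    ∃ A ⊆ P, ∃ B ⊆ P, ((A.card : ℝ) * K ≤ 8 * P.card) ∧ ((B.card : ℝ) * K ≤ 8 * P.card) ∧
      ∃ F' ⊆ F, F.card ≤ 2 * F'.card ∧ ∀ z ∈ F', ((Y z).card : ℝ) ≤
        2 * (K : ℝ) ^ 2 * (((Y z).filter fun p => p.1 ∈ A ∧ p.2 ∈ B).card : ℝ) := by
  have hK0 : (0 : ℝ) < K := by exact_mod_cast NeZero.pos K
  rcases F.eq_empty_or_nonempty with hF | hF
  · subst hF
    exact ⟨∅, by simp, ∅, by simp, by simp, by simp, ∅, by simp, by simp, by simp⟩
  rcases P.eq_empty_or_nonempty with hP | hP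
  · subst hP
    refine ⟨∅, by simp, ∅, by simp, by simp, by simp, F, subset_rfl, by omega, ?_⟩
    intro z hz
    have : Y z = ∅ := by
      have := hY z hz
      simpa using this
    rw [this]; simp
  have hn : (0 : ℝ) < P.card := by exact_mod_cast Finset.card_pos.2 hP
  have hFc : (0 : ℝ) < F.card := by exact_mod_cast Finset.card_pos.2 hF
  by_contra hcon
  push Not at hcon
  -- pointwise inequality
  have hpt : ∀ χ χ' : P → Fin K, (1 : ℝ) ≤ (K / (8 * P.card)) * ((P.filter (Sel χ)).card : ℝ) +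
      ((K / (8 * P.card)) * ((P.filter (Sel χ')).card : ℝ) +
        (2 / F.card) * ∑ z ∈ F, bad (Y z) χ χ') := by
    intro χ χ'
    have hb0 : 0 ≤ ∑ z ∈ F, bad (Y z) χ χ' :=
      Finset.sum_nonneg fun z _ => by unfold bad; positivity
    by_cases h1 : ((P.filter (Sel χ)).card : ℝ) * K ≤ 8 * P.card
    · by_cases h2 : ((P.filter (Sel χ')).card : ℝ) * K ≤ 8 * P.card
      · have h3 := hcon _ (Finset.filter_subset _ _) _ (Finset.filter_subset _ _) h1 h2
          (F.filter fun z => ¬ 2 * (K : ℝ) ^ 2 * cnt (Y z) χ χ' < (Y z).card)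
          (Finset.filter_subset _ _)
        by_cases h4 : F.card ≤ 2 * (F.filter fun z =>
            ¬ 2 * (K : ℝ) ^ 2 * cnt (Y z) χ χ' < (Y z).card).card
        · exfalso
          obtain ⟨z, hz, hlt⟩ := h3 h4
          have h5 := (Finset.mem_filter.1 hz).2
          rw [cnt_eq] at h5
          exact h5 hlt
        · rw [not_le] at h4
          have h5 := Finset.card_filter_add_card_filter_not (s := F)
            (fun z => 2 * (K : ℝ) ^ 2 * cnt (Y z) χ χ' < (Y z).card)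
          have h6 : (∑ z ∈ F, bad (Y z) χ χ') =
              ((F.filter fun z => 2 * (K : ℝ) ^ 2 * cnt (Y z) χ χ' < (Y z).card).card : ℝ) := by
            unfold bad
            rw [Finset.card_eq_sum_ones, Finset.sum_filter]
            push_cast
            rfl
          have h7 : (F.card : ℝ) ≤ 2 * ∑ z ∈ F, bad (Y z) χ χ' := by
            rw [h6]
            have : F.card ≤ 2 * (F.filter fun z =>
              2 * (K : ℝ) ^ 2 * cnt (Y z) χ χ' < (Y z).card).card := by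
              omega
            exact_mod_cast this
          have h8 : 1 ≤ (2 / F.card) * ∑ z ∈ F, bad (Y z) χ χ' := by
            rw [div_mul_eq_mul_div, le_div_iff₀ hFc, one_mul]
            exact h7
          have h9 : (0 : ℝ) ≤ (K / (8 * P.card)) * ((P.filter (Sel χ)).card : ℝ) := by positivity
          have h10 : (0 : ℝ) ≤ (K / (8 * P.card)) * ((P.filter (Sel χ')).card : ℝ) := by
            positivity
          linarith
      · push Not at h2
        have h8 : 1 ≤ (K / (8 * P.card)) * ((P.filter (Sel χ')).card : ℝ) := by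
          rw [div_mul_eq_mul_div, le_div_iff₀ (by positivity)]
          linarith
        have h9 : (0 : ℝ) ≤ (K / (8 * P.card)) * ((P.filter (Sel χ)).card : ℝ) := by positivity
        have h10 : 0 ≤ (2 / F.card) * ∑ z ∈ F, bad (Y z) χ χ' := by positivity
        linarith
    · push Not at h1
      have h8 : 1 ≤ (K / (8 * P.card)) * ((P.filter (Sel χ)).card : ℝ) := by
        rw [div_mul_eq_mul_div, le_div_iff₀ (by positivity)]
        linarith
      have h9 : (0 : ℝ) ≤ (K / (8 * P.card)) * ((P.filter (Sel χ')).card : ℝ) := by positivity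
      have h10 : 0 ≤ (2 / F.card) * ∑ z ∈ F, bad (Y z) χ χ' := by positivity
      linarith
  have hE := Ex2_mono hpt
  rw [Ex2_const, Ex2_add, Ex2_add, Ex2_mul, Ex2_mul, Ex2_mul, Ex2_sum] at hE
  have e1 : Ex2 P K (fun χ _ => ((P.filter (Sel χ)).card : ℝ)) = P.card / K := by
    unfold Ex2
    simp only [Ex_const]
    exact Ex_card
  have e2 : Ex2 P K (fun _ χ' => ((P.filter (Sel χ')).card : ℝ)) = P.card / K := by
    unfold Ex2
    change Ex P K (fun _ => Ex P K (fun χ' => ((P.filter (Sel χ')).card : ℝ))) = _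
    rw [Ex_card, Ex_const]
  rw [e1, e2] at hE
  have e3 : ∑ z ∈ F, Ex2 P K (fun χ χ' => bad (Y z) χ χ') ≤ F.card * (1 / 8) := by
    rw [← nsmul_eq_mul, ← Finset.sum_const]
    exact Finset.sum_le_sum fun z hz => Ex2_bad (hY z hz) (hbig z hz)
  have e4 : (K : ℝ) / (8 * P.card) * (P.card / K) = 1 / 8 := by field_simp
  have e5 : (2 / F.card) * ∑ z ∈ F, Ex2 P K (fun χ χ' => bad (Y z) χ χ') ≤ 1 / 4 := by
    calc (2 / F.card) * ∑ z ∈ F, Ex2 P K (fun χ χ' => bad (Y z) χ χ') ≤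
        (2 / F.card) * (F.card * (1 / 8)) := by gcongr
      _ = 1 / 4 := by field_simp; norm_num
  rw [e4] at hE
  linarith

end Crest.Agent.R065.Samp348
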