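import Crest.Agent.R065.Reg_348
import Crest.Agent.R065.Samp_348

/-!
# Row 65, `d ≥ 4`: from LEVEL-0 and the radial lemma L1' to `n² ≤ (A t)^d`
-/

set_option autoImplicit false

open MvPolynomial Module

namespace Crest.Agent.R065.Engine348

open Crest.Agent.R065.Base348 Crest.Agent.R065.Top348 Crest.Agent.R065.Pins348
open Crest.Agent.R065.Reg348 Crest.Agent.R065.Samp348

/-- cliques of the null graph inside `Z` have at most `M` elements -/
def Cliq {d : ℕ} (Z : Finset (Pt d ℂ)) (M : ℕ) : Prop :=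
  ∀ S ⊆ Z, (∀ z ∈ S, ∀ w ∈ S, Null z w) → S.card ≤ M

/-- `Z ⊂ ℂ^{2d}` is separated in degree `m` -/
def SepZ {d : ℕ} (Z : Finset (Pt d ℂ)) (m : ℕ) : Prop :=
  HF669.Sep (toFn '' (Z : Set (Pt d ℂ))) m

/-- LEVEL-0 -/
def L0 (d : ℕ) : Prop :=
  ∃ C : ℝ, 0 < C ∧ ∀ (m M : ℕ) (f : MvPolynomial (Pr d ⊕ Fin d) ℂ) (Z : Finset (Pt d ℂ)),
    1 ≤ m → f ≠ 0 → f.totalDegree ≤ m → SepZ Z m → (∀ z ∈ Z, res z f = 0) → Cliq Z M →
    (Z.card : ℝ) ≤ C * ((m : ℝ) ^ d + m * M)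

/-- the radial lemma L1' -/
def L1 (d : ℕ) : Prop :=
  ∃ C : ℝ, 0 < C ∧ ∀ (m M : ℕ) (f : MvPolynomial (Pr d ⊕ Fin d) ℂ) (z : Pt d ℂ)
    (Z : Finset (Pt d ℂ)),
    1 ≤ m → f.totalDegree ≤ m → res z f ≠ 0 → SepZ Z m → (∀ w ∈ Z, Null z w ∧ res w f = 0) →
    Cliq Z M → (Z.card : ℝ) ≤ C * ((m : ℝ) ^ (d - 1) + m * M)

variable {d : ℕ}

/-- the point of a pair -/
noncomputable def zF (z : EuclideanSpace ℝ (Fin d) × EuclideanSpace ℝ (Fin d)) : Pt d ℂ :=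
  zc z.1 z.2

lemma zF_injective : Function.Injective (zF (d := d)) := by
  intro z w h
  obtain ⟨h1, h2⟩ := zc_injective h
  exact Prod.ext h1 h2

open Classical in
/-- cliques among pairs `(b, e)` with `b ∈ A` -/
lemma cliq_image {A : Finset (EuclideanSpace ℝ (Fin d))}
    {S : Finset (EuclideanSpace ℝ (Fin d) × EuclideanSpace ℝ (Fin d))}
    (hS : ∀ z ∈ S, z.1 ∈ A) : Cliq (S.image zF) A.card := by
  intro Q hQ hnull
  have : ∀ q ∈ Q, ∃ z ∈ S, zF z = q := fun q hq => Finset.mem_image.1 (hQ hq)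
  choose! g hg1 hg2 using this
  refine Finset.card_le_card_of_injOn (fun q => (g q).1) (fun q hq => hS _ (hg1 q hq)) ?_
  intro q hq q' hq' heq
  simp only at heq
  have h1 := hnull q hq q' hq'
  rw [← hg2 q hq, ← hg2 q' hq'] at h1 ⊢
  unfold zF at h1
  rw [null_zc, heq, dist_self] at h1
  have h2 : (g q).2 = (g q').2 := dist_eq_zero.1 h1.symm
  rw [Prod.ext heq h2]

open Classical in
lemma sepZ_image {S : Finset (EuclideanSpace ℝ (Fin d) × EuclideanSpace ℝ (Fin d))} {m : ℕ}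
    (h : HF669.Sep ((fun z : EuclideanSpace ℝ (Fin d) × EuclideanSpace ℝ (Fin d) =>
        toFn (zc z.1 z.2)) '' (S : Set _)) m) : SepZ (S.image zF) m := by
  unfold SepZ
  rw [Finset.coe_image, Set.image_image]
  exact h

open Classical in
/-- the number of `z` with at least `M` partners -/
noncomputable def rich (P : Finset (EuclideanSpace ℝ (Fin d))) (M : ℕ) :
    Finset (EuclideanSpace ℝ (Fin d) × EuclideanSpace ℝ (Fin d)) :=
  (P ×ˢ P).filter fun z => M ≤ (Nb P z).card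

/-- one level -/
theorem level (hd : 4 ≤ d) (h0 : L0 d) (h1 : L1 d) :
    ∃ C1 : ℕ, ∃ C2 : ℝ, 0 < C1 ∧ 0 < C2 ∧ ∀ P : Finset (EuclideanSpace ℝ (Fin d)), NoHyp P →
      ∀ τ M : ℕ, 0 < τ → 4 * P.card ^ 2 ≤ τ * M → (C1 * τ + 1) ^ d ≤ P.card ^ 2 →
      ((rich P M).card : ℝ) ≤ C2 * ((τ : ℝ) ^ d + τ * P.card) := by
  classical
  obtain ⟨c0, hc0, h0⟩ := h0
  obtain ⟨c1, hc1, h1⟩ := h1
  set Q : ℕ := Kd d with hQ
  have hQ1 : 1 ≤ Q := Kd_pos d
  set G : ℕ := 64 ^ (d + 1) with hG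
  have hG1 : 1 ≤ G := Nat.one_le_pow _ _ (by norm_num)
  obtain ⟨C1, hC1⟩ : ∃ C1 : ℕ, (4 * (d + 1) : ℝ) ≤ C1 ∧ (480 * Q : ℝ) ≤ C1 ∧
      200 * Q * G * c1 < C1 := by
    obtain ⟨N, hN⟩ := exists_nat_gt ((4 * (d + 1) : ℝ) + 480 * Q + 200 * Q * G * c1)
    have p1 : (0 : ℝ) ≤ 4 * (d + 1) := by positivity
    have p2 : (0 : ℝ) ≤ 480 * Q := by positivity
    have p3 : (0 : ℝ) ≤ 200 * Q * G * c1 := by positivity
    exact ⟨N, by linarith, by linarith, by linarith⟩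
  obtain ⟨hC1a, hC1b, hC1c⟩ := hC1
  have hQ1' : (1 : ℝ) ≤ Q := by exact_mod_cast hQ1
  have hC1pos : (0 : ℝ) < C1 := by linarith
  have hC1posN : 0 < C1 := by exact_mod_cast hC1pos
  refine ⟨C1, 2 * G * c0 * (C1 : ℝ) ^ d, hC1posN, by positivity, ?_⟩
  intro P hP τ M hτ0 hτM hbig
  set n : ℕ := P.card with hn
  set m : ℕ := C1 * τ with hm
  have hm1 : 1 ≤ m := Nat.mul_pos hC1posN hτ0
  have hn0 : 0 < n := by
    rcases Nat.eq_zero_or_pos n with h | h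
    · rw [h] at hbig
      have : 0 < (m + 1) ^ d := by positivity
      simp at hbig
    · exact h
  have hnR : (0 : ℝ) < n := by exact_mod_cast hn0
  have hτR : (1 : ℝ) ≤ τ := by exact_mod_cast hτ0
  have hmR : (m : ℝ) = C1 * τ := by rw [hm]; push_cast; ring
  have hm1R : (1 : ℝ) ≤ m := by exact_mod_cast hm1
  -- `y = sqrt ((m+1)^d)`
  set y : ℝ := Real.sqrt (((m : ℝ) + 1) ^ d) with hy
  have hy2 : y ^ 2 = ((m : ℝ) + 1) ^ d := Real.sq_sqrt (by positivity)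
  have hy0 : 0 < y := Real.sqrt_pos.2 (by positivity)
  have hyn : y ≤ n := by
    rw [hy, ← Real.sqrt_sq hnR.le]
    apply Real.sqrt_le_sqrt
    exact_mod_cast hbig
  have hy4 : ((m : ℝ) + 1) ^ 2 ≤ y := by
    rw [hy]
    apply Real.le_sqrt_of_sq_le
    rw [← pow_mul]
    exact pow_le_pow_right₀ (by linarith) (by omega)
  have hyd : (m : ℝ) * y ≤ ((m : ℝ) + 1) ^ (d - 1) := by
    have h2 : y ≤ ((m : ℝ) + 1) ^ (d - 2) := by
      rw [hy]
      apply Real.sqrt_le_iff.2 ⟨by positivity, ?_⟩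
      rw [← pow_mul]
      exact pow_le_pow_right₀ (by linarith) (by omega)
    calc (m : ℝ) * y ≤ ((m : ℝ) + 1) * ((m : ℝ) + 1) ^ (d - 2) := by gcongr; linarith
      _ = ((m : ℝ) + 1) ^ (d - 1) := by
        rw [← pow_succ', show d - 2 + 1 = d - 1 by omega]
  -- `κ = sqrt Q`
  set κ : ℝ := Real.sqrt Q with hκ
  have hκ2 : κ ^ 2 = Q := Real.sq_sqrt (by positivity)
  have hκ1 : 1 ≤ κ := by rw [hκ]; exact Real.one_le_sqrt.2 hQ1'
  have hκQ : κ ≤ Q := by nlinarith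
  -- the number of colours
  set K : ℕ := ⌈9 * n * κ / y⌉₊ with hK
  have hKpos : 0 < K := Nat.ceil_pos.2 (by positivity)
  have : NeZero K := ⟨hKpos.ne'⟩
  have hK1 : 9 * n * κ / y ≤ K := Nat.le_ceil _
  have hKR : (0 : ℝ) < K := by exact_mod_cast hKpos
  have hK2 : (K : ℝ) ≤ 10 * n * κ / y := by
    have e1 : (K : ℝ) ≤ 9 * n * κ / y + 1 := (Nat.ceil_lt_add_one (by positivity)).le
    have e2 : 1 ≤ n * κ / y := by
      rw [le_div_iff₀ hy0, one_mul]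
      nlinarith
    have e3 : 10 * n * κ / y = 9 * n * κ / y + n * κ / y := by ring
    linarith
  -- rich points
  set F := rich P M with hF
  have hFmem : ∀ z ∈ F, (z.1 ∈ P ∧ z.2 ∈ P) ∧ M ≤ (Nb P z).card := by
    intro z hz
    rw [hF, rich, Finset.mem_filter, Finset.mem_product] at hz
    exact hz
  have hMn : 4 * (n : ℝ) ^ 2 ≤ τ * M := by exact_mod_cast hτM
  have hYcard : ∀ z ∈ F, 2 * (n : ℝ) ^ 2 / τ ≤ (Yg P τ z).card := by
    intro z hz
    have e1 : M ≤ 2 * (Yg P τ z).card := (hFmem z hz).2.trans (card_Yg hτ0 hτM (hFmem z hz).2)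
    have e2 : (M : ℝ) ≤ 2 * (Yg P τ z).card := by exact_mod_cast e1
    rw [div_le_iff₀ (by linarith)]
    nlinarith
  have hYsub : ∀ z ∈ F, Yg P τ z ⊆ P ×ˢ P := by
    intro z _ w hw
    rw [Finset.mem_product]
    exact ((mem_Nb P).1 ((mem_Yg).1 hw).1).1
  have hm1sq : (m : ℝ) * m ≤ ((m : ℝ) + 1) ^ 2 := by nlinarith
  have hKn : (K : ℝ) ≤ n := by
    refine hK2.trans ?_
    rw [div_le_iff₀ hy0]
    have e1 : 10 * κ ≤ y := by
      refine le_trans ?_ hy4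
      have : (480 : ℝ) ≤ m := by
        rw [hmR]
        nlinarith
      nlinarith
    nlinarith
  have hsamp : ∀ z ∈ F, 32 * (2 * (P.card : ℝ) * K + (K : ℝ) ^ 2) ≤ ((Yg P τ z).card : ℝ) := by
    intro z hz
    refine le_trans ?_ (hYcard z hz)
    rw [← hn]
    have e1 : 2 * (n : ℝ) * K + (K : ℝ) ^ 2 ≤ 3 * n * K := by nlinarith
    have e2 : 480 * κ * τ ≤ y := by
      refine le_trans ?_ hy4
      refine le_trans ?_ hm1sq
      rw [hmR]
      have e3 : 480 * κ ≤ C1 := by linarith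
      calc 480 * κ * τ ≤ C1 * τ := by gcongr
        _ = (C1 * τ) * 1 := by ring
        _ ≤ (C1 * τ) * (C1 * τ) := by
          have : (1 : ℝ) ≤ C1 * τ := by rw [← hmR]; exact hm1R
          gcongr
    have e4 : 3 * (n : ℝ) * K ≤ 30 * n ^ 2 * κ / y := by
      calc 3 * (n : ℝ) * K ≤ 3 * n * (10 * n * κ / y) := by gcongr
        _ = 30 * n ^ 2 * κ / y := by ring
    calc 32 * (2 * (n : ℝ) * K + (K : ℝ) ^ 2) ≤ 32 * (30 * n ^ 2 * κ / y) := by linarith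
      _ = 960 * n ^ 2 * κ / y := by ring
      _ ≤ 2 * (n : ℝ) ^ 2 / τ := by
        rw [div_le_div_iff₀ hy0 (by linarith)]
        nlinarith [sq_nonneg (n : ℝ)]
  obtain ⟨A, hA, B, hB, hAc, hBc, F', hF', hF'c, hF'Y⟩ := sampling P K F (Yg P τ) hYsub hsamp
  -- sizes of the sample
  have hsize : ∀ x : ℝ, x * K ≤ 8 * P.card → x ≤ 8 / 9 * (y / κ) := by
    intro x hx
    rw [← hn] at hx
    have e1 : 9 * n * κ ≤ K * y := by rwa [div_le_iff₀ hy0] at hK1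
    rw [← mul_div_assoc, le_div_iff₀ (by positivity)]
    by_contra hcon
    push Not at hcon
    have e2 : x * κ * K * 9 ≤ 8 * (n * κ) * 9 := by nlinarith
    have e3 : 8 / 9 * y * K * 9 < x * κ * K * 9 := by
      have := mul_lt_mul_of_pos_right hcon hKR
      linarith
    nlinarith
  have hAs := hsize _ hAc
  have hBs := hsize _ hBc
  have hAy : (A.card : ℝ) ≤ y := by
    refine hAs.trans ?_
    have : y / κ ≤ y := div_le_self hy0.le hκ1
    linarith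
  -- the polynomial
  obtain ⟨f, hf1, hf2, hf3⟩ := exists_res_eq_zero' ((A ×ˢ B).image zF) m (by
    have e1 : ((A ×ˢ B).image zF).card = A.card * B.card := by
      rw [Finset.card_image_of_injective _ zF_injective, Finset.card_product]
    rw [e1]
    have e2 : ((A.card * B.card * Kd d : ℕ) : ℝ) < (((m + 1) ^ d : ℕ) : ℝ) := by
      push_cast
      rw [← hQ, ← hκ2, ← hy2]
      have e3 : (A.card : ℝ) * B.card ≤ (8 / 9 * (y / κ)) * (8 / 9 * (y / κ)) := by gcongr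
      calc (A.card : ℝ) * B.card * κ ^ 2 ≤ (8 / 9 * (y / κ)) * (8 / 9 * (y / κ)) * κ ^ 2 := by
            gcongr
        _ = 64 / 81 * y ^ 2 := by field_simp; norm_num
        _ < y ^ 2 := by nlinarith
    exact_mod_cast e2)
  have hsepm : 4 * (d + 1) * τ ≤ m := by
    have e1 : 4 * (d + 1) ≤ C1 := by exact_mod_cast hC1a
    exact Nat.mul_le_mul_right τ e1
  -- `f` vanishes on the flats of `F'`
  have hres : ∀ z ∈ F', res (zF z) f = 0 := by
    intro z hz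
    by_contra hne
    set S := (Yg P τ z).filter fun p => p.1 ∈ A ∧ p.2 ∈ B with hS
    have hSgood : ∀ w ∈ S, w.1 ∈ P ∧ w.2 ∈ P ∧ Good P τ w.1 ∧ Good P τ w.2 := by
      intro w hw
      have e1 := (mem_Yg).1 (Finset.mem_filter.1 hw).1
      have e2 := (mem_Nb P).1 e1.1
      exact ⟨e2.1.1, e2.1.2, good_of_lam P e1.2.1, good_of_lam P e1.2.2⟩
    obtain ⟨S2, hS2, hS2c, hS2sep⟩ := pins hP τ S hSgood
    have hl1 := h1 m A.card f (zF z) (S2.image zF) hm1 hf1 hne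
      ((sepZ_image hS2sep).mono hsepm) (by
        intro w hw
        obtain ⟨v, hv, rfl⟩ := Finset.mem_image.1 hw
        have hvS := hS2 hv
        have e1 := Finset.mem_filter.1 hvS
        refine ⟨?_, ?_⟩
        · unfold zF
          rw [null_zc]
          exact ((mem_Nb P).1 ((mem_Yg).1 e1.1).1).2.1
        · exact hf3 _ (Finset.mem_image.2 ⟨v, Finset.mem_product.2 e1.2, rfl⟩))
      (cliq_image fun v hv => (Finset.mem_filter.1 (hS2 hv)).2.1)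
    rw [Finset.card_image_of_injective _ zF_injective] at hl1
    have e1 : (S2.card : ℝ) ≤ c1 * (2 * ((m : ℝ) + 1) ^ (d - 1)) := by
      refine hl1.trans ?_
      have e2 : (m : ℝ) ^ (d - 1) ≤ ((m : ℝ) + 1) ^ (d - 1) := by gcongr; linarith
      have e3 : (m : ℝ) * A.card ≤ m * y := by gcongr
      have e4 : (m : ℝ) ^ (d - 1) + m * A.card ≤ 2 * ((m : ℝ) + 1) ^ (d - 1) := by linarith
      gcongr
    have e5 : (S.card : ℝ) ≤ G * S2.card := by exact_mod_cast hS2c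
    have e6 := hF'Y z hz
    have e7 := hYcard z (hF' hz)
    have e8 : (K : ℝ) ^ 2 * y ^ 2 ≤ 100 * n ^ 2 * Q := by
      have : (K : ℝ) * y ≤ 10 * n * κ := by rwa [le_div_iff₀ hy0] at hK2
      calc (K : ℝ) ^ 2 * y ^ 2 = (K * y) ^ 2 := by ring
        _ ≤ (10 * n * κ) ^ 2 := by gcongr
        _ = 100 * n ^ 2 * Q := by rw [mul_pow, hκ2]; ring
    -- `(m+1)^d ≤ 100 τ Q |S|`
    have e9 : ((m : ℝ) + 1) ^ d ≤ 100 * τ * Q * S.card := by
      have f1 : (n : ℝ) ^ 2 / τ ≤ K ^ 2 * S.card := by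
        have : 2 * (n : ℝ) ^ 2 / τ = 2 * ((n : ℝ) ^ 2 / τ) := by ring
        rw [this] at e7
        linarith
      have f2 : (n : ℝ) ^ 2 ≤ K ^ 2 * S.card * τ := by
        rwa [div_le_iff₀ (by linarith)] at f1
      have f3 : (n : ℝ) ^ 2 * y ^ 2 ≤ (n : ℝ) ^ 2 * (100 * τ * Q * S.card) := by
        calc (n : ℝ) ^ 2 * y ^ 2 ≤ (K ^ 2 * S.card * τ) * y ^ 2 := by gcongr
          _ = (K ^ 2 * y ^ 2) * (S.card * τ) := by ring
          _ ≤ (100 * n ^ 2 * Q) * (S.card * τ) := by gcongr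
          _ = (n : ℝ) ^ 2 * (100 * τ * Q * S.card) := by ring
      rw [← hy2]
      exact le_of_mul_le_mul_left f3 (by positivity)
    have e10 : (C1 : ℝ) * τ * ((m : ℝ) + 1) ^ (d - 1) ≤ ((m : ℝ) + 1) ^ d := by
      have : ((m : ℝ) + 1) ^ d = ((m : ℝ) + 1) * ((m : ℝ) + 1) ^ (d - 1) := by
        rw [← pow_succ', show d - 1 + 1 = d by omega]
      rw [this, ← hmR]
      gcongr
      linarith
    have e11 : (C1 : ℝ) * τ * ((m : ℝ) + 1) ^ (d - 1) ≤
        200 * Q * G * c1 * τ * ((m : ℝ) + 1) ^ (d - 1) := by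
      calc (C1 : ℝ) * τ * ((m : ℝ) + 1) ^ (d - 1) ≤ 100 * τ * Q * S.card := e10.trans e9
        _ ≤ 100 * τ * Q * (G * (c1 * (2 * ((m : ℝ) + 1) ^ (d - 1)))) := by
            gcongr
            exact e5.trans (by gcongr)
        _ = 200 * Q * G * c1 * τ * ((m : ℝ) + 1) ^ (d - 1) := by ring
    have e12 : (0 : ℝ) < τ * ((m : ℝ) + 1) ^ (d - 1) := by positivity
    have e13 : (C1 : ℝ) ≤ 200 * Q * G * c1 := by
      apply le_of_mul_le_mul_right _ e12
      linarith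
    linarith
  -- LEVEL-0
  have hF'good : ∀ z ∈ F', z.1 ∈ P ∧ z.2 ∈ P ∧ Good P τ z.1 ∧ Good P τ z.2 := by
    intro z hz
    have e1 := hFmem z (hF' hz)
    have e2 := good_of_rich hτM e1.2
    exact ⟨e1.1.1, e1.1.2, e2.1, e2.2⟩
  obtain ⟨F2, hF2, hF2c, hF2sep⟩ := pins hP τ F' hF'good
  have hl0 := h0 m P.card f (F2.image zF) hm1 hf2 hf1 ((sepZ_image hF2sep).mono hsepm) (by
      intro w hw
      obtain ⟨v, hv, rfl⟩ := Finset.mem_image.1 hw
      exact hres v (hF2 hv))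
    (cliq_image fun v hv => (hF'good v (hF2 hv)).1)
  rw [Finset.card_image_of_injective _ zF_injective] at hl0
  have g1 : (F.card : ℝ) ≤ 2 * F'.card := by exact_mod_cast hF'c
  have g2 : (F'.card : ℝ) ≤ G * F2.card := by exact_mod_cast hF2c
  have g3 : (m : ℝ) ^ d + m * n ≤ (C1 : ℝ) ^ d * ((τ : ℝ) ^ d + τ * n) := by
    rw [hmR, mul_pow]
    have : (C1 : ℝ) ≤ (C1 : ℝ) ^ d := by
      have h1 : (1 : ℝ) ≤ C1 := by exact_mod_cast hC1posN
      calc (C1 : ℝ) = (C1 : ℝ) ^ 1 := (pow_one _).symm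
        _ ≤ (C1 : ℝ) ^ d := pow_le_pow_right₀ h1 (by omega)
    have h2 : (C1 : ℝ) * τ * n ≤ (C1 : ℝ) ^ d * (τ * n) := by
      rw [mul_assoc]
      gcongr
    linarith
  calc (F.card : ℝ) ≤ 2 * (G * F2.card) := by linarith
    _ ≤ 2 * (G * (c0 * ((m : ℝ) ^ d + m * n))) := by gcongr
    _ ≤ 2 * (G * (c0 * ((C1 : ℝ) ^ d * ((τ : ℝ) ^ d + τ * n)))) := by gcongr
    _ = 2 * G * c0 * (C1 : ℝ) ^ d * ((τ : ℝ) ^ d + τ * n) := by ring

end Crest.Agent.R065.Engine348
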