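import Mathlib

/-!
# Row 65, d ≥ 4 engine (272 #15513), (E1): the extremal pair, purely finite

`TP r X Y` = number of pairs `(x, y) ∈ X × Y` with `r x y`.
`exists_extremal` : among the nonempty `X, Y ⊆ Z` choose a maximiser of `TP² / (|X| |Y|)`,
with `|Y| ≤ |X|` (symmetric relation).
-/

set_option autoImplicit false

namespace Crest.Agent.R065.ExtP580

open Finset

variable {α : Type*}

open scoped Classical in
/-- number of related pairs in `X × Y` -/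
noncomputable def TP (r : α → α → Prop) (X Y : Finset α) : ℕ :=
  ((X ×ˢ Y).filter fun p => r p.1 p.2).card

open scoped Classical in
/-- neighbours of `z` in `X` -/
noncomputable def dg (r : α → α → Prop) (X : Finset α) (z : α) : ℕ :=
  (X.filter fun w => r z w).card

section basic

variable {r : α → α → Prop}

lemma TP_eq_sum (X Y : Finset α) : TP r X Y = ∑ x ∈ X, dg r Y x := by
  classical
  unfold TP dg
  rw [card_filter, sum_product]
  exact sum_congr rfl fun x _ => (card_filter _ _).symm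

lemma TP_comm (hs : ∀ z w, r z w → r w z) (X Y : Finset α) : TP r X Y = TP r Y X := by
  classical
  unfold TP
  refine card_bij (fun p _ => (p.2, p.1)) ?_ ?_ ?_
  · intro p hp
    rw [mem_filter, mem_product] at hp ⊢
    exact ⟨⟨hp.1.2, hp.1.1⟩, hs _ _ hp.2⟩
  · intro p _ q _ h
    have h1 := congrArg Prod.fst h
    have h2 := congrArg Prod.snd h
    exact Prod.ext h2 h1
  · intro p hp
    rw [mem_filter, mem_product] at hp
    refine ⟨(p.2, p.1), ?_, rfl⟩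
    rw [mem_filter, mem_product]
    exact ⟨⟨hp.1.2, hp.1.1⟩, hs _ _ hp.2⟩

lemma TP_eq_sum' (hs : ∀ z w, r z w → r w z) (X Y : Finset α) :
    TP r X Y = ∑ y ∈ Y, dg r X y := by
  rw [TP_comm hs, TP_eq_sum]

lemma TP_mono {X X' Y Y' : Finset α} (h : X ⊆ X') (h' : Y ⊆ Y') : TP r X Y ≤ TP r X' Y' := by
  classical
  unfold TP
  refine card_le_card fun p hp => ?_
  rw [mem_filter, mem_product] at hp ⊢
  exact ⟨⟨h hp.1.1, h' hp.1.2⟩, hp.2⟩

lemma TP_le (X Y : Finset α) : TP r X Y ≤ X.card * Y.card := by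
  classical
  unfold TP
  refine (card_filter_le _ _).trans ?_
  rw [card_product]

lemma dg_le (X : Finset α) (z : α) : dg r X z ≤ X.card := by
  classical
  unfold dg
  exact card_filter_le _ _

lemma TP_empty_left (Y : Finset α) : TP r ∅ Y = 0 := by simp [TP]

lemma TP_empty_right (X : Finset α) : TP r X ∅ = 0 := by simp [TP]

lemma TP_union_left [DecidableEq α] (X X' Y : Finset α) :
    TP r (X ∪ X') Y ≤ TP r X Y + TP r X' Y := by
  classical
  unfold TP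
  rw [union_product, filter_union]
  exact card_union_le _ _

lemma TP_union_right [DecidableEq α] (X Y Y' : Finset α) :
    TP r X (Y ∪ Y') ≤ TP r X Y + TP r X Y' := by
  classical
  unfold TP
  rw [product_union, filter_union]
  exact card_union_le _ _

lemma TP_erase_right [DecidableEq α] (hs : ∀ z w, r z w → r w z) {X Y : Finset α} {y : α}
    (hy : y ∈ Y) : TP r X Y = TP r X (Y.erase y) + dg r X y := by
  rw [TP_eq_sum' hs, TP_eq_sum' hs, ← Finset.add_sum_erase Y _ hy, add_comm]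

end basic

/-- the extremal pair -/
structure Ext (r : α → α → Prop) (Z X Y : Finset α) : Prop where
  hX : X ⊆ Z
  hY : Y ⊆ Z
  neX : X.Nonempty
  neY : Y.Nonempty
  le : Y.card ≤ X.card
  pos : 0 < TP r X Y
  max : ∀ X' ⊆ Z, ∀ Y' ⊆ Z,
    TP r X' Y' ^ 2 * (X.card * Y.card) ≤ TP r X Y ^ 2 * (X'.card * Y'.card)

/-- existence of the extremal pair -/
theorem exists_extremal {r : α → α → Prop} (hs : ∀ z w, r z w → r w z) {Z : Finset α}
    (hT : 0 < TP r Z Z) : ∃ X Y : Finset α, Ext r Z X Y := by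
  classical
  have hZ : Z.Nonempty := by
    rw [nonempty_iff_ne_empty]
    rintro rfl
    rw [TP_empty_left] at hT
    exact lt_irrefl _ hT
  let S : Finset (Finset α × Finset α) :=
    (Z.powerset ×ˢ Z.powerset).filter fun p => p.1.Nonempty ∧ p.2.Nonempty
  let Q : Finset α × Finset α → ℚ := fun p =>
    (TP r p.1 p.2 : ℚ) ^ 2 / ((p.1.card : ℚ) * (p.2.card : ℚ))
  have hS : S.Nonempty := ⟨(Z, Z), by simp [S, hZ]⟩
  obtain ⟨⟨X₀, Y₀⟩, hm, hmax⟩ := S.exists_max_image Q hS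
  have hm' : (X₀ ⊆ Z ∧ Y₀ ⊆ Z) ∧ X₀.Nonempty ∧ Y₀.Nonempty := by
    simpa [S] using hm
  obtain ⟨⟨hX, hY⟩, hnX, hnY⟩ := hm'
  have key : ∀ X' ⊆ Z, ∀ Y' ⊆ Z,
      TP r X' Y' ^ 2 * (X₀.card * Y₀.card) ≤ TP r X₀ Y₀ ^ 2 * (X'.card * Y'.card) := by
    intro X' hX' Y' hY'
    rcases X'.eq_empty_or_nonempty with h1 | h1
    · subst h1; simp [TP_empty_left]
    rcases Y'.eq_empty_or_nonempty with h2 | h2
    · subst h2; simp [TP_empty_right]
    have h3 := hmax (X', Y') (by simp [S, hX', hY', h1, h2])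
    simp only [Q] at h3
    have a1 : (0 : ℚ) < (X'.card : ℚ) * (Y'.card : ℚ) := by
      have := card_pos.2 h1
      have := card_pos.2 h2
      positivity
    have a2 : (0 : ℚ) < (X₀.card : ℚ) * (Y₀.card : ℚ) := by
      have := card_pos.2 hnX
      have := card_pos.2 hnY
      positivity
    rw [div_le_div_iff₀ a1 a2] at h3
    exact_mod_cast h3
  have hpos : 0 < TP r X₀ Y₀ := by
    have h := key Z subset_rfl Z subset_rfl
    have hz := card_pos.2 hnX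
    have hz' := card_pos.2 hnY
    rcases Nat.eq_zero_or_pos (TP r X₀ Y₀) with h0 | h0
    · rw [h0] at h
      have : 0 < TP r Z Z ^ 2 * (X₀.card * Y₀.card) := by positivity
      simp at h
      rcases h with h | h | h
      · omega
      · exact absurd h (nonempty_iff_ne_empty.1 hnX)
      · exact absurd h (nonempty_iff_ne_empty.1 hnY)
    · exact h0
  rcases le_total Y₀.card X₀.card with hle | hle
  · exact ⟨X₀, Y₀, hX, hY, hnX, hnY, hle, hpos, key⟩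
  · refine ⟨Y₀, X₀, hY, hX, hnY, hnX, hle, by rwa [TP_comm hs], ?_⟩
    intro X' hX' Y' hY'
    have := key Y' hY' X' hX'
    rw [TP_comm hs X' Y', TP_comm hs Y₀ X₀, mul_comm Y₀.card, mul_comm X'.card]
    exact this

namespace Ext

variable {r : α → α → Prop} {Z X Y : Finset α}

lemma cardX_pos (h : Ext r Z X Y) : 0 < X.card := card_pos.2 h.neX

lemma cardY_pos (h : Ext r Z X Y) : 0 < Y.card := card_pos.2 h.neY

/-- `T(Z,Z)² |X| |Y| ≤ T² |Z|²` -/
lemma lam_le (h : Ext r Z X Y) :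
    TP r Z Z ^ 2 * (X.card * Y.card) ≤ TP r X Y ^ 2 * Z.card ^ 2 := by
  have := h.max Z subset_rfl Z subset_rfl
  rwa [← sq Z.card] at this

/-- (a) left -/
lemma small_left (h : Ext r Z X Y) {X' : Finset α} (hX' : X' ⊆ Z) :
    TP r X' Y ^ 2 * X.card ≤ TP r X Y ^ 2 * X'.card := by
  have h1 := h.max X' hX' Y h.hY
  have h2 := h.cardY_pos
  refine Nat.le_of_mul_le_mul_right ?_ h2
  calc TP r X' Y ^ 2 * X.card * Y.card = TP r X' Y ^ 2 * (X.card * Y.card) := by ring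
    _ ≤ TP r X Y ^ 2 * (X'.card * Y.card) := h1
    _ = TP r X Y ^ 2 * X'.card * Y.card := by ring

/-- (a) right -/
lemma small_right (h : Ext r Z X Y) {Y' : Finset α} (hY' : Y' ⊆ Z) :
    TP r X Y' ^ 2 * Y.card ≤ TP r X Y ^ 2 * Y'.card := by
  have h1 := h.max X h.hX Y' hY'
  have h2 := h.cardX_pos
  refine Nat.le_of_mul_le_mul_right ?_ h2
  calc TP r X Y' ^ 2 * Y.card * X.card = TP r X Y' ^ 2 * (X.card * Y.card) := by ring
    _ ≤ TP r X Y ^ 2 * (X.card * Y'.card) := h1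
    _ = TP r X Y ^ 2 * Y'.card * X.card := by ring

/-- (a) left, with `η` -/
lemma small_left' (h : Ext r Z X Y) {X' : Finset α} (hX' : X' ⊆ Z) {η : ℝ} (hη : 0 ≤ η)
    (hc : (X'.card : ℝ) ≤ η ^ 2 * X.card) : (TP r X' Y : ℝ) ≤ η * TP r X Y := by
  have h1 : (TP r X' Y : ℝ) ^ 2 * X.card ≤ (TP r X Y : ℝ) ^ 2 * X'.card := by
    exact_mod_cast h.small_left hX'
  have h2 : (0 : ℝ) < X.card := by exact_mod_cast h.cardX_pos
  have h3 : (TP r X' Y : ℝ) ^ 2 ≤ (η * TP r X Y) ^ 2 := by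
    have h4 : (TP r X' Y : ℝ) ^ 2 * X.card ≤ (η * TP r X Y) ^ 2 * X.card := by
      calc (TP r X' Y : ℝ) ^ 2 * X.card ≤ (TP r X Y : ℝ) ^ 2 * X'.card := h1
        _ ≤ (TP r X Y : ℝ) ^ 2 * (η ^ 2 * X.card) :=
            mul_le_mul_of_nonneg_left hc (by positivity)
        _ = (η * TP r X Y) ^ 2 * X.card := by ring
    exact le_of_mul_le_mul_right h4 h2
  exact le_of_sq_le_sq h3 (by positivity)

/-- (a) right, with `η` -/
lemma small_right' (h : Ext r Z X Y) {Y' : Finset α} (hY' : Y' ⊆ Z) {η : ℝ} (hη : 0 ≤ η)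
    (hc : (Y'.card : ℝ) ≤ η ^ 2 * Y.card) : (TP r X Y' : ℝ) ≤ η * TP r X Y := by
  have h1 : (TP r X Y' : ℝ) ^ 2 * Y.card ≤ (TP r X Y : ℝ) ^ 2 * Y'.card := by
    exact_mod_cast h.small_right hY'
  have h2 : (0 : ℝ) < Y.card := by exact_mod_cast h.cardY_pos
  have h3 : (TP r X Y' : ℝ) ^ 2 ≤ (η * TP r X Y) ^ 2 := by
    have h4 : (TP r X Y' : ℝ) ^ 2 * Y.card ≤ (η * TP r X Y) ^ 2 * Y.card := by
      calc (TP r X Y' : ℝ) ^ 2 * Y.card ≤ (TP r X Y : ℝ) ^ 2 * Y'.card := h1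
        _ ≤ (TP r X Y : ℝ) ^ 2 * (η ^ 2 * Y.card) :=
            mul_le_mul_of_nonneg_left hc (by positivity)
        _ = (η * TP r X Y) ^ 2 * Y.card := by ring
    exact le_of_mul_le_mul_right h4 h2
  exact le_of_sq_le_sq h3 (by positivity)

/-- (b) minimal degree on the `Y` side -/
lemma deg_right (h : Ext r Z X Y) (hs : ∀ z w, r z w → r w z) {y : α} (hy : y ∈ Y) :
    TP r X Y ≤ 2 * Y.card * dg r X y := by
  classical
  have h0 := TP_erase_right (X := X) hs hy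
  have h1 := h.small_right (Y' := Y.erase y) ((erase_subset _ _).trans h.hY)
  have hc : (Y.erase y).card + 1 = Y.card := card_erase_add_one hy
  set a := TP r X (Y.erase y)
  set D := dg r X y
  set T := TP r X Y
  set c := (Y.erase y).card
  have hT : 0 < T := h.pos
  rw [← hc] at h1 ⊢
  -- a = T - D,  a² (c+1) ≤ T² c
  have h2 : (a : ℤ) = T - D := by push_cast [h0]; ring
  have h3 : (a : ℤ) ^ 2 * (c + 1) ≤ (T : ℤ) ^ 2 * c := by exact_mod_cast h1
  have h4 : (T : ℤ) ≤ 2 * (c + 1) * D := by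
    rw [h2] at h3
    have hT' : (0 : ℤ) < T := by exact_mod_cast hT
    by_contra hcon
    push Not at hcon
    have h5 : 2 * ((c : ℤ) + 1) * D * T < T * T := by nlinarith
    nlinarith [sq_nonneg (D : ℤ), mul_nonneg (Int.natCast_nonneg c) (sq_nonneg (D : ℤ))]
  exact_mod_cast h4

/-- (b) minimal degree on the `X` side -/
lemma deg_left (h : Ext r Z X Y) (hs : ∀ z w, r z w → r w z) {x : α} (hx : x ∈ X) :
    TP r X Y ≤ 2 * X.card * dg r Y x := by
  classical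
  have h0 := TP_erase_right (X := Y) hs hx
  have h1 := h.small_left (X' := X.erase x) ((erase_subset _ _).trans h.hX)
  rw [TP_comm hs Y X, TP_comm hs Y (X.erase x)] at h0
  have hc : (X.erase x).card + 1 = X.card := card_erase_add_one hx
  set a := TP r (X.erase x) Y
  set D := dg r Y x
  set T := TP r X Y
  set c := (X.erase x).card
  have hT : 0 < T := h.pos
  rw [← hc] at h1 ⊢
  have h2 : (a : ℤ) = T - D := by push_cast [h0]; ring
  have h3 : (a : ℤ) ^ 2 * (c + 1) ≤ (T : ℤ) ^ 2 * c := by exact_mod_cast h1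
  have h4 : (T : ℤ) ≤ 2 * (c + 1) * D := by
    rw [h2] at h3
    have hT' : (0 : ℤ) < T := by exact_mod_cast hT
    by_contra hcon
    push Not at hcon
    have h5 : 2 * ((c : ℤ) + 1) * D * T < T * T := by nlinarith
    nlinarith [sq_nonneg (D : ℤ), mul_nonneg (Int.natCast_nonneg c) (sq_nonneg (D : ℤ))]
  exact_mod_cast h4

/-- the parameter `t₀ = |X||Y| / T` -/
noncomputable def t0 (r : α → α → Prop) (X Y : Finset α) : ℝ :=
  (X.card : ℝ) * Y.card / TP r X Y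

lemma one_le_t0 (h : Ext r Z X Y) : 1 ≤ t0 r X Y := by
  unfold t0
  have h1 : (0 : ℝ) < TP r X Y := by exact_mod_cast h.pos
  rw [le_div_iff₀ h1, one_mul]
  exact_mod_cast TP_le X Y

lemma T_mul_t0 (h : Ext r Z X Y) : TP r X Y * t0 r X Y = (X.card : ℝ) * Y.card := by
  unfold t0
  have h1 : (0 : ℝ) < TP r X Y := by exact_mod_cast h.pos
  field_simp

/-- (c): if `|Z|² ≤ 2 t T(Z,Z)` then `t₀² |Z|² ≤ 4 t² |X| |Y|` -/
lemma t0_sq_le (h : Ext r Z X Y) {t : ℝ} (ht : 0 < t)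
    (hZ : (Z.card : ℝ) ^ 2 ≤ 2 * t * TP r Z Z) :
    t0 r X Y ^ 2 * (Z.card : ℝ) ^ 2 ≤ 4 * t ^ 2 * ((X.card : ℝ) * Y.card) := by
  have h1 : (0 : ℝ) < TP r X Y := by exact_mod_cast h.pos
  have hl : (TP r Z Z : ℝ) ^ 2 * ((X.card : ℝ) * Y.card) ≤ (TP r X Y : ℝ) ^ 2 * (Z.card : ℝ) ^ 2 := by
    exact_mod_cast h.lam_le
  have hzp : (0 : ℝ) < Z.card := by
    have := card_le_card h.hX
    have := h.cardX_pos
    have : 0 < Z.card := by omega
    exact_mod_cast this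
  set N := (Z.card : ℝ)
  set W := (X.card : ℝ) * Y.card
  set T := (TP r X Y : ℝ)
  set E := (TP r Z Z : ℝ)
  have hW : 0 ≤ W := by positivity
  have hE : 0 ≤ E := by positivity
  have h2 : t0 r X Y = W / T := rfl
  rw [h2, div_pow, div_mul_eq_mul_div, div_le_iff₀ (by positivity)]
  -- W² N² ≤ 4 t² W T²
  have h3 : N ^ 2 * N ^ 2 ≤ 4 * t ^ 2 * E ^ 2 := by
    calc N ^ 2 * N ^ 2 ≤ (2 * t * E) * (2 * t * E) :=
          mul_le_mul hZ hZ (by positivity) (by positivity)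
      _ = 4 * t ^ 2 * E ^ 2 := by ring
  have h4 : W * N ^ 2 * N ^ 2 ≤ 4 * t ^ 2 * T ^ 2 * N ^ 2 := by
    calc W * N ^ 2 * N ^ 2 = W * (N ^ 2 * N ^ 2) := by ring
      _ ≤ W * (4 * t ^ 2 * E ^ 2) := mul_le_mul_of_nonneg_left h3 hW
      _ = 4 * t ^ 2 * (E ^ 2 * W) := by ring
      _ ≤ 4 * t ^ 2 * (T ^ 2 * N ^ 2) := mul_le_mul_of_nonneg_left hl (by positivity)
      _ = 4 * t ^ 2 * T ^ 2 * N ^ 2 := by ring
  have h5 : W * N ^ 2 ≤ 4 * t ^ 2 * T ^ 2 := le_of_mul_le_mul_right h4 (by positivity)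
  calc W ^ 2 * N ^ 2 = W * (W * N ^ 2) := by ring
    _ ≤ W * (4 * t ^ 2 * T ^ 2) := mul_le_mul_of_nonneg_left h5 hW
    _ = 4 * t ^ 2 * W * T ^ 2 := by ring

/-- `t₀ |Z| ≤ 2 t |X|` -/
lemma t0_le_X (h : Ext r Z X Y) {t : ℝ} (ht : 0 < t)
    (hZ : (Z.card : ℝ) ^ 2 ≤ 2 * t * TP r Z Z) :
    t0 r X Y * (Z.card : ℝ) ≤ 2 * t * X.card := by
  have h1 := h.t0_sq_le ht hZ
  have h2 : (Y.card : ℝ) ≤ X.card := by exact_mod_cast h.le
  have h3 : (t0 r X Y * (Z.card : ℝ)) ^ 2 ≤ (2 * t * X.card) ^ 2 := by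
    calc (t0 r X Y * (Z.card : ℝ)) ^ 2 = t0 r X Y ^ 2 * (Z.card : ℝ) ^ 2 := by ring
      _ ≤ 4 * t ^ 2 * ((X.card : ℝ) * Y.card) := h1
      _ ≤ 4 * t ^ 2 * ((X.card : ℝ) * X.card) := by gcongr
      _ = (2 * t * X.card) ^ 2 := by ring
  exact le_of_sq_le_sq h3 (by positivity)

/-- `t₀ ≤ 2 t` -/
lemma t0_le (h : Ext r Z X Y) {t : ℝ} (ht : 0 < t)
    (hZ : (Z.card : ℝ) ^ 2 ≤ 2 * t * TP r Z Z) : t0 r X Y ≤ 2 * t := by
  have h1 := h.t0_le_X ht hZ
  have h2 : (X.card : ℝ) ≤ Z.card := by exact_mod_cast card_le_card h.hX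
  have h3 : (0 : ℝ) < Z.card := by
    have : (0 : ℝ) < X.card := by exact_mod_cast h.cardX_pos
    linarith
  have h4 : t0 r X Y * (Z.card : ℝ) ≤ 2 * t * Z.card := h1.trans (by gcongr)
  exact le_of_mul_le_mul_right h4 h3

/-- (d): `|X| |Z|² ≤ 4 t² · (...)`: `|Z|² ≤ 4 t² |X| |Y|` -/
lemma card_sq_le (h : Ext r Z X Y) {t : ℝ} (ht : 0 < t)
    (hZ : (Z.card : ℝ) ^ 2 ≤ 2 * t * TP r Z Z) :
    (Z.card : ℝ) ^ 2 ≤ 4 * t ^ 2 * ((X.card : ℝ) * Y.card) := by
  have h1 := h.t0_sq_le ht hZ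
  have h2 := h.one_le_t0
  have h3 : (1 : ℝ) ≤ t0 r X Y ^ 2 := by nlinarith
  calc (Z.card : ℝ) ^ 2 = 1 * (Z.card : ℝ) ^ 2 := by ring
    _ ≤ t0 r X Y ^ 2 * (Z.card : ℝ) ^ 2 := by gcongr
    _ ≤ _ := h1

/-- (d): `|X| ≤ 4 t² |Y|` -/
lemma X_le_Y (h : Ext r Z X Y) {t : ℝ} (ht : 0 < t)
    (hZ : (Z.card : ℝ) ^ 2 ≤ 2 * t * TP r Z Z) :
    (X.card : ℝ) ≤ 4 * t ^ 2 * Y.card := by
  have h1 := h.card_sq_le ht hZ
  have h2 : (X.card : ℝ) ≤ Z.card := by exact_mod_cast card_le_card h.hX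
  have h3 : (0 : ℝ) < X.card := by exact_mod_cast h.cardX_pos
  have h4 : (X.card : ℝ) * X.card ≤ 4 * t ^ 2 * Y.card * X.card := by
    calc (X.card : ℝ) * X.card ≤ (Z.card : ℝ) ^ 2 := by nlinarith
      _ ≤ 4 * t ^ 2 * ((X.card : ℝ) * Y.card) := h1
      _ = 4 * t ^ 2 * Y.card * X.card := by ring
  exact le_of_mul_le_mul_right h4 h3

/-- degrees of the `Y` side: `|X| ≤ 2 t₀ deg_X(y)` -/
lemma deg_right_t0 (h : Ext r Z X Y) (hs : ∀ z w, r z w → r w z) {y : α} (hy : y ∈ Y) :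
    (X.card : ℝ) ≤ 2 * t0 r X Y * dg r X y := by
  have h1 : (TP r X Y : ℝ) ≤ 2 * Y.card * dg r X y := by exact_mod_cast h.deg_right hs hy
  have hT : (0 : ℝ) < TP r X Y := by exact_mod_cast h.pos
  have hY : (0 : ℝ) < Y.card := by exact_mod_cast h.cardY_pos
  have h2 : t0 r X Y = (X.card : ℝ) * Y.card / TP r X Y := rfl
  rw [h2]
  have h3 : (X.card : ℝ) * TP r X Y ≤ 2 * ((X.card : ℝ) * Y.card) * dg r X y := by
    calc (X.card : ℝ) * TP r X Y ≤ (X.card : ℝ) * (2 * Y.card * dg r X y) := by gcongr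
      _ = _ := by ring
  rw [show 2 * ((X.card : ℝ) * Y.card / TP r X Y) * (dg r X y : ℝ) =
    (2 * ((X.card : ℝ) * Y.card) * dg r X y) / TP r X Y by ring, le_div_iff₀ hT]
  exact h3

end Ext

end Crest.Agent.R065.ExtP580
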