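import Crest.Agent.R065.D3rot_812

/-!
# Row 65: an isometry making all coordinates of finitely many vectors nonzero
-/

set_option autoImplicit false

open Module

namespace Crest.Agent.R065.D3rot812

open Crest.Agent.R065.Top348 Crest.Agent.R065.Base348 Crest.Agent.R065.D3

section coord

variable {d : ℕ}

/-- the quadric of the reflections `n` with `(Q v) i = 0` -/
noncomputable def Fq (v : EuclideanSpace ℝ (Fin d)) (i : Fin d) : MvPolynomial (Fin d) ℝ :=
  2 * (∑ j, MvPolynomial.C (v j) * MvPolynomial.X j) * MvPolynomial.X i -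
    MvPolynomial.C (v i) * ∑ j, MvPolynomial.X j * MvPolynomial.X j

lemma eval_Fq (v : EuclideanSpace ℝ (Fin d)) (i : Fin d) (n : Fin d → ℝ) :
    MvPolynomial.eval n (Fq v i) = 2 * (∑ j, v j * n j) * n i - v i * ∑ j, n j * n j := by
  simp [Fq]

lemma Fq_ne_zero {v : EuclideanSpace ℝ (Fin d)} (hv : v ≠ 0) (i : Fin d) : Fq v i ≠ 0 := by
  classical
  intro h
  by_cases hvi : v i = 0
  · obtain ⟨j, hj⟩ : ∃ j, v j ≠ 0 := by
      by_contra hcon
      push Not at hcon
      exact hv (by ext j; simpa using hcon j)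
    have hij : j ≠ i := by
      rintro rfl
      exact hj hvi
    have h1 := eval_Fq v i (Pi.single i 1 + Pi.single j 1)
    rw [h, map_zero, hvi, zero_mul, sub_zero] at h1
    have h2 : (∑ k, v k * ((Pi.single i 1 + Pi.single j 1 : Fin d → ℝ)) k) = v j := by
      simp only [Pi.add_apply, mul_add, Finset.sum_add_distrib]
      rw [Finset.sum_eq_single i, Finset.sum_eq_single j]
      · simp [hvi]
      · intro b _ hb
        simp [Pi.single_eq_of_ne hb]
      · intro h; exact absurd (Finset.mem_univ _) h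
      · intro b _ hb
        simp [Pi.single_eq_of_ne hb]
      · intro h; exact absurd (Finset.mem_univ _) h
    rw [h2] at h1
    have h3 : ((Pi.single i 1 + Pi.single j 1 : Fin d → ℝ)) i = 1 := by
      simp [Pi.single_eq_of_ne hij.symm]
    rw [h3] at h1
    apply hj
    linarith
  · have h1 := eval_Fq v i (Pi.single i 1)
    rw [h, map_zero] at h1
    have h2 : (∑ k, v k * ((Pi.single i 1 : Fin d → ℝ)) k) = v i := by
      rw [Finset.sum_eq_single i]
      · simp
      · intro b _ hb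
        simp [Pi.single_eq_of_ne hb]
      · intro h; exact absurd (Finset.mem_univ _) h
    have h3 : (∑ k, ((Pi.single i 1 : Fin d → ℝ)) k * ((Pi.single i 1 : Fin d → ℝ)) k) = 1 := by
      rw [Finset.sum_eq_single i]
      · simp
      · intro b _ hb
        simp [Pi.single_eq_of_ne hb]
      · intro h; exact absurd (Finset.mem_univ _) h
    rw [h2, h3, Pi.single_eq_same] at h1
    apply hvi
    linarith

lemma aux_div {A s x y : ℝ} (hs : ¬ s = 0) :
    2 * A * x - y * s = ((2 : ℝ) * (A / s) * x - y) * s := by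
  field_simp

/-- a linear isometry such that finitely many nonzero vectors get nonzero coordinates -/
theorem exists_isometry_coord (S : Finset (EuclideanSpace ℝ (Fin d)))
    (hS : ∀ v ∈ S, v ≠ 0) : ∃ Q : EuclideanSpace ℝ (Fin d) ≃ₗᵢ[ℝ] EuclideanSpace ℝ (Fin d),
      ∀ v ∈ S, ∀ i, (Q v) i ≠ 0 := by
  classical
  have hne : (∏ v ∈ S, ∏ i, Fq v i) ≠ 0 := by
    rw [Finset.prod_ne_zero_iff]
    intro v hv
    rw [Finset.prod_ne_zero_iff]
    intro i _
    exact Fq_ne_zero (hS v hv) i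
  obtain ⟨n, hn⟩ : ∃ n : Fin d → ℝ, MvPolynomial.eval n (∏ v ∈ S, ∏ i, Fq v i) ≠ 0 := by
    by_contra hcon
    push Not at hcon
    apply hne
    refine MvPolynomial.funext fun x => ?_
    rw [hcon x, map_zero]
  rw [map_prod, Finset.prod_ne_zero_iff] at hn
  set N : EuclideanSpace ℝ (Fin d) := WithLp.toLp 2 n with hN
  refine ⟨(ℝ ∙ N).reflection, fun v hv i h0 => ?_⟩
  have h1 := hn v hv
  rw [map_prod, Finset.prod_ne_zero_iff] at h1
  have h2 := h1 i (Finset.mem_univ _)
  rw [eval_Fq] at h2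
  rw [Submodule.reflection_singleton_apply] at h0
  have e1 : inner ℝ N v = ∑ j, v j * n j := by
    rw [PiLp.inner_apply]
    refine Finset.sum_congr rfl fun j _ => ?_
    simp [hN]
  have e2 : ‖N‖ ^ 2 = ∑ j, n j * n j := by
    rw [← real_inner_self_eq_norm_sq, PiLp.inner_apply]
    refine Finset.sum_congr rfl fun j _ => ?_
    simp [hN]
    ring
  by_cases hN0 : ‖N‖ ^ 2 = 0
  · apply h2
    have : N = 0 := by
      rw [← norm_eq_zero]
      exact pow_eq_zero_iff (two_ne_zero) |>.1 hN0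
    have hn0 : ∀ j, n j = 0 := by
      intro j
      have := congrArg (fun u : EuclideanSpace ℝ (Fin d) => u j) this
      simpa [hN] using this
    simp [hn0]
  · apply h2
    have h3 : (2 : ℝ) * ((∑ j, v j * n j) / (∑ j, n j * n j)) * n i - v i = 0 := by
      have h4 : ((2 : ℕ) • ((inner ℝ N v / ((‖N‖ : ℝ) ^ 2)) • N) - v) i = 0 := h0
      rw [e1, e2] at h4
      have h5 : ((2 : ℕ) • (((∑ j, v j * n j) / (∑ j, n j * n j)) • N) - v) i =
          (2 : ℝ) * ((∑ j, v j * n j) / (∑ j, n j * n j)) * n i - v i := by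
        rw [two_nsmul]
        simp only [PiLp.sub_apply, PiLp.add_apply, PiLp.smul_apply, smul_eq_mul, hN]
        ring
      rw [h5] at h4
      exact h4
    rw [e2] at hN0
    have h6 : 2 * (∑ j, v j * n j) * n i - v i * ∑ j, n j * n j =
        ((2 : ℝ) * ((∑ j, v j * n j) / (∑ j, n j * n j)) * n i - v i) * (∑ j, n j * n j) :=
      aux_div hN0
    rw [h6, h3, zero_mul]

/-- all coordinates of the `x`-parts of different points are different -/
def GenAll (Z : Finset (EuclideanSpace ℝ (Fin d) × EuclideanSpace ℝ (Fin d))) : Prop :=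
  ∀ z ∈ Z, ∀ w ∈ Z, z ≠ w → ∀ i, (zc z.1 z.2).1 i ≠ (zc w.1 w.2).1 i

lemma zc_fst_apply_ne {z w : EuclideanSpace ℝ (Fin d) × EuclideanSpace ℝ (Fin d)} {i : Fin d}
    (h : ((z.1 + z.2) - (w.1 + w.2)) i ≠ 0) : (zc z.1 z.2).1 i ≠ (zc w.1 w.2).1 i := by
  intro h0
  apply h
  simp only [zc, zp, Pi.add_apply] at h0
  simp only [PiLp.add_apply, PiLp.sub_apply]
  have : (((z.1 i + z.2 i : ℝ)) : ℂ) = ((w.1 i + w.2 i : ℝ) : ℂ) := by
    push_cast
    exact h0
  have h2 : z.1 i + z.2 i = w.1 i + w.2 i := by exact_mod_cast this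
  linarith

/-- two isometries making the set generic in all coordinates -/
theorem exists_generic2 (hd : 2 ≤ d)
    (Z : Finset (EuclideanSpace ℝ (Fin d) × EuclideanSpace ℝ (Fin d))) :
    ∃ Q R : EuclideanSpace ℝ (Fin d) ≃ₗᵢ[ℝ] EuclideanSpace ℝ (Fin d),
      ∀ z ∈ Z, ∀ w ∈ Z, z ≠ w → ∀ i, (zc (Q z.1) (R z.2)).1 i ≠ (zc (Q w.1) (R w.2)).1 i := by
  classical
  obtain ⟨R, hR⟩ := exists_generic (E := EuclideanSpace ℝ (Fin d))
    (by rw [finrank_euclideanSpace_fin]; exact hd) Z
  obtain ⟨Q, hQ⟩ := exists_isometry_coord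
    (((Z ×ˢ Z).filter fun p => p.1 ≠ p.2).image fun p =>
      (p.1.1 + R p.1.2) - (p.2.1 + R p.2.2)) (by
      intro v hv
      rw [Finset.mem_image] at hv
      obtain ⟨p, hp, rfl⟩ := hv
      rw [Finset.mem_filter, Finset.mem_product] at hp
      exact sub_ne_zero.2 (hR _ hp.1.1 _ hp.1.2 hp.2))
  refine ⟨Q, R.trans Q, fun z hz w hw hne i => ?_⟩
  refine zc_fst_apply_ne (z := (Q z.1, (R.trans Q) z.2)) (w := (Q w.1, (R.trans Q) w.2)) ?_
  have h1 := hQ ((z.1 + R z.2) - (w.1 + R w.2)) (by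
    rw [Finset.mem_image]
    exact ⟨(z, w), Finset.mem_filter.2 ⟨Finset.mem_product.2 ⟨hz, hw⟩, hne⟩, rfl⟩) i
  have h2 : Q ((z.1 + R z.2) - (w.1 + R w.2)) =
      (Q z.1 + (R.trans Q) z.2) - (Q w.1 + (R.trans Q) w.2) := by
    rw [map_sub, map_add, map_add]
    rfl
  rw [h2] at h1
  exact h1

end coord

end Crest.Agent.R065.D3rot812
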