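import Crest.Agent.R065.Flags_669
import Crest.Agent.R065.Mult_496d
import Crest.Agent.R065.MblkFin_474

/-!
# Row 65: glue lemmas for the swept theorem (helper795)

* `derivation_flag` : derivation lemma in terms of `flagTop P`
* `swept_dim_deg` : dimension and degree of the constant variety
-/

set_option autoImplicit false

open MvPolynomial Module Filter

namespace Crest.Agent.R065.Glue795

open Crest.Agent.R065.HF669 Crest.Agent.R065.Base348 Crest.Agent.R065.Mblk474

/-- the constant of the derivation lemma -/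
def KL (N : ℕ) : ℕ := KA N ^ (N + 2)

lemma one_le_KL (N : ℕ) : 1 ≤ KL N := Nat.one_le_pow _ _ (one_le_KA N)

/-- **derivation lemma through flags**: if `E` maps the elements of `P` of degree
`≤ D' + KL N * D` into `P`, `D' ≥ flagTop P`, then it maps `P` into `P`. -/
theorem derivation_flag {k : Type*} [Field k] [Infinite k] [CharZero k] {σ : Type*} [Fintype σ]
    {P : Ideal (MvPolynomial σ k)} [hP : P.IsPrime] {D D' : ℕ} (hD' : flagTop P ≤ D')
    (E : Derivation ℤ (MvPolynomial σ k) (MvPolynomial σ k))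
    (hE : ∀ g, (E g).totalDegree ≤ g.totalDegree + D)
    (hE' : ∀ g ∈ P, g.totalDegree ≤ D' + KL (Fintype.card σ) * D → E g ∈ P) :
    ∀ w ∈ P, E w ∈ P := by
  have hN := dimP_le_card P
  refine Mult496.derivation_mem (P := P) (c := Fintype.card σ - dimP P) (by omega)
    (fun j => flag P (j + 1)) (D := D) (D' := D') (L := KL (Fintype.card σ)) ?_ ?_ ?_ E hE hE'
  · intro j hj
    exact (flag_mono (P := P) (by omega) (by omega)).trans hD'
  · intro j hj Q hQ hQP h
    exact cod_flag (P := P) (l := j + 1) (by omega) Q hQ hQP h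
  · have h1 := flagProd_le_degP (P := P)
    have h2 := degP_pos P
    unfold flagProd at h1
    unfold KL
    calc _ ≤ KA (Fintype.card σ) ^ (Fintype.card σ + 2) * degP P := h1
      _ < (KA (Fintype.card σ) ^ (Fintype.card σ + 2) + 1) * degP P :=
        Nat.mul_lt_mul_of_pos_right (Nat.lt_succ_self _) h2

section main

variable {k : Type*} [Field k] {d : ℕ}
  {K : Type*} [Field K] [Algebra (MvPolynomial (Pr d) k) K]
  [IsFractionRing (MvPolynomial (Pr d) k) K]
  {F : Type*} [Field F] [Algebra K F] [Algebra k F] [Algebra k K] [IsScalarTower k K F]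
  [IsScalarTower k (MvPolynomial (Pr d) k) K]

/-- **the constant variety**: `Q = ker (k[x, y] → F)` has the dimension of `P = ker (K[θ] → F)`
and degree at most `[F : K(θ)] * degP P`. -/
theorem swept_dim_deg [CharZero k] [Infinite k] [Infinite K] (D : Pr d → Derivation ℤ F F)
    (hD : ∀ p (g : MvPolynomial (Pr d) k),
      D p (algebraMap K F (algebraMap (MvPolynomial (Pr d) k) K g)) =
        algebraMap K F (algebraMap (MvPolynomial (Pr d) k) K (pderiv p g)))
    (ξ η θ : Fin d → F) (hθ : ∀ i, θ i = η i + act (sF k K F) ξ i)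
    (hξ : ∀ i p, D p (ξ i) = 0) (hη : ∀ i p, D p (η i) = 0)
    [hfd : FiniteDimensional (IntermediateField.adjoin K (Set.range θ)) F]
    (hdep : ¬ AlgebraicIndependent K θ)
    (P : Ideal (MvPolynomial (Fin d) K)) (hP : P = RingHom.ker (aeval θ : _ →ₐ[K] F))
    (Q : Ideal (MvPolynomial (Fin d ⊕ Fin d) k))
    (hQ : Q = RingHom.ker (aeval (Sum.elim ξ η) : _ →ₐ[k] F)) :
    Q.IsPrime ∧ dimP Q = dimP P ∧
      degP Q ≤ finrank (IntermediateField.adjoin K (Set.range θ)) F * degP P ∧
      ∀ m, HF Q m ≤ finrank (IntermediateField.adjoin K (Set.range θ)) F * degP P *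
        (m + dimP P).choose (dimP P) := by
  classical
  have hQp : Q.IsPrime := by rw [hQ]; exact RingHom.ker_isPrime _
  have hPp : P.IsPrime := by rw [hP]; exact RingHom.ker_isPrime _
  have hHQ : ∀ m, HF Q m = finrank k (U k (Sum.elim ξ η : Fin d ⊕ Fin d → F) m) := fun m => by
    rw [hQ]; exact HF_ker_aeval _ m
  have hHP : ∀ m, HF P m = finrank K (U K θ m) := fun m => by rw [hP]; exact HF_ker_aeval θ m
  have hzc : ∀ i p, D p ((Sum.elim ξ η : Fin d ⊕ Fin d → F) i) = 0 := by
    rintro (i | i) p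
    · exact hξ i p
    · exact hη i p
  have hkK : ∀ m, finrank k (U k (Sum.elim ξ η : Fin d ⊕ Fin d → F) m) =
      finrank K (U K (Sum.elim ξ η : Fin d ⊕ Fin d → F) m) := finrank_U_eq D hD _ hzc
  have hθz : ∀ q, U K θ q ≤ U K (Sum.elim ξ η : Fin d ⊕ Fin d → F) q := by
    refine U_le_U fun i => ?_
    rw [hθ]
    exact Submodule.add_mem _ (self_mem_U (Sum.elim ξ η : Fin d ⊕ Fin d → F) (Sum.inr i))
      (act_mem_U (fun i => self_mem_U (Sum.elim ξ η : Fin d ⊕ Fin d → F) (Sum.inl i)) i)
  have hle : ∀ m, HF P m ≤ HF Q m := fun m => by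
    rw [hHP, hHQ, hkK]
    exact Submodule.finrank_mono (hθz m)
  have hge : ∀ m, HF Q m ≤ finrank (IntermediateField.adjoin K (Set.range θ)) F * degP P *
      (m + dimP P).choose (dimP P) := fun m => by
    rw [hHQ]
    exact M_main D hD ξ η θ hθ hξ hη hdep P hP m
  have h1 : dimP P ≤ dimP Q := (isDimDeg P).dim_le (c := 0) (C := 1) (isDimDeg Q)
    (Eventually.of_forall fun m => by rw [one_mul]; exact hle m)
  have h2 : dimP Q ≤ dimP P := by
    obtain ⟨b, hb⟩ := (isDimDeg Q).ge
    refine exp_le_of_choose_le (δ₁ := degP Q) (c₁ := 0) (c₂ := b) (degP_pos Q)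
      (δ₂ := finrank (IntermediateField.adjoin K (Set.range θ)) F * degP P) ?_
    refine Eventually.of_forall fun m => ?_
    have h5 := (hb m).trans (hge (m + b))
    simpa using h5
  have h3 : dimP Q = dimP P := le_antisymm h2 h1
  refine ⟨hQp, h3, ?_, hge⟩
  obtain ⟨b, hb⟩ := (isDimDeg Q).ge
  refine le_of_choose_le (r := dimP P) (c₁ := 0) (c₂ := b) (Eventually.of_forall fun m => ?_)
  have h5 := (hb m).trans (hge (m + b))
  rw [h3] at h5
  simpa using h5

end main

end Crest.Agent.R065.Glue795
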