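import Crest.Agent.R065.DimDeg_669

/-!
# Growth lemma for Hilbert functions of domains
-/

set_option autoImplicit false

open MvPolynomial Module
open scoped Pointwise

namespace Crest.Agent.R065.HF669

variable {k : Type*} [Field k] {σ τ : Type*} {E : Type*} [CommRing E] [Algebra k E]

/-- Normalisation data of a filtered domain. -/
structure NData (k : Type*) [Field k] {σ : Type*} {E : Type*} [CommRing E] [Algebra k E]
    (z : σ → E) where
  /-- dimension -/
  r : ℕ
  /-- linear parameters -/
  y : Fin r → E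
  hy : AlgebraicIndependent k y
  /-- degree -/
  δ : ℕ
  hδ : 0 < δ
  u : Fin δ → E
  h : MvPolynomial (Fin r) k
  hh : h ≠ 0
  crd : E →ₗ[k] (Fin δ → MvPolynomial (Fin r) k)
  c1 : ∀ x, aeval y h * x = ∑ i, aeval y (crd x i) * u i
  c2 : ∀ c : Fin δ → MvPolynomial (Fin r) k, ∑ i, aeval y (c i) * u i = 0 → ∀ i, c i = 0
  a : ℕ
  c3 : ∀ q, ∀ x ∈ U k z q, ∀ i, (crd x i).totalDegree ≤ q + a

/-- existence of normalisation data, with parameters linear in `θ` -/
theorem exists_NData [Infinite k] [IsDomain E] {N : ℕ} (z : σ → E)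
    (hz : ∀ x : E, ∃ q, x ∈ U k z q) (θ : Fin N → E)
    (B' : Set E) (hB' : B'.Finite) (hfin : ∀ q, U k z q ≤ Submodule.span k B' * U k θ q) :
    ∃ D : NData k z, D.r ≤ N ∧ ∀ i, D.y i ∈ U k θ 1 := by
  classical
  obtain ⟨j, y, B2, hjN, hy1, hy, hB2, -, hB2U⟩ := noether_normalisation (k := k) N θ
  let B : Set E := B' * B2
  have hBf : B.Finite := hB'.mul hB2
  have hU : ∀ q, U k z q ≤ Submodule.span k B * U k y q := by
    intro q
    refine (hfin q).trans ?_
    rw [← Submodule.span_mul_span, mul_assoc]
    exact Submodule.mul_le.2 fun x hx y hy => Submodule.mul_mem_mul hx (hB2U q hy)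
  let φ : MvPolynomial (Fin j) k →ₐ[k] E := aeval y
  have hφ : Function.Injective φ := hy
  let _ : Algebra (MvPolynomial (Fin j) k) E := φ.toRingHom.toAlgebra
  have hsmul : ∀ (f : MvPolynomial (Fin j) k) (x : E), f • x = φ f * x := fun f x => rfl
  obtain ⟨δ, u, huB, hli, h, hh0, hh⟩ := exists_rank_basis (A := MvPolynomial (Fin j) k) B hBf
  have htower : IsScalarTower k (MvPolynomial (Fin j) k) E := by
    refine ⟨fun c f x => ?_⟩
    rw [hsmul, hsmul, map_smul, smul_mul_assoc]
  -- everything is in the span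
  have hspan : ∀ x : E, h • x ∈ Submodule.span (MvPolynomial (Fin j) k) (Set.range u) := by
    intro x
    obtain ⟨q, hq⟩ := hz x
    have h1 := hU q hq
    have h2 : Submodule.span k B * U k y q ≤
        ((Submodule.span (MvPolynomial (Fin j) k) (Set.range u)).comap
          (LinearMap.lsmul (MvPolynomial (Fin j) k) E h)).restrictScalars k := by
      rw [Submodule.mul_le]
      intro s hs t ht
      obtain ⟨f, -, rfl⟩ := mem_U.1 ht
      induction hs using Submodule.span_induction with
      | mem b hb =>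
        change h • (b * aeval y f) ∈ Submodule.span (MvPolynomial (Fin j) k) (Set.range u)
        have e : h • (b * aeval y f) = f • (h • b) := by
          rw [hsmul, hsmul, hsmul]; change φ h * (b * φ f) = φ f * (φ h * b); ring
        rw [e]
        exact Submodule.smul_mem _ _ (hh b hb)
      | zero => rw [zero_mul]; exact Submodule.zero_mem _
      | add x y _ _ hx hy => rw [add_mul]; exact Submodule.add_mem _ hx hy
      | smul c x _ hx => rw [smul_mul_assoc]; exact Submodule.smul_mem _ _ hx
    exact h2 h1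
  -- coordinates
  let crd0 : E →ₗ[MvPolynomial (Fin j) k] (Fin δ →₀ MvPolynomial (Fin j) k) :=
    hli.repr ∘ₗ
      (LinearMap.lsmul (MvPolynomial (Fin j) k) E h).codRestrict _ hspan
  have hcrd0 : ∀ x : E, h • x = ∑ i, crd0 x i • u i := by
    intro x
    have h1 := hli.linearCombination_repr ⟨h • x, hspan x⟩
    rw [Finsupp.linearCombination_apply, Finsupp.sum_fintype _ _ (by simp)] at h1
    exact h1.symm
  have c2' : ∀ c : Fin δ → MvPolynomial (Fin j) k, ∑ i, φ (c i) * u i = 0 → ∀ i, c i = 0 := by
    intro c hc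
    exact Fintype.linearIndependent_iff.1 hli c hc
  have hcrdsmul : ∀ (f : MvPolynomial (Fin j) k) (x : E) (i : Fin δ),
      crd0 (φ f * x) i = f * crd0 x i := by
    intro f x i
    rw [← hsmul, map_smul]; rfl
  -- degree control
  obtain ⟨a, ha⟩ : ∃ a : ℕ, ∀ b ∈ B, ∀ i, (crd0 b i).totalDegree ≤ a := by
    refine ⟨hBf.toFinset.sup fun b => Finset.univ.sup fun i => (crd0 b i).totalDegree, ?_⟩
    intro b hb i
    refine le_trans ?_ (Finset.le_sup (f := fun b => Finset.univ.sup fun i =>
      (crd0 b i).totalDegree) (hBf.mem_toFinset.2 hb))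
    exact Finset.le_sup (f := fun i => (crd0 b i).totalDegree) (Finset.mem_univ i)
  have hdeg : ∀ q, ∀ x ∈ U k z q, ∀ i, (crd0 x i).totalDegree ≤ q + a := by
    intro q x hx i
    have h1 := hU q hx
    have h2 : Submodule.span k B * U k y q ≤
        (W k (Fin j) (q + a)).comap ((Finsupp.lapply i : _ →ₗ[k] _) ∘ₗ crd0.restrictScalars k) := by
      rw [Submodule.mul_le]
      intro s hs t ht
      obtain ⟨f, hf, rfl⟩ := mem_U.1 ht
      induction hs using Submodule.span_induction with
      | mem b hb =>
        change crd0 (b * aeval y f) i ∈ W k (Fin j) (q + a)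
        have e : b * aeval y f = φ f * b := by rw [mul_comm]
        rw [e, hcrdsmul]
        exact mul_mem_W (mem_W.2 hf) (mem_W.2 (ha b hb i))
      | zero => rw [zero_mul]; exact Submodule.zero_mem _
      | add x y _ _ hx hy => rw [add_mul]; exact Submodule.add_mem _ hx hy
      | smul c x _ hx => rw [smul_mul_assoc]; exact Submodule.smul_mem _ _ hx
    exact mem_W.1 (h2 h1)
  have hδ : 0 < δ := by
    rcases Nat.eq_zero_or_pos δ with rfl | h'
    · exfalso
      have h1 := hcrd0 1
      rw [Finset.univ_eq_empty, Finset.sum_empty, hsmul, mul_one] at h1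
      exact hh0 (hφ (by rw [h1, map_zero]))
    · exact h'
  refine ⟨⟨j, y, hy, δ, hδ, u, h, hh0,
    { toFun := fun x i => crd0 x i
      map_add' := by intro x y; ext i; simp
      map_smul' := by
        intro c x
        funext i
        have : crd0 (c • x) = c • crd0 x := (crd0.restrictScalars k).map_smul c x
        simp only [this, Finsupp.smul_apply, RingHom.id_apply, Pi.smul_apply] },
    ?_, c2', a, hdeg⟩, hjN, hy1⟩
  intro x
  exact hcrd0 x

namespace NData

variable {z : σ → E}

lemma injective (D : NData k z) : Function.Injective (aeval D.y : MvPolynomial (Fin D.r) k →ₐ[k] E) :=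
  D.hy

lemma aeval_h_ne (D : NData k z) : aeval D.y D.h ≠ 0 := by
  intro h0
  exact D.hh (D.injective (by rw [h0, map_zero]))

/-- coordinates are unique -/
lemma crd_unique (D : NData k z) {x : E} {c : Fin D.δ → MvPolynomial (Fin D.r) k}
    (hc : aeval D.y D.h * x = ∑ i, aeval D.y (c i) * D.u i) (i : Fin D.δ) : D.crd x i = c i := by
  have h1 := D.c2 (fun i => D.crd x i - c i) (by
    simp only [map_sub, sub_mul, Finset.sum_sub_distrib]
    rw [← D.c1, hc, sub_self]) i
  exact sub_eq_zero.1 h1

lemma crd_smul (D : NData k z) (f : MvPolynomial (Fin D.r) k) (x : E) (i : Fin D.δ) :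
    D.crd (aeval D.y f * x) i = f * D.crd x i := by
  refine D.crd_unique (c := fun i => f * D.crd x i) ?_ i
  rw [mul_left_comm, D.c1, Finset.mul_sum]
  refine Finset.sum_congr rfl fun i _ => ?_
  rw [map_mul, mul_assoc]

/-- multiplicativity of the coordinates -/
lemma crd_mul (D : NData k z) (g g' : E) (p : Fin D.δ) :
    D.h ^ 2 * D.crd (g * g') p =
      ∑ i, ∑ l, D.crd g i * D.crd g' l * D.crd (D.u i * D.u l) p := by
  set φ := (aeval D.y : MvPolynomial (Fin D.r) k →ₐ[k] E) with hφ
  have e1 : φ D.h ^ 2 * (φ D.h * (g * g')) =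
      φ D.h * ((∑ i, φ (D.crd g i) * D.u i) * (∑ l, φ (D.crd g' l) * D.u l)) := by
    rw [hφ, ← D.c1 g, ← D.c1 g']; ring
  have e2 : φ D.h ^ 2 * (φ D.h * (g * g')) = ∑ p, φ (D.h ^ 2 * D.crd (g * g') p) * D.u p := by
    rw [hφ, D.c1 (g * g'), Finset.mul_sum]
    refine Finset.sum_congr rfl fun p _ => ?_
    rw [map_mul (aeval D.y), map_pow (aeval D.y), mul_assoc]
  have e3 : φ D.h * ((∑ i, φ (D.crd g i) * D.u i) * (∑ l, φ (D.crd g' l) * D.u l)) =
      ∑ p, φ (∑ i, ∑ l, D.crd g i * D.crd g' l * D.crd (D.u i * D.u l) p) * D.u p := by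
    rw [Finset.sum_mul_sum, Finset.mul_sum]
    have e4 : ∀ i l, φ D.h * (φ (D.crd g i) * D.u i * (φ (D.crd g' l) * D.u l)) =
        ∑ p, φ (D.crd g i * D.crd g' l * D.crd (D.u i * D.u l) p) * D.u p := by
      intro i l
      have : φ D.h * (φ (D.crd g i) * D.u i * (φ (D.crd g' l) * D.u l)) =
        φ (D.crd g i) * φ (D.crd g' l) * (φ D.h * (D.u i * D.u l)) := by ring
      rw [this, hφ, D.c1 (D.u i * D.u l), Finset.mul_sum]
      refine Finset.sum_congr rfl fun p _ => ?_
      rw [map_mul (aeval D.y), map_mul (aeval D.y),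
        mul_assoc (aeval D.y (D.crd g i) * aeval D.y (D.crd g' l))]
    simp_rw [Finset.mul_sum, e4, map_sum, Finset.sum_mul]
    rw [Finset.sum_comm]
    rw [Finset.sum_congr rfl fun l _ => Finset.sum_comm]
    rw [Finset.sum_comm]
    exact Finset.sum_congr rfl fun p _ => Finset.sum_comm
  have key := D.c2 (fun p => D.h ^ 2 * D.crd (g * g') p -
        ∑ i, ∑ l, D.crd g i * D.crd g' l * D.crd (D.u i * D.u l) p) (by
      simp only [map_sub, sub_mul, Finset.sum_sub_distrib]
      have e2' := e2
      have e3' := e3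
      rw [hφ] at e2' e3'
      rw [← e2', ← e3', ← hφ, e1, sub_self]) p
  exact sub_eq_zero.1 key

/-- order at the point `y0` of all coordinates -/
def OrdAt (D : NData k z) (y0 : Fin D.r → k) (s : ℕ) (x : E) : Prop :=
  ∀ i, Ord s (shift y0 (D.crd x i))

lemma OrdAt.mul {D : NData k z} {y0 : Fin D.r → k} (hy0 : eval y0 D.h ≠ 0) {s t : ℕ} {g g' : E}
    (hg : D.OrdAt y0 s g) (hg' : D.OrdAt y0 t g') : D.OrdAt y0 (s + t) (g * g') := by
  intro p
  have h1 := congrArg (shift y0) (D.crd_mul g g' p)
  simp only [map_mul, map_pow, map_sum] at h1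
  refine Ord.of_mul (h := shift y0 D.h ^ 2) ?_ ?_
  · rw [map_pow, constantCoeff_shift]; exact pow_ne_zero 2 hy0
  · rw [h1]
    exact Ord.sum fun i _ => Ord.sum fun l _ => ((hg i).mul (hg' l)).mul_right _

lemma OrdAt.pow {D : NData k z} {y0 : Fin D.r → k} (hy0 : eval y0 D.h ≠ 0) {s : ℕ} {g : E}
    (hg : D.OrdAt y0 s g) (p : ℕ) : D.OrdAt y0 (p * s) (g ^ p) := by
  induction p with
  | zero => intro i; rw [zero_mul]; exact Ord.zero
  | succ p ih =>
    rw [pow_succ, Nat.succ_mul]
    exact OrdAt.mul hy0 ih hg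

lemma shift_injective {j : Type*} (y0 : j → k) : Function.Injective (shift y0) := by
  have hshift' : ∀ f, shift (fun i => - y0 i) (shift y0 f) = f := by
    intro f
    have : ((shift fun i => - y0 i).comp (shift y0)) =
        AlgHom.id k (MvPolynomial j k) := by
      apply MvPolynomial.algHom_ext
      intro i
      simp [shift]
    exact congrArg (fun g : MvPolynomial j k →ₐ[k] MvPolynomial j k => g f) this
  intro f g hfg
  rw [← hshift' f, hfg, hshift' g]

/-- **Power trick.** -/
lemma eq_zero_of_ordAt [IsDomain E] (D : NData k z) {y0 : Fin D.r → k} (hy0 : eval y0 D.h ≠ 0)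
    {m : ℕ} {x : E} (hx : x ∈ U k z m) (hord : D.OrdAt y0 (m + 1) x) : x = 0 := by
  have h1 : ∀ i, D.crd (x ^ (D.a + 1)) i = 0 := by
    intro i
    have h2 := (hord.pow hy0 (D.a + 1)) i
    have h3 : shift y0 (D.crd (x ^ (D.a + 1)) i) = 0 := by
      refine h2.eq_zero ?_
      have h4 := D.c3 _ _ (pow_mem_U hx (D.a + 1)) i
      have h5 := shift_totalDegree_le y0 (D.crd (x ^ (D.a + 1)) i)
      have e : (D.a + 1) * (m + 1) = (D.a + 1) * m + D.a + 1 := by ring
      omega
    exact shift_injective y0 (by rw [h3, map_zero])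
  have h2 := D.c1 (x ^ (D.a + 1))
  simp only [h1, map_zero, zero_mul, Finset.sum_const_zero] at h2
  exact eq_zero_of_pow_eq_zero ((mul_eq_zero.1 h2).resolve_left D.aeval_h_ne)

lemma exists_eval_ne_zero [Infinite k] {j : Type*} {f : MvPolynomial j k} (hf : f ≠ 0) :
    ∃ y0, eval y0 f ≠ 0 := by
  by_contra hcon
  push Not at hcon
  exact hf (MvPolynomial.funext fun b => by rw [hcon b, map_zero])

/-- an independent family has at most `δ` elements -/
lemma card_le_of_indep (D : NData k z) {s : ℕ} (v : Fin s → E)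
    (hv : ∀ c : Fin s → MvPolynomial (Fin D.r) k, ∑ i, aeval D.y (c i) * v i = 0 → ∀ i, c i = 0)
    (hdom : IsDomain E) : s ≤ D.δ := by
  have h1 : LinearIndependent (MvPolynomial (Fin D.r) k) (fun i => D.crd (v i)) := by
    rw [Fintype.linearIndependent_iff]
    intro c hc
    apply hv c
    have h2 : aeval D.y D.h * ∑ i, aeval D.y (c i) * v i = 0 := by
      rw [D.c1]
      have h3 : ∀ p, D.crd (∑ i, aeval D.y (c i) * v i) p = 0 := by
        intro p
        rw [map_sum, Finset.sum_apply]
        have h4 := congrFun hc p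
        rw [Finset.sum_apply] at h4
        rw [Pi.zero_apply] at h4
        rw [← h4]
        refine Finset.sum_congr rfl fun i _ => ?_
        rw [D.crd_smul]; rfl
      simp only [h3, map_zero, zero_mul, Finset.sum_const_zero]
    exact (mul_eq_zero.1 h2).resolve_left D.aeval_h_ne
  have h2 := h1.fintype_card_le_finrank
  simpa using h2

/-- **Growth lemma** -/
theorem growth [Infinite k] [IsDomain E] [Finite σ] (D : NData k z)
    (hy1 : ∀ i, D.y i ∈ U k z 1) (m : ℕ) :
    ∃ s, 0 < s ∧ s ≤ D.δ ∧ finrank k (U k z m) ≤ s * (m + D.r).choose D.r ∧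
      ∀ m', s * (m' + D.r).choose D.r ≤ finrank k (U k z (m' + m)) := by
  classical
  set φ := (aeval D.y : MvPolynomial (Fin D.r) k →ₐ[k] E) with hφdef
  let _ : Algebra (MvPolynomial (Fin D.r) k) E := φ.toRingHom.toAlgebra
  have hsmul : ∀ (f : MvPolynomial (Fin D.r) k) (x : E), f • x = φ f * x := fun f x => rfl
  have htower : IsScalarTower k (MvPolynomial (Fin D.r) k) E := by
    refine ⟨fun c f x => ?_⟩
    rw [hsmul, hsmul, map_smul, smul_mul_assoc]
  let bb := Module.finBasis k (U k z m)
  let B : Set E := Set.range fun i => (bb i : E)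
  have hB : B.Finite := Set.finite_range _
  obtain ⟨s, v, hvB, hli, h', hh0, hh⟩ := exists_rank_basis (A := MvPolynomial (Fin D.r) k) B hB
  have hvU : ∀ i, v i ∈ U k z m := by
    intro i
    obtain ⟨l, hl⟩ := hvB i
    rw [← hl]; exact (bb l).2
  have hspan : ∀ x : U k z m, h' • (x : E) ∈
      Submodule.span (MvPolynomial (Fin D.r) k) (Set.range v) := by
    intro x
    have h1 := bb.sum_repr x
    have h2 : (x : E) = ∑ i, bb.repr x i • (bb i : E) := by
      have h3 := congrArg (U k z m).subtype h1
      rw [map_sum] at h3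
      simpa using h3.symm
    rw [h2, Finset.smul_sum]
    refine Submodule.sum_mem _ fun i _ => ?_
    rw [smul_comm]
    exact Submodule.smul_of_tower_mem _ _ (hh _ ⟨i, rfl⟩)
  have hs : 0 < s := by
    rcases Nat.eq_zero_or_pos s with rfl | h0
    · exfalso
      have h1 := hspan ⟨1, one_mem_U z m⟩
      rw [Set.range_eq_empty, Submodule.span_empty, Submodule.mem_bot, hsmul, mul_one] at h1
      exact hh0 (D.injective (by rw [← hφdef, h1, map_zero]))
    · exact h0
  have hv : ∀ c : Fin s → MvPolynomial (Fin D.r) k, ∑ i, aeval D.y (c i) * v i = 0 →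
      ∀ i, c i = 0 := by
    intro c hc
    exact Fintype.linearIndependent_iff.1 hli c hc
  refine ⟨s, hs, D.card_le_of_indep v hv inferInstance, ?_, fun m' => ?_⟩
  · -- upper bound
    let ac : U k z m →ₗ[k] (Fin s →₀ MvPolynomial (Fin D.r) k) :=
      { toFun := fun x => hli.repr ⟨h' • (x : E), hspan x⟩
        map_add' := by
          intro x x'
          rw [← map_add]
          congr 1
          ext
          simp [smul_add]
        map_smul' := by
          intro c x
          have e : (⟨h' • ((c • x : U k z m) : E), hspan (c • x)⟩ :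
              Submodule.span (MvPolynomial (Fin D.r) k) (Set.range v)) =
              (C c : MvPolynomial (Fin D.r) k) • ⟨h' • (x : E), hspan x⟩ := by
            ext
            simp only [Submodule.coe_smul, SetLike.mk_smul_mk]
            rw [smul_smul, mul_comm, ← smul_smul]
            congr 1
            rw [hsmul, hφdef, aeval_C, Algebra.smul_def]
          rw [e, map_smul]
          ext i
          simp [C_mul'] }
    have hac : ∀ x : U k z m, h' • (x : E) = ∑ i, ac x i • v i := by
      intro x
      have h1 := hli.linearCombination_repr ⟨h' • (x : E), hspan x⟩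
      rw [Finsupp.linearCombination_apply, Finsupp.sum_fintype _ _ (by simp)] at h1
      exact h1.symm
    obtain ⟨y0, hy0⟩ := exists_eval_ne_zero (mul_ne_zero D.hh hh0)
    rw [map_mul] at hy0
    have hy01 : eval y0 D.h ≠ 0 := left_ne_zero_of_mul hy0
    have hy02 : eval y0 h' ≠ 0 := right_ne_zero_of_mul hy0
    let L : U k z m →ₗ[k] (Fin s → {n : Fin D.r →₀ ℕ // n.degree ≤ m} → k) :=
      { toFun := fun x i n => coeff (n : Fin D.r →₀ ℕ) (shift y0 (ac x i))
        map_add' := by intro x y; ext i n; simp
        map_smul' := by intro c x; ext i n; simp }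
    have hL : Function.Injective L := by
      rw [injective_iff_map_eq_zero]
      intro x hx0
      have hord : ∀ i, Ord (m + 1) (shift y0 (ac x i)) := by
        intro i
        rw [ord_iff]
        intro n hn
        exact congrFun (congrFun hx0 i) ⟨n, by omega⟩
      have hord' : D.OrdAt y0 (m + 1) (x : E) := by
        intro p
        have h1 : h' * D.crd (x : E) p = ∑ i, ac x i * D.crd (v i) p := by
          rw [← D.crd_smul h' (x : E) p]
          have h2 : aeval D.y h' * (x : E) = ∑ i, aeval D.y (ac x i) * v i := hac x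
          rw [h2, map_sum, Finset.sum_apply]
          exact Finset.sum_congr rfl fun i _ => D.crd_smul _ _ _
        have h3 := congrArg (shift y0) h1
        simp only [map_mul, map_sum] at h3
        refine Ord.of_mul (h := shift y0 h') ?_ ?_
        · rw [constantCoeff_shift]; exact hy02
        · rw [h3]
          exact Ord.sum fun i _ => (hord i).mul_right _
      exact Subtype.ext (D.eq_zero_of_ordAt hy01 x.2 hord')
    have hle := LinearMap.finrank_le_finrank_of_injective hL
    refine hle.trans (le_of_eq ?_)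
    have : Fintype {n : Fin D.r →₀ ℕ // n.degree ≤ m} := Fintype.ofFinite _
    rw [Module.finrank_pi_fintype]
    simp only [Module.finrank_fintype_fun_eq_card, Finset.sum_const, Finset.card_univ, smul_eq_mul]
    rw [← Nat.card_eq_fintype_card (α := {n : Fin D.r →₀ ℕ // n.degree ≤ m}), card_degree_le]
    simp
  · have h1 := le_finrank_U (z := z) hy1 v m hvU hv m'
    simpa using h1

end NData

end Crest.Agent.R065.HF669
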