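import Mathlib

/-!
# Hilbert functions of ideals of affine space (toolkit for row 65)

`HF I m` is the dimension of the space of polynomials of total degree `≤ m` modulo `I`.
-/

set_option autoImplicit false

open MvPolynomial Module

namespace Crest.Agent.R065.HF669

variable {k : Type*} [Field k] {σ : Type*}

/-- polynomials of total degree at most `m` -/
noncomputable abbrev W (k : Type*) [Field k] (σ : Type*) (m : ℕ) : Submodule k (MvPolynomial σ k) :=
  restrictTotalDegree σ k m

lemma mem_W {p : MvPolynomial σ k} {m : ℕ} : p ∈ W k σ m ↔ p.totalDegree ≤ m :=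
  mem_restrictTotalDegree _ _ _

lemma W_mono {a b : ℕ} (h : a ≤ b) : W k σ a ≤ W k σ b := fun _ hp =>
  mem_W.2 ((mem_W.1 hp).trans h)

lemma mul_mem_W {f g : MvPolynomial σ k} {a b : ℕ} (hf : f ∈ W k σ a) (hg : g ∈ W k σ b) :
    f * g ∈ W k σ (a + b) :=
  mem_W.2 ((totalDegree_mul _ _).trans (add_le_add (mem_W.1 hf) (mem_W.1 hg)))

lemma pow_mem_W {f : MvPolynomial σ k} {a : ℕ} (hf : f ∈ W k σ a) (n : ℕ) :
    f ^ n ∈ W k σ (n * a) :=
  mem_W.2 ((totalDegree_pow _ _).trans (Nat.mul_le_mul_left _ (mem_W.1 hf)))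

lemma C_mem_W (c : k) (m : ℕ) : (C c : MvPolynomial σ k) ∈ W k σ m :=
  mem_W.2 (by simp)

lemma one_mem_W (m : ℕ) : (1 : MvPolynomial σ k) ∈ W k σ m :=
  mem_W.2 (by simp)

lemma X_mem_W (i : σ) {m : ℕ} (hm : 1 ≤ m) : (X i : MvPolynomial σ k) ∈ W k σ m :=
  mem_W.2 (by rw [totalDegree_X]; exact hm)

lemma prod_mem_W {ι : Type*} (s : Finset ι) (f : ι → MvPolynomial σ k) (a : ι → ℕ)
    (hf : ∀ i ∈ s, f i ∈ W k σ (a i)) : ∏ i ∈ s, f i ∈ W k σ (∑ i ∈ s, a i) :=
  mem_W.2 ((totalDegree_finsetProd _ _).trans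
    (Finset.sum_le_sum fun i hi => mem_W.1 (hf i hi)))

/-- The Hilbert function. -/
noncomputable def HF (I : Ideal (MvPolynomial σ k)) (m : ℕ) : ℕ :=
  finrank k ((W k σ m).map (I.restrictScalars k).mkQ)

section rank

variable {V V' V'' : Type*} [AddCommGroup V] [Module k V] [AddCommGroup V'] [Module k V']
  [AddCommGroup V''] [Module k V'']

lemma finrank_map_of_injective (L : V →ₗ[k] V') (hL : Function.Injective L) (U : Submodule k V) :
    finrank k (U.map L) = finrank k U :=
  (LinearEquiv.finrank_eq (Submodule.equivMapOfInjective L hL U)).symm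

/-- rank nullity for the restriction to a subspace -/
lemma finrank_map_add_inf_ker (L : V →ₗ[k] V') (U : Submodule k V) [Module.Finite k U] :
    finrank k (U.map L) + finrank k (U ⊓ LinearMap.ker L : Submodule k V) = finrank k U := by
  have h := LinearMap.finrank_range_add_finrank_ker (L.domRestrict U)
  have h1 : LinearMap.range (L.domRestrict U) = U.map L := by
    ext x; simp [Submodule.mem_map]
  rw [h1] at h
  have h2 : finrank k (LinearMap.ker (L.domRestrict U)) =
      finrank k (U ⊓ LinearMap.ker L : Submodule k V) := by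
    have : LinearMap.ker (L.domRestrict U) = (LinearMap.ker L).comap U.subtype := by
      ext x; simp
    rw [this]
    have h3 : ((LinearMap.ker L).comap U.subtype).map U.subtype = U ⊓ LinearMap.ker L := by
      rw [Submodule.map_comap_subtype]
    rw [← h3, finrank_map_of_injective _ (Submodule.subtype_injective U)]
  omega

/-- comparison of ranks by comparison of kernels -/
lemma finrank_map_le_of_ker_le (L : V →ₗ[k] V') (L' : V →ₗ[k] V'') (U : Submodule k V)
    [Module.Finite k U] (h : ∀ x ∈ U, L' x = 0 → L x = 0) :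
    finrank k (U.map L) ≤ finrank k (U.map L') := by
  have h1 := finrank_map_add_inf_ker L U
  have h2 := finrank_map_add_inf_ker L' U
  have : Module.Finite k (U ⊓ LinearMap.ker L : Submodule k V) := 
    Submodule.finiteDimensional_of_le inf_le_left
  have h3 : finrank k (U ⊓ LinearMap.ker L' : Submodule k V) ≤
      finrank k (U ⊓ LinearMap.ker L : Submodule k V) := by
    apply Submodule.finrank_mono
    rintro x ⟨hx, hx'⟩
    exact ⟨hx, h x hx hx'⟩
  omega

end rank

instance instFiniteWinf [Finite σ] (m : ℕ) (U : Submodule k (MvPolynomial σ k)) :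
    Module.Finite k (W k σ m ⊓ U : Submodule k (MvPolynomial σ k)) :=
  Submodule.finiteDimensional_of_le inf_le_left

instance instFiniteWmap [Finite σ] {V : Type*} [AddCommGroup V] [Module k V] (m : ℕ)
    (L : MvPolynomial σ k →ₗ[k] V) :
    Module.Finite k ((W k σ m).map L) := inferInstance

lemma HF_add_finrank_inf [Finite σ] (I : Ideal (MvPolynomial σ k)) (m : ℕ) :
    HF I m + finrank k (W k σ m ⊓ I.restrictScalars k : Submodule k (MvPolynomial σ k)) =
      finrank k (W k σ m) := by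
  have := finrank_map_add_inf_ker (I.restrictScalars k).mkQ (W k σ m)
  rwa [Submodule.ker_mkQ] at this

lemma HF_le_of_ker [Finite σ] {V : Type*} [AddCommGroup V] [Module k V]
    (L : MvPolynomial σ k →ₗ[k] V) (I : Ideal (MvPolynomial σ k)) (m : ℕ)
    (h : ∀ p ∈ W k σ m, L p = 0 → p ∈ I) : HF I m ≤ finrank k ((W k σ m).map L) := by
  apply finrank_map_le_of_ker_le
  intro x hx hx'
  simpa using h x hx hx'

lemma le_HF_of_ker [Finite σ] {V : Type*} [AddCommGroup V] [Module k V]
    (L : MvPolynomial σ k →ₗ[k] V) (I : Ideal (MvPolynomial σ k)) (m : ℕ)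
    (h : ∀ p ∈ W k σ m, p ∈ I → L p = 0) : finrank k ((W k σ m).map L) ≤ HF I m := by
  apply finrank_map_le_of_ker_le
  intro x hx hx'
  exact h x hx (by simpa using hx')

lemma HF_anti [Finite σ] {I J : Ideal (MvPolynomial σ k)} (h : I ≤ J) (m : ℕ) :
    HF J m ≤ HF I m :=
  le_HF_of_ker _ _ _ fun p _ hp => by simpa using h hp

lemma HF_mono [Finite σ] (I : Ideal (MvPolynomial σ k)) {a b : ℕ} (h : a ≤ b) :
    HF I a ≤ HF I b :=
  Submodule.finrank_mono (Submodule.map_mono (W_mono h))

lemma HF_top [Finite σ] (m : ℕ) : HF (⊤ : Ideal (MvPolynomial σ k)) m = 0 := by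
  have h1 := HF_add_finrank_inf (⊤ : Ideal (MvPolynomial σ k)) m
  have : (W k σ m ⊓ (⊤ : Ideal (MvPolynomial σ k)).restrictScalars k) = W k σ m := by
    ext; simp
  rw [this] at h1
  omega

lemma HF_bot_eq_finrank [Finite σ] (m : ℕ) :
    HF (⊥ : Ideal (MvPolynomial σ k)) m = finrank k (W k σ m) := by
  have h1 := HF_add_finrank_inf (⊥ : Ideal (MvPolynomial σ k)) m
  have : (W k σ m ⊓ (⊥ : Ideal (MvPolynomial σ k)).restrictScalars k) = ⊥ := by
    ext; simp
  rw [this, finrank_bot] at h1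
  omega

lemma sum_multichoose (N m : ℕ) :
    ∑ n ∈ Finset.range (m + 1), N.multichoose n = (N + 1).multichoose m := by
  induction m with
  | zero => simp
  | succ m ih => rw [Finset.sum_range_succ, ih, Nat.multichoose_succ_succ, add_comm]

lemma finrank_W [Fintype σ] (m : ℕ) :
    finrank k (W k σ m) = (m + Fintype.card σ).choose (Fintype.card σ) := by
  classical
  refine (finrank_eq_nat_card_basis
    (basisRestrictSupport k {n : σ →₀ ℕ | (n.sum fun _ e => e) ≤ m})).trans ?_
  have h : {n : σ →₀ ℕ | (n.sum fun _ e => e) ≤ m} =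
      ↑((Finset.range (m + 1)).biUnion fun n => (Finset.univ : Finset σ).finsuppAntidiag n) := by
    ext x
    simp only [Set.mem_ofPred_eq, Finset.coe_biUnion, Finset.coe_range, Set.mem_Iio,
      Set.mem_iUnion, Finset.mem_coe, Finset.mem_finsuppAntidiag, Finset.subset_univ, and_true,
      exists_prop, exists_eq_right']
    rw [Finsupp.sum_fintype _ _ (fun _ => rfl), Nat.lt_succ_iff]
  rw [h, Nat.card_coe_set_eq, Set.ncard_coe_finset, Finset.card_biUnion]
  · have : ∀ n ∈ Finset.range (m + 1), ((Finset.univ : Finset σ).finsuppAntidiag n).card =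
        (Fintype.card σ).multichoose n := by
      intro n _
      rw [Finset.card_finsuppAntidiag_nat_eq_multichoose, Finset.card_univ]
    rw [Finset.sum_congr rfl this, sum_multichoose, Nat.multichoose_eq]
    have e : Fintype.card σ + 1 + m - 1 = m + Fintype.card σ := by omega
    rw [e, ← Nat.choose_symm_add]
  · intro a _ b _ hab
    rw [Function.onFun, Finset.disjoint_left]
    intro x hx hx'
    rw [Finset.mem_finsuppAntidiag] at hx hx'
    exact hab (hx.1.symm.trans hx'.1)

lemma HF_bot [Fintype σ] (m : ℕ) :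
    HF (⊥ : Ideal (MvPolynomial σ k)) m = (m + Fintype.card σ).choose (Fintype.card σ) := by
  rw [HF_bot_eq_finrank, finrank_W]

lemma HF_le_choose [Fintype σ] (I : Ideal (MvPolynomial σ k)) (m : ℕ) :
    HF I m ≤ (m + Fintype.card σ).choose (Fintype.card σ) := by
  rw [← HF_bot (k := k) (σ := σ) m]
  exact HF_anti bot_le m

/-! ### Existence -/

/-- dimension count: few linear conditions have a solution of degree `≤ m` outside `I` -/
lemma exists_notMem_of_finrank_lt [Finite σ] {V : Type*} [AddCommGroup V] [Module k V]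
    (L : MvPolynomial σ k →ₗ[k] V) (I : Ideal (MvPolynomial σ k)) (m : ℕ)
    (h : finrank k ((W k σ m).map L) < HF I m) :
    ∃ f : MvPolynomial σ k, f.totalDegree ≤ m ∧ f ∉ I ∧ L f = 0 := by
  by_contra hcon
  push Not at hcon
  refine absurd (HF_le_of_ker L I m fun p hp hLp => ?_) (not_le.2 h)
  by_contra hpI
  exact hcon p (mem_W.1 hp) hpI hLp

/-- evaluation on a finite set of points -/
noncomputable def evalLin (A : Finset (σ → k)) : MvPolynomial σ k →ₗ[k] (A → k) where
  toFun p a := eval (a : σ → k) p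
  map_add' p q := by ext a; simp
  map_smul' c p := by ext a; simp [MvPolynomial.smul_eval]

@[simp] lemma evalLin_apply (A : Finset (σ → k)) (p : MvPolynomial σ k) (a : A) :
    evalLin A p a = eval (a : σ → k) p := rfl

/-- the ideal of a set of points -/
def IV (A : Set (σ → k)) : Ideal (MvPolynomial σ k) where
  carrier := {p | ∀ a ∈ A, eval a p = 0}
  zero_mem' := by intro a _; simp
  add_mem' := by intro p q hp hq a ha; simp [hp a ha, hq a ha]
  smul_mem' := by intro c p hp a ha; simp [hp a ha]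

lemma mem_IV {A : Set (σ → k)} {p : MvPolynomial σ k} : p ∈ IV A ↔ ∀ a ∈ A, eval a p = 0 :=
  Iff.rfl

lemma IV_anti {A B : Set (σ → k)} (h : A ⊆ B) : IV B ≤ IV A := fun _ hp a ha => hp a (h ha)

lemma IV_union (A B : Set (σ → k)) : IV (A ∪ B) = IV A ⊓ IV B := by
  ext p
  simp only [mem_IV, Set.mem_union, Ideal.mem_inf]
  constructor
  · intro h; exact ⟨fun a ha => h a (Or.inl ha), fun a ha => h a (Or.inr ha)⟩
  · rintro ⟨h1, h2⟩ a (ha | ha)
    · exact h1 a ha
    · exact h2 a ha

lemma IV_isRadical (A : Set (σ → k)) : (IV A).IsRadical := by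
  rintro p ⟨n, hn⟩ a ha
  have := hn a ha
  rw [map_pow] at this
  exact eq_zero_of_pow_eq_zero this

lemma IV_ne_top {A : Set (σ → k)} (h : A.Nonempty) : IV A ≠ ⊤ := by
  intro htop
  obtain ⟨a, ha⟩ := h
  have : (1 : MvPolynomial σ k) ∈ IV A := by rw [htop]; trivial
  simpa using this a ha

lemma IV_eq_vanishingIdeal (A : Set (σ → k)) : IV A = vanishingIdeal k A := by
  ext p
  rw [mem_IV, mem_vanishingIdeal_iff]
  simp [aeval_eq_eval]

/-- the zero set -/
def ZV (I : Ideal (MvPolynomial σ k)) : Set (σ → k) :=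
  {a | ∀ p ∈ I, eval a p = 0}

lemma mem_ZV {I : Ideal (MvPolynomial σ k)} {a : σ → k} : a ∈ ZV I ↔ ∀ p ∈ I, eval a p = 0 :=
  Iff.rfl

lemma subset_ZV_iff {I : Ideal (MvPolynomial σ k)} {A : Set (σ → k)} : A ⊆ ZV I ↔ I ≤ IV A :=
  ⟨fun h p hp _ ha => h ha p hp, fun h a ha _ hp => h hp a ha⟩

lemma ZV_anti {I J : Ideal (MvPolynomial σ k)} (h : I ≤ J) : ZV J ⊆ ZV I :=
  fun _ ha p hp => ha p (h hp)

lemma le_IV_ZV (I : Ideal (MvPolynomial σ k)) : I ≤ IV (ZV I) := fun p hp _ ha => ha p hp

lemma subset_ZV_IV (A : Set (σ → k)) : A ⊆ ZV (IV A) := fun a ha _ hp => hp a ha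

/-- a finite set `A` imposes at most `|A|` conditions -/
lemma HF_IV_le_card [Finite σ] (A : Finset (σ → k)) (m : ℕ) :
    HF (IV (A : Set (σ → k))) m ≤ A.card := by
  refine (HF_le_of_ker (evalLin A) _ m ?_).trans ?_
  · intro p _ hp a ha
    have := congrFun hp ⟨a, ha⟩
    simpa using this
  · refine (Submodule.finrank_le _).trans ?_
    simp

/-- `A` is separated by polynomials of degree at most `m`. -/
def Sep (A : Set (σ → k)) (m : ℕ) : Prop :=
  ∀ a ∈ A, ∃ f : MvPolynomial σ k, f.totalDegree ≤ m ∧ eval a f = 1 ∧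
    ∀ b ∈ A, b ≠ a → eval b f = 0

lemma Sep.mono {A : Set (σ → k)} {m n : ℕ} (h : Sep A m) (hmn : m ≤ n) : Sep A n := by
  intro a ha
  obtain ⟨f, h1, h2, h3⟩ := h a ha
  exact ⟨f, h1.trans hmn, h2, h3⟩

lemma Sep.subset {A B : Set (σ → k)} {m : ℕ} (h : Sep A m) (hB : B ⊆ A) : Sep B m := by
  intro a ha
  obtain ⟨f, h1, h2, h3⟩ := h a (hB ha)
  exact ⟨f, h1, h2, fun b hb => h3 b (hB hb)⟩

lemma sep_of_ne_zero {A : Set (σ → k)} {m : ℕ}
    (h : ∀ a ∈ A, ∃ f : MvPolynomial σ k, f.totalDegree ≤ m ∧ eval a f ≠ 0 ∧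
      ∀ b ∈ A, b ≠ a → eval b f = 0) : Sep A m := by
  intro a ha
  obtain ⟨f, h1, h2, h3⟩ := h a ha
  refine ⟨C (eval a f)⁻¹ * f, ?_, ?_, ?_⟩
  · refine (totalDegree_mul _ _).trans ?_
    simpa using h1
  · simp [h2]
  · intro b hb hba
    simp [h3 b hb hba]

/-- **Bezout for separated sets**: a finite set of zeros of `I` separated in degree `m` has at
most `HF I m` elements. -/
lemma card_le_HF [Finite σ] {I : Ideal (MvPolynomial σ k)} {A : Finset (σ → k)} {m : ℕ}
    (hA : (A : Set (σ → k)) ⊆ ZV I) (hs : Sep (A : Set (σ → k)) m) : A.card ≤ HF I m := by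
  refine le_trans ?_ (le_HF_of_ker (evalLin A) I m ?_)
  · have : (W k σ m).map (evalLin A) = ⊤ := by
      rw [eq_top_iff]
      intro g _
      choose! f h1 h2 h3 using hs
      refine ⟨∑ a ∈ A.attach, C (g a) * f a, ?_, ?_⟩
      · refine Submodule.sum_mem _ fun a _ => ?_
        have := mul_mem_W (C_mem_W (σ := σ) (g a) 0) (mem_W.2 (h1 a a.2))
        rwa [zero_add] at this
      · ext b
        rw [evalLin_apply, map_sum]
        rw [Finset.sum_eq_single b]
        · rw [map_mul, h2 b b.2]; simp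
        · intro a _ hab
          rw [map_mul, h3 a a.2 b b.2 (fun h => hab (Subtype.ext h.symm))]
          simp
        · intro hb; exact absurd (Finset.mem_attach _ _) hb
    rw [this, finrank_top]
    simp
  · intro p _ hp
    ext a
    rw [evalLin_apply, hA a.2 p hp]; rfl

lemma HF_IV_eq_card [Finite σ] {A : Finset (σ → k)} {m : ℕ}
    (hs : Sep (A : Set (σ → k)) m) : HF (IV (A : Set (σ → k))) m = A.card :=
  le_antisymm (HF_IV_le_card A m) (card_le_HF (subset_ZV_IV _) hs)

/-- existence of a polynomial of degree `≤ m` outside `I` vanishing on `A` if `|A| < HF I m` -/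
lemma exists_vanishing_notMem [Finite σ] (I : Ideal (MvPolynomial σ k)) (A : Finset (σ → k))
    (m : ℕ) (h : A.card < HF I m) :
    ∃ f : MvPolynomial σ k, f.totalDegree ≤ m ∧ f ∉ I ∧ ∀ a ∈ A, eval a f = 0 := by
  obtain ⟨f, h1, h2, h3⟩ := exists_notMem_of_finrank_lt (evalLin A) I m
    (lt_of_le_of_lt ((Submodule.finrank_le _).trans (by simp)) h)
  refine ⟨f, h1, h2, fun a ha => ?_⟩
  have := congrFun h3 ⟨a, ha⟩
  simpa using this

lemma exists_vanishing [Fintype σ] (A : Finset (σ → k)) (m : ℕ)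
    (h : A.card < (m + Fintype.card σ).choose (Fintype.card σ)) :
    ∃ f : MvPolynomial σ k, f.totalDegree ≤ m ∧ f ≠ 0 ∧ ∀ a ∈ A, eval a f = 0 := by
  rw [← HF_bot (k := k) (σ := σ)] at h
  obtain ⟨f, h1, h2, h3⟩ := exists_vanishing_notMem _ A m h
  exact ⟨f, h1, by simpa using h2, h3⟩

/-! ### Separation of sets with few distances -/

/-- a set with `t` squared distances (all nonzero) is separated in degree `2t` -/
lemma sep_of_dist [Fintype σ] {A : Set (σ → k)} (T : Finset k) (h0 : (0 : k) ∉ T)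
    (hT : ∀ a ∈ A, ∀ b ∈ A, a ≠ b → ∑ i, (a i - b i) ^ 2 ∈ T) : Sep A (2 * T.card) := by
  apply sep_of_ne_zero
  intro a ha
  refine ⟨∏ r ∈ T, (∑ i, (X i - C (a i)) ^ 2 - C r), ?_, ?_, ?_⟩
  · have : ∏ r ∈ T, (∑ i, (X i - C (a i)) ^ 2 - C r : MvPolynomial σ k) ∈
        W k σ (∑ _r ∈ T, 2) := by
      apply prod_mem_W
      intro r _
      refine Submodule.sub_mem _ (Submodule.sum_mem _ fun i _ => ?_) (C_mem_W _ _)
      exact pow_mem_W (Submodule.sub_mem _ (X_mem_W i le_rfl) (C_mem_W _ _)) 2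
    rw [Finset.sum_const, smul_eq_mul, mul_comm] at this
    exact mem_W.1 this
  · rw [map_prod, Finset.prod_ne_zero_iff]
    intro r hr
    simp only [map_sub, map_sum, map_pow, eval_X, eval_C, sub_self]
    rw [zero_pow two_ne_zero, Finset.sum_const_zero, zero_sub, neg_ne_zero]
    rintro rfl
    exact h0 hr
  · intro b hb hba
    rw [map_prod]
    refine Finset.prod_eq_zero (hT b hb a ha hba) ?_
    simp only [map_sub, map_sum, map_pow, eval_X, eval_C, sub_self]

/-- products of separated sets -/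
lemma Sep.prod {τ : Type*} {A : Set (σ → k)} {B : Set (τ → k)} {m n : ℕ} (hA : Sep A m)
    (hB : Sep B n) : Sep {z : σ ⊕ τ → k | (fun i => z (Sum.inl i)) ∈ A ∧
      (fun i => z (Sum.inr i)) ∈ B} (m + n) := by
  rintro z ⟨hz1, hz2⟩
  obtain ⟨f, f1, f2, f3⟩ := hA _ hz1
  obtain ⟨g, g1, g2, g3⟩ := hB _ hz2
  refine ⟨rename Sum.inl f * rename Sum.inr g, ?_, ?_, ?_⟩
  · refine (totalDegree_mul _ _).trans (add_le_add ?_ ?_)
    · exact (totalDegree_rename_le _ _).trans f1
    · exact (totalDegree_rename_le _ _).trans g1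
  · rw [map_mul, eval_rename, eval_rename]
    change eval (fun i => z (Sum.inl i)) f * eval (fun i => z (Sum.inr i)) g = 1
    rw [f2, g2, one_mul]
  · rintro w ⟨hw1, hw2⟩ hwz
    rw [map_mul, eval_rename, eval_rename]
    change eval (fun i => w (Sum.inl i)) f * eval (fun i => w (Sum.inr i)) g = 0
    by_cases h1 : (fun i => w (Sum.inl i)) = fun i => z (Sum.inl i)
    · by_cases h2 : (fun i => w (Sum.inr i)) = fun i => z (Sum.inr i)
      · exfalso
        apply hwz
        funext i
        rcases i with i | i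
        · exact congrFun h1 i
        · exact congrFun h2 i
      · rw [g3 _ hw2 h2, mul_zero]
    · rw [f3 _ hw1 h1, zero_mul]

end Crest.Agent.R065.HF669
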