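import Crest.Agent.R065.HF_669

/-!
# Hilbert functions: cuts, colon ideals, additivity
-/

set_option autoImplicit false

open MvPolynomial Module

namespace Crest.Agent.R065.HF669

variable {k : Type*} [Field k] {σ : Type*}

/-- exact relation between the Hilbert functions of `I ≤ J` -/
lemma HF_eq_add [Finite σ] {I J : Ideal (MvPolynomial σ k)} (h : I ≤ J) (m : ℕ) :
    HF I m = HF J m + finrank k ((W k σ m ⊓ J.restrictScalars k :
      Submodule k (MvPolynomial σ k)).map (I.restrictScalars k).mkQ) := by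
  have h1 := HF_add_finrank_inf I m
  have h2 := HF_add_finrank_inf J m
  have h3 := finrank_map_add_inf_ker (I.restrictScalars k).mkQ
    (W k σ m ⊓ J.restrictScalars k : Submodule k (MvPolynomial σ k))
  have h4 : (W k σ m ⊓ J.restrictScalars k ⊓ LinearMap.ker (I.restrictScalars k).mkQ :
      Submodule k (MvPolynomial σ k)) = W k σ m ⊓ I.restrictScalars k := by
    rw [Submodule.ker_mkQ, inf_assoc]
    congr 1
    exact inf_eq_right.2 (fun x hx => h hx)
  rw [h4] at h3
  omega

/-- the colon ideal `I : f` -/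
def col (I : Ideal (MvPolynomial σ k)) (f : MvPolynomial σ k) : Ideal (MvPolynomial σ k) where
  carrier := {g | f * g ∈ I}
  zero_mem' := by simp
  add_mem' := by
    intro a b ha hb
    simp only [Set.mem_ofPred_eq] at *
    rw [mul_add]; exact I.add_mem ha hb
  smul_mem' := by
    intro c a ha
    simp only [Set.mem_ofPred_eq, smul_eq_mul] at *
    rw [mul_left_comm]; exact I.mul_mem_left _ ha

lemma mem_col {I : Ideal (MvPolynomial σ k)} {f g : MvPolynomial σ k} :
    g ∈ col I f ↔ f * g ∈ I := Iff.rfl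

lemma le_col (I : Ideal (MvPolynomial σ k)) (f : MvPolynomial σ k) : I ≤ col I f :=
  fun _ hg => I.mul_mem_left _ hg

lemma col_isRadical {I : Ideal (MvPolynomial σ k)} (hI : I.IsRadical) (f : MvPolynomial σ k) :
    (col I f).IsRadical := by
  rintro g ⟨n, hn⟩
  rw [mem_col] at hn ⊢
  apply hI
  refine ⟨n + 1, ?_⟩
  have : (f * g) ^ (n + 1) = (f ^ n * g) * (f * g ^ n) := by ring
  rw [this]
  exact I.mul_mem_left _ hn

/-- in a radical ideal, `f` is a nonzerodivisor modulo `I : f` -/
lemma mem_col_of_mul_mem {I : Ideal (MvPolynomial σ k)} (hI : I.IsRadical)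
    {f g : MvPolynomial σ k} (h : f * g ∈ col I f) : g ∈ col I f := by
  rw [mem_col] at h ⊢
  apply hI
  refine ⟨2, ?_⟩
  have : (f * g) ^ 2 = g * (f * (f * g)) := by ring
  rw [this]
  exact I.mul_mem_left _ h

lemma col_col {I : Ideal (MvPolynomial σ k)} (hI : I.IsRadical) (f : MvPolynomial σ k) :
    col (col I f) f = col I f :=
  le_antisymm (fun g h => mem_col_of_mul_mem (f := f) (g := g) hI (mem_col.1 h)) (le_col _ _)

lemma col_of_prime {P : Ideal (MvPolynomial σ k)} (hP : P.IsPrime) {f : MvPolynomial σ k}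
    (hf : f ∉ P) : col P f = P :=
  le_antisymm (fun _ h => (hP.mem_or_mem (mem_col.1 h)).resolve_left hf) (le_col _ _)

lemma col_eq_top {I : Ideal (MvPolynomial σ k)} {f : MvPolynomial σ k} (hf : f ∈ I) :
    col I f = ⊤ := by
  rw [Ideal.eq_top_iff_one, mem_col, mul_one]; exact hf

lemma col_inf (I J : Ideal (MvPolynomial σ k)) (f : MvPolynomial σ k) :
    col (I ⊓ J) f = col I f ⊓ col J f := by
  ext g; simp [mem_col]

lemma col_mono {I J : Ideal (MvPolynomial σ k)} (h : I ≤ J) (f : MvPolynomial σ k) :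
    col I f ≤ col J f := fun _ hg => h hg

/-- zeros of `I` either satisfy `f = 0` or are zeros of `I : f` -/
lemma mem_ZV_col {I : Ideal (MvPolynomial σ k)} {f : MvPolynomial σ k} {a : σ → k}
    (ha : a ∈ ZV I) (hf : eval a f ≠ 0) : a ∈ ZV (col I f) := by
  intro g hg
  have := ha _ hg
  rw [map_mul] at this
  exact (mul_eq_zero.1 this).resolve_left hf

lemma mem_ZV_sup {I : Ideal (MvPolynomial σ k)} {f : MvPolynomial σ k} {a : σ → k}
    (ha : a ∈ ZV I) (hf : eval a f = 0) : a ∈ ZV (I ⊔ Ideal.span {f}) := by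
  intro g hg
  rw [Submodule.mem_sup] at hg
  obtain ⟨u, hu, v, hv, rfl⟩ := hg
  obtain ⟨w, rfl⟩ := Ideal.mem_span_singleton'.1 hv
  rw [map_add, ha u hu, map_mul, hf, mul_zero, add_zero]

/-- **The cut inequality.** -/
lemma HF_add_col_le [Finite σ] {I J : Ideal (MvPolynomial σ k)} (h : I ≤ J)
    {f : MvPolynomial σ k} {e : ℕ} (hf : f ∈ J) (hdeg : f.totalDegree ≤ e) (m : ℕ) :
    HF J (m + e) + HF (col I f) m ≤ HF I (m + e) := by
  rw [HF_eq_add h (m + e)]
  refine add_le_add le_rfl ?_
  refine (HF_le_of_ker ((I.restrictScalars k).mkQ ∘ₗ LinearMap.mulLeft k f) _ m ?_).trans ?_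
  · intro p _ hp
    rw [mem_col]
    simpa using hp
  · rw [Submodule.map_comp]
    apply Submodule.finrank_mono
    apply Submodule.map_mono
    rintro _ ⟨p, hp, rfl⟩
    refine ⟨?_, ?_⟩
    · have := mul_mem_W (mem_W.2 hdeg) hp
      rwa [add_comm] at this
    · exact J.mul_mem_right _ hf

lemma HF_sup_add_col_le [Finite σ] (I : Ideal (MvPolynomial σ k))
    {f : MvPolynomial σ k} {e : ℕ} (hdeg : f.totalDegree ≤ e) (m : ℕ) :
    HF (I ⊔ Ideal.span {f}) (m + e) + HF (col I f) m ≤ HF I (m + e) :=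
  HF_add_col_le le_sup_left (Submodule.mem_sup_right (Ideal.mem_span_singleton_self f)) hdeg m

/-- the cut inequality for a nonzerodivisor -/
lemma HF_cut [Finite σ] {I J : Ideal (MvPolynomial σ k)} (h : I ≤ J)
    {f : MvPolynomial σ k} {e : ℕ} (hf : f ∈ J) (hdeg : f.totalDegree ≤ e)
    (hnz : ∀ g, f * g ∈ I → g ∈ I) (m : ℕ) :
    HF J (m + e) + HF I m ≤ HF I (m + e) := by
  have h1 := HF_add_col_le h hf hdeg m
  have : col I f = I := le_antisymm (fun g hg => hnz g hg) (le_col _ _)
  rwa [this] at h1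

/-- iterated cut -/
lemma sum_HF_cut [Finite σ] {I J : Ideal (MvPolynomial σ k)} (h : I ≤ J)
    {f : MvPolynomial σ k} {e : ℕ} (hf : f ∈ J) (hdeg : f.totalDegree ≤ e)
    (hnz : ∀ g, f * g ∈ I → g ∈ I) (m s : ℕ) :
    (∑ i ∈ Finset.range s, HF J (m + (i + 1) * e)) + HF I m ≤ HF I (m + s * e) := by
  induction s with
  | zero => simp
  | succ s ih =>
    rw [Finset.sum_range_succ]
    have := HF_cut h hf hdeg hnz (m + s * e)
    have e1 : m + s * e + e = m + (s + 1) * e := by ring
    rw [e1] at this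
    omega

/-- **Averaged cut.** `m · HF(J, m) ≤ e · HF(I, 2m)` if `J ∋ f`, `deg f ≤ e`. -/
lemma HF_cut_avg [Finite σ] {I J : Ideal (MvPolynomial σ k)} (h : I ≤ J)
    {f : MvPolynomial σ k} {e : ℕ} (hf : f ∈ J) (hdeg : f.totalDegree ≤ e)
    (hnz : ∀ g, f * g ∈ I → g ∈ I) (m : ℕ) :
    m * HF J m ≤ e * HF I (2 * m) := by
  rcases Nat.eq_zero_or_pos m with rfl | hm
  · simp
  rcases Nat.eq_zero_or_pos e with rfl | he
  · -- `f` is a constant
    simp only [zero_mul, Nat.le_zero, mul_eq_zero]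
    right
    have h1 := HF_cut h hf hdeg hnz m
    simp only [add_zero] at h1
    omega
  obtain ⟨s, hs1, hs2⟩ : ∃ s : ℕ, m ≤ s * e ∧ (s - 1) * e ≤ m := by
    refine ⟨m / e + 1, ?_, ?_⟩
    · have := Nat.div_add_mod m e
      have h2 := Nat.mod_lt m he
      nlinarith
    · simp only [Nat.add_sub_cancel]
      exact Nat.div_mul_le_self m e
  have hs0 : 1 ≤ s := by
    rcases Nat.eq_zero_or_pos s with rfl | h'
    · simp at hs1; omega
    · exact h'
  by_cases hme : e ≤ m
  · have h1 := sum_HF_cut h hf hdeg hnz (m - e) s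
    have h2 : s * HF J m ≤ ∑ i ∈ Finset.range s, HF J (m - e + (i + 1) * e) := by
      rw [← smul_eq_mul, ← Finset.card_range s, ← Finset.sum_const]
      rw [Finset.card_range]
      apply Finset.sum_le_sum
      intro i _
      apply HF_mono
      have : (i + 1) * e = i * e + e := by ring
      omega
    have h3 : HF I (m - e + s * e) ≤ HF I (2 * m) := by
      apply HF_mono
      have : s * e = (s - 1) * e + e := by
        obtain ⟨s', rfl⟩ := Nat.exists_eq_add_of_le hs0
        simp; ring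
      omega
    have h4 : s * HF J m ≤ HF I (2 * m) := by omega
    calc m * HF J m ≤ s * e * HF J m := Nat.mul_le_mul_right _ hs1
      _ = e * (s * HF J m) := by ring
      _ ≤ e * HF I (2 * m) := Nat.mul_le_mul_left _ h4
  · push Not at hme
    calc m * HF J m ≤ e * HF J m := Nat.mul_le_mul_right _ hme.le
      _ ≤ e * HF I (2 * m) := Nat.mul_le_mul_left _
          ((HF_anti h m).trans (HF_mono I (by omega)))

end Crest.Agent.R065.HF669
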