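import Crest.Agent.R065.Pins_348

/-!
# Row 65: hyperplane reduction
-/

set_option autoImplicit false

open Module

namespace Crest.Agent.R065.Hyp348

open Crest.Agent.R065.Base348 Crest.Agent.R065.Top348 Crest.Agent.R065.Pins348

lemma nd_set_finite {d : ℕ} (P : Finset (EuclideanSpace ℝ (Fin d))) :
    {t : ℝ | ∃ p ∈ P, ∃ q ∈ P, p ≠ q ∧ dist p q = t}.Finite := by
  classical
  refine Set.Finite.subset ((P ×ˢ P).image fun z => dist z.1 z.2).finite_toSet ?_
  rintro t ⟨p, hp, q, hq, _, rfl⟩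
  exact Finset.mem_coe.2 (Finset.mem_image.2 ⟨(p, q), Finset.mem_product.2 ⟨hp, hq⟩, rfl⟩)

lemma nd_pos {d : ℕ} {P : Finset (EuclideanSpace ℝ (Fin d))} (hP : 2 ≤ P.card) : 1 ≤ nd P := by
  obtain ⟨p, hp, q, hq, hne⟩ := Finset.one_lt_card.1 hP
  unfold nd
  exact (Set.ncard_pos (nd_set_finite P)).2 ⟨dist p q, p, hp, q, hq, hne, rfl⟩

/-- points of a hyperplane embed isometrically in dimension one less -/
lemma exists_embedding {e : ℕ} (g : EuclideanSpace ℝ (Fin (e + 1)) →ₗ[ℝ] ℝ) (hg : g ≠ 0) :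
    ∃ L : EuclideanSpace ℝ (Fin (e + 1)) →ₗ[ℝ] EuclideanSpace ℝ (Fin e),
      ∀ x, g x = 0 → ‖L x‖ = ‖x‖ := by
  have hsurj : Function.Surjective g := by
    intro c
    obtain ⟨x, hx⟩ : ∃ x, g x ≠ 0 := by
      by_contra hcon
      push Not at hcon
      exact hg (LinearMap.ext hcon)
    refine ⟨(c / g x) • x, ?_⟩
    rw [map_smul, smul_eq_mul, div_mul_cancel₀ _ hx]
  have hK : finrank ℝ (LinearMap.ker g) = e := by
    have h1 := LinearMap.finrank_range_add_finrank_ker g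
    rw [LinearMap.range_eq_top.2 hsurj, finrank_top] at h1
    simp only [finrank_self, finrank_euclideanSpace, Fintype.card_fin] at h1
    omega
  let b : OrthonormalBasis (Fin e) ℝ (LinearMap.ker g) :=
    (stdOrthonormalBasis ℝ (LinearMap.ker g)).reindex (finCongr hK)
  refine ⟨b.repr.toLinearEquiv.toLinearMap ∘ₗ
    ((LinearMap.ker g).orthogonalProjectionOnto).toLinearMap, ?_⟩
  intro x hx
  have h1 : (LinearMap.ker g).orthogonalProjectionOnto x = ⟨x, LinearMap.mem_ker.2 hx⟩ :=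
    Submodule.orthogonalProjectionOnto_mem_subspace_eq_self
      (⟨x, LinearMap.mem_ker.2 hx⟩ : LinearMap.ker g)
  change ‖b.repr ((LinearMap.ker g).orthogonalProjectionOnto x)‖ = ‖x‖
  rw [h1, LinearIsometryEquiv.norm_map]
  rfl

/-- **Hyperplane reduction.** -/
theorem hyp_reduction {e : ℕ}
    (hprev : ∃ c : ℝ, 0 < c ∧ ∀ Q : Finset (EuclideanSpace ℝ (Fin e)), 2 ≤ Q.card →
      c * (Q.card : ℝ) ^ ((2 : ℝ) / ((e + 1 : ℕ) : ℝ)) ≤ (nd Q : ℝ))
    (H : ∃ A : ℝ, 0 < A ∧ ∀ P : Finset (EuclideanSpace ℝ (Fin (e + 1))), 2 ≤ P.card →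
      NoHyp P → (P.card : ℝ) ^ 2 ≤ (A * (nd P : ℝ)) ^ (e + 1)) :
    ∃ A : ℝ, 0 < A ∧ ∀ P : Finset (EuclideanSpace ℝ (Fin (e + 1))), 2 ≤ P.card →
      (P.card : ℝ) ^ 2 ≤ (A * (nd P : ℝ)) ^ (e + 1) := by
  classical
  obtain ⟨c, hc, hprev⟩ := hprev
  obtain ⟨A, hA, H⟩ := H
  set A' : ℝ := max A (max 64 (64 / c)) with hA'
  have hA'1 : A ≤ A' := le_max_left _ _
  have hA'2 : 64 ≤ A' := (le_max_left _ _).trans (le_max_right _ _)
  have hA'3 : 64 / c ≤ A' := (le_max_right _ _).trans (le_max_right _ _)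
  refine ⟨A', lt_of_lt_of_le hA hA'1, fun P hP => ?_⟩
  have hnd : (1 : ℝ) ≤ nd P := by exact_mod_cast nd_pos hP
  by_cases hN : NoHyp P
  · refine (H P hP hN).trans ?_
    gcongr
  · unfold NoHyp at hN
    push Not at hN
    obtain ⟨g, c₀, hg, hlt⟩ := hN
    set Q := P.filter fun p => g p = c₀ with hQ
    by_cases hQ2 : 2 ≤ Q.card
    · obtain ⟨L, hL⟩ := exists_embedding g hg
      have hdist : ∀ p ∈ Q, ∀ q ∈ Q, dist (L p) (L q) = dist p q := by
        intro p hp q hq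
        rw [dist_eq_norm, dist_eq_norm, ← map_sub]
        apply hL
        rw [map_sub, (Finset.mem_filter.1 hp).2, (Finset.mem_filter.1 hq).2, sub_self]
      have hinj : Set.InjOn L (Q : Set _) := by
        intro p hp q hq h
        have := hdist p hp q hq
        rw [h, dist_self] at this
        exact dist_eq_zero.1 this.symm
      have hcard : (Q.image L).card = Q.card := Finset.card_image_of_injOn hinj
      have hndle : nd (Q.image L) ≤ nd P := by
        unfold nd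
        refine Set.ncard_le_ncard ?_ (nd_set_finite P)
        rintro t ⟨p', hp', q', hq', hne, rfl⟩
        obtain ⟨p, hp, rfl⟩ := Finset.mem_image.1 hp'
        obtain ⟨q, hq, rfl⟩ := Finset.mem_image.1 hq'
        refine ⟨p, (Finset.mem_filter.1 hp).1, q, (Finset.mem_filter.1 hq).1, ?_,
          (hdist p hp q hq).symm⟩
        rintro rfl
        exact hne rfl
      have h1 := hprev (Q.image L) (by rw [hcard]; exact hQ2)
      rw [hcard] at h1
      have h2 : c * (Q.card : ℝ) ^ ((2 : ℝ) / ((e + 1 : ℕ) : ℝ)) ≤ nd P :=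
        h1.trans (by exact_mod_cast hndle)
      have h3 : (Q.card : ℝ) ^ ((2 : ℝ) / ((e + 1 : ℕ) : ℝ)) ≤ nd P / c := by
        rw [le_div_iff₀ hc, mul_comm]; exact h2
      have h0 : (0 : ℝ) ≤ Q.card := Nat.cast_nonneg _
      have h4 : (Q.card : ℝ) ^ 2 ≤ (nd P / c) ^ (e + 1) := by
        have h5 : ((Q.card : ℝ) ^ ((2 : ℝ) / ((e + 1 : ℕ) : ℝ))) ^ (e + 1) = (Q.card : ℝ) ^ 2 := by
          rw [← Real.rpow_natCast, ← Real.rpow_mul h0]
          have : (2 : ℝ) / ((e + 1 : ℕ) : ℝ) * ((e + 1 : ℕ) : ℝ) = (2 : ℕ) := by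
            have : ((e + 1 : ℕ) : ℝ) ≠ 0 := by positivity
            field_simp
            norm_num
          rw [this, Real.rpow_natCast]
        rw [← h5]
        exact pow_le_pow_left₀ (Real.rpow_nonneg h0 _) h3 _
      have h6 : (P.card : ℝ) ≤ 8 * Q.card := by exact_mod_cast hlt.le
      calc (P.card : ℝ) ^ 2 ≤ (8 * (Q.card : ℝ)) ^ 2 := by gcongr
        _ = 64 * (Q.card : ℝ) ^ 2 := by ring
        _ ≤ 64 * (nd P / c) ^ (e + 1) := by gcongr
        _ ≤ 64 ^ (e + 1) * (nd P / c) ^ (e + 1) := by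
            gcongr
            calc (64 : ℝ) = 64 ^ 1 := (pow_one _).symm
              _ ≤ 64 ^ (e + 1) := pow_le_pow_right₀ (by norm_num) (by omega)
        _ = (64 / c * nd P) ^ (e + 1) := by rw [← mul_pow]; congr 1; ring
        _ ≤ (A' * nd P) ^ (e + 1) := by gcongr
    · push Not at hQ2
      have h6 : P.card < 16 := by omega
      have h7 : (P.card : ℝ) ≤ 8 := by
        have : P.card ≤ 8 := by omega
        exact_mod_cast this
      calc (P.card : ℝ) ^ 2 ≤ 8 ^ 2 := by gcongr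
        _ = 64 ^ 1 := by norm_num
        _ ≤ 64 ^ (e + 1) := pow_le_pow_right₀ (by norm_num) (by omega)
        _ ≤ (A' * nd P) ^ (e + 1) := by
            gcongr
            calc (64 : ℝ) = 64 * 1 := (mul_one _).symm
              _ ≤ A' * nd P := by gcongr

end Crest.Agent.R065.Hyp348
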