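import Crest.Agent.R065.SweptIdx_795
import Crest.Agent.R065.Slice_417
import Crest.Agent.R065.M4defs_96
import Crest.Agent.R065.D3in_855

/-!
# Row 65: LEVEL 0 from the extremal variety and the swept theorem, index form (helper795)
-/

set_option autoImplicit false

open MvPolynomial Module

namespace Crest.Agent.R065.Glue795

open Crest.Agent.R065.HF669 Crest.Agent.R065.Base348 Crest.Agent.R065.Wt639
  Crest.Agent.R065.Cramer234 Crest.Agent.R065.Slice417

section lift

variable {k : Type*} [Field k] {e : ℕ} {K : Type*} [Field K] [Algebra k K]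

/-- `f(S, θ)` as a polynomial in `θ` over `K` -/
noncomputable def liftS (S : Pr e → K) :
    MvPolynomial (Pr e ⊕ Fin e) k →ₐ[k] MvPolynomial (Fin e) K :=
  aeval (Sum.elim (fun p => C (S p)) X)

lemma liftS_totalDegree_le (S : Pr e → K) (f : MvPolynomial (Pr e ⊕ Fin e) k) {m : ℕ}
    (hf : f.totalDegree ≤ m) : (liftS S f).totalDegree ≤ m := by
  refine totalDegree_aeval_le' _ ?_ f hf
  rintro (p | i)
  · simp
  · simp [totalDegree_X]

lemma liftS_injective {S : Pr e → K} (hS : AlgebraicIndependent k S) :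
    Function.Injective (liftS (k := k) S) := by
  let r := renameEquiv k (Equiv.sumComm (Fin e) (Pr e))
  have h : (liftS (k := k) S).comp
      (r : MvPolynomial (Fin e ⊕ Pr e) k →ₐ[k] MvPolynomial (Pr e ⊕ Fin e) k) =
      ((MvPolynomial.mapAlgHom (aeval S : MvPolynomial (Pr e) k →ₐ[k] K)).comp
        (sumAlgEquiv k (Fin e) (Pr e) : MvPolynomial (Fin e ⊕ Pr e) k →ₐ[k]
          MvPolynomial (Fin e) (MvPolynomial (Pr e) k))) := by
    apply MvPolynomial.algHom_ext
    rintro (i | p)
    · simp only [AlgHom.comp_apply, r, AlgEquiv.coe_toAlgHom, renameEquiv_apply, rename_X,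
        Equiv.sumComm_apply, Sum.swap_inl, liftS, aeval_X, Sum.elim_inr]
      rw [sumAlgEquiv_X_inl]
      simp
    · simp only [AlgHom.comp_apply, r, AlgEquiv.coe_toAlgHom, renameEquiv_apply, rename_X,
        Equiv.sumComm_apply, Sum.swap_inr, liftS, aeval_X, Sum.elim_inl]
      rw [sumAlgEquiv_X_inr]
      simp
  have h1 : Function.Injective (((MvPolynomial.mapAlgHom
      (aeval S : MvPolynomial (Pr e) k →ₐ[k] K)).comp
        (sumAlgEquiv k (Fin e) (Pr e) : MvPolynomial (Fin e ⊕ Pr e) k →ₐ[k]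
          MvPolynomial (Fin e) (MvPolynomial (Pr e) k)))) := by
    intro x y hxy
    exact (sumAlgEquiv k (Fin e) (Pr e)).injective (map_injective _ hS hxy)
  rw [← h] at h1
  intro x y hxy
  have h2 := h1 (a₁ := r.symm x) (a₂ := r.symm y) (by
    simp only [AlgHom.comp_apply, AlgEquiv.coe_toAlgHom, AlgEquiv.apply_symm_apply, hxy])
  exact r.symm.injective h2

/-- evaluation of the lift at `y + S x` -/
lemma eval_liftS (S : Pr e → K) (z : Pt e k) (f : MvPolynomial (Pr e ⊕ Fin e) k) :
    eval (th S (toK K z)) (liftS S f) = aeval S (res z f) := by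
  have h : ((aeval (th S (toK K z)) : MvPolynomial (Fin e) K →ₐ[K] K).restrictScalars k).comp
      (liftS (k := k) S) = (aeval S : MvPolynomial (Pr e) k →ₐ[k] K).comp (res z) := by
    apply MvPolynomial.algHom_ext
    rintro (p | i)
    · simp [liftS, res]
    · simp only [AlgHom.comp_apply, AlgHom.restrictScalars_apply, liftS, res, aeval_X,
        Sum.elim_inr, map_add, aeval_C]
      have h1 : (aeval S : MvPolynomial (Pr e) k →ₐ[k] K) (actX z.1 i) =
          act S (fun j => algebraMap k K (z.1 j)) i := by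
        unfold actX act
        rw [map_sum]
        refine Finset.sum_congr rfl fun j _ => ?_
        rw [map_mul, aeval_C]
        congr 1
        have := sk_map ((aeval S : MvPolynomial (Pr e) k →ₐ[k] K) :
          MvPolynomial (Pr e) k →+* K) (fun p => X p) i j
        rw [RingHom.coe_coe] at this
        rw [← this]
        congr 1
        funext p
        simp
      rw [h1]
      rfl
  have h2 := congrArg (fun g : MvPolynomial (Pr e ⊕ Fin e) k →ₐ[k] K => g f) h
  exact h2

end lift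

section main

variable {k : Type*} [Field k] {e : ℕ}
  {K : Type*} [Field K] [Algebra (MvPolynomial (Pr e) k) K]
  [IsFractionRing (MvPolynomial (Pr e) k) K] [Algebra k K]
  [IsScalarTower k (MvPolynomial (Pr e) k) K]

omit [IsFractionRing (MvPolynomial (Pr e) k) K] in
lemma aeval_gen (g : MvPolynomial (Pr e) k) :
    aeval (fun p => algebraMap (MvPolynomial (Pr e) k) K (X p)) g =
      algebraMap (MvPolynomial (Pr e) k) K g := by
  have h : (aeval (fun p => algebraMap (MvPolynomial (Pr e) k) K (X p)) :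
      MvPolynomial (Pr e) k →ₐ[k] K) = IsScalarTower.toAlgHom k (MvPolynomial (Pr e) k) K := by
    apply MvPolynomial.algHom_ext
    intro p
    simp
  rw [h]; rfl

open scoped Classical in
/-- **LEVEL 0**, index form -/
theorem l0_gen [Infinite k] [Infinite K] (hE : ExtrP K e) (hS : SweptP k K e) :
    ∃ C : ℝ, 0 < C ∧ ∀ (m : ℕ) (f : MvPolynomial (Pr e ⊕ Fin e) k) (ι : Type) (Sg : Finset ι)
      (ω : ι → Pt e k) (τ : ℕ → ℝ) (ν : ℝ), 1 ≤ m → f ≠ 0 → f.totalDegree ≤ m →
      (∀ i ∈ Sg, res (ω i) f = 0) → (∀ r, 1 ≤ τ r) → 1 ≤ ν →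
      (∀ Q : Ideal (MvPolynomial (Fin e ⊕ Fin e) k), Q.IsPrime → dimP Q < e →
        ((Sg.filter fun i => ∀ q ∈ Q, eval (Pins348.toFn (ω i)) q = 0).card : ℝ) ≤
          τ (dimP Q) * degP Q) →
      (∀ Y ⊆ Sg, (∀ i ∈ Y, ∀ j ∈ Y, Null (ω i) (ω j)) → (Y.card : ℝ) ≤ ν) →
      (Sg.card : ℝ) ≤ C * (∑ r ∈ Finset.range e, (m : ℝ) ^ (e - r) * τ r + m * ν) := by
  obtain ⟨Ce, hS⟩ := hS
  obtain ⟨C, hE⟩ := hE Ce
  refine ⟨8 * C + 1, by positivity, ?_⟩
  intro m f ι Sg ω τ ν hm hf0 hfm hres hτ hν hQ hY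
  have hm' : (1 : ℝ) ≤ m := by exact_mod_cast hm
  have hsum0 : (0 : ℝ) ≤ ∑ r ∈ Finset.range e, (m : ℝ) ^ (e - r) * τ r :=
    Finset.sum_nonneg fun r _ => mul_nonneg (by positivity) (by linarith [hτ r])
  have hC0 : (0 : ℝ) ≤ C := Nat.cast_nonneg _
  rcases Sg.eq_empty_or_nonempty with rfl | hne
  · simp only [Finset.card_empty, Nat.cast_zero]
    have : (0 : ℝ) ≤ m * ν := mul_nonneg (by linarith) (by linarith)
    positivity
  set S : Pr e → K := fun p => algebraMap (MvPolynomial (Pr e) k) K (X p) with hSdef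
  have hSind : AlgebraicIndependent k S := by
    intro x y hxy
    have h1 : algebraMap (MvPolynomial (Pr e) k) K x = algebraMap (MvPolynomial (Pr e) k) K y := by
      rw [← aeval_gen, ← aeval_gen]; exact hxy
    exact IsFractionRing.injective (MvPolynomial (Pr e) k) K h1
  set h := liftS (k := k) S f with hh
  have hh0 : h ≠ 0 := by
    intro h0
    apply hf0
    apply liftS_injective hSind
    rw [map_zero]; exact h0
  have hhm : h.totalDegree ≤ m := liftS_totalDegree_le S f hfm
  have hhz : ∀ i ∈ Sg, eval (thz k K (ω i)) h = 0 := by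
    intro i hi
    have h1 := eval_liftS (K := K) S (ω i) f
    rw [hres i hi, map_zero] at h1
    exact h1
  obtain ⟨P, hP, hhP, Dd, hmD, hfl, hgap, hcard⟩ := hE ι Sg (fun i => thz k K (ω i)) m h hm hh0
    hhm hhz hne
  have hP0 : P ≠ ⊥ := by
    intro h0
    rw [h0] at hhP
    exact hh0 ((Submodule.mem_bot _).1 hhP)
  have hdimlt : dimP P < e := by
    have h2 : dimP P < Fintype.card (Fin e) := by
      rw [← dimP_bot (k := K) (σ := Fin e)]
      exact dimP_lt (P := (⊥ : Ideal (MvPolynomial (Fin e) K))) (Q := P)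
        (bot_lt_iff_ne_bot.2 hP0)
    rwa [Fintype.card_fin] at h2
  have hdeg : 0 < degP P := degP_pos P
  set Sg' := onI Sg (fun i => thz k K (ω i)) P with hSg'
  have hsub : Sg' ⊆ Sg := Finset.filter_subset _ _
  have hcardpos : 0 < Sg.card * ((1 + ordP P h) * degP P) :=
    Nat.mul_pos (Finset.card_pos.2 hne) (Nat.mul_pos (by omega) hdeg)
  have hne' : Sg'.Nonempty := by
    rw [Finset.nonempty_iff_ne_empty]
    intro h0
    rw [h0, Finset.card_empty, Nat.zero_mul, Nat.mul_zero] at hcard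
    omega
  have hSgP : ∀ i ∈ Sg', ∀ g ∈ P, eval (thz k K (ω i)) g = 0 := fun i hi =>
    (Finset.mem_filter.1 hi).2
  have hcardR : (Sg.card : ℝ) * degP P ≤ C * (Sg'.card * (m : ℝ) ^ (e - dimP P)) := by
    have h1 : Sg.card * degP P ≤ C * (Sg'.card * m ^ (e - dimP P)) := by
      refine le_trans ?_ hcard
      exact Nat.mul_le_mul_left _ (Nat.le_mul_of_pos_left _ (by omega))
    exact_mod_cast h1
  have hdR : (1 : ℝ) ≤ degP P := by exact_mod_cast hdeg
  have hSgR : (0 : ℝ) ≤ Sg.card := Nat.cast_nonneg _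
  rcases hS P hP hP0 ι Sg' ω Dd hne' (hm.trans hmD) hSgP hfl hgap with
    ⟨hdim, -, hnull⟩ | ⟨Q, hQp, hQd, hQg, hQc⟩
  · have h1 : (Sg'.card : ℝ) ≤ ν := hY Sg' hsub hnull
    have h2 : e - dimP P = 1 := by omega
    rw [h2, pow_one] at hcardR
    have h3 : (Sg.card : ℝ) ≤ C * (ν * m) := by
      calc (Sg.card : ℝ) ≤ Sg.card * degP P := le_mul_of_one_le_right hSgR hdR
        _ ≤ C * (Sg'.card * m) := hcardR
        _ ≤ C * (ν * m) := by gcongr
    have h4 : (0 : ℝ) ≤ ν * m := mul_nonneg (by linarith) (by linarith)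
    have h5 : (C : ℝ) * (ν * m) ≤ (8 * C + 1) * (ν * m) :=
      mul_le_mul_of_nonneg_right (by linarith) h4
    have h6 : (0 : ℝ) ≤ (8 * C + 1) *
        ∑ r ∈ Finset.range e, (m : ℝ) ^ (e - r) * τ r := by positivity
    calc (Sg.card : ℝ) ≤ (8 * C + 1) * (ν * m) := h3.trans h5
      _ ≤ (8 * C + 1) * (∑ r ∈ Finset.range e, (m : ℝ) ^ (e - r) * τ r + m * ν) := by
        rw [mul_add, mul_comm ν]; linarith
  · have h1 : (Sg'.card : ℝ) ≤ 4 * (τ (dimP P) * (2 * degP P)) := by
      have h2 : (Sg'.card : ℝ) ≤ 4 *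
          ((Sg.filter fun i => ∀ q ∈ Q, eval (Pins348.toFn (ω i)) q = 0).card : ℝ) := by
        have h3 : Sg'.card ≤ 4 *
            (Sg.filter fun i => ∀ q ∈ Q, eval (Pins348.toFn (ω i)) q = 0).card :=
          hQc.trans (Nat.mul_le_mul_left _
            (Finset.card_le_card (Finset.filter_subset_filter _ hsub)))
        exact_mod_cast h3
      have h3 := hQ Q hQp (by omega)
      have h4 : (degP Q : ℝ) ≤ 2 * degP P := by exact_mod_cast hQg
      rw [hQd] at h3
      have h5 : τ (dimP P) * degP Q ≤ τ (dimP P) * (2 * degP P) :=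
        mul_le_mul_of_nonneg_left h4 (by linarith [hτ (dimP P)])
      linarith
    have h2 : (Sg.card : ℝ) * degP P ≤ (8 * C * ((m : ℝ) ^ (e - dimP P) * τ (dimP P))) * degP P := by
      calc (Sg.card : ℝ) * degP P ≤ C * (Sg'.card * (m : ℝ) ^ (e - dimP P)) := hcardR
        _ ≤ C * ((4 * (τ (dimP P) * (2 * degP P))) * (m : ℝ) ^ (e - dimP P)) := by gcongr
        _ = _ := by ring
    have h3 : (Sg.card : ℝ) ≤ 8 * C * ((m : ℝ) ^ (e - dimP P) * τ (dimP P)) :=
      le_of_mul_le_mul_right h2 (by linarith)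
    have h4 : (m : ℝ) ^ (e - dimP P) * τ (dimP P) ≤
        ∑ r ∈ Finset.range e, (m : ℝ) ^ (e - r) * τ r :=
      Finset.single_le_sum (f := fun r => (m : ℝ) ^ (e - r) * τ r)
        (fun r _ => mul_nonneg (by positivity) (by linarith [hτ r]))
        (Finset.mem_range.2 hdimlt)
    have h5 : (0 : ℝ) ≤ m * ν := mul_nonneg (by linarith) (by linarith)
    calc (Sg.card : ℝ) ≤ 8 * C * ((m : ℝ) ^ (e - dimP P) * τ (dimP P)) := h3
      _ ≤ 8 * C * ∑ r ∈ Finset.range e, (m : ℝ) ^ (e - r) * τ r := by gcongr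
      _ ≤ (8 * C + 1) * (∑ r ∈ Finset.range e, (m : ℝ) ^ (e - r) * τ r + m * ν) := by
        have : (0 : ℝ) ≤ 8 * C * (m * ν) := by positivity
        nlinarith

end main

/-! ### the literal inputs of 96 and 855 -/

/-- the function field of `so(e)` over `ℂ` -/
abbrev KC (e : ℕ) : Type := FractionRing (MvPolynomial (Pr e) ℂ)

noncomputable instance (e : ℕ) : Algebra ℂ (KC e) := inferInstance

instance (e : ℕ) : IsScalarTower ℂ (MvPolynomial (Pr e) ℂ) (KC e) := inferInstance

instance (e : ℕ) : CharZero (KC e) := inferInstance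

instance (e : ℕ) : Infinite (KC e) := inferInstance

open M4 in
theorem l0inD_of (d : ℕ) (hE : ExtrP (KC d) d) (hS : SweptP ℂ (KC d) d) : M4.L0inD d := by
  classical
  obtain ⟨C, hC, h⟩ := l0_gen (k := ℂ) (K := KC d) hE hS
  refine ⟨C, hC, fun m f Sg τ ν hm hf hfm hres hτ hν hQ hY => ?_⟩
  exact h m f (Pt d ℂ) Sg id τ ν hm hf hfm hres hτ hν
    (fun Q hQp hQd => by
      have h1 := hQ Q hQp hQd
      unfold M4.onP at h1
      simpa only [id] using h1)
    (fun Y hYS hYn => hY Y hYS hYn)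

/-- a zero-dimensional prime has at most one rational point -/
lemma point_unique {k : Type*} [Field k] [Infinite k] {σ : Type*} [Fintype σ]
    {P : Ideal (MvPolynomial σ k)} [hP : P.IsPrime] (hd : dimP P = 0) {x y : σ → k}
    (hx : ∀ g ∈ P, eval x g = 0) (hy : ∀ g ∈ P, eval y g = 0) : x = y := by
  have key : ∀ u : σ → k, (∀ g ∈ P, eval u g = 0) → ∀ g, eval u g = 0 → g ∈ P := by
    intro u hu g hg
    by_contra hgP
    have hk : (RingHom.ker (eval u)).IsPrime := RingHom.ker_isPrime _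
    have hlt : P < RingHom.ker (eval u) := by
      refine lt_of_le_of_ne (fun f hf => hu f hf) fun h => ?_
      rw [h] at hgP
      exact hgP hg
    have h2 := dimP_lt (P := P) (Q := RingHom.ker (eval u)) hlt
    omega
  funext i
  have h1 : (X i - C (x i) : MvPolynomial σ k) ∈ P := key x hx _ (by simp)
  have h2 := hy _ h1
  rw [map_sub, eval_X, eval_C, sub_eq_zero] at h2
  exact h2.symm

theorem l0in_of_D (h : M4.L0inD 3) : D3in855.L0in := by
  classical
  obtain ⟨C, hC, h⟩ := h
  refine ⟨C, hC, fun m f Sg τ₁ τ₂ ν hm hf hfm hres hτ₁ hτ₂ hν hP1 hP2 hY => ?_⟩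
  have h1 := h m f Sg (fun r => if r = 1 then τ₁ else if r = 2 then τ₂ else 1) ν hm hf hfm hres
    (fun r => by split_ifs <;> first | assumption | exact le_rfl) hν ?_ hY
  · refine h1.trans (le_of_eq ?_)
    simp only [Finset.sum_range_succ, Finset.sum_range_zero]
    norm_num
  · intro P hP hPd
    rcases (by omega : dimP P = 0 ∨ dimP P = 1 ∨ dimP P = 2) with h0 | h0 | h0
    · rw [h0]
      simp only [zero_ne_one, if_false]
      norm_num
      have h2 : (M4.onP Sg P).card ≤ 1 := by
        rw [Finset.card_le_one]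
        intro z hz w hw
        unfold M4.onP at hz hw
        rw [Finset.mem_filter] at hz hw
        exact Pins348.toFn_injective (point_unique h0 hz.2 hw.2)
      exact h2.trans (degP_pos P)
    · have h2 := hP1 P hP h0
      rw [h0]
      unfold D3in855.onP at h2
      unfold M4.onP
      simpa using h2
    · have h2 := hP2 P hP h0
      rw [h0]
      unfold D3in855.onP at h2
      unfold M4.onP
      simpa using h2

end Crest.Agent.R065.Glue795
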