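import Mathlib

/-!
# Row 65, `d ≥ 4`: numerics of the master
-/

set_option autoImplicit false

open Finset

namespace Crest.Agent.R065.M4

/-- common numerical data: `N = n²`, `u = 8 C₁ d t`, `s = 4 d t` -/
structure Num (d : ℕ) (n t x y t0 C1 m : ℝ) : Prop where
  d4 : 4 ≤ d
  n1 : 1 ≤ n
  t1 : 1 ≤ t
  y1 : 1 ≤ y
  yx : y ≤ x
  xN : x ≤ n ^ 2
  t01 : 1 ≤ t0
  /-- `t₀² N² ≤ 16 t² x y` -/
  a1 : t0 ^ 2 * (n ^ 2) ^ 2 ≤ 16 * t ^ 2 * (x * y)
  /-- `t₀ N ≤ 4 t x` -/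
  a2 : t0 * n ^ 2 ≤ 4 * t * x
  a3 : t0 ≤ 4 * t
  a4 : x ≤ 16 * t ^ 2 * y
  C11 : 1 ≤ C1
  mlo : C1 * t0 ≤ m
  mhi : m ≤ 2 * C1 * t0

namespace Num

variable {d : ℕ} {n t x y t0 C1 m : ℝ}

lemma m1 (h : Num d n t x y t0 C1 m) : 1 ≤ m := by
  have := h.mlo
  have := h.C11
  have := h.t01
  nlinarith

lemma t0m (h : Num d n t x y t0 C1 m) : t0 ≤ m := by
  have := h.mlo
  have := h.C11
  have := h.t01
  nlinarith

lemma d1 (h : Num d n t x y t0 C1 m) : (1 : ℝ) ≤ d := by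
  have := h.d4
  exact_mod_cast (by omega : 1 ≤ d)

lemma m_le (h : Num d n t x y t0 C1 m) : m ≤ 8 * C1 * d * t := by
  have h1 := h.mhi
  have h2 := h.a3
  have h3 := h.C11
  have h4 := h.d1
  have h5 := h.t1
  calc m ≤ 2 * C1 * t0 := h1
    _ ≤ 2 * C1 * (4 * t) := by gcongr
    _ = 8 * C1 * 1 * t := by ring
    _ ≤ 8 * C1 * d * t := by gcongr

lemma s_le (h : Num d n t x y t0 C1 m) : (d * (4 * t)) ≤ 8 * C1 * d * t := by
  have h3 := h.C11
  have h4 := h.d1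
  have h5 := h.t1
  have h6 : (0 : ℝ) ≤ d * t := by positivity
  nlinarith

lemma u1 (h : Num d n t x y t0 C1 m) : 1 ≤ 8 * C1 * d * t := h.m1.trans h.m_le

/-- `m N ≤ 8 C₁ t x` -/
lemma mN (h : Num d n t x y t0 C1 m) : m * n ^ 2 ≤ 8 * C1 * t * x := by
  have h1 := h.mhi
  have h2 := h.a2
  have h3 := h.C11
  calc m * n ^ 2 ≤ (2 * C1 * t0) * n ^ 2 := by gcongr
    _ = 2 * C1 * (t0 * n ^ 2) := by ring
    _ ≤ 2 * C1 * (4 * t * x) := by gcongr
    _ = _ := by ring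

/-- `m² N ≤ 64 C₁² t² y` -/
lemma m2N (h : Num d n t x y t0 C1 m) : m ^ 2 * n ^ 2 ≤ 64 * C1 ^ 2 * t ^ 2 * y := by
  have h1 := h.mhi
  have h2 := h.a1
  have h3 := h.C11
  have h4 := h.xN
  have h5 := h.y1
  have h6 := h.m1
  have h7 := h.n1
  have h8 : m ^ 2 * (n ^ 2) ^ 2 ≤ 64 * C1 ^ 2 * t ^ 2 * y * n ^ 2 := by
    calc m ^ 2 * (n ^ 2) ^ 2 ≤ (2 * C1 * t0) ^ 2 * (n ^ 2) ^ 2 := by gcongr
      _ = 4 * C1 ^ 2 * (t0 ^ 2 * (n ^ 2) ^ 2) := by ring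
      _ ≤ 4 * C1 ^ 2 * (16 * t ^ 2 * (x * y)) := by gcongr
      _ ≤ 4 * C1 ^ 2 * (16 * t ^ 2 * (n ^ 2 * y)) := by gcongr
      _ = _ := by ring
  have h9 : (0 : ℝ) < n ^ 2 := by positivity
  refine le_of_mul_le_mul_right ?_ h9
  calc m ^ 2 * n ^ 2 * n ^ 2 = m ^ 2 * (n ^ 2) ^ 2 := by ring
    _ ≤ _ := h8

/-- `m N ≤ 32 C₁ t² y` -/
lemma mNy (h : Num d n t x y t0 C1 m) : m * n ^ 2 ≤ 32 * C1 * t ^ 2 * y := by
  have h1 := h.mhi
  have h2 := h.a1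
  have h3 := h.C11
  have h4 := h.a4
  have h5 := h.y1
  have h6 := h.m1
  have h7 := h.n1
  have h8 := h.t01
  have h9 : (t0 * n ^ 2) ^ 2 ≤ (16 * t ^ 2 * y) ^ 2 := by
    calc (t0 * n ^ 2) ^ 2 = t0 ^ 2 * (n ^ 2) ^ 2 := by ring
      _ ≤ 16 * t ^ 2 * (x * y) := h2
      _ ≤ 16 * t ^ 2 * ((16 * t ^ 2 * y) * y) := by gcongr
      _ = (16 * t ^ 2 * y) ^ 2 := by ring
  have h10 : t0 * n ^ 2 ≤ 16 * t ^ 2 * y := le_of_sq_le_sq h9 (by positivity)
  calc m * n ^ 2 ≤ (2 * C1 * t0) * n ^ 2 := by gcongr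
    _ = 2 * C1 * (t0 * n ^ 2) := by ring
    _ ≤ 2 * C1 * (16 * t ^ 2 * y) := by gcongr
    _ = _ := by ring

/-- `m² u^{d-2} N ≤ u^d y` -/
lemma m2u (h : Num d n t x y t0 C1 m) :
    m ^ 2 * (8 * C1 * d * t) ^ (d - 2) * n ^ 2 ≤ (8 * C1 * d * t) ^ d * y := by
  have h1 := h.m2N
  have h2 := h.u1
  have h3 := h.d1
  have h4 := h.d4
  have h5 := h.y1
  have h6 := h.C11
  have h7 := h.t1
  calc m ^ 2 * (8 * C1 * d * t) ^ (d - 2) * n ^ 2
      = (m ^ 2 * n ^ 2) * (8 * C1 * d * t) ^ (d - 2) := by ring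
    _ ≤ (64 * C1 ^ 2 * t ^ 2 * y) * (8 * C1 * d * t) ^ (d - 2) := by gcongr
    _ = (8 * C1 * 1 * t) ^ 2 * (8 * C1 * d * t) ^ (d - 2) * y := by ring
    _ ≤ (8 * C1 * d * t) ^ 2 * (8 * C1 * d * t) ^ (d - 2) * y := by gcongr
    _ = (8 * C1 * d * t) ^ d * y := by
        rw [← pow_add, show 2 + (d - 2) = d by omega]

/-- the `X` side of the `L0` bound -/
lemma xside (h : Num d n t x y t0 C1 m) {ε : ℝ}
    (hu : (8 * C1 * d * t) ^ d ≤ ε * n ^ 2) (hn : 8 * C1 * t ≤ ε * n) :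
    ∑ r ∈ range d, m ^ (d - r) * (d * (4 * t)) ^ r + m * n ≤ 2 * ε * x := by
  have h1 := h.m_le
  have h2 := h.s_le
  have h3 := h.m1
  have h4 := h.mN
  have h5 := h.t1
  have h6 := h.d1
  have h7 := h.C11
  have h8 := h.n1
  have h9 := h.y1
  have h10 := h.yx
  have h11 := h.d4
  have hu1 := h.u1
  set u := 8 * C1 * d * t with hudef
  have hu0 : 0 ≤ u := by linarith
  have e1 : ∀ r ∈ range d, m ^ (d - r) * (d * (4 * t)) ^ r ≤ m * u ^ (d - 1) := by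
    intro r hr
    have hr' := mem_range.1 hr
    have e2 : m ^ (d - r) = m * m ^ (d - 1 - r) := by
      rw [← pow_succ']; congr 1; omega
    calc m ^ (d - r) * (d * (4 * t)) ^ r ≤ m ^ (d - r) * u ^ r := by gcongr
      _ = m * m ^ (d - 1 - r) * u ^ r := by rw [e2]
      _ ≤ m * u ^ (d - 1 - r) * u ^ r := by gcongr
      _ = m * u ^ (d - 1) := by
          rw [mul_assoc, ← pow_add, show d - 1 - r + r = d - 1 by omega]
  have e3 : ∑ r ∈ range d, m ^ (d - r) * (d * (4 * t)) ^ r ≤ d * (m * u ^ (d - 1)) := by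
    refine (sum_le_sum e1).trans ?_
    rw [sum_const, card_range, nsmul_eq_mul]
  have hN : (0 : ℝ) < n ^ 2 := by positivity
  -- `d m u^{d-1} ≤ ε x`
  have e4 : d * (m * u ^ (d - 1)) ≤ ε * x := by
    refine le_of_mul_le_mul_right ?_ hN
    calc d * (m * u ^ (d - 1)) * n ^ 2 = (m * n ^ 2) * (d * u ^ (d - 1)) := by ring
      _ ≤ (8 * C1 * t * x) * (d * u ^ (d - 1)) := by gcongr
      _ = (u * u ^ (d - 1)) * x := by rw [hudef]; ring
      _ = u ^ d * x := by rw [← pow_succ', show d - 1 + 1 = d by omega]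
      _ ≤ (ε * n ^ 2) * x := by gcongr; linarith
      _ = ε * x * n ^ 2 := by ring
  have e5 : m * n ≤ ε * x := by
    refine le_of_mul_le_mul_right ?_ (show (0 : ℝ) < n by linarith)
    calc m * n * n = m * n ^ 2 := by ring
      _ ≤ 8 * C1 * t * x := h4
      _ ≤ ε * n * x := by gcongr; linarith
      _ = ε * x * n := by ring
  linarith

/-- the `Y` side of the `L0` bound -/
lemma yside (h : Num d n t x y t0 C1 m) {ε : ℝ}
    (hu : (d + 7) * (8 * C1 * d * t) ^ d ≤ ε * n ^ 2) (hn : 32 * C1 * t ^ 2 ≤ ε * n) :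
    ∑ r ∈ range d, m ^ (d - r) *
      (if r + 1 = d then 8 * t0 * (d * (4 * t)) ^ (d - 2) + n else (d * (4 * t)) ^ r) + m * n ≤
      3 * ε * y := by
  have h1 := h.m_le
  have h2 := h.s_le
  have h3 := h.m1
  have h4 := h.m2u
  have h5 := h.t1
  have h6 := h.d1
  have h7 := h.C11
  have h8 := h.n1
  have h9 := h.y1
  have h10 := h.yx
  have h11 := h.d4
  have h12 := h.mNy
  have h13 := h.t0m
  have h14 := h.t01
  have hu1 := h.u1
  set u := 8 * C1 * d * t with hudef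
  have hu0 : 0 ≤ u := by linarith
  have hs0 : 0 ≤ d * (4 * t) := by positivity
  have e1 : ∀ r ∈ range (d - 1), m ^ (d - r) *
      (if r + 1 = d then 8 * t0 * (d * (4 * t)) ^ (d - 2) + n else (d * (4 * t)) ^ r) ≤
      m ^ 2 * u ^ (d - 2) := by
    intro r hr
    have hr' := mem_range.1 hr
    rw [if_neg (by omega)]
    have e2 : m ^ (d - r) = m ^ 2 * m ^ (d - 2 - r) := by
      rw [← pow_add]; congr 1; omega
    calc m ^ (d - r) * (d * (4 * t)) ^ r ≤ m ^ (d - r) * u ^ r := by gcongr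
      _ = m ^ 2 * m ^ (d - 2 - r) * u ^ r := by rw [e2]
      _ ≤ m ^ 2 * u ^ (d - 2 - r) * u ^ r := by gcongr
      _ = m ^ 2 * u ^ (d - 2) := by
          rw [mul_assoc, ← pow_add, show d - 2 - r + r = d - 2 by omega]
  have e3 : ∑ r ∈ range d, m ^ (d - r) *
      (if r + 1 = d then 8 * t0 * (d * (4 * t)) ^ (d - 2) + n else (d * (4 * t)) ^ r) ≤
      (d + 7) * (m ^ 2 * u ^ (d - 2)) + m * n := by
    have hdd : range d = range ((d - 1) + 1) := by congr 1; omega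
    rw [hdd, sum_range_succ, if_pos (by omega), show d - (d - 1) = 1 by omega, pow_one]
    have e4 : ∑ r ∈ range (d - 1), m ^ (d - r) *
      (if r + 1 = d then 8 * t0 * (d * (4 * t)) ^ (d - 2) + n else (d * (4 * t)) ^ r) ≤
        ((d - 1 : ℕ) : ℝ) * (m ^ 2 * u ^ (d - 2)) := by
      refine (sum_le_sum e1).trans ?_
      rw [sum_const, card_range, nsmul_eq_mul]
    have e5 : ((d - 1 : ℕ) : ℝ) = d - 1 := by
      rw [Nat.cast_sub (by omega)]; norm_num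
    have e6 : m * (8 * t0 * (d * (4 * t)) ^ (d - 2) + n) ≤ 8 * (m ^ 2 * u ^ (d - 2)) + m * n := by
      have : m * (8 * t0 * (d * (4 * t)) ^ (d - 2)) ≤ 8 * (m ^ 2 * u ^ (d - 2)) := by
        calc m * (8 * t0 * (d * (4 * t)) ^ (d - 2)) ≤ m * (8 * m * u ^ (d - 2)) := by gcongr
          _ = _ := by ring
      linarith
    rw [e5] at e4
    linarith
  have hN : (0 : ℝ) < n ^ 2 := by positivity
  have e4 : (d + 7) * (m ^ 2 * u ^ (d - 2)) ≤ ε * y := by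
    refine le_of_mul_le_mul_right ?_ hN
    calc (d + 7) * (m ^ 2 * u ^ (d - 2)) * n ^ 2
        = (d + 7) * (m ^ 2 * u ^ (d - 2) * n ^ 2) := by ring
      _ ≤ (d + 7) * (u ^ d * y) := by gcongr
      _ = ((d + 7) * u ^ d) * y := by ring
      _ ≤ (ε * n ^ 2) * y := by gcongr
      _ = ε * y * n ^ 2 := by ring
  have e5 : m * n ≤ ε * y := by
    refine le_of_mul_le_mul_right ?_ (show (0 : ℝ) < n by linarith)
    calc m * n * n = m * n ^ 2 := by ring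
      _ ≤ 32 * C1 * t ^ 2 * y := h12
      _ ≤ ε * n * y := by gcongr
      _ = ε * y * n := by ring
  linarith

/-- `m^d ≤ ε y` -/
lemma md_le (h : Num d n t x y t0 C1 m) {ε : ℝ} (hu : (8 * C1 * d * t) ^ d ≤ ε * n ^ 2) :
    m ^ d ≤ ε * y := by
  have h1 := h.m_le
  have h3 := h.m1
  have h4 := h.m2u
  have h11 := h.d4
  have h8 := h.n1
  have h9 := h.y1
  have hN : (0 : ℝ) < n ^ 2 := by positivity
  refine le_of_mul_le_mul_right ?_ hN
  calc m ^ d * n ^ 2 = m ^ 2 * m ^ (d - 2) * n ^ 2 := by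
        rw [← pow_add, show 2 + (d - 2) = d by omega]
    _ ≤ m ^ 2 * (8 * C1 * d * t) ^ (d - 2) * n ^ 2 := by gcongr
    _ ≤ (8 * C1 * d * t) ^ d * y := h4
    _ ≤ (ε * n ^ 2) * y := by gcongr
    _ = ε * y * n ^ 2 := by ring

/-- `n m² ≤ θ y` -/
lemma nm2 (h : Num d n t x y t0 C1 m) {θ : ℝ} (hn : 64 * C1 ^ 2 * t ^ 2 ≤ θ * n) :
    n * m ^ 2 ≤ θ * y := by
  have h4 := h.m2N
  have h8 := h.n1
  have h9 := h.y1
  refine le_of_mul_le_mul_right ?_ (show (0 : ℝ) < n by linarith)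
  calc n * m ^ 2 * n = m ^ 2 * n ^ 2 := by ring
    _ ≤ 64 * C1 ^ 2 * t ^ 2 * y := h4
    _ ≤ θ * n * y := by gcongr
    _ = θ * y * n := by ring

/-- the size condition of `o1y` -/
lemma big (h : Num d n t x y t0 C1 m) (hu : (8 * C1 * d * t) ^ d ≤ n ^ 2 / 64)
    (hn : 64 * t ≤ n) : 4 * t0 * (2 * (d * (4 * t)) ^ (d - 1) + n) < x := by
  have h2 := h.s_le
  have h5 := h.t1
  have h6 := h.d1
  have h7 := h.C11
  have h8 := h.n1
  have h9 := h.y1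
  have h10 := h.yx
  have h11 := h.d4
  have h12 := h.a2
  have h14 := h.t01
  have hu1 := h.u1
  have hd4 : (4 : ℝ) ≤ d := by exact_mod_cast h11
  have hs0 : 0 ≤ d * (4 * t) := by positivity
  have hN : (0 : ℝ) < n ^ 2 := by positivity
  have hx0 : 0 < x := by linarith
  have e1 : 16 * t * (2 * (d * (4 * t)) ^ (d - 1) + n) < n ^ 2 := by
    have e2 : 16 * t * (2 * (d * (4 * t)) ^ (d - 1)) ≤ 8 * (8 * C1 * d * t) ^ d := by
      calc 16 * t * (2 * (d * (4 * t)) ^ (d - 1)) ≤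
          (2 * (d * (4 * t))) * (2 * (d * (4 * t)) ^ (d - 1)) := by
            refine mul_le_mul_of_nonneg_right ?_ (by positivity)
            nlinarith
        _ = 4 * ((d * (4 * t)) * (d * (4 * t)) ^ (d - 1)) := by ring
        _ = 4 * (d * (4 * t)) ^ d := by rw [← pow_succ', show d - 1 + 1 = d by omega]
        _ ≤ 4 * (8 * C1 * d * t) ^ d := by gcongr
        _ ≤ 8 * (8 * C1 * d * t) ^ d := by
            have : 0 ≤ (8 * C1 * d * t) ^ d := by positivity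
            linarith
    have e3 : 16 * t * n ≤ n ^ 2 / 4 := by nlinarith
    nlinarith
  have e4 : 4 * t0 * (2 * (d * (4 * t)) ^ (d - 1) + n) * n ^ 2 < x * n ^ 2 := by
    calc 4 * t0 * (2 * (d * (4 * t)) ^ (d - 1) + n) * n ^ 2
        = 4 * (t0 * n ^ 2) * (2 * (d * (4 * t)) ^ (d - 1) + n) := by ring
      _ ≤ 4 * (4 * t * x) * (2 * (d * (4 * t)) ^ (d - 1) + n) := by gcongr
      _ = x * (16 * t * (2 * (d * (4 * t)) ^ (d - 1) + n)) := by ring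
      _ < x * n ^ 2 := by gcongr
  exact lt_of_mul_lt_mul_right e4 hN.le

end Num

end Crest.Agent.R065.M4
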