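import Mathlib

/-!
# Row 65, `d ≥ 4`: pairwise null subsets of a random sample (E4 of 272's engine)
-/

set_option autoImplicit false

open Finset Module

namespace Crest.Agent.R065.Nu397

open scoped InnerProductSpace

/-- Euclidean space -/
abbrev E (d : ℕ) := EuclideanSpace ℝ (Fin d)

variable {d : ℕ}

/-- equal distances -/
def NN (z w : E d × E d) : Prop := dist z.1 w.1 = dist z.2 w.2

/-- pairwise null -/
def Clq (N : Finset (E d × E d)) : Prop := ∀ z ∈ N, ∀ w ∈ N, NN z w

open scoped Classical in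
/-- maximal size of a pairwise null subset -/
noncomputable def nu (Om : Finset (E d × E d)) : ℕ :=
  (Om.powerset.filter fun N => Clq N).sup Finset.card

lemma NN_comm {z w : E d × E d} (h : NN z w) : NN w z := by
  unfold NN at *
  rw [dist_comm w.1, dist_comm w.2]
  exact h

lemma Clq.mono {N N' : Finset (E d × E d)} (h : N' ⊆ N) (hN : Clq N) : Clq N' :=
  fun z hz w hw => hN z (h hz) w (h hw)

lemma le_nu {N Om : Finset (E d × E d)} (h : N ⊆ Om) (hN : Clq N) : N.card ≤ nu Om := by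
  classical
  unfold nu
  exact Finset.le_sup (f := Finset.card) (Finset.mem_filter.2 ⟨Finset.mem_powerset.2 h, hN⟩)

lemma clq_empty : Clq (∅ : Finset (E d × E d)) := fun z hz => by simp at hz

lemma exists_clq (Om : Finset (E d × E d)) : ∃ N ⊆ Om, Clq N ∧ N.card = nu Om := by
  classical
  have hne : (Om.powerset.filter fun N => Clq N).Nonempty :=
    ⟨∅, Finset.mem_filter.2 ⟨Finset.mem_powerset.2 (Finset.empty_subset _), clq_empty⟩⟩
  obtain ⟨N, hN, hN'⟩ := Finset.exists_mem_eq_sup _ hne Finset.card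
  refine ⟨N, Finset.mem_powerset.1 (Finset.mem_filter.1 hN).1, (Finset.mem_filter.1 hN).2, ?_⟩
  unfold nu
  convert hN'.symm

lemma exists_clq_of_le {Om : Finset (E d × E d)} {s : ℕ} (hs : s ≤ nu Om) :
    ∃ N ⊆ Om, Clq N ∧ N.card = s := by
  obtain ⟨N, hN, hc, hN'⟩ := exists_clq Om
  obtain ⟨N', h1, h2⟩ := Finset.exists_subset_card_eq (s := N) (n := s) (by omega)
  exact ⟨N', h1.trans hN, hc.mono h1, h2⟩

lemma nu_le_card (Om : Finset (E d × E d)) : nu Om ≤ Om.card := by
  obtain ⟨N, hN, _, h⟩ := exists_clq Om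
  rw [← h]
  exact Finset.card_le_card hN

lemma nu_mono {Om Om' : Finset (E d × E d)} (h : Om ⊆ Om') : nu Om ≤ nu Om' := by
  obtain ⟨N, hN, hc, h'⟩ := exists_clq Om
  rw [← h']
  exact le_nu (hN.trans h) hc

lemma Clq.injOn {N : Finset (E d × E d)} (hN : Clq N) : Set.InjOn Prod.fst (N : Set (E d × E d)) := by
  intro z hz w hw h
  have h1 : dist z.1 w.1 = dist z.2 w.2 := hN z hz w hw
  rw [h, dist_self] at h1
  exact Prod.ext h (dist_eq_zero.1 h1.symm)

lemma nu_le_fst (Om : Finset (E d × E d)) [DecidableEq (E d)] :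
    nu Om ≤ (Om.image Prod.fst).card := by
  obtain ⟨N, hN, hc, h⟩ := exists_clq Om
  rw [← h, ← Finset.card_image_of_injOn hc.injOn]
  exact Finset.card_le_card (Finset.image_subset_image hN)

/-! ### rigidity -/

/-- affine relations are transported by a pairwise null set -/
lemma mem_span_snd {N T : Finset (E d × E d)} (hN : Clq N) (hT : T ⊆ N) {z : E d × E d}
    (hz : z ∈ N) (h : z.1 ∈ affineSpan ℝ (Prod.fst '' (T : Set (E d × E d)))) :
    z.2 ∈ affineSpan ℝ (Prod.snd '' (T : Set (E d × E d))) := by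
  classical
  have hr : Prod.fst '' (T : Set (E d × E d)) = Set.range (fun t : T => t.1.1) := by
    ext x
    constructor
    · rintro ⟨t, ht, rfl⟩
      exact ⟨⟨t, ht⟩, rfl⟩
    · rintro ⟨t, rfl⟩
      exact ⟨t.1, t.2, rfl⟩
  rw [hr] at h
  obtain ⟨w, hw, hz1⟩ := eq_affineCombination_of_mem_affineSpan_of_fintype h
  have hinner : ∀ s t : T, ⟪z.1 - s.1.1, z.1 - t.1.1⟫_ℝ = ⟪z.2 - s.1.2, z.2 - t.1.2⟫_ℝ := by
    intro s t
    have a1 : dist z.1 s.1.1 = dist z.2 s.1.2 := hN z hz s.1 (hT s.2)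
    have a2 : dist z.1 t.1.1 = dist z.2 t.1.2 := hN z hz t.1 (hT t.2)
    have a3 : dist s.1.1 t.1.1 = dist s.1.2 t.1.2 := hN s.1 (hT s.2) t.1 (hT t.2)
    have key : ∀ x y w : E d, ⟪x - y, x - w⟫_ℝ = (dist x y ^ 2 + dist x w ^ 2 - dist y w ^ 2) / 2 := by
      intro x y w
      have h1 : (x - w) - (x - y) = y - w := by abel
      have h2 := @norm_sub_sq_real _ _ _ (x - w) (x - y)
      rw [h1, real_inner_comm] at h2
      rw [dist_eq_norm, dist_eq_norm, dist_eq_norm]
      linarith
    rw [key, key, a1, a2, a3]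
  have hcomb : ∀ f : T → E d, ∀ x : E d,
      x - Finset.univ.affineCombination ℝ f w = ∑ t, w t • (x - f t) := by
    intro f x
    rw [Finset.affineCombination_eq_linear_combination _ _ _ hw]
    simp only [smul_sub, Finset.sum_sub_distrib, ← Finset.sum_smul, hw, one_smul]
  have hnorm : ∀ f : T → E d, ‖∑ t, w t • f t‖ ^ 2 = ∑ s, ∑ t, w s * w t * ⟪f s, f t⟫_ℝ := by
    intro f
    rw [← real_inner_self_eq_norm_sq, sum_inner]
    refine Finset.sum_congr rfl fun s _ => ?_
    rw [inner_sum]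
    refine Finset.sum_congr rfl fun t _ => ?_
    rw [real_inner_smul_left, real_inner_smul_right]
    ring
  have hz2 : z.2 = Finset.univ.affineCombination ℝ (fun t : T => t.1.2) w := by
    have e1 : z.1 - Finset.univ.affineCombination ℝ (fun t : T => t.1.1) w = 0 := by
      rw [hz1, sub_self]
    rw [hcomb] at e1
    have e2 : ‖∑ t : T, w t • (z.2 - t.1.2)‖ ^ 2 = 0 := by
      rw [hnorm]
      have := hnorm (fun t : T => z.1 - t.1.1)
      rw [e1] at this
      simp only [norm_zero, ne_eq, OfNat.ofNat_ne_zero, not_false_eq_true, zero_pow] at this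
      rw [this]
      refine Finset.sum_congr rfl fun s _ => Finset.sum_congr rfl fun t _ => ?_
      rw [hinner]
    have e3 : ∑ t : T, w t • (z.2 - t.1.2) = 0 := by
      rw [← norm_eq_zero]
      exact pow_eq_zero_iff (two_ne_zero) |>.1 e2
    rw [← hcomb] at e3
    exact sub_eq_zero.1 e3
  rw [hz2]
  have hmem := affineCombination_mem_affineSpan (s := (Finset.univ : Finset T)) hw
    (fun t : T => t.1.2)
  refine affineSpan_mono ℝ ?_ hmem
  rintro x ⟨t, rfl⟩
  exact ⟨t.1, t.2, rfl⟩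

/-- differences of points equidistant from `A` are orthogonal to `A` -/
lemma sub_mem_orth (A : Set (E d)) {b b' : E d} (h : ∀ a ∈ A, dist b a = dist b' a) :
    b - b' ∈ (vectorSpan ℝ A)ᗮ := by
  rw [Submodule.mem_orthogonal]
  have key : ∀ a ∈ A, 2 * ⟪a, b - b'⟫_ℝ = ‖b‖ ^ 2 - ‖b'‖ ^ 2 := by
    intro a ha
    have h1 : dist b a ^ 2 = dist b' a ^ 2 := by rw [h a ha]
    rw [dist_eq_norm, dist_eq_norm, @norm_sub_sq_real, @norm_sub_sq_real] at h1
    rw [inner_sub_right, real_inner_comm b a, real_inner_comm b' a]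
    linarith
  intro u hu
  unfold vectorSpan at hu
  induction hu using Submodule.span_induction with
  | mem x hx =>
    obtain ⟨a, ha, a', ha', rfl⟩ := hx
    simp only [vsub_eq_sub]
    rw [inner_sub_left]
    linarith [key a ha, key a' ha']
  | zero => simp
  | add x y _ _ hx hy => rw [inner_add_left, hx, hy, add_zero]
  | smul c x _ hx => rw [real_inner_smul_left, hx, mul_zero]

open scoped Classical in
/-- the possible further members of a clique spanned by `T` -/
noncomputable def VV (Y T : Finset (E d × E d)) : Finset (E d × E d) :=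
  Y.filter fun w => w.2 ∈ affineSpan ℝ (Prod.snd '' (T : Set (E d × E d))) ∧ ∀ t ∈ T, NN w t

open scoped Classical in
lemma card_VV_le {P : Finset (E d)} {Y T : Finset (E d × E d)} (hY : Y ⊆ P ×ˢ P) :
    (VV Y T).card ≤ P.card := by
  have hinj : Set.InjOn Prod.fst (VV Y T : Set (E d × E d)) := by
    intro z hz w hw h
    have hz' := (Finset.mem_filter.1 hz).2
    have hw' := (Finset.mem_filter.1 hw).2
    refine Prod.ext h ?_
    have h1 : z.2 - w.2 ∈ (vectorSpan ℝ (Prod.snd '' (T : Set (E d × E d))))ᗮ := by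
      apply sub_mem_orth
      rintro a ⟨t, ht, rfl⟩
      have a1 : dist z.1 t.1 = dist z.2 t.2 := hz'.2 t ht
      have a2 : dist w.1 t.1 = dist w.2 t.2 := hw'.2 t ht
      rw [← a1, ← a2, h]
    have h2 : z.2 - w.2 ∈ vectorSpan ℝ (Prod.snd '' (T : Set (E d × E d))) := by
      have := AffineSubspace.vsub_mem_direction hz'.1 hw'.1
      rw [direction_affineSpan] at this
      exact this
    have h3 := Submodule.inner_right_of_mem_orthogonal h2 h1
    exact sub_eq_zero.1 (inner_self_eq_zero.1 h3)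
  rw [← Finset.card_image_of_injOn hinj]
  refine Finset.card_le_card ?_
  intro x hx
  obtain ⟨z, hz, rfl⟩ := Finset.mem_image.1 hx
  exact (Finset.mem_product.1 (hY (Finset.mem_filter.1 hz).1)).1

/-- a small spanning subset -/
lemma exists_span (N : Finset (E d × E d)) :
    ∃ T ⊆ N, T.card ≤ d + 1 ∧
      ∀ z ∈ N, z.1 ∈ affineSpan ℝ (Prod.fst '' (T : Set (E d × E d))) := by
  classical
  obtain ⟨t, hts, hspan, hind⟩ := exists_affineIndependent ℝ (E d)
    (Prod.fst '' (N : Set (E d × E d)))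
  have hfin : (Prod.fst '' (N : Set (E d × E d))).Finite := N.finite_toSet.image _
  have htfin : t.Finite := hfin.subset hts
  have hch : ∀ x ∈ t, ∃ z ∈ N, z.1 = x := by
    intro x hx
    obtain ⟨z, hz, h⟩ := hts hx
    exact ⟨z, hz, h⟩
  choose! g hg1 hg2 using hch
  have : Fintype t := htfin.fintype
  have hcard : t.toFinset.card ≤ d + 1 := by
    have h1 : Fintype.card t ≤ finrank ℝ (vectorSpan ℝ (Set.range ((↑) : t → E d))) + 1 :=
      hind.card_le_finrank_succ
    have h2 : finrank ℝ (vectorSpan ℝ (Set.range ((↑) : t → E d))) ≤ d := by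
      have := Submodule.finrank_le (vectorSpan ℝ (Set.range ((↑) : t → E d)))
      rwa [finrank_euclideanSpace, Fintype.card_fin] at this
    rw [Set.toFinset_card]
    exact h1.trans (by gcongr)
  refine ⟨t.toFinset.image g, ?_, ?_, ?_⟩
  · intro z hz
    obtain ⟨x, hx, rfl⟩ := Finset.mem_image.1 hz
    exact hg1 x (Set.mem_toFinset.1 hx)
  · exact Finset.card_image_le.trans hcard
  · intro z hz
    have himg : Prod.fst '' ((t.toFinset.image g : Finset (E d × E d)) : Set (E d × E d)) = t := by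
      ext x
      constructor
      · rintro ⟨w, hw, rfl⟩
        obtain ⟨y, hy, rfl⟩ := Finset.mem_image.1 (Finset.mem_coe.1 hw)
        rw [hg2 y (Set.mem_toFinset.1 hy)]
        exact Set.mem_toFinset.1 hy
      · intro hx
        exact ⟨g x, Finset.mem_coe.2 (Finset.mem_image.2 ⟨x, Set.mem_toFinset.2 hx, rfl⟩), hg2 x hx⟩
    rw [himg, hspan]
    exact subset_affineSpan ℝ _ ⟨z, hz, rfl⟩

/-! ### counting -/

lemma desc_le (k Y s : ℕ) (hk : k ≤ Y) :
    k.descFactorial s * Y ^ s ≤ k ^ s * Y.descFactorial s := by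
  induction s with
  | zero => simp
  | succ s ih =>
    rw [Nat.descFactorial_succ, Nat.descFactorial_succ, pow_succ, pow_succ]
    have h1 : (k - s) * Y ≤ k * (Y - s) := by
      rcases Nat.le_total k s with h | h
      · rw [Nat.sub_eq_zero_of_le h, zero_mul]; exact Nat.zero_le _
      · rw [Nat.sub_mul, Nat.mul_sub]
        have : k * s ≤ s * Y := by rw [mul_comm s Y]; exact Nat.mul_le_mul_right _ hk
        omega
    calc (k - s) * k.descFactorial s * (Y ^ s * Y)
        = (k.descFactorial s * Y ^ s) * ((k - s) * Y) := by ring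
      _ ≤ (k ^ s * Y.descFactorial s) * (k * (Y - s)) := Nat.mul_le_mul ih h1
      _ = k ^ s * k * ((Y - s) * Y.descFactorial s) := by ring

lemma choose_le (k Y s : ℕ) (hk : k ≤ Y) : k.choose s * Y ^ s ≤ k ^ s * Y.choose s := by
  have h := desc_le k Y s hk
  rw [Nat.descFactorial_eq_factorial_mul_choose, Nat.descFactorial_eq_factorial_mul_choose] at h
  have hf : 0 < s.factorial := Nat.factorial_pos s
  refine le_of_mul_le_mul_left (a := s.factorial) ?_ hf
  calc s.factorial * (k.choose s * Y ^ s) = s.factorial * k.choose s * Y ^ s := by ring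
    _ ≤ k ^ s * (s.factorial * Y.choose s) := h
    _ = s.factorial * (k ^ s * Y.choose s) := by ring

/-- `P(S ⊆ Om) ≤ (k/|Y|)^|S|` -/
lemma card_super_le {α : Type*} [DecidableEq α] (Y S : Finset α) (k : ℕ) (hk : k ≤ Y.card)
    (hS : S ⊆ Y) :
    ((Y.powersetCard k).filter fun Om => S ⊆ Om).card * Y.card ^ S.card ≤
      k ^ S.card * Y.card.choose k := by
  rcases Nat.lt_or_ge k S.card with hlt | hge
  · have : (Y.powersetCard k).filter (fun Om => S ⊆ Om) = ∅ := by
      refine Finset.filter_eq_empty_iff.2 fun Om hOm h => ?_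
      have := Finset.card_le_card h
      rw [(Finset.mem_powersetCard.1 hOm).2] at this
      omega
    rw [this]
    simp
  · have hinj : ((Y.powersetCard k).filter fun Om => S ⊆ Om).card ≤
        ((Y \ S).powersetCard (k - S.card)).card := by
      refine Finset.card_le_card_of_injOn (fun Om => Om \ S) ?_ ?_
      · intro Om hOm
        obtain ⟨h1, h2⟩ := Finset.mem_filter.1 (Finset.mem_coe.1 hOm)
        obtain ⟨h3, h4⟩ := Finset.mem_powersetCard.1 h1
        refine Finset.mem_coe.2 (Finset.mem_powersetCard.2 ⟨Finset.sdiff_subset_sdiff h3 le_rfl, ?_⟩)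
        rw [Finset.card_sdiff_of_subset h2, h4]
      · intro Om hOm Om' hOm' h
        have h1 := (Finset.mem_filter.1 (Finset.mem_coe.1 hOm)).2
        have h2 := (Finset.mem_filter.1 (Finset.mem_coe.1 hOm')).2
        have h' : Om \ S = Om' \ S := h
        rw [← Finset.sdiff_union_of_subset h1, h', Finset.sdiff_union_of_subset h2]
    rw [Finset.card_powersetCard, Finset.card_sdiff_of_subset hS] at hinj
    have h1 := Nat.choose_mul (n := Y.card) (k := k) (s := S.card) hge
    have h2 := choose_le k Y.card S.card hk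
    have hpos : 0 < Y.card.choose S.card := Nat.choose_pos (Finset.card_le_card hS)
    refine le_of_mul_le_mul_left (a := Y.card.choose S.card) ?_ hpos
    calc Y.card.choose S.card *
          (((Y.powersetCard k).filter fun Om => S ⊆ Om).card * Y.card ^ S.card)
        ≤ Y.card.choose S.card * ((Y.card - S.card).choose (k - S.card) * Y.card ^ S.card) := by
          gcongr
      _ = (Y.card.choose S.card * (Y.card - S.card).choose (k - S.card)) * Y.card ^ S.card := by
          ring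
      _ = (Y.card.choose k * k.choose S.card) * Y.card ^ S.card := by rw [h1]
      _ = Y.card.choose k * (k.choose S.card * Y.card ^ S.card) := by ring
      _ ≤ Y.card.choose k * (k ^ S.card * Y.card.choose S.card) := by gcongr
      _ = Y.card.choose S.card * (k ^ S.card * Y.card.choose k) := by ring

open scoped Classical in
/-- the cliques of size `s` in the sample -/
theorem count_cliques (P : Finset (E d)) (Y : Finset (E d × E d)) (hY : Y ⊆ P ×ˢ P) (k s : ℕ)
    (hk : k ≤ Y.card) (hY0 : 0 < Y.card) (hs : d + 1 ≤ s) :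
    ((((Y.powersetCard k).filter fun Om => s ≤ nu Om).card : ℕ) : ℝ) ≤
      (∑ j ∈ range (d + 2), (k : ℝ) ^ j * (P.card.choose (s - j) : ℝ) *
        ((k : ℝ) / Y.card) ^ (s - j)) * (Y.card.choose k : ℝ) := by
  -- union bound
  have hcov : (Y.powersetCard k).filter (fun Om => s ≤ nu Om) ⊆
      (range (d + 2)).biUnion fun j => (Y.powersetCard j).biUnion fun T =>
        ((VV Y T \ T).powersetCard (s - j)).biUnion fun R =>
          (Y.powersetCard k).filter fun Om => T ∪ R ⊆ Om := by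
    intro Om hOm
    obtain ⟨hOm1, hOm2⟩ := Finset.mem_filter.1 hOm
    have hOmY := (Finset.mem_powersetCard.1 hOm1).1
    obtain ⟨N, hN, hc, hNs⟩ := exists_clq_of_le hOm2
    obtain ⟨T, hT, hTc, hspan⟩ := exists_span N
    simp only [Finset.mem_biUnion, Finset.mem_range]
    refine ⟨T.card, by omega, T, Finset.mem_powersetCard.2 ⟨(hT.trans hN).trans hOmY, rfl⟩,
      N \ T, ?_, ?_⟩
    · refine Finset.mem_powersetCard.2 ⟨?_, ?_⟩
      · refine Finset.sdiff_subset_sdiff ?_ le_rfl
        intro w hw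
        refine Finset.mem_filter.2 ⟨hOmY (hN hw), ?_, fun t ht => hc w hw t (hT ht)⟩
        exact mem_span_snd hc hT hw (hspan w hw)
      · rw [Finset.card_sdiff_of_subset hT, hNs]
    · refine Finset.mem_filter.2 ⟨hOm1, ?_⟩
      rw [Finset.union_sdiff_of_subset hT]
      exact hN
  have hYr : (0 : ℝ) < Y.card := by exact_mod_cast hY0
  have h1 : ((((Y.powersetCard k).filter fun Om => s ≤ nu Om).card : ℕ) : ℝ) ≤
      ∑ j ∈ range (d + 2), ∑ T ∈ Y.powersetCard j, ∑ R ∈ (VV Y T \ T).powersetCard (s - j),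
        (((Y.powersetCard k).filter fun Om => T ∪ R ⊆ Om).card : ℝ) := by
    have := Finset.card_le_card hcov
    have h2 := this.trans Finset.card_biUnion_le
    have h3 : ∑ j ∈ range (d + 2), ((Y.powersetCard j).biUnion fun T =>
        ((VV Y T \ T).powersetCard (s - j)).biUnion fun R =>
          (Y.powersetCard k).filter fun Om => T ∪ R ⊆ Om).card ≤
        ∑ j ∈ range (d + 2), ∑ T ∈ Y.powersetCard j, ∑ R ∈ (VV Y T \ T).powersetCard (s - j),
        ((Y.powersetCard k).filter fun Om => T ∪ R ⊆ Om).card := by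
      refine Finset.sum_le_sum fun j _ => Finset.card_biUnion_le.trans ?_
      exact Finset.sum_le_sum fun T _ => Finset.card_biUnion_le
    exact_mod_cast h2.trans h3
  refine h1.trans ?_
  rw [Finset.sum_mul]
  refine Finset.sum_le_sum fun j hj => ?_
  have hj' : j ≤ d + 1 := by
    have := Finset.mem_range.1 hj
    omega
  -- a single term
  have hterm : ∀ T ∈ Y.powersetCard j, ∀ R ∈ (VV Y T \ T).powersetCard (s - j),
      (((Y.powersetCard k).filter fun Om => T ∪ R ⊆ Om).card : ℝ) ≤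
        ((k : ℝ) / Y.card) ^ s * (Y.card.choose k : ℝ) := by
    intro T hT R hR
    obtain ⟨hT1, hT2⟩ := Finset.mem_powersetCard.1 hT
    obtain ⟨hR1, hR2⟩ := Finset.mem_powersetCard.1 hR
    have hRY : R ⊆ Y := fun x hx =>
      (Finset.mem_filter.1 (Finset.mem_sdiff.1 (hR1 hx)).1).1
    have hdisj : Disjoint T R := by
      rw [Finset.disjoint_left]
      intro x hx hx'
      exact (Finset.mem_sdiff.1 (hR1 hx')).2 hx
    have hcard : (T ∪ R).card = s := by
      rw [Finset.card_union_of_disjoint hdisj, hT2, hR2]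
      omega
    have h2 := card_super_le Y (T ∪ R) k hk (Finset.union_subset hT1 hRY)
    rw [hcard] at h2
    have h3 : ((((Y.powersetCard k).filter fun Om => T ∪ R ⊆ Om).card : ℕ) : ℝ) *
        (Y.card : ℝ) ^ s ≤ (k : ℝ) ^ s * (Y.card.choose k : ℝ) := by exact_mod_cast h2
    rw [div_pow, div_mul_eq_mul_div, le_div_iff₀ (pow_pos hYr s)]
    exact h3
  have hinner : ∀ T ∈ Y.powersetCard j, ∑ R ∈ (VV Y T \ T).powersetCard (s - j),
      (((Y.powersetCard k).filter fun Om => T ∪ R ⊆ Om).card : ℝ) ≤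
        (P.card.choose (s - j) : ℝ) * (((k : ℝ) / Y.card) ^ s * (Y.card.choose k : ℝ)) := by
    intro T hT
    refine (Finset.sum_le_card_nsmul _ _ _ (hterm T hT)).trans ?_
    rw [nsmul_eq_mul, Finset.card_powersetCard]
    gcongr
    exact (Finset.card_le_card Finset.sdiff_subset).trans (card_VV_le hY)
  refine (Finset.sum_le_card_nsmul _ _ _ hinner).trans ?_
  rw [nsmul_eq_mul, Finset.card_powersetCard]
  have hYj : (Y.card.choose j : ℝ) ≤ (Y.card : ℝ) ^ j := by
    exact_mod_cast Nat.choose_le_pow Y.card j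
  calc (Y.card.choose j : ℝ) * ((P.card.choose (s - j) : ℝ) *
        (((k : ℝ) / Y.card) ^ s * (Y.card.choose k : ℝ)))
      ≤ (Y.card : ℝ) ^ j * ((P.card.choose (s - j) : ℝ) *
        (((k : ℝ) / Y.card) ^ s * (Y.card.choose k : ℝ))) := by gcongr
    _ = (k : ℝ) ^ j * (P.card.choose (s - j) : ℝ) * ((k : ℝ) / Y.card) ^ (s - j) *
        (Y.card.choose k : ℝ) := by
        have hsj : s = j + (s - j) := by omega
        have h5 : ((k : ℝ) / Y.card) ^ s = ((k : ℝ) / Y.card) ^ j * ((k : ℝ) / Y.card) ^ (s - j) := by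
          rw [← pow_add]
          congr 1
        rw [h5, div_pow _ _ j]
        have h6 : (Y.card : ℝ) ^ j * ((k : ℝ) ^ j / (Y.card : ℝ) ^ j) = (k : ℝ) ^ j :=
          mul_div_cancel₀ _ (pow_pos hYr j).ne'
        calc (Y.card : ℝ) ^ j * ((P.card.choose (s - j) : ℝ) *
              ((k : ℝ) ^ j / (Y.card : ℝ) ^ j * ((k : ℝ) / Y.card) ^ (s - j) *
                (Y.card.choose k : ℝ)))
            = ((Y.card : ℝ) ^ j * ((k : ℝ) ^ j / (Y.card : ℝ) ^ j)) * (P.card.choose (s - j) : ℝ) *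
              ((k : ℝ) / Y.card) ^ (s - j) * (Y.card.choose k : ℝ) := by ring
          _ = _ := by rw [h6]

lemma choose_mul_pow_le (n r : ℕ) (q : ℝ) (hq : 0 ≤ q) (hr : 1 ≤ r) :
    (n.choose r : ℝ) * q ^ r ≤ (Real.exp 1 * (n * q) / r) ^ r := by
  have hr' : (0 : ℝ) < r := by exact_mod_cast hr
  have h1 : (n.choose r : ℝ) ≤ (n : ℝ) ^ r / (r.factorial : ℝ) := Nat.choose_le_pow_div r n
  have h2 : (r : ℝ) ^ r / (r.factorial : ℝ) ≤ Real.exp r :=
    Real.pow_div_factorial_le_exp (r : ℝ) hr'.le r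
  have hf : (0 : ℝ) < (r.factorial : ℝ) := by exact_mod_cast Nat.factorial_pos r
  have h3 : (1 : ℝ) / (r.factorial : ℝ) ≤ Real.exp r / (r : ℝ) ^ r := by
    rw [le_div_iff₀ (pow_pos hr' r)]
    calc (1 : ℝ) / (r.factorial : ℝ) * (r : ℝ) ^ r = (r : ℝ) ^ r / (r.factorial : ℝ) := by ring
      _ ≤ Real.exp r := h2
  calc (n.choose r : ℝ) * q ^ r ≤ (n : ℝ) ^ r / (r.factorial : ℝ) * q ^ r := by gcongr
    _ = (n * q) ^ r * (1 / (r.factorial : ℝ)) := by rw [mul_pow]; ring
    _ ≤ (n * q) ^ r * (Real.exp r / (r : ℝ) ^ r) := by gcongr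
    _ = (Real.exp 1 * (n * q) / r) ^ r := by
        rw [div_pow, mul_pow (Real.exp 1)]
        have : Real.exp (r : ℝ) = Real.exp 1 ^ r := by
          rw [← Real.exp_nat_mul, mul_one]
        rw [this]
        ring

/-- **the average clique number of a random sample** -/
theorem avg_nu (d : ℕ) (hd : 4 ≤ d) (ε : ℝ) (hε : 0 < ε) :
    ∃ (m0 : ℕ) (θ : ℝ), 0 < θ ∧ ∀ (P : Finset (E d)) (Y : Finset (E d × E d)), Y ⊆ P ×ˢ P →
      ∀ m k : ℕ, m0 ≤ m → k ≤ m ^ d → k ≤ Y.card →
      (P.card : ℝ) * k ≤ θ * (m : ℝ) ^ (d - 2) * Y.card →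
      ∑ Om ∈ Y.powersetCard k, (nu Om : ℝ) ≤ ε * (m : ℝ) ^ (d - 2) * (Y.card.choose k : ℝ) := by
  classical
  have hb : 0 < ε / 8 := by positivity
  have hη : 0 < ε / (2 * ((d : ℝ) + 2)) := by positivity
  -- threshold
  have htend := tendsto_rpow_mul_exp_neg_mul_atTop_nhds_zero ((d * (d + 2) : ℕ) : ℝ) (ε / 8) hb
  have hev := htend.eventually_lt_const hη
  obtain ⟨X, hX⟩ := Filter.eventually_atTop.1 hev
  refine ⟨max 1 (max ⌈8 * ((d : ℝ) + 1) / ε⌉₊ ⌈X⌉₊), ε * Real.exp (-2) / 8, by positivity, ?_⟩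
  intro P Y hY m k hm hkm hkY hnk
  have hm1 : 1 ≤ m := (le_max_left _ _).trans hm
  have hm2 : 8 * ((d : ℝ) + 1) / ε ≤ m :=
    Nat.ceil_le.1 (((le_max_left _ _).trans (le_max_right _ _)).trans hm)
  have hm3 : X ≤ m := Nat.ceil_le.1 (((le_max_right _ _).trans (le_max_right _ _)).trans hm)
  have hm1' : (1 : ℝ) ≤ m := by exact_mod_cast hm1
  have hm0' : (0 : ℝ) < m := by linarith
  set M : ℝ := (m : ℝ) ^ (d - 2) with hM
  have hmM : (m : ℝ) ≤ M := by
    calc (m : ℝ) = (m : ℝ) ^ 1 := (pow_one _).symm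
      _ ≤ (m : ℝ) ^ (d - 2) := pow_le_pow_right₀ hm1' (by omega)
  have hM1 : 1 ≤ M := hm1'.trans hmM
  rcases Nat.eq_zero_or_pos Y.card with hY0 | hY0
  · have hYe : Y = ∅ := Finset.card_eq_zero.1 hY0
    have hk0 : k = 0 := by omega
    subst hk0
    have : ∑ Om ∈ Y.powersetCard 0, (nu Om : ℝ) = 0 := by
      rw [Finset.powersetCard_zero, Finset.sum_singleton]
      have := nu_le_card (∅ : Finset (E d × E d))
      rw [Finset.card_empty] at this
      have h0 : nu (∅ : Finset (E d × E d)) = 0 := by omega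
      rw [h0]
      simp
    rw [this]
    positivity
  have hYr : (0 : ℝ) < Y.card := by exact_mod_cast hY0
  have hk8 : 8 * ((d : ℝ) + 1) ≤ ε * M := by
    rw [div_le_iff₀ hε] at hm2
    nlinarith [mul_le_mul_of_nonneg_left hmM hε.le]
  set s : ℕ := ⌊ε / 2 * M⌋₊ with hs
  have hs1 : (s : ℝ) ≤ ε / 2 * M := Nat.floor_le (by positivity)
  have hs2 : ε / 2 * M < s + 1 := Nat.lt_floor_add_one _
  have hd0 : (0 : ℝ) ≤ d := Nat.cast_nonneg d
  have hs3 : 2 * ((d : ℝ) + 1) ≤ s := by nlinarith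
  have hs4 : 2 * (d + 1) ≤ s := by exact_mod_cast hs3
  have hs5 : ε / 4 * M ≤ s := by nlinarith
  -- the bound for the number of bad samples
  have hcnt := count_cliques P Y hY k s hkY hY0 (by omega)
  set q : ℝ := (k : ℝ) / Y.card with hq
  have hq0 : 0 ≤ q := by positivity
  have hnq : (P.card : ℝ) * q ≤ ε * Real.exp (-2) / 8 * M := by
    rw [hq, mul_div_assoc', div_le_iff₀ hYr]
    exact hnk
  have hkm' : (k : ℝ) ≤ (m : ℝ) ^ d := by exact_mod_cast hkm
  have hterm : ∀ j ∈ range (d + 2), (k : ℝ) ^ j * (P.card.choose (s - j) : ℝ) * q ^ (s - j) ≤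
      ((m : ℝ) ^ d) ^ (d + 1) * Real.exp (-(ε / 8) * m) := by
    intro j hj
    have hj' : j ≤ d + 1 := by
      have := Finset.mem_range.1 hj
      omega
    have hr1 : 1 ≤ s - j := by omega
    have hr2 : ε / 8 * M ≤ ((s - j : ℕ) : ℝ) := by
      have h1 : ((s - j : ℕ) : ℝ) = (s : ℝ) - j := by
        rw [Nat.cast_sub (by omega)]
      have h2 : (j : ℝ) ≤ (d : ℝ) + 1 := by exact_mod_cast hj'
      rw [h1]
      nlinarith
    have hr0 : (0 : ℝ) < ((s - j : ℕ) : ℝ) := by exact_mod_cast hr1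
    have h1 := choose_mul_pow_le P.card (s - j) q hq0 hr1
    have h2 : Real.exp 1 * ((P.card : ℝ) * q) / ((s - j : ℕ) : ℝ) ≤ Real.exp (-1) := by
      rw [div_le_iff₀ hr0]
      calc Real.exp 1 * ((P.card : ℝ) * q) ≤ Real.exp 1 * (ε * Real.exp (-2) / 8 * M) := by gcongr
        _ = (Real.exp 1 * Real.exp (-2)) * (ε / 8 * M) := by ring
        _ = Real.exp (-1) * (ε / 8 * M) := by
            rw [← Real.exp_add]
            norm_num
        _ ≤ Real.exp (-1) * ((s - j : ℕ) : ℝ) := by gcongr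
    have h3 : (P.card.choose (s - j) : ℝ) * q ^ (s - j) ≤ Real.exp (-(ε / 8) * m) := by
      calc (P.card.choose (s - j) : ℝ) * q ^ (s - j)
          ≤ (Real.exp 1 * ((P.card : ℝ) * q) / ((s - j : ℕ) : ℝ)) ^ (s - j) := h1
        _ ≤ Real.exp (-1) ^ (s - j) := by gcongr
        _ = Real.exp (-((s - j : ℕ) : ℝ)) := by
            rw [← Real.exp_nat_mul]
            ring_nf
        _ ≤ Real.exp (-(ε / 8) * m) := by
            apply Real.exp_le_exp.2
            have : ε / 8 * (m : ℝ) ≤ ε / 8 * M := by gcongr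
            linarith
    have hmd : (1 : ℝ) ≤ (m : ℝ) ^ d := one_le_pow₀ hm1'
    calc (k : ℝ) ^ j * (P.card.choose (s - j) : ℝ) * q ^ (s - j)
        = (k : ℝ) ^ j * ((P.card.choose (s - j) : ℝ) * q ^ (s - j)) := by ring
      _ ≤ ((m : ℝ) ^ d) ^ j * Real.exp (-(ε / 8) * m) := by gcongr
      _ ≤ ((m : ℝ) ^ d) ^ (d + 1) * Real.exp (-(ε / 8) * m) := by
          gcongr
  have hsum : (k : ℝ) * ∑ j ∈ range (d + 2), (k : ℝ) ^ j * (P.card.choose (s - j) : ℝ) *
      q ^ (s - j) ≤ ε / 2 := by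
    have h1 := Finset.sum_le_card_nsmul _ _ _ hterm
    rw [nsmul_eq_mul, Finset.card_range] at h1
    have h2 := (hX m hm3).le
    rw [Real.rpow_natCast] at h2
    have hpos : (0 : ℝ) ≤ Real.exp (-(ε / 8) * m) := (Real.exp_pos _).le
    calc (k : ℝ) * ∑ j ∈ range (d + 2), (k : ℝ) ^ j * (P.card.choose (s - j) : ℝ) * q ^ (s - j)
        ≤ (m : ℝ) ^ d * (((d + 2 : ℕ) : ℝ) *
          (((m : ℝ) ^ d) ^ (d + 1) * Real.exp (-(ε / 8) * m))) := by
          refine mul_le_mul hkm' h1 ?_ (by positivity)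
          exact Finset.sum_nonneg fun j _ => by positivity
      _ = ((d : ℝ) + 2) * ((m : ℝ) ^ (d * (d + 2)) * Real.exp (-(ε / 8) * m)) := by
          have : (m : ℝ) ^ (d * (d + 2)) = (m : ℝ) ^ d * ((m : ℝ) ^ d) ^ (d + 1) := by
            rw [← pow_mul, ← pow_add]
            congr 1
            ring
          rw [this]
          push_cast
          ring
      _ ≤ ((d : ℝ) + 2) * (ε / (2 * ((d : ℝ) + 2))) := by gcongr
      _ = ε / 2 := by field_simp
  -- split
  have hsplit : ∀ Om ∈ Y.powersetCard k, (nu Om : ℝ) ≤ s + (if s ≤ nu Om then (k : ℝ) else 0) := by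
    intro Om hOm
    split_ifs with h
    · have h1 : (nu Om : ℝ) ≤ k := by
        have := nu_le_card Om
        rw [(Finset.mem_powersetCard.1 hOm).2] at this
        exact_mod_cast this
      have : (0 : ℝ) ≤ s := Nat.cast_nonneg s
      linarith
    · have : nu Om ≤ s := by omega
      have h1 : (nu Om : ℝ) ≤ s := by exact_mod_cast this
      linarith
  have hC0 : (0 : ℝ) ≤ (Y.card.choose k : ℝ) := Nat.cast_nonneg _
  calc ∑ Om ∈ Y.powersetCard k, (nu Om : ℝ)
      ≤ ∑ Om ∈ Y.powersetCard k, ((s : ℝ) + (if s ≤ nu Om then (k : ℝ) else 0)) :=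
        Finset.sum_le_sum hsplit
    _ = s * (Y.card.choose k : ℝ) +
        (((Y.powersetCard k).filter fun Om => s ≤ nu Om).card : ℝ) * k := by
        rw [Finset.sum_add_distrib, Finset.sum_const, Finset.card_powersetCard, nsmul_eq_mul,
          ← Finset.sum_filter, Finset.sum_const, nsmul_eq_mul]
        ring
    _ ≤ s * (Y.card.choose k : ℝ) + ((∑ j ∈ range (d + 2), (k : ℝ) ^ j *
        (P.card.choose (s - j) : ℝ) * q ^ (s - j)) * (Y.card.choose k : ℝ)) * k := by
        gcongr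
    _ = (s + (k : ℝ) * ∑ j ∈ range (d + 2), (k : ℝ) ^ j *
        (P.card.choose (s - j) : ℝ) * q ^ (s - j)) * (Y.card.choose k : ℝ) := by ring
    _ ≤ (ε / 2 * M + ε / 2 * M) * (Y.card.choose k : ℝ) := by
        refine mul_le_mul_of_nonneg_right ?_ hC0
        have : ε / 2 * 1 ≤ ε / 2 * M := by gcongr
        linarith
    _ = ε * M * (Y.card.choose k : ℝ) := by ring

end Crest.Agent.R065.Nu397
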