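import Crest.Agent.R065.Cut_477
import Crest.Agent.R065.Flags_669
import Crest.Agent.R065.Pins_348

/-!
# Row 65, `d ≥ 4`: Lemma (O1Y) of the bipartite engine

A prime of dimension `d - 1` contains at most `C t₀ T^{d-2} deg P` or at most `ν` elements of `Y`,
if every element of `Y` is null to at least `|X| / (2 t₀)` elements of `X`, and `X`, `Y` are
separated in degree `T`.
-/

set_option autoImplicit false

open MvPolynomial Module Finset

namespace Crest.Agent.R065.O1Y477

open Crest.Agent.R065.HF669 Crest.Agent.R065.Base348 Crest.Agent.R065.Top348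
  Crest.Agent.R065.Pins348 Crest.Agent.R065.Cut477

section flat

variable {k : Type*} [Field k] [Infinite k] {σ : Type*} [Fintype σ]

/-- separated points on a prime -/
lemma card_le_prime {A : Finset (σ → k)} {T : ℕ} (hA : Sep (A : Set (σ → k)) T)
    (P : Ideal (MvPolynomial σ k)) [P.IsPrime] (h : (A : Set (σ → k)) ⊆ ZV P) :
    A.card ≤ degP P * (T + dimP P).choose (dimP P) :=
  (card_le_HF h hA).trans (HF_le_degP P T)

/-- separated points on a hypersurface section of a prime -/
lemma card_le_cut {A : Finset (σ → k)} {T : ℕ} (hA : Sep (A : Set (σ → k)) T)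
    (P : Ideal (MvPolynomial σ k)) [P.IsPrime] (h : (A : Set (σ → k)) ⊆ ZV P)
    {g : MvPolynomial σ k} (hg : g ∉ P) {e : ℕ} (he : g.totalDegree ≤ e)
    (h0 : ∀ a ∈ A, eval a g = 0) {r : ℕ} (hr : dimP P = r + 1) :
    A.card ≤ e * degP P * (T + r).choose r := by
  classical
  obtain ⟨S, h1, _, h3, h4⟩ := exists_cut hg he
  have hsub : A ⊆ S.biUnion fun Q => A.filter fun a => a ∈ ZV Q := by
    intro a ha
    obtain ⟨Q, hQ, haQ⟩ := h3 a (h ha) (h0 a ha)
    rw [mem_biUnion]
    exact ⟨Q, hQ, mem_filter.2 ⟨ha, haQ⟩⟩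
  have h5 : A.card ≤ ∑ Q ∈ S, (A.filter fun a => a ∈ ZV Q).card :=
    (card_le_card hsub).trans card_biUnion_le
  refine h5.trans ?_
  have h6 : ∀ Q ∈ S, (A.filter fun a => a ∈ ZV Q).card ≤ degP Q * (T + r).choose r := by
    intro Q hQ
    have := (h1 Q hQ).1
    have hd : dimP Q = r := by have := (h1 Q hQ).2.2.2; omega
    have h7 := card_le_prime (A := A.filter fun a => a ∈ ZV Q) (T := T)
      (hA.subset (by
        intro a ha
        rw [mem_coe, mem_filter] at ha
        exact ha.1)) Q (by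
        intro a ha
        rw [mem_coe, mem_filter] at ha
        exact ha.2)
    rwa [hd] at h7
  refine (sum_le_sum h6).trans ?_
  rw [← sum_mul]
  exact Nat.mul_le_mul_right _ h4

omit [Infinite k] in
/-- parametrisation of the affine span of a finite set -/
lemma exists_param {A : Finset (σ → k)} {a0 : σ → k} (ha0 : a0 ∈ A) {w : ℕ}
    (hw : finrank k (vectorSpan k (A : Set (σ → k))) = w) :
    ∃ (L : (Fin w → k) →ₗ[k] (σ → k)) (φ : MvPolynomial σ k →ₐ[k] MvPolynomial (Fin w) k),
      Function.Injective L ∧ (∀ a ∈ A, ∃ u, a0 + L u = a) ∧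
      (∀ (f : MvPolynomial σ k) (m : ℕ), f.totalDegree ≤ m → (φ f).totalDegree ≤ m) ∧
      ∀ (f : MvPolynomial σ k) (u : Fin w → k), eval u (φ f) = eval (a0 + L u) f := by
  classical
  set V := vectorSpan k (A : Set (σ → k)) with hV
  set b := finBasisOfFinrankEq k V hw
  set L : (Fin w → k) →ₗ[k] (σ → k) := V.subtype ∘ₗ (b.equivFun.symm : (Fin w → k) →ₗ[k] V)
    with hL
  set G : σ → MvPolynomial (Fin w) k :=
    fun i => C (a0 i) + ∑ j, C (L (Pi.single j 1) i) * X j with hG
  have hG1 : ∀ i, G i ∈ W k (Fin w) 1 := by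
    intro i
    refine Submodule.add_mem _ (C_mem_W _ _) (Submodule.sum_mem _ fun j _ => ?_)
    have := mul_mem_W (C_mem_W (σ := Fin w) (L (Pi.single j 1) i) 0)
      (X_mem_W (k := k) (σ := Fin w) j (le_refl 1))
    rwa [zero_add] at this
  have hG2 : ∀ i u, eval u (G i) = a0 i + L u i := by
    intro i u
    have h1 : L u = ∑ j, u j • L (Pi.single j 1) := by
      rw [LinearMap.pi_apply_eq_sum_univ L u]
      refine sum_congr rfl fun j _ => ?_
      congr 2
      funext l
      rw [Pi.single_apply]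
      simp only [eq_comm]
    simp only [hG, map_add, map_sum, map_mul, eval_C, eval_X]
    rw [h1, Finset.sum_apply]
    congr 1
    refine sum_congr rfl fun j _ => ?_
    rw [Pi.smul_apply, smul_eq_mul, mul_comm]
  refine ⟨L, aeval G, ?_, ?_, ?_, ?_⟩
  · exact V.injective_subtype.comp (b.equivFun.symm.injective)
  · intro a ha
    have h1 : a - a0 ∈ V := by
      have := vsub_mem_vectorSpan k (s := (A : Set (σ → k))) (p₁ := a) (p₂ := a0) ha ha0
      simpa using this
    refine ⟨b.equivFun ⟨a - a0, h1⟩, ?_⟩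
    have : L (b.equivFun ⟨a - a0, h1⟩) = a - a0 := by
      simp [hL]
    rw [this]; abel
  · intro f m hf
    exact totalDegree_aeval_le G hG1 f hf
  · intro f u
    rw [← MvPolynomial.coe_aeval_eq_eval, ← MvPolynomial.coe_aeval_eq_eval]
    change ((aeval u).comp (aeval G)) f = (aeval (a0 + L u)) f
    congr 1
    apply MvPolynomial.algHom_ext
    intro i
    rw [AlgHom.comp_apply, aeval_X, aeval_X]
    have := hG2 i u
    rw [← MvPolynomial.coe_aeval_eq_eval] at this
    exact this

lemma choose_mono' {T v w : ℕ} (h : v ≤ w) : (T + v).choose v ≤ (T + w).choose w := by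
  rw [← Nat.choose_symm_add, ← Nat.choose_symm_add (a := T) (b := w)]
  exact Nat.choose_le_choose _ (by omega)

omit [Infinite k] in
/-- a separated set whose vector span has dimension at most `w` -/
lemma flat_card {A : Finset (σ → k)} {T w : ℕ} (hA : Sep (A : Set (σ → k)) T)
    (hw : finrank k (vectorSpan k (A : Set (σ → k))) ≤ w) : A.card ≤ (T + w).choose w := by
  classical
  rcases A.eq_empty_or_nonempty with rfl | ⟨a0, ha0⟩
  · simp
  obtain ⟨v, hv⟩ : ∃ v, finrank k (vectorSpan k (A : Set (σ → k))) = v := ⟨_, rfl⟩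
  rw [hv] at hw
  obtain ⟨L, φ, hL, hsurj, hdeg, hev⟩ := exists_param ha0 hv
  choose! u hu using hsurj
  have hinj : Set.InjOn u (A : Set (σ → k)) := by
    intro a ha b hb hab
    rw [← hu a ha, ← hu b hb, hab]
  have hsep : Sep ((A.image u : Finset (Fin v → k)) : Set (Fin v → k)) T := by
    intro x hx
    rw [coe_image] at hx
    obtain ⟨a, ha, rfl⟩ := hx
    obtain ⟨f, h1, h2, h3⟩ := hA a ha
    refine ⟨φ f, hdeg f T h1, by rw [hev, hu a ha, h2], ?_⟩
    intro y hy hya
    rw [coe_image] at hy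
    obtain ⟨b, hb, rfl⟩ := hy
    rw [hev, hu b hb]
    exact h3 b hb (fun h => hya (by rw [h]))
  have h1 := card_le_HF (I := (⊥ : Ideal (MvPolynomial (Fin v) k))) (by
    intro x _ p hp
    rw [Submodule.mem_bot] at hp
    rw [hp, map_zero]) hsep
  rw [card_image_of_injOn hinj, HF_bot, Fintype.card_fin] at h1
  exact h1.trans (choose_mono' hw)

/-- a separated set whose vector span has dimension `w + 1`, in a hypersurface not containing the
affine span -/
lemma flat_quad {A : Finset (σ → k)} {T w : ℕ} (hA : Sep (A : Set (σ → k)) T)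
    (hw : finrank k (vectorSpan k (A : Set (σ → k))) = w + 1) {g : MvPolynomial σ k} {e : ℕ}
    (he : g.totalDegree ≤ e) (h0 : ∀ a ∈ A, eval a g = 0) :
    A.card ≤ e * (T + w).choose w ∨ ∀ a ∈ A, ∀ b ∈ A, ∀ s : k, eval (a + s • (b - a)) g = 0 := by
  classical
  rcases A.eq_empty_or_nonempty with rfl | ⟨a0, ha0⟩
  · simp
  obtain ⟨L, φ, hL, hsurj, hdeg, hev⟩ := exists_param ha0 hw
  choose! u hu using hsurj
  have hinj : Set.InjOn u (A : Set (σ → k)) := by
    intro a ha b hb hab
    rw [← hu a ha, ← hu b hb, hab]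
  have hsep : Sep ((A.image u : Finset (Fin (w + 1) → k)) : Set (Fin (w + 1) → k)) T := by
    intro x hx
    rw [coe_image] at hx
    obtain ⟨a, ha, rfl⟩ := hx
    obtain ⟨f, h1, h2, h3⟩ := hA a ha
    refine ⟨φ f, hdeg f T h1, by rw [hev, hu a ha, h2], ?_⟩
    intro y hy hya
    rw [coe_image] at hy
    obtain ⟨b, hb, rfl⟩ := hy
    rw [hev, hu b hb]
    exact h3 b hb (fun h => hya (by rw [h]))
  by_cases hg : φ g = 0
  · right
    intro a ha b hb s
    have e1 : a + s • (b - a) = a0 + L (u a + s • (u b - u a)) := by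
      rw [map_add, map_smul, map_sub]
      have h1 := hu a ha
      have h2 := hu b hb
      have h3 : L (u a) = a - a0 := by rw [← h1]; abel_nf; simp [h1]
      have h4 : L (u b) = b - a0 := by rw [← h2]; abel_nf; simp [h2]
      rw [h3, h4]
      have : b - a0 - (a - a0) = b - a := by abel
      rw [this]; abel
    rw [e1, ← hev, hg, map_zero]
  · left
    have h1 := card_le_cut hsep (⊥ : Ideal (MvPolynomial (Fin (w + 1)) k)) (by
      intro x _ p hp
      rw [Submodule.mem_bot] at hp
      rw [hp, map_zero]) (g := φ g) (by rwa [Submodule.mem_bot]) (hdeg g e he) (by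
      intro x hx
      rw [mem_image] at hx
      obtain ⟨a, ha, rfl⟩ := hx
      rw [hev, hu a ha, h0 a ha]) (r := w) (by rw [dimP_bot, Fintype.card_fin])
    rw [card_image_of_injOn hinj, degP_bot, mul_one] at h1
    exact h1

end flat

section quad

variable {k : Type*} [Field k] {d : ℕ}

/-- the quadric `q(· - y)` -/
noncomputable def qy (y : Pt d k) : MvPolynomial (Fin d ⊕ Fin d) k :=
  ∑ i, (X (Sum.inl i) - C (y.1 i)) * (X (Sum.inr i) - C (y.2 i))

lemma qy_deg (y : Pt d k) : (qy y).totalDegree ≤ 2 := by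
  rw [← mem_W]
  refine Submodule.sum_mem _ fun i _ => ?_
  exact mul_mem_W (a := 1) (b := 1) (Submodule.sub_mem _ (X_mem_W _ le_rfl) (C_mem_W _ _))
    (Submodule.sub_mem _ (X_mem_W _ le_rfl) (C_mem_W _ _))

/-- `q` on vectors indexed by the sum type -/
def qf (v : Fin d ⊕ Fin d → k) : k := ∑ i, v (Sum.inl i) * v (Sum.inr i)

lemma eval_qy (y : Pt d k) (v : Fin d ⊕ Fin d → k) : eval v (qy y) = qf (v - toFn y) := by
  unfold qy qf
  rw [map_sum]
  refine sum_congr rfl fun i _ => ?_
  simp [toFn]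

lemma qf_toFn_sub (z w : Pt d k) : qf (toFn z - toFn w) = q (z - w) := by
  unfold qf q
  refine sum_congr rfl fun i _ => ?_
  simp [toFn]

lemma eval_qy_toFn (y z : Pt d k) : eval (toFn z) (qy y) = 0 ↔ Null z y := by
  rw [eval_qy, qf_toFn_sub]; rfl

/-- bilinear form -/
def Bf (v w : Fin d ⊕ Fin d → k) : k :=
  ∑ i, (v (Sum.inl i) * w (Sum.inr i) + v (Sum.inr i) * w (Sum.inl i))

lemma qf_add (v w : Fin d ⊕ Fin d → k) : qf (v + w) = qf v + qf w + Bf v w := by
  unfold qf Bf
  rw [← sum_add_distrib, ← sum_add_distrib]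
  refine sum_congr rfl fun i _ => ?_
  simp only [Pi.add_apply]; ring

lemma qf_sub (v w : Fin d ⊕ Fin d → k) : qf (v - w) = qf v + qf w - Bf v w := by
  unfold qf Bf
  rw [← sum_add_distrib, ← sum_sub_distrib]
  refine sum_congr rfl fun i _ => ?_
  simp only [Pi.sub_apply]; ring

/-- the form as a linear map to the dual space -/
noncomputable def Phi : (Fin d ⊕ Fin d → k) →ₗ[k] Dual k (Fin d ⊕ Fin d → k) where
  toFun w := ∑ i, (w (Sum.inr i) • LinearMap.proj (Sum.inl i) +
    w (Sum.inl i) • LinearMap.proj (Sum.inr i))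
  map_add' v w := by
    rw [← sum_add_distrib]
    refine sum_congr rfl fun i _ => ?_
    simp only [Pi.add_apply, add_smul]; abel
  map_smul' c w := by
    rw [RingHom.id_apply, smul_sum]
    refine sum_congr rfl fun i _ => ?_
    simp only [Pi.smul_apply, smul_eq_mul, smul_add, mul_smul]

lemma Phi_apply (w v : Fin d ⊕ Fin d → k) : Phi w v = Bf v w := by
  unfold Phi Bf
  simp only [LinearMap.coe_mk, AddHom.coe_mk, LinearMap.sum_apply, LinearMap.add_apply,
    LinearMap.smul_apply, LinearMap.proj_apply, smul_eq_mul]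
  refine sum_congr rfl fun i _ => ?_
  ring

lemma Bf_single_inl (i : Fin d) (w : Fin d ⊕ Fin d → k) :
    Bf (Pi.single (Sum.inl i) 1) w = w (Sum.inr i) := by
  unfold Bf
  rw [sum_eq_single i]
  · simp
  · intro j _ hj
    simp [hj]
  · intro h; exact absurd (mem_univ _) h

lemma Bf_single_inr (i : Fin d) (w : Fin d ⊕ Fin d → k) :
    Bf (Pi.single (Sum.inr i) 1) w = w (Sum.inl i) := by
  unfold Bf
  rw [sum_eq_single i]
  · simp
  · intro j _ hj
    simp [hj]
  · intro h; exact absurd (mem_univ _) h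

lemma Phi_injective : Function.Injective (Phi : (Fin d ⊕ Fin d → k) →ₗ[k] _) := by
  rw [← LinearMap.ker_eq_bot, LinearMap.ker_eq_bot']
  intro w hw
  funext i
  rcases i with i | i
  · have := DFunLike.congr_fun hw (Pi.single (Sum.inr i) 1)
    rw [Phi_apply, Bf_single_inr] at this
    simpa using this
  · have := DFunLike.congr_fun hw (Pi.single (Sum.inl i) 1)
    rw [Phi_apply, Bf_single_inl] at this
    simpa using this

/-- orthogonal subspaces -/
lemma finrank_add_le {V U : Submodule k (Fin d ⊕ Fin d → k)} (h : ∀ v ∈ V, ∀ u ∈ U, Bf v u = 0) :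
    finrank k V + finrank k U ≤ 2 * d := by
  have h1 : U.map Phi ≤ V.dualAnnihilator := by
    rintro _ ⟨u, hu, rfl⟩
    rw [Submodule.mem_dualAnnihilator]
    intro v hv
    rw [Phi_apply]
    exact h v hv u hu
  have h2 := Submodule.finrank_mono h1
  rw [← LinearEquiv.finrank_eq (Submodule.equivMapOfInjective Phi Phi_injective U)] at h2
  have h3 := Subspace.finrank_add_finrank_dualAnnihilator_eq V
  rw [finrank_pi, Fintype.card_sum, Fintype.card_fin] at h3
  omega

/-- orthogonality of the directions of two sets all of whose pairs are null -/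
lemma span_orth {A B : Set (Fin d ⊕ Fin d → k)} (h : ∀ a ∈ A, ∀ b ∈ B, qf (a - b) = 0) :
    ∀ v ∈ vectorSpan k A, ∀ u ∈ vectorSpan k B, Bf v u = 0 := by
  have key : ∀ a ∈ A, ∀ a' ∈ A, ∀ b ∈ B, ∀ b' ∈ B, Bf (a - a') (b - b') = 0 := by
    intro a ha a' ha' b hb b' hb'
    have h1 := h a ha b hb
    have h2 := h a' ha' b hb
    have h3 := h a ha b' hb'
    have h4 := h a' ha' b' hb'
    rw [qf_sub] at h1 h2 h3 h4
    have e : Bf (a - a') (b - b') = Bf a b - Bf a' b - Bf a b' + Bf a' b' := by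
      unfold Bf
      rw [← sum_sub_distrib, ← sum_sub_distrib, ← sum_add_distrib]
      refine sum_congr rfl fun i _ => ?_
      simp only [Pi.sub_apply]; ring
    rw [e]
    linear_combination h2 + h3 - h1 - h4
  intro v hv u hu
  have h1 : ∀ u ∈ B -ᵥ B, ∀ v ∈ vectorSpan k A, Bf v u = 0 := by
    rintro _ ⟨b, hb, b', hb', rfl⟩ v hv
    rw [vectorSpan_def] at hv
    rw [← Phi_apply]
    refine Submodule.span_induction (p := fun v _ => Phi (b -ᵥ b') v = 0) ?_ ?_ ?_ ?_ hv
    · rintro _ ⟨a, ha, a', ha', rfl⟩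
      rw [Phi_apply]
      exact key a ha a' ha' b hb b' hb'
    · simp
    · intro x y _ _ hx hy; rw [map_add, hx, hy, add_zero]
    · intro c x _ hx; rw [map_smul, hx, smul_zero]
  rw [vectorSpan_def] at hu
  rw [← Phi_apply]
  refine Submodule.span_induction (p := fun u _ => Phi u v = 0) ?_ ?_ ?_ ?_ hu
  · intro x hx
    rw [Phi_apply]; exact h1 x hx v hv
  · simp
  · intro x y _ _ hx hy; rw [map_add, LinearMap.add_apply, hx, hy, add_zero]
  · intro c x _ hx; rw [map_smul, LinearMap.smul_apply, hx, smul_zero]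

end quad

section main

variable {d : ℕ}

lemma null_of_line {y : Pt d ℂ} {a b : Fin d ⊕ Fin d → ℂ}
    (h : ∀ s : ℂ, eval (a + s • (b - a)) (qy y) = 0) : qf (b - a) = 0 := by
  have h0 := h 0
  have h1 := h 1
  have h2 := h (-1)
  rw [eval_qy] at h0 h1 h2
  have e0 : a + (0 : ℂ) • (b - a) - toFn y = a - toFn y := by rw [zero_smul, add_zero]
  have e1 : a + (1 : ℂ) • (b - a) - toFn y = (a - toFn y) + (b - a) := by
    rw [one_smul]; abel
  have e2 : a + (-1 : ℂ) • (b - a) - toFn y = (a - toFn y) - (b - a) := by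
    rw [neg_smul, one_smul]; abel
  rw [e0] at h0
  rw [e1, qf_add] at h1
  rw [e2, qf_sub] at h2
  have : 2 * qf (b - a) = 0 := by linear_combination h1 + h2 - 2 * h0
  exact (mul_eq_zero.1 this).resolve_left two_ne_zero

/-- a separated set of points null to `y` whose span has dimension `w + 1` -/
lemma quad_alt {A : Finset (Pt d ℂ)} {T w : ℕ}
    (hA : Sep (toFn '' (A : Set (Pt d ℂ))) T)
    (hw : finrank ℂ (vectorSpan ℂ (toFn '' (A : Set (Pt d ℂ)))) = w + 1) {y : Pt d ℂ}
    (h0 : ∀ a ∈ A, Null a y) :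
    A.card ≤ 2 * (T + w).choose w ∨ ∀ a ∈ A, ∀ b ∈ A, Null a b := by
  classical
  have e : ((A.image toFn : Finset _) : Set (Fin d ⊕ Fin d → ℂ)) =
      toFn '' (A : Set (Pt d ℂ)) := coe_image
  rw [← e] at hA hw
  rcases flat_quad hA hw (qy_deg y) (by
    intro a ha
    rw [mem_image] at ha
    obtain ⟨z, hz, rfl⟩ := ha
    exact (eval_qy_toFn y z).2 (h0 z hz)) with h | h
  · left
    rwa [card_image_of_injective _ toFn_injective] at h
  · right
    intro a ha b hb
    have h1 := null_of_line (h (toFn b) (mem_image_of_mem _ hb) (toFn a) (mem_image_of_mem _ ha))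
    rwa [qf_toFn_sub] at h1

lemma flat_card' {A : Finset (Pt d ℂ)} {T w : ℕ}
    (hA : Sep (toFn '' (A : Set (Pt d ℂ))) T)
    (hw : finrank ℂ (vectorSpan ℂ (toFn '' (A : Set (Pt d ℂ)))) ≤ w) :
    A.card ≤ (T + w).choose w := by
  classical
  have e : ((A.image toFn : Finset _) : Set (Fin d ⊕ Fin d → ℂ)) =
      toFn '' (A : Set (Pt d ℂ)) := coe_image
  rw [← e] at hA hw
  have := flat_card hA hw
  rwa [card_image_of_injective _ toFn_injective] at this

open scoped Classical in
/-- points of `Y` on the prime `P` -/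
noncomputable def onP (Y : Finset (Pt d ℂ)) (P : Ideal (MvPolynomial (Fin d ⊕ Fin d) ℂ)) :
    Finset (Pt d ℂ) :=
  Y.filter fun w => ∀ g ∈ P, eval (toFn w) g = 0

lemma mem_onP {Y : Finset (Pt d ℂ)} {P : Ideal (MvPolynomial (Fin d ⊕ Fin d) ℂ)} {w : Pt d ℂ} :
    w ∈ onP Y P ↔ w ∈ Y ∧ ∀ g ∈ P, eval (toFn w) g = 0 := by
  classical
  simp [onP]

lemma onP_subset (Y : Finset (Pt d ℂ)) (P : Ideal (MvPolynomial (Fin d ⊕ Fin d) ℂ)) :
    onP Y P ⊆ Y := fun _ h => (mem_onP.1 h).1

lemma onP_ZV (Y : Finset (Pt d ℂ)) (P : Ideal (MvPolynomial (Fin d ⊕ Fin d) ℂ)) :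
    ∀ a ∈ toFn '' (onP Y P : Set (Pt d ℂ)), a ∈ ZV P := by
  rintro _ ⟨z, hz, rfl⟩
  exact (mem_onP.1 hz).2

/-- the trivial bound: points of a separated set on a prime -/
theorem card_onP_le {Y : Finset (Pt d ℂ)} {T : ℕ} (hY : Sep (toFn '' (Y : Set (Pt d ℂ))) T)
    (P : Ideal (MvPolynomial (Fin d ⊕ Fin d) ℂ)) [P.IsPrime] :
    (onP Y P).card ≤ degP P * (T + dimP P).choose (dimP P) := by
  classical
  have e : (((onP Y P).image toFn : Finset _) : Set (Fin d ⊕ Fin d → ℂ)) =
      toFn '' (onP Y P : Set (Pt d ℂ)) := coe_image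
  have h1 := card_le_prime (A := (onP Y P).image toFn) (T := T)
    (by rw [e]; exact hY.subset (Set.image_mono (onP_subset Y P))) P
    (by rw [e]; exact onP_ZV Y P)
  rwa [card_image_of_injective _ toFn_injective] at h1

open scoped Classical in
/-- points of a separated set on a prime and null to `x` -/
lemma card_onP_null_le {Y : Finset (Pt d ℂ)} {T : ℕ}
    (hY : Sep (toFn '' (Y : Set (Pt d ℂ))) T)
    (P : Ideal (MvPolynomial (Fin d ⊕ Fin d) ℂ)) [P.IsPrime] {r : ℕ} (hr : dimP P = r + 1)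
    {x : Pt d ℂ} (hx : qy x ∉ P) :
    ((onP Y P).filter fun y => Null x y).card ≤ 2 * degP P * (T + r).choose r := by
  set F := (onP Y P).filter fun y => Null x y with hF
  have e : ((F.image toFn : Finset _) : Set (Fin d ⊕ Fin d → ℂ)) =
      toFn '' (F : Set (Pt d ℂ)) := coe_image
  have hsub : F ⊆ onP Y P := filter_subset _ _
  have h1 := card_le_cut (A := F.image toFn) (T := T)
    (by rw [e]; exact hY.subset (Set.image_mono (hsub.trans (onP_subset Y P)))) P
    (by
      rw [e]
      rintro _ ⟨z, hz, rfl⟩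
      exact (mem_onP.1 (hsub hz)).2) hx (qy_deg x) (by
      intro a ha
      rw [mem_image] at ha
      obtain ⟨z, hz, rfl⟩ := ha
      exact (eval_qy_toFn x z).2 (null_symm (mem_filter.1 hz).2)) hr
  rwa [card_image_of_injective _ toFn_injective] at h1

open scoped Classical in
/-- **Lemma (O1Y).** -/
theorem o1y (hd : 2 ≤ d) {X Y : Finset (Pt d ℂ)} {T : ℕ} {t0 ν : ℝ} (ht0 : 1 ≤ t0)
    (hX : Sep (toFn '' (X : Set (Pt d ℂ))) T) (hY : Sep (toFn '' (Y : Set (Pt d ℂ))) T)
    (hdeg : ∀ y ∈ Y, (X.card : ℝ) ≤ 2 * t0 * (X.filter fun x => Null x y).card)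
    (hνX : ∀ S ⊆ X, (∀ w ∈ S, ∀ w' ∈ S, Null w w') → (S.card : ℝ) ≤ ν)
    (hνY : ∀ S ⊆ Y, (∀ w ∈ S, ∀ w' ∈ S, Null w w') → (S.card : ℝ) ≤ ν)
    (hbig : 4 * t0 * (2 * (T + (d - 1)).choose (d - 1) + ν) < X.card)
    (P : Ideal (MvPolynomial (Fin d ⊕ Fin d) ℂ)) (hP : P.IsPrime) (hdim : dimP P + 1 = d) :
    ((onP Y P).card : ℝ) ≤ max (8 * t0 * (T + (d - 2)).choose (d - 2) * degP P) ν := by
  have hν0 : 0 ≤ ν := by
    have := hνX ∅ (empty_subset _) (by simp)
    simpa using this
  have hX0 : (0 : ℝ) < X.card := lt_of_le_of_lt (by positivity) hbig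
  have hdP : (1 : ℝ) ≤ degP P := by exact_mod_cast degP_pos P
  have hr : dimP P = (d - 2) + 1 := by omega
  set N := onP Y P with hN
  set Xp := X.filter fun x => qy x ∈ P with hXp
  have hXpY : ∀ x ∈ Xp, ∀ y ∈ N, Null x y := by
    intro x hx y hy
    exact null_symm ((eval_qy_toFn x y).1 ((mem_onP.1 hy).2 _ (mem_filter.1 hx).2))
  rcases le_or_gt ((Xp.card : ℝ) * (4 * t0)) X.card with hsmall | hlarge
  · -- few common partners
    refine le_max_of_le_left ?_
    have h1 : (N.card : ℝ) * X.card ≤ 2 * t0 * ∑ y ∈ N, ((X.filter fun x => Null x y).card : ℝ) := by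
      rw [mul_sum]
      calc (N.card : ℝ) * X.card = ∑ _y ∈ N, (X.card : ℝ) := by
            rw [sum_const, nsmul_eq_mul]
        _ ≤ _ := sum_le_sum fun y hy => hdeg y (onP_subset _ _ hy)
    have h2 : ∑ y ∈ N, (X.filter fun x => Null x y).card =
        ∑ x ∈ X, (N.filter fun y => Null x y).card := by
      simp only [card_filter]
      exact sum_comm
    have h3 : ∑ y ∈ N, ((X.filter fun x => Null x y).card : ℝ) =
        ∑ x ∈ X, ((N.filter fun y => Null x y).card : ℝ) := by exact_mod_cast h2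
    have h4 : ∀ x ∈ X, ((N.filter fun y => Null x y).card : ℝ) ≤
        2 * degP P * (T + (d - 2)).choose (d - 2) + if qy x ∈ P then (N.card : ℝ) else 0 := by
      intro x _
      by_cases hx : qy x ∈ P
      · rw [if_pos hx]
        have : ((N.filter fun y => Null x y).card : ℝ) ≤ N.card := by
          exact_mod_cast card_filter_le _ _
        have h5 : (0 : ℝ) ≤ 2 * degP P * (T + (d - 2)).choose (d - 2) := by positivity
        linarith
      · rw [if_neg hx, add_zero]
        exact_mod_cast card_onP_null_le hY P hr hx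
    have h5 : ∑ x ∈ X, ((N.filter fun y => Null x y).card : ℝ) ≤
        X.card * (2 * degP P * (T + (d - 2)).choose (d - 2)) + Xp.card * N.card := by
      refine (sum_le_sum h4).trans ?_
      rw [sum_add_distrib, sum_const, nsmul_eq_mul, ← sum_filter, sum_const, nsmul_eq_mul]
    rw [h3] at h1
    have h6 : (N.card : ℝ) * X.card ≤ 2 * t0 *
        (X.card * (2 * degP P * (T + (d - 2)).choose (d - 2))) + X.card / 2 * N.card := by
      have h7 : 2 * t0 * ((Xp.card : ℝ) * N.card) ≤ X.card / 2 * N.card := by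
        have : 2 * t0 * ((Xp.card : ℝ) * N.card) = (Xp.card * (4 * t0)) / 2 * N.card := by ring
        rw [this]
        exact mul_le_mul_of_nonneg_right (by linarith) (Nat.cast_nonneg _)
      have h8 := mul_le_mul_of_nonneg_left h5 (show (0 : ℝ) ≤ 2 * t0 by linarith)
      linarith
    have h9 : (X.card : ℝ) * N.card ≤
        X.card * (8 * t0 * (T + (d - 2)).choose (d - 2) * degP P) := by nlinarith
    exact le_of_mul_le_mul_left h9 hX0
  · -- many common partners
    rcases N.eq_empty_or_nonempty with hNe | ⟨y0, hy0⟩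
    · rw [hNe, card_empty]
      refine le_max_of_le_right ?_
      simpa using hν0
    have hXpbig : 2 * ((T + (d - 1)).choose (d - 1) : ℝ) + ν < Xp.card := by
      have : 4 * t0 * (2 * (T + (d - 1)).choose (d - 1) + ν) < 4 * t0 * Xp.card := by linarith
      exact lt_of_mul_lt_mul_left this (by linarith)
    have hXpX : Xp ⊆ X := filter_subset _ _
    have hXpsep : Sep (toFn '' (Xp : Set (Pt d ℂ))) T := hX.subset (Set.image_mono hXpX)
    have hNsep : Sep (toFn '' (N : Set (Pt d ℂ))) T :=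
      hY.subset (Set.image_mono (onP_subset Y P))
    have hXp0 : 0 < Xp.card := by
      have h1 : (0 : ℝ) < Xp.card := lt_of_le_of_lt (by positivity) hXpbig
      exact_mod_cast h1
    obtain ⟨x0, hx0⟩ := card_pos.1 hXp0
    -- the span of `Xp` has dimension at least `d + 1`
    have hw : d + 1 ≤ finrank ℂ (vectorSpan ℂ (toFn '' (Xp : Set (Pt d ℂ)))) := by
      by_contra hcon
      rcases Nat.lt_or_ge (d - 1) (finrank ℂ (vectorSpan ℂ (toFn '' (Xp : Set (Pt d ℂ))))) with h | h
      · rcases quad_alt hXpsep (w := d - 1) (by omega) (y := y0)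
          (fun x hx => hXpY x hx y0 hy0) with h1 | h1
        · have h2 : (Xp.card : ℝ) ≤ 2 * (T + (d - 1)).choose (d - 1) := by exact_mod_cast h1
          linarith
        · have h2 := hνX Xp hXpX h1
          have h3 : (0 : ℝ) ≤ 2 * (T + (d - 1)).choose (d - 1) := by positivity
          linarith
      · have h1 := flat_card' hXpsep h
        have h2 : (Xp.card : ℝ) ≤ (T + (d - 1)).choose (d - 1) := by exact_mod_cast h1
        have h3 : (0 : ℝ) ≤ (T + (d - 1)).choose (d - 1) := by positivity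
        linarith
    have horth := finrank_add_le (span_orth
      (A := toFn '' (Xp : Set (Pt d ℂ))) (B := toFn '' (N : Set (Pt d ℂ))) (by
        rintro _ ⟨x, hx, rfl⟩ _ ⟨y, hy, rfl⟩
        rw [qf_toFn_sub]
        exact hXpY x hx y hy))
    have hfin : ((2 * (T + (d - 2)).choose (d - 2) : ℕ) : ℝ) ≤
        8 * t0 * (T + (d - 2)).choose (d - 2) * degP P := by
      push_cast
      have h1 : (0 : ℝ) ≤ (T + (d - 2)).choose (d - 2) := Nat.cast_nonneg _
      have h2 : (1 : ℝ) * 1 ≤ t0 * degP P := mul_le_mul ht0 hdP zero_le_one (by linarith)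
      nlinarith
    rcases Nat.lt_or_ge (d - 2) (finrank ℂ (vectorSpan ℂ (toFn '' (N : Set (Pt d ℂ))))) with h | h
    · rcases quad_alt hNsep (w := d - 2) (by omega) (y := x0)
        (fun y hy => null_symm (hXpY x0 hx0 y hy)) with h1 | h1
      · refine le_max_of_le_left (le_trans ?_ hfin)
        exact_mod_cast h1
      · exact le_max_of_le_right (hνY N (onP_subset Y P) h1)
    · refine le_max_of_le_left (le_trans ?_ hfin)
      have h1 := flat_card' hNsep h
      have : N.card ≤ 2 * (T + (d - 2)).choose (d - 2) := by omega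
      exact_mod_cast this

end main

end Crest.Agent.R065.O1Y477

#print axioms Crest.Agent.R065.O1Y477.o1y
#print axioms Crest.Agent.R065.O1Y477.card_onP_le
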