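import Crest.Agent.R065.M4defs_96
import Crest.Agent.R065.ExtP_580

/-!
# Row 65, `d ≥ 4`: bad points, cliques and the rank lemma in the frame `P ×ˢ P`
-/

set_option autoImplicit false

open MvPolynomial Module Finset

namespace Crest.Agent.R065.M4

open Crest.Agent.R065.HF669 Crest.Agent.R065.Base348 Crest.Agent.R065.Top348
  Crest.Agent.R065.Pins348 Crest.Agent.R065.ExtP580

variable {d : ℕ} (Q R : E d ≃ₗᵢ[ℝ] E d)

lemma zR_injective : Function.Injective (zR Q R) := by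
  intro z w h
  obtain ⟨h1, h2⟩ := zc_injective h
  exact Prod.ext (Q.injective h1) (R.injective h2)

lemma null_zR (z w : E d × E d) :
    Null (zR Q R z) (zR Q R w) ↔ dist z.1 w.1 = dist z.2 w.2 := by
  unfold zR
  rw [null_zc, LinearIsometryEquiv.dist_map, LinearIsometryEquiv.dist_map]

open scoped Classical in
lemma card_image_zR (X : Finset (E d × E d)) : (X.image (zR Q R)).card = X.card :=
  card_image_of_injective _ (zR_injective Q R)

open scoped Classical in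
/-- pairwise null subsets come from sets of pairs with equal distances -/
lemma nullLe_image {X : Finset (E d × E d)} {ν : ℝ}
    (h : ∀ S ⊆ X, (∀ z ∈ S, ∀ w ∈ S, dist z.1 w.1 = dist z.2 w.2) → (S.card : ℝ) ≤ ν) :
    NullLe (X.image (zR Q R)) ν := by
  intro Y hY hnull
  obtain ⟨S, hS, rfl⟩ := subset_image_iff.1 hY
  rw [card_image_zR]
  refine h S ?_ ?_
  · exact hS
  · intro z hz w hw
    rw [← null_zR Q R]
    exact hnull _ (mem_image_of_mem _ hz) _ (mem_image_of_mem _ hw)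

open scoped Classical in
lemma card_le_fst {S : Finset (E d × E d)}
    (h : ∀ z ∈ S, ∀ w ∈ S, dist z.1 w.1 = dist z.2 w.2) : S.card ≤ (S.image Prod.fst).card := by
  rw [card_image_of_injOn]
  intro z hz w hw heq
  have h1 := h z hz w hw
  rw [show z.1 = w.1 from heq, dist_self] at h1
  exact Prod.ext heq (dist_eq_zero.1 h1.symm)

open scoped Classical in
/-- cliques inside `P ×ˢ P` -/
lemma nullLe_prod {P : Finset (E d)} {X : Finset (E d × E d)} (hX : X ⊆ P ×ˢ P) :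
    NullLe (X.image (zR Q R)) P.card := by
  refine nullLe_image Q R fun S hS h => ?_
  have h1 := card_le_fst h
  have h2 : (S.image Prod.fst).card ≤ P.card := by
    refine card_le_card fun a ha => ?_
    obtain ⟨z, hz, rfl⟩ := mem_image.1 ha
    exact (mem_product.1 (hX (hS hz))).1
  exact_mod_cast h1.trans h2

open scoped Classical in
/-- the trivial bound from separation -/
lemma onP_le {X : Finset (Pt d ℂ)} {T : ℕ} (hs : Sep (toFn '' (X : Set (Pt d ℂ))) T)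
    (I : Ideal (MvPolynomial (Fin d ⊕ Fin d) ℂ)) [I.IsPrime] :
    ((onP X I).card : ℝ) ≤ ((T + dimP I).choose (dimP I) : ℝ) * degP I := by
  have h1 : ((onP X I).image toFn).card ≤ HF I T := by
    apply card_le_HF
    · intro a ha
      obtain ⟨w, hw, rfl⟩ := mem_image.1 (mem_coe.1 ha)
      exact (mem_filter.1 hw).2
    · refine hs.subset ?_
      intro a ha
      obtain ⟨w, hw, rfl⟩ := mem_image.1 (mem_coe.1 ha)
      exact ⟨w, mem_coe.2 (mem_filter.1 hw).1, rfl⟩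
  rw [card_image_of_injective _ toFn_injective] at h1
  have h2 := h1.trans (HF_le_degP I T)
  have h3 : ((onP X I).card : ℝ) ≤ (degP I : ℝ) * ((T + dimP I).choose (dimP I) : ℝ) := by
    exact_mod_cast h2
  linarith [mul_comm (degP I : ℝ) ((T + dimP I).choose (dimP I) : ℝ)]

/-- `C(T + r, r) ≤ ((r+1) T)^r` -/
lemma choose_le_pow {T : ℕ} (hT : 1 ≤ T) (r : ℕ) : (T + r).choose r ≤ ((r + 1) * T) ^ r := by
  refine (Nat.choose_le_pow _ _).trans ?_
  refine Nat.pow_le_pow_left ?_ r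
  nlinarith

section bad

variable {C : ℝ} {m : ℕ}

open scoped Classical in
/-- number of bad points of `X` -/
lemma bad_card
    (hC : ∀ (m : ℕ) (f : MvPolynomial (Pr d ⊕ Fin d) ℂ) (Sg : Finset (Pt d ℂ))
      (τ : ℕ → ℝ) (ν : ℝ), 1 ≤ m → f ≠ 0 → f.totalDegree ≤ m → (∀ w ∈ Sg, res w f = 0) →
      (∀ r, 1 ≤ τ r) → 1 ≤ ν →
      (∀ P : Ideal (MvPolynomial (Fin d ⊕ Fin d) ℂ), P.IsPrime → dimP P < d →
        ((onP Sg P).card : ℝ) ≤ τ (dimP P) * degP P) →
      NullLe Sg ν →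
      (Sg.card : ℝ) ≤ C * (∑ r ∈ range d, (m : ℝ) ^ (d - r) * τ r + m * ν))
    (hm : 1 ≤ m) {Om : Finset (E d × E d)} (hOm : Om.card * Kd d < (m + 1) ^ d)
    (X : Finset (E d × E d)) (τ : ℕ → ℝ) (ν : ℝ) (hτ1 : ∀ r, 1 ≤ τ r) (hν1 : 1 ≤ ν)
    (hτ : ∀ I : Ideal (MvPolynomial (Fin d ⊕ Fin d) ℂ), I.IsPrime → dimP I < d →
      ((onP (X.image (zR Q R)) I).card : ℝ) ≤ τ (dimP I) * degP I)
    (hν : NullLe (X.image (zR Q R)) ν) :
    ((X.filter fun x => IsBad m (Om.image (zR Q R)) (zR Q R x)).card : ℝ) ≤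
      C * (∑ r ∈ range d, (m : ℝ) ^ (d - r) * τ r + m * ν) := by
  obtain ⟨f, f1, f2, f3⟩ := exists_res_eq_zero' (Om.image (zR Q R)) m (by
    rw [card_image_zR]; exact hOm)
  have hsub : (X.filter fun x => IsBad m (Om.image (zR Q R)) (zR Q R x)).image (zR Q R) ⊆
      X.image (zR Q R) := image_subset_image (filter_subset _ _)
  have h := hC m f ((X.filter fun x => IsBad m (Om.image (zR Q R)) (zR Q R x)).image (zR Q R))
    τ ν hm f2 f1 ?_ hτ1 hν1 ?_ ?_
  · rwa [card_image_zR] at h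
  · intro w hw
    obtain ⟨x, hx, rfl⟩ := mem_image.1 hw
    exact (mem_filter.1 hx).2 f ⟨f1, f3⟩
  · intro I hI hdim
    refine le_trans ?_ (hτ I hI hdim)
    have : onP ((X.filter fun x => IsBad m (Om.image (zR Q R)) (zR Q R x)).image (zR Q R)) I ⊆
        onP (X.image (zR Q R)) I := filter_subset_filter _ hsub
    exact_mod_cast card_le_card this
  · intro Y hY hnull
    exact hν Y (hY.trans hsub) hnull

end bad

/-- monotonicity of badness -/
lemma IsBad.mono {m : ℕ} {Om Om' : Finset (Pt d ℂ)} {z : Pt d ℂ} (h : IsBad m Om z)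
    (hs : Om ⊆ Om') : IsBad m Om' z :=
  fun f hf => h f ⟨hf.1, fun w hw => hf.2 w (hs hw)⟩

/-- the points of the sample are bad -/
lemma isBad_of_mem {m : ℕ} {Om : Finset (Pt d ℂ)} {z : Pt d ℂ} (h : z ∈ Om) : IsBad m Om z :=
  fun _ hf => hf.2 z h

open scoped Classical in
/-- the rank lemma in the frame -/
lemma rank_card {m : ℕ} {C : ℝ} {o : ℕ → Finset (Pt d ℂ) → Pt d ℂ → Pt d ℂ → ℕ∞}
    (hC : ∀ (m : ℕ) (Om : Finset (Pt d ℂ)) (z : Pt d ℂ) (ν : ℝ), 1 ≤ m → 1 ≤ ν → ¬ IsBad m Om z →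
      ∀ Sg ⊆ Om,
      (∀ w ∈ Sg, Null z w ∧ (∀ i, w.1 i ≠ z.1 i) ∧
        o m (Om.erase w) w z ≤ o m (Om.erase w) z w) →
      NullLe Sg ν → (Sg.card : ℝ) ≤ C * ((m : ℝ) ^ (d - 1) + m * ν))
    (hm : 1 ≤ m) {Om S : Finset (E d × E d)} {x : E d × E d} (hS : S ⊆ Om)
    (hx : ¬ IsBad m (Om.image (zR Q R)) (zR Q R x))
    (hgen : ∀ y ∈ S, y ≠ x → ∀ i, (zR Q R y).1 i ≠ (zR Q R x).1 i)
    (hS' : ∀ y ∈ S, Nl x y ∧ o m ((Om.erase y).image (zR Q R)) (zR Q R y) (zR Q R x) ≤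
      o m ((Om.erase y).image (zR Q R)) (zR Q R x) (zR Q R y))
    {ν : ℝ} (hν1 : 1 ≤ ν)
    (hν : ∀ N ⊆ S, (∀ z ∈ N, ∀ w ∈ N, dist z.1 w.1 = dist z.2 w.2) → (N.card : ℝ) ≤ ν) :
    (S.card : ℝ) ≤ C * ((m : ℝ) ^ (d - 1) + m * ν) := by
  have h := hC m (Om.image (zR Q R)) (zR Q R x) ν hm hν1 hx (S.image (zR Q R))
    (image_subset_image hS) ?_ (nullLe_image Q R hν)
  · rwa [card_image_zR] at h
  · intro w hw
    obtain ⟨y, hy, rfl⟩ := mem_image.1 hw
    obtain ⟨h1, h2⟩ := hS' y hy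
    refine ⟨(null_zR Q R _ _).2 h1.1, hgen y hy h1.2.symm, ?_⟩
    rw [← image_erase (zR_injective Q R)]
    exact h2

end Crest.Agent.R065.M4
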