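import Mathlib

/-!
# Row 65, `d ≥ 4`: numerics of the master (272's #15513 scheme)

`n = |P|`, `s = nd P` (number of distances), `x = |X|`, `y = |Y|`, `t0 = x y / T(X,Y)`.
-/

set_option autoImplicit false

open Finset

namespace Crest.Agent.R065.M4num237

/-- binomial coefficients -/
lemma choose_le' {s d r : ℕ} (hs : 1 ≤ s) (hr : r ≤ d) {B : ℝ} (hB : (4 + d : ℝ) ≤ B) :
    (((4 * s + r).choose r : ℕ) : ℝ) ≤ (B * s) ^ r := by
  have h1 : (4 * s + r).choose r ≤ (4 * s + r) ^ r := Nat.choose_le_pow _ _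
  have h2 : (((4 * s + r).choose r : ℕ) : ℝ) ≤ ((4 * s + r : ℕ) : ℝ) ^ r := by exact_mod_cast h1
  refine h2.trans ?_
  have h3 : ((4 * s + r : ℕ) : ℝ) ≤ B * s := by
    have hs' : (1 : ℝ) ≤ s := by exact_mod_cast hs
    have hr' : (r : ℝ) ≤ d := by exact_mod_cast hr
    have hd0 : (0 : ℝ) ≤ d := Nat.cast_nonneg _
    push_cast
    calc (4 * s + r : ℝ) ≤ 4 * s + d := by linarith
      _ ≤ 4 * s + d * s := by nlinarith
      _ = (4 + d) * s := by ring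
      _ ≤ B * s := by gcongr
  gcongr

/-- the sum of the `X` side -/
lemma sum_X {d s m : ℕ} (hs : 1 ≤ s) {B : ℝ} (hB : (4 + d : ℝ) ≤ B)
    (hm : (m : ℝ) ≤ B * s) :
    ∑ r ∈ range d, (m : ℝ) ^ (d - r) * (((4 * s + r).choose r : ℕ) : ℝ) ≤
      d * (m * (B * s) ^ (d - 1)) := by
  have h0 : (0 : ℝ) ≤ B * s := le_trans (Nat.cast_nonneg _) hm
  have : ∀ r ∈ range d, (m : ℝ) ^ (d - r) * (((4 * s + r).choose r : ℕ) : ℝ) ≤
      m * (B * s) ^ (d - 1) := by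
    intro r hr
    rw [mem_range] at hr
    have e1 : d - r = (d - 1 - r) + 1 := by omega
    have e2 : d - 1 = (d - 1 - r) + r := by omega
    calc (m : ℝ) ^ (d - r) * (((4 * s + r).choose r : ℕ) : ℝ)
        ≤ (m : ℝ) ^ (d - r) * (B * s) ^ r := by
          gcongr; exact choose_le' hs hr.le hB
      _ = m * ((m : ℝ) ^ (d - 1 - r) * (B * s) ^ r) := by rw [e1, pow_succ]; ring_nf
      _ ≤ m * ((B * s) ^ (d - 1 - r) * (B * s) ^ r) := by gcongr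
      _ = m * (B * s) ^ (d - 1) := by rw [← pow_add, ← e2]
  calc _ ≤ ∑ r ∈ range d, (m : ℝ) * (B * s) ^ (d - 1) := sum_le_sum this
    _ = _ := by rw [sum_const, card_range, nsmul_eq_mul]

/-- the sum of the `Y` side -/
lemma sum_Y {d s m n : ℕ} (hd : 4 ≤ d) (hs : 1 ≤ s) {B t0 : ℝ} (hB : (4 + d : ℝ) ≤ B)
    (hm : (m : ℝ) ≤ B * s) (htm : t0 ≤ m) :
    ∑ r ∈ range d, (m : ℝ) ^ (d - r) *
        (if r + 1 = d then 8 * t0 * (((4 * s + (d - 2)).choose (d - 2) : ℕ) : ℝ) + n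
          else (((4 * s + r).choose r : ℕ) : ℝ)) ≤
      (d + 8) * ((m : ℝ) ^ 2 * (B * s) ^ (d - 2)) + m * n := by
  have h0 : (0 : ℝ) ≤ B * s := le_trans (Nat.cast_nonneg _) hm
  obtain ⟨e, rfl⟩ : ∃ e, d = e + 1 := ⟨d - 1, by omega⟩
  rw [sum_range_succ]
  have h1 : ∑ r ∈ range e, (m : ℝ) ^ (e + 1 - r) *
        (if r + 1 = e + 1 then 8 * t0 * (((4 * s + (e + 1 - 2)).choose (e + 1 - 2) : ℕ) : ℝ) + n
          else (((4 * s + r).choose r : ℕ) : ℝ)) ≤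
      e * ((m : ℝ) ^ 2 * (B * s) ^ (e + 1 - 2)) := by
    have : ∀ r ∈ range e, (m : ℝ) ^ (e + 1 - r) *
        (if r + 1 = e + 1 then 8 * t0 * (((4 * s + (e + 1 - 2)).choose (e + 1 - 2) : ℕ) : ℝ) + n
          else (((4 * s + r).choose r : ℕ) : ℝ)) ≤ (m : ℝ) ^ 2 * (B * s) ^ (e + 1 - 2) := by
      intro r hr
      rw [mem_range] at hr
      rw [if_neg (by omega)]
      have e1 : e + 1 - r = (e + 1 - 2 - r) + 2 := by omega
      have e2 : e + 1 - 2 = (e + 1 - 2 - r) + r := by omega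
      calc (m : ℝ) ^ (e + 1 - r) * (((4 * s + r).choose r : ℕ) : ℝ)
          ≤ (m : ℝ) ^ (e + 1 - r) * (B * s) ^ r := by
            gcongr; exact choose_le' hs (by omega) hB
        _ = (m : ℝ) ^ 2 * ((m : ℝ) ^ (e + 1 - 2 - r) * (B * s) ^ r) := by
            rw [e1, pow_add]; ring
        _ ≤ (m : ℝ) ^ 2 * ((B * s) ^ (e + 1 - 2 - r) * (B * s) ^ r) := by gcongr
        _ = (m : ℝ) ^ 2 * (B * s) ^ (e + 1 - 2) := by rw [← pow_add, ← e2]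
    calc _ ≤ ∑ r ∈ range e, (m : ℝ) ^ 2 * (B * s) ^ (e + 1 - 2) := sum_le_sum this
      _ = _ := by rw [sum_const, card_range, nsmul_eq_mul]
  have h2 : (m : ℝ) ^ (e + 1 - e) *
        (if e + 1 = e + 1 then 8 * t0 * (((4 * s + (e + 1 - 2)).choose (e + 1 - 2) : ℕ) : ℝ) + n
          else (((4 * s + e).choose e : ℕ) : ℝ)) ≤
      8 * ((m : ℝ) ^ 2 * (B * s) ^ (e + 1 - 2)) + m * n := by
    rw [if_pos rfl, show e + 1 - e = 1 by omega, pow_one]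
    have h3 := choose_le' (d := e + 1) (r := e + 1 - 2) hs (by omega) hB
    calc (m : ℝ) * (8 * t0 * (((4 * s + (e + 1 - 2)).choose (e + 1 - 2) : ℕ) : ℝ) + n)
        ≤ (m : ℝ) * (8 * m * (B * s) ^ (e + 1 - 2) + n) := by gcongr
      _ = _ := by ring
  have h4 : (0 : ℝ) ≤ (m : ℝ) ^ 2 * (B * s) ^ (e + 1 - 2) := by positivity
  have := add_le_add h1 h2
  refine this.trans ?_
  have h5 : ((e + 1 : ℕ) : ℝ) = e + 1 := by push_cast; ring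
  rw [h5]
  linarith

set_option maxHeartbeats 1000000 in
/-- all the numerics of the master -/
theorem numerics {d : ℕ} (hd : 4 ≤ d) (K m0 : ℕ) (hK : 1 ≤ K) {CL CR θ η κ : ℝ}
    (hCL : 0 < CL) (hCR : 0 < CR) (hθ : 0 < θ) (hη : 0 < η) (hκ : 0 < κ) :
    ∃ A : ℝ, 0 < A ∧ ∀ (n s x y : ℕ) (t0 : ℝ), 1 ≤ s → 1 ≤ n → 1 ≤ y → y ≤ x → x ≤ n ^ 2 →
      (A * s) ^ d < (n : ℝ) ^ 2 → 1 ≤ t0 →
      t0 ^ 2 * ((n : ℝ) ^ 2) ^ 2 ≤ 4 * (2 * s) ^ 2 * ((x : ℝ) * y) →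
      t0 * (n : ℝ) ^ 2 ≤ 2 * (2 * s) * x →
      ∃ m k0 : ℕ, 1 ≤ m ∧ m0 ≤ m ∧ t0 ≤ m ∧ 1 ≤ k0 ∧ 2 * k0 ≤ m ^ d ∧ 2 * k0 ≤ y ∧ 2 * k0 ≤ x ∧
        4 * k0 * K < (m + 1) ^ d ∧ (4 * k0 : ℝ) / y ≤ κ ^ 2 ∧ (4 * k0 : ℝ) / x ≤ κ ^ 2 ∧
        CL * (∑ r ∈ range d, (m : ℝ) ^ (d - r) * (((4 * s + r).choose r : ℕ) : ℝ) + m * n) ≤ η * x ∧
        CL * (∑ r ∈ range d, (m : ℝ) ^ (d - r) *
          (if r + 1 = d then 8 * t0 * (((4 * s + (d - 2)).choose (d - 2) : ℕ) : ℝ) + n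
            else (((4 * s + r).choose r : ℕ) : ℝ)) + m * n) ≤ η * y ∧
        4 * t0 * (2 * (((4 * s + (d - 1)).choose (d - 1) : ℕ) : ℝ) + n) < x ∧
        (n : ℝ) * (2 * k0) ≤ θ * (m : ℝ) ^ (d - 2) * y ∧
        (n : ℝ) * (2 * k0) ≤ θ * (m : ℝ) ^ (d - 2) * x ∧
        (2 * (CR * ((m : ℝ) ^ (d - 1) + m * ((m : ℝ) ^ (d - 2) + 1))) + 2 * η) * t0 ≤ κ * k0 := by
  -- constants
  obtain ⟨C1, hC1a, hC1b, hC1c, hC1d⟩ : ∃ C1 : ℕ, 1 ≤ C1 ∧ m0 ≤ C1 ∧ 16 * K ≤ C1 ∧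
      (6 * CR + 2 * η) * (16 * K) / κ ≤ C1 := by
    refine ⟨max (max 1 m0) (max (16 * K) ⌈(6 * CR + 2 * η) * (16 * K) / κ⌉₊), ?_, ?_, ?_, ?_⟩
    · exact le_trans (le_max_left _ _) (le_max_left _ _)
    · exact le_trans (le_max_right _ _) (le_max_left _ _)
    · exact le_trans (le_max_left _ _) (le_max_right _ _)
    · refine (Nat.le_ceil _).trans ?_
      exact_mod_cast le_trans (le_max_right _ _) (le_max_right _ _)
  obtain ⟨B, hBdef⟩ : ∃ B : ℝ, B = 8 * C1 + (4 + d) := ⟨_, rfl⟩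
  have hC1r : (1 : ℝ) ≤ C1 := by exact_mod_cast hC1a
  have hd0 : (0 : ℝ) ≤ d := Nat.cast_nonneg _
  have hB1 : (4 + d : ℝ) ≤ B := by rw [hBdef]; linarith
  have hB2 : 8 * (C1 : ℝ) ≤ B := by rw [hBdef]; linarith
  have hB3 : (1 : ℝ) ≤ B := by linarith
  obtain ⟨A, hA1, hA2, hA3, hA4, hA5⟩ : ∃ A : ℝ, 64 * B ≤ A ∧ B / κ ^ 2 ≤ A ∧
      CL * (d + 10) * B / η ≤ A ∧ B / θ ≤ A ∧ 1 ≤ A := by
    refine ⟨64 * B + B / κ ^ 2 + CL * (d + 10) * B / η + B / θ + 1, ?_, ?_, ?_, ?_, ?_⟩ <;>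
    · have a1 : 0 ≤ B / κ ^ 2 := by positivity
      have a2 : 0 ≤ CL * (d + 10) * B / η := by positivity
      have a3 : 0 ≤ B / θ := by positivity
      have a4 : 0 ≤ 64 * B := by positivity
      linarith
  have hA0 : 0 < A := by linarith
  refine ⟨A, hA0, ?_⟩
  intro n s x y t0 hs hn hy hyx hxn hbig ht0 hsq hlin
  have hsr : (1 : ℝ) ≤ s := by exact_mod_cast hs
  have hnr : (1 : ℝ) ≤ n := by exact_mod_cast hn
  have hyr : (1 : ℝ) ≤ y := by exact_mod_cast hy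
  have hyxr : (y : ℝ) ≤ x := by exact_mod_cast hyx
  have hxnr : (x : ℝ) ≤ (n : ℝ) ^ 2 := by exact_mod_cast hxn
  have hxr : (1 : ℝ) ≤ x := hyr.trans hyxr
  have hn0 : (0 : ℝ) < n := by linarith
  have hN0 : (0 : ℝ) < (n : ℝ) ^ 2 := by positivity
  -- the ratio `u`
  obtain ⟨u, hu⟩ : ∃ u : ℝ, u = B / A := ⟨_, rfl⟩
  have hu0 : 0 < u := by rw [hu]; positivity
  have huA : u * A = B := by rw [hu]; field_simp
  have hu1 : 64 * u ≤ 1 := by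
    rw [hu, mul_div_assoc', div_le_one hA0]; exact hA1
  have hu2 : u ≤ κ ^ 2 := by
    rw [hu, div_le_iff₀ hA0]
    rwa [div_le_iff₀ (by positivity), mul_comm] at hA2
  have hu3 : CL * (d + 10) * u ≤ η := by
    rw [hu, mul_div_assoc', div_le_iff₀ hA0]
    rwa [div_le_iff₀ hη, mul_comm A] at hA3
  have hu4 : u ≤ θ := by
    rw [hu, div_le_iff₀ hA0]
    rwa [div_le_iff₀ hθ, mul_comm] at hA4
  -- the key inequalities
  have hAs : (1 : ℝ) ≤ A * s := one_le_mul_of_one_le_of_one_le hA5 hsr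
  have key1 : (B * s) ^ d ≤ u * (n : ℝ) ^ 2 := by
    have e1 : (B * s) ^ d = u ^ d * (A * s) ^ d := by rw [← mul_pow, ← huA]; ring
    have e2 : u ^ d ≤ u := by
      calc u ^ d ≤ u ^ 1 := pow_le_pow_of_le_one hu0.le (by linarith) (by omega)
        _ = u := pow_one _
    rw [e1]
    gcongr
  have hnlow : (A * s) ^ 2 ≤ n := by
    have e1 : ((A * s) ^ 2) ^ 2 ≤ (n : ℝ) ^ 2 := by
      calc ((A * s) ^ 2) ^ 2 = (A * s) ^ 4 := by ring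
        _ ≤ (A * s) ^ d := pow_le_pow_right₀ hAs hd
        _ ≤ _ := hbig.le
    exact le_of_sq_le_sq e1 hn0.le
  have key2 : (B * s) ^ 2 ≤ u * n := by
    calc (B * s) ^ 2 = u ^ 2 * (A * s) ^ 2 := by rw [← mul_pow, ← huA]; ring
      _ ≤ u ^ 2 * n := by gcongr
      _ ≤ u * n := by
        have : u ^ 2 ≤ u := by
          calc u ^ 2 ≤ u ^ 1 := pow_le_pow_of_le_one hu0.le (by linarith) (by norm_num)
            _ = u := pow_one _
        gcongr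
  have hBs : (1 : ℝ) ≤ B * s := one_le_mul_of_one_le_of_one_le hB3 hsr
  -- `m`
  obtain ⟨m, hm⟩ : ∃ m : ℕ, m = ⌈(C1 : ℝ) * t0⌉₊ := ⟨_, rfl⟩
  have hC1t0 : (1 : ℝ) ≤ (C1 : ℝ) * t0 := one_le_mul_of_one_le_of_one_le hC1r ht0
  have hm1 : (C1 : ℝ) * t0 ≤ m := by rw [hm]; exact Nat.le_ceil _
  have hm2 : (m : ℝ) ≤ 2 * (C1 * t0) := by
    have := (Nat.ceil_lt_add_one (a := (C1 : ℝ) * t0) (by linarith)).le
    rw [← hm] at this
    linarith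
  have hmC : (C1 : ℝ) ≤ m := (le_mul_of_one_le_right (by linarith) ht0).trans hm1
  have hmC' : C1 ≤ m := by exact_mod_cast hmC
  have hm3 : 1 ≤ m := hC1a.trans hmC'
  have hmr : (1 : ℝ) ≤ m := by exact_mod_cast hm3
  have ht0m : t0 ≤ m := (le_mul_of_one_le_left (by linarith) hC1r).trans hm1
  have ht0s : t0 ≤ 4 * s := by
    have e1 : t0 * (n : ℝ) ^ 2 ≤ (4 * s) * (n : ℝ) ^ 2 := by
      calc t0 * (n : ℝ) ^ 2 ≤ 2 * (2 * s) * x := hlin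
        _ ≤ 2 * (2 * s) * (n : ℝ) ^ 2 := by gcongr
        _ = _ := by ring
    exact le_of_mul_le_mul_right e1 hN0
  have hmB : (m : ℝ) ≤ B * s := by
    calc (m : ℝ) ≤ 2 * (C1 * t0) := hm2
      _ ≤ 2 * (C1 * (4 * s)) := by gcongr
      _ = (8 * C1) * s := by ring
      _ ≤ B * s := by gcongr
  have i1 : (m : ℝ) * (n : ℝ) ^ 2 ≤ B * s * x := by
    calc (m : ℝ) * (n : ℝ) ^ 2 ≤ (2 * (C1 * t0)) * (n : ℝ) ^ 2 := by gcongr
      _ = 2 * C1 * (t0 * (n : ℝ) ^ 2) := by ring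
      _ ≤ 2 * C1 * (2 * (2 * s) * x) := by gcongr
      _ = (8 * C1) * s * x := by ring
      _ ≤ B * s * x := by gcongr
  have i2 : (m : ℝ) ^ 2 * (n : ℝ) ^ 2 ≤ (B * s) ^ 2 * y := by
    have e1 : t0 ^ 2 * (n : ℝ) ^ 2 ≤ 16 * (s : ℝ) ^ 2 * y := by
      have e2 : t0 ^ 2 * (n : ℝ) ^ 2 * (n : ℝ) ^ 2 ≤ 16 * (s : ℝ) ^ 2 * y * (n : ℝ) ^ 2 := by
        calc t0 ^ 2 * (n : ℝ) ^ 2 * (n : ℝ) ^ 2 = t0 ^ 2 * ((n : ℝ) ^ 2) ^ 2 := by ring
          _ ≤ 4 * (2 * s) ^ 2 * ((x : ℝ) * y) := hsq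
          _ ≤ 4 * (2 * s) ^ 2 * ((n : ℝ) ^ 2 * y) := by gcongr
          _ = _ := by ring
      exact le_of_mul_le_mul_right e2 hN0
    calc (m : ℝ) ^ 2 * (n : ℝ) ^ 2 ≤ (2 * (C1 * t0)) ^ 2 * (n : ℝ) ^ 2 := by gcongr
      _ = 4 * (C1 : ℝ) ^ 2 * (t0 ^ 2 * (n : ℝ) ^ 2) := by ring
      _ ≤ 4 * (C1 : ℝ) ^ 2 * (16 * (s : ℝ) ^ 2 * y) := by gcongr
      _ = ((8 * C1) * s) ^ 2 * y := by ring
      _ ≤ (B * s) ^ 2 * y := by gcongr
  have b1 : (m : ℝ) * (B * s) ^ (d - 1) ≤ u * x := by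
    have e1 : (m : ℝ) * (B * s) ^ (d - 1) * (n : ℝ) ^ 2 ≤ u * x * (n : ℝ) ^ 2 := by
      calc (m : ℝ) * (B * s) ^ (d - 1) * (n : ℝ) ^ 2
          = ((m : ℝ) * (n : ℝ) ^ 2) * (B * s) ^ (d - 1) := by ring
        _ ≤ (B * s * x) * (B * s) ^ (d - 1) := by gcongr
        _ = (B * s) ^ (d - 1 + 1) * x := by rw [pow_succ]; ring
        _ = (B * s) ^ d * x := by rw [show d - 1 + 1 = d by omega]
        _ ≤ (u * (n : ℝ) ^ 2) * x := by gcongr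
        _ = _ := by ring
    exact le_of_mul_le_mul_right e1 hN0
  have b2 : (m : ℝ) * n ≤ u * x := by
    have e1 : (m : ℝ) * n * n ≤ u * x * n := by
      calc (m : ℝ) * n * n = (m : ℝ) * (n : ℝ) ^ 2 := by ring
        _ ≤ B * s * x := i1
        _ ≤ (B * s) ^ 2 * x := by
          have : B * s ≤ (B * s) ^ 2 := le_self_pow₀ hBs (by norm_num)
          gcongr
        _ ≤ (u * n) * x := by gcongr
        _ = _ := by ring
    exact le_of_mul_le_mul_right e1 hn0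
  have c1 : (m : ℝ) ^ 2 * (B * s) ^ (d - 2) ≤ u * y := by
    have e1 : (m : ℝ) ^ 2 * (B * s) ^ (d - 2) * (n : ℝ) ^ 2 ≤ u * y * (n : ℝ) ^ 2 := by
      calc (m : ℝ) ^ 2 * (B * s) ^ (d - 2) * (n : ℝ) ^ 2
          = ((m : ℝ) ^ 2 * (n : ℝ) ^ 2) * (B * s) ^ (d - 2) := by ring
        _ ≤ ((B * s) ^ 2 * y) * (B * s) ^ (d - 2) := by gcongr
        _ = (B * s) ^ (d - 2 + 2) * y := by rw [pow_add]; ring
        _ = (B * s) ^ d * y := by rw [show d - 2 + 2 = d by omega]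
        _ ≤ (u * (n : ℝ) ^ 2) * y := by gcongr
        _ = _ := by ring
    exact le_of_mul_le_mul_right e1 hN0
  have c2 : (m : ℝ) ^ 2 * n ≤ u * y := by
    have e1 : (m : ℝ) ^ 2 * n * n ≤ u * y * n := by
      calc (m : ℝ) ^ 2 * n * n = (m : ℝ) ^ 2 * (n : ℝ) ^ 2 := by ring
        _ ≤ (B * s) ^ 2 * y := i2
        _ ≤ (u * n) * y := by gcongr
        _ = _ := by ring
    exact le_of_mul_le_mul_right e1 hn0
  have c3 : (m : ℝ) * n ≤ u * y := by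
    have : (m : ℝ) ≤ (m : ℝ) ^ 2 := le_self_pow₀ hmr (by norm_num)
    calc (m : ℝ) * n ≤ (m : ℝ) ^ 2 * n := by gcongr
      _ ≤ u * y := c2
  have hux : u * x ≤ 1 / 64 * x := by
    have : u ≤ 1 / 64 := by linarith
    gcongr
  have huy : u * y ≤ 1 / 64 * y := by
    have : u ≤ 1 / 64 := by linarith
    gcongr
  -- `k0`
  obtain ⟨k0, hk0⟩ : ∃ k0 : ℕ, k0 = m ^ d / (8 * K) := ⟨_, rfl⟩
  have hmd : m ≤ m ^ d := Nat.le_self_pow (by omega) m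
  have k1 : 8 * K * k0 ≤ m ^ d := by rw [hk0]; exact Nat.mul_div_le _ _
  have k2 : m ^ d < 8 * K * (k0 + 1) := by
    rw [hk0]; exact Nat.lt_mul_div_succ _ (by omega)
  have k3 : 16 * K ≤ m ^ d := (hC1c.trans hmC').trans hmd
  have k4 : m ^ d ≤ 16 * K * k0 := by
    have : 8 * K * (k0 + 1) = 8 * K * k0 + 8 * K := by ring
    have h3 : 16 * K * k0 = 2 * (8 * K * k0) := by ring
    omega
  have k5 : 8 * k0 ≤ m ^ d := by
    calc 8 * k0 ≤ 8 * K * k0 := Nat.mul_le_mul_right k0 (by omega)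
      _ ≤ _ := k1
  have k6 : 1 ≤ k0 := by
    by_contra hcon
    have h0 : k0 = 0 := by omega
    rw [h0] at k4
    omega
  have k7 : 4 * k0 * K < (m + 1) ^ d := by
    have h1 : m ^ d < (m + 1) ^ d := Nat.pow_lt_pow_left (by omega) (by omega)
    have h2 : 4 * k0 * K ≤ 8 * K * k0 := by
      calc 4 * k0 * K = 4 * K * k0 := by ring
        _ ≤ 8 * K * k0 := Nat.mul_le_mul_right k0 (by omega)
    omega
  have k5r : 8 * (k0 : ℝ) ≤ (m : ℝ) ^ d := by exact_mod_cast k5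
  have hmdy : (m : ℝ) ^ d ≤ u * y := by
    calc (m : ℝ) ^ d = (m : ℝ) ^ 2 * (m : ℝ) ^ (d - 2) := by rw [← pow_add]; congr 1; omega
      _ ≤ (m : ℝ) ^ 2 * (B * s) ^ (d - 2) := by gcongr
      _ ≤ u * y := c1
  have k8 : (4 * k0 : ℝ) ≤ u * y := by
    have : (0 : ℝ) ≤ k0 := Nat.cast_nonneg _
    linarith
  have k9 : 2 * k0 ≤ y := by
    have : (2 * k0 : ℝ) ≤ y := by
      have h0 : (0 : ℝ) ≤ k0 := Nat.cast_nonneg _
      linarith
    exact_mod_cast this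
  have hnu : (n : ℝ) * (2 * k0) ≤ θ * (m : ℝ) ^ (d - 2) * y := by
    calc (n : ℝ) * (2 * k0) ≤ n * (m : ℝ) ^ d := by
          have h0 : (0 : ℝ) ≤ k0 := Nat.cast_nonneg _
          gcongr
          linarith
      _ = (m : ℝ) ^ (d - 2) * ((m : ℝ) ^ 2 * n) := by
          have : (m : ℝ) ^ d = (m : ℝ) ^ (d - 2) * (m : ℝ) ^ 2 := by
            rw [← pow_add]; congr 1; omega
          rw [this]; ring
      _ ≤ (m : ℝ) ^ (d - 2) * (u * y) := by gcongr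
      _ ≤ (m : ℝ) ^ (d - 2) * (θ * y) := by gcongr
      _ = _ := by ring
  refine ⟨m, k0, hm3, hC1b.trans hmC', ht0m, k6, by omega, k9, k9.trans hyx, k7, ?_, ?_, ?_, ?_,
    ?_, hnu, hnu.trans (by gcongr), ?_⟩
  · rw [div_le_iff₀ (by linarith)]
    calc (4 * k0 : ℝ) ≤ u * y := k8
      _ ≤ κ ^ 2 * y := by gcongr
  · rw [div_le_iff₀ (by linarith)]
    calc (4 * k0 : ℝ) ≤ u * y := k8
      _ ≤ κ ^ 2 * y := by gcongr
      _ ≤ κ ^ 2 * x := by gcongr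
  · have e1 := sum_X hs hB1 hmB
    calc CL * (∑ r ∈ range d, (m : ℝ) ^ (d - r) * (((4 * s + r).choose r : ℕ) : ℝ) + m * n)
        ≤ CL * (d * (m * (B * s) ^ (d - 1)) + m * n) := by gcongr
      _ ≤ CL * (d * (u * x) + u * x) := by gcongr
      _ = CL * (d + 1) * u * x := by ring
      _ ≤ CL * (d + 10) * u * x := by gcongr; norm_num
      _ ≤ η * x := by gcongr
  · have e1 := sum_Y (n := n) hd hs hB1 hmB ht0m
    calc _ ≤ CL * (((d + 8) * ((m : ℝ) ^ 2 * (B * s) ^ (d - 2)) + m * n) + m * n) := by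
          gcongr
      _ ≤ CL * (((d + 8) * (u * y) + u * y) + u * y) := by gcongr
      _ = CL * (d + 10) * u * y := by ring
      _ ≤ η * y := by gcongr
  · have e1 := choose_le' (d := d) (r := d - 1) hs (by omega) hB1
    calc 4 * t0 * (2 * (((4 * s + (d - 1)).choose (d - 1) : ℕ) : ℝ) + n)
        ≤ 4 * m * (2 * (B * s) ^ (d - 1) + n) := by gcongr
      _ = 8 * (m * (B * s) ^ (d - 1)) + 4 * (m * n) := by ring
      _ ≤ 8 * (u * x) + 4 * (u * x) := by gcongr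
      _ = 12 * (u * x) := by ring
      _ ≤ 12 * (1 / 64 * x) := by gcongr
      _ < x := by linarith
  · have hmm : (m : ℝ) ≤ (m : ℝ) ^ (d - 1) := by
      calc (m : ℝ) = (m : ℝ) ^ 1 := (pow_one _).symm
        _ ≤ (m : ℝ) ^ (d - 1) := pow_le_pow_right₀ hmr (by omega)
    have hmm1 : (1 : ℝ) ≤ (m : ℝ) ^ (d - 1) := hmr.trans hmm
    have hmm2 : (m : ℝ) * (m : ℝ) ^ (d - 2) = (m : ℝ) ^ (d - 1) := by
      rw [← pow_succ']; congr 1; omega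
    have hmm3 : (m : ℝ) ^ (d - 1) * m = (m : ℝ) ^ d := by
      rw [← pow_succ]; congr 1; omega
    have f1 : 2 * (CR * ((m : ℝ) ^ (d - 1) + m * ((m : ℝ) ^ (d - 2) + 1))) + 2 * η ≤
        (6 * CR + 2 * η) * (m : ℝ) ^ (d - 1) := by
      calc 2 * (CR * ((m : ℝ) ^ (d - 1) + m * ((m : ℝ) ^ (d - 2) + 1))) + 2 * η
          = 2 * CR * ((m : ℝ) ^ (d - 1) + m * (m : ℝ) ^ (d - 2) + m) + 2 * η := by ring
        _ = 2 * CR * ((m : ℝ) ^ (d - 1) + (m : ℝ) ^ (d - 1) + m) + 2 * η * 1 := by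
            rw [hmm2, mul_one]
        _ ≤ 2 * CR * ((m : ℝ) ^ (d - 1) + (m : ℝ) ^ (d - 1) + (m : ℝ) ^ (d - 1)) +
            2 * η * (m : ℝ) ^ (d - 1) := by gcongr
        _ = _ := by ring
    have f2 : (C1 : ℝ) * ((2 * (CR * ((m : ℝ) ^ (d - 1) + m * ((m : ℝ) ^ (d - 2) + 1))) +
        2 * η) * t0) ≤ C1 * (κ * k0) := by
      have f3 : (6 * CR + 2 * η) * (16 * K) ≤ C1 * κ := by
        rwa [div_le_iff₀ hκ] at hC1d
      have f4 : (m : ℝ) ^ d ≤ 16 * K * k0 := by exact_mod_cast k4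
      calc (C1 : ℝ) * ((2 * (CR * ((m : ℝ) ^ (d - 1) + m * ((m : ℝ) ^ (d - 2) + 1))) +
            2 * η) * t0)
          = (2 * (CR * ((m : ℝ) ^ (d - 1) + m * ((m : ℝ) ^ (d - 2) + 1))) +
            2 * η) * (C1 * t0) := by ring
        _ ≤ ((6 * CR + 2 * η) * (m : ℝ) ^ (d - 1)) * m := by gcongr
        _ = (6 * CR + 2 * η) * (m : ℝ) ^ d := by rw [← hmm3]; ring
        _ ≤ (6 * CR + 2 * η) * (16 * K * k0) := by gcongr
        _ = ((6 * CR + 2 * η) * (16 * K)) * k0 := by ring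
        _ ≤ (C1 * κ) * k0 := by gcongr
        _ = _ := by ring
    exact le_of_mul_le_mul_left f2 (by linarith)

end Crest.Agent.R065.M4num237
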