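import Crest.Agent.R065.M4_96
import Crest.Agent.R065.GenAll_812

/-!
# Row 65, `d ≥ 4`: separation of the product, number of null pairs, generic isometries
-/

set_option autoImplicit false

open MvPolynomial Module Finset

namespace Crest.Agent.R065.M4

open Crest.Agent.R065.HF669 Crest.Agent.R065.Base348 Crest.Agent.R065.Top348
  Crest.Agent.R065.Pins348 Crest.Agent.R065.ExtP580

variable {d : ℕ}

open scoped Classical in
/-- the nonzero distances -/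
noncomputable def Dst (P : Finset (E d)) : Finset ℝ := P.offDiag.image fun p => dist p.1 p.2

lemma mem_Dst {P : Finset (E d)} {r : ℝ} :
    r ∈ Dst P ↔ ∃ a ∈ P, ∃ b ∈ P, a ≠ b ∧ dist a b = r := by
  classical
  unfold Dst
  rw [mem_image]
  constructor
  · rintro ⟨⟨a, b⟩, h, rfl⟩
    rw [mem_offDiag] at h
    exact ⟨a, h.1, b, h.2.1, h.2.2, rfl⟩
  · rintro ⟨a, ha, b, hb, hne, rfl⟩
    exact ⟨(a, b), mem_offDiag.2 ⟨ha, hb, hne⟩, rfl⟩

lemma card_Dst (P : Finset (E d)) : (Dst P).card = nd P := by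
  unfold nd
  rw [← Set.ncard_coe_finset]
  congr 1
  ext r
  rw [mem_coe, mem_Dst]
  rfl

lemma Dst_pos {P : Finset (E d)} {r : ℝ} (h : r ∈ Dst P) : 0 < r := by
  obtain ⟨a, _, b, _, hne, rfl⟩ := mem_Dst.1 h
  exact dist_pos.2 hne

/-- (P1) -/
theorem sepPts (d : ℕ) : SepPts d := by
  intro Q R P _
  apply sep_of_ne_zero
  rintro _ ⟨⟨a, c⟩, hz, rfl⟩
  rw [mem_coe, mem_product] at hz
  have h0 : ∀ r ∈ Dst P, 0 ≤ r := fun r hr => (Dst_pos hr).le
  refine ⟨PQ (-1) (Dst P) (Q a) 0 * PQ 1 (Dst P) (R c) 0, ?_, ?_, ?_⟩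
  · rw [← mem_W]
    have h1 := PQ_mem_W (-1 : ℂ) (card_Dst P).le (Q a) 0
    have h2 := PQ_mem_W (1 : ℂ) (card_Dst P).le (R c) 0
    refine W_mono ?_ (mul_mem_W h1 h2)
    omega
  · rw [map_mul]
    refine mul_ne_zero ?_ ?_
    · refine eval_PQ_ne_zero h0 le_rfl ?_
      rw [eval_QP_neg, dist_self]
    · refine eval_PQ_ne_zero h0 le_rfl ?_
      rw [eval_QP_pos, dist_self]
  · rintro _ ⟨⟨b, e⟩, hw, rfl⟩ hne
    rw [mem_coe, mem_product] at hw
    rw [map_mul]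
    by_cases hab : b = a
    · have hce : e ≠ c := by
        rintro rfl
        subst hab
        exact hne rfl
      refine mul_eq_zero_of_right _ ?_
      have h1 : dist c e ∈ Dst P := mem_Dst.2 ⟨c, hz.2, e, hw.2, hce.symm, rfl⟩
      refine eval_PQ_eq_zero h1 (Dst_pos h1).ne' ?_
      rw [eval_QP_pos, LinearIsometryEquiv.dist_map]
    · refine mul_eq_zero_of_left ?_ _
      have h1 : dist a b ∈ Dst P := mem_Dst.2 ⟨a, hz.1, b, hw.1, fun h => hab h.symm, rfl⟩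
      refine eval_PQ_eq_zero h1 (Dst_pos h1).ne' ?_
      rw [eval_QP_neg, LinearIsometryEquiv.dist_map]

open scoped Classical in
lemma sum_sq_le_TP (P : Finset (E d)) :
    ∑ r ∈ Dst P, (P.offDiag.filter fun p => dist p.1 p.2 = r).card ^ 2 ≤
      TP Nl (P ×ˢ P) (P ×ˢ P) := by
  have h3 : ∑ r ∈ Dst P, (P.offDiag.filter fun p => dist p.1 p.2 = r).card ^ 2 =
      ((Dst P).sigma fun r => (P.offDiag.filter fun p => dist p.1 p.2 = r) ×ˢ
        (P.offDiag.filter fun p => dist p.1 p.2 = r)).card := by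
    rw [card_sigma]
    refine sum_congr rfl fun r _ => ?_
    rw [card_product, sq]
  rw [h3]
  unfold TP
  refine card_le_card_of_injOn
    (fun x => ((x.2.1.1, x.2.2.1), (x.2.1.2, x.2.2.2))) ?_ ?_
  · rintro ⟨r, ⟨⟨a, b⟩, ⟨c, e⟩⟩⟩ hx
    simp only [coe_sigma, Set.mem_sigma_iff, mem_coe, mem_product, mem_filter,
      mem_offDiag] at hx
    obtain ⟨_, ⟨⟨h1, h2, h3⟩, h4⟩, ⟨h5, h6, h7⟩, h8⟩ := hx
    simp only [mem_coe, mem_filter, mem_product]
    refine ⟨⟨⟨h1, h5⟩, h2, h6⟩, h4.trans h8.symm, ?_⟩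
    intro h
    exact h3 (congrArg Prod.fst h)
  · rintro ⟨r, ⟨⟨a, b⟩, ⟨c, e⟩⟩⟩ hx ⟨r', ⟨⟨a', b'⟩, ⟨c', e'⟩⟩⟩ hx' h
    simp only [coe_sigma, Set.mem_sigma_iff, mem_coe, mem_product, mem_filter,
      mem_offDiag] at hx hx'
    obtain ⟨_, ⟨_, h4⟩, _⟩ := hx
    obtain ⟨_, ⟨_, h4'⟩, _⟩ := hx'
    simp only [Prod.mk.injEq] at h
    obtain ⟨⟨rfl, rfl⟩, rfl, rfl⟩ := h
    have : r = r' := h4.symm.trans h4'
    subst this
    rfl

/-- (P2) -/
theorem manyNull (d : ℕ) : ManyNull d := by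
  classical
  intro P hP
  have h1 : P.offDiag.card =
      ∑ r ∈ Dst P, (P.offDiag.filter fun p => dist p.1 p.2 = r).card := by
    apply card_eq_sum_card_fiberwise
    intro p hp
    rw [mem_coe] at hp
    exact mem_coe.2 (mem_image_of_mem _ hp)
  have h2 : P.offDiag.card ^ 2 ≤ nd P * TP Nl (P ×ˢ P) (P ×ˢ P) := by
    calc P.offDiag.card ^ 2 =
        (∑ r ∈ Dst P, (P.offDiag.filter fun p => dist p.1 p.2 = r).card) ^ 2 := by rw [← h1]
      _ ≤ (Dst P).card * ∑ r ∈ Dst P, (P.offDiag.filter fun p => dist p.1 p.2 = r).card ^ 2 :=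
          sq_sum_le_card_mul_sum_sq
      _ ≤ nd P * TP Nl (P ×ˢ P) (P ×ˢ P) := by
          rw [card_Dst]
          exact Nat.mul_le_mul_left _ (sum_sq_le_TP P)
  have h3 : P.offDiag.card = P.card * P.card - P.card := offDiag_card P
  have h4 : (P ×ˢ P).card ≤ 2 * P.offDiag.card := by
    rw [card_product, h3]
    have : P.card * 2 ≤ P.card * P.card := Nat.mul_le_mul_left _ hP
    omega
  have h5 : (P ×ˢ P).card ^ 2 ≤ 4 * (nd P * TP Nl (P ×ˢ P) (P ×ˢ P)) := by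
    calc (P ×ˢ P).card ^ 2 ≤ (2 * P.offDiag.card) ^ 2 := Nat.pow_le_pow_left h4 2
      _ = 4 * P.offDiag.card ^ 2 := by ring
      _ ≤ _ := Nat.mul_le_mul_left 4 h2
  have h6 : (((P ×ˢ P).card : ℝ)) ^ 2 ≤ 4 * ((nd P : ℝ) * TP Nl (P ×ˢ P) (P ×ˢ P)) := by
    exact_mod_cast h5
  linarith

/-- (P3) -/
theorem generic2 (hd : 2 ≤ d) : Generic2 d := fun P => D3rot812.exists_generic2 hd (P ×ˢ P)

/-- **`d ≥ 4`** from the two algebraic inputs -/
theorem bd4 (hd : 4 ≤ d) (hL0 : L0inD d) (hRank : RankD d) :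
    ∃ A : ℝ, 0 < A ∧ ∀ P : Finset (E d), 2 ≤ P.card →
      (P.card : ℝ) ^ 2 ≤ (A * (nd P : ℝ)) ^ d :=
  bd4_of hd hL0 hRank (sepPts d) (manyNull d) (generic2 (by omega))

end Crest.Agent.R065.M4
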