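import Crest.Agent.R065.Engine_348

/-!
# Row 65, `d ≥ 4`: the bound for sets without rich hyperplanes
-/

set_option autoImplicit false

open Module

namespace Crest.Agent.R065.Main4348

open Crest.Agent.R065.Base348 Crest.Agent.R065.Top348 Crest.Agent.R065.Pins348
open Crest.Agent.R065.Reg348 Crest.Agent.R065.Samp348 Crest.Agent.R065.Engine348
open Crest.Agent.R065.Hyp348

/-- dyadic pigeonhole: sums over large values -/
lemma dyadic {ι : Type*} (s : Finset ι) (x : ι → ℝ) (M0 : ℝ) (hM0 : 0 < M0) (J : ℕ)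
    (hJ : ∀ i ∈ s, x i < 2 ^ J * M0) :
    ∑ i ∈ s, x i ≤ s.card * M0 +
      ∑ j ∈ Finset.range J, 2 ^ (j + 1) * M0 * ((s.filter fun i => 2 ^ j * M0 ≤ x i).card : ℝ) := by
  classical
  have h1 : ∀ i ∈ s, x i ≤ M0 + ∑ j ∈ Finset.range J,
      2 ^ (j + 1) * M0 * (if 2 ^ j * M0 ≤ x i then (1 : ℝ) else 0) := by
    intro i hi
    have hnn : ∀ j ∈ Finset.range J,
        0 ≤ 2 ^ (j + 1) * M0 * (if 2 ^ j * M0 ≤ x i then (1 : ℝ) else 0) := by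
      intro j _; positivity
    by_cases hlt : x i < M0
    · have := Finset.sum_nonneg hnn
      linarith
    · push Not at hlt
      have hex : ∃ j, x i < 2 ^ j * M0 := ⟨J, hJ i hi⟩
      have hj1 := Nat.find_spec hex
      have hj0 : Nat.find hex ≠ 0 := by
        intro h0
        rw [h0] at hj1
        simp only [pow_zero, one_mul] at hj1
        linarith
      obtain ⟨j, hj⟩ := Nat.exists_eq_succ_of_ne_zero hj0
      have hj2 : ¬ x i < 2 ^ j * M0 := Nat.find_min hex (by omega)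
      push Not at hj2
      rw [hj] at hj1
      have hjJ : j < J := by
        have := Nat.find_min' hex (hJ i hi)
        omega
      have := Finset.single_le_sum hnn (Finset.mem_range.2 hjJ)
      rw [if_pos hj2, mul_one] at this
      have e : x i ≤ 2 ^ (j + 1) * M0 := hj1.le
      exact e.trans (this.trans (le_add_of_nonneg_left hM0.le))
  refine (Finset.sum_le_sum h1).trans ?_
  rw [Finset.sum_add_distrib, Finset.sum_const, nsmul_eq_mul, Finset.sum_comm]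
  refine add_le_add le_rfl (Finset.sum_le_sum fun j _ => ?_)
  rw [← Finset.mul_sum, ← Finset.sum_filter, Finset.sum_const, nsmul_eq_mul, mul_one]

theorem geom_half (J : ℕ) : ∑ j ∈ Finset.range J, ((1 : ℝ) / 2) ^ j ≤ 2 := by
  have := geom_sum_eq (by norm_num : (1 / 2 : ℝ) ≠ 1) J
  rw [this]
  have h : 0 ≤ ((1 : ℝ) / 2) ^ J := by positivity
  rw [div_le_iff_of_neg (by norm_num)]
  linarith

/-- numerical conclusion -/
lemma final_arith {d : ℕ} (hd : 4 ≤ d) {C2 C3 A n t τ B : ℝ} {j : ℕ} (hC2 : 0 < C2)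
    (hC3 : C3 = 8 * B ^ 2 * C2) (hB : 1 ≤ B) (hA2 : 2 * C3 * B ^ d ≤ A) (hA3 : 4 * C3 ^ 2 ≤ A)
    (hA4 : 1 ≤ A) (hn : 2 ≤ n) (ht : 1 ≤ t) (hτ : 1 ≤ τ) (hτ3 : τ * 2 ^ j ≤ B * t)
    (k1 : n ^ 2 / (8 * 4 ^ j) < C2 * (τ ^ d + τ * n)) : n ^ 2 ≤ (A * t) ^ d := by
  have hC3p : 0 < C3 := by rw [hC3]; positivity
  have hτ0 : 0 < τ := by linarith
  have hn0 : 0 < n := by linarith
  have ht0 : 0 < t := by linarith
  have hA0 : 0 < A := by linarith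
  have hτ4 : τ ≤ B * t := by
    have : (1 : ℝ) ≤ 2 ^ j := one_le_pow₀ (by norm_num)
    calc τ = τ * 1 := (mul_one _).symm
      _ ≤ τ * 2 ^ j := by gcongr
      _ ≤ B * t := hτ3
  have htd : t ^ 4 ≤ t ^ d := pow_le_pow_right₀ ht hd
  have hAd : A ≤ A ^ d := by
    calc A = A ^ 1 := (pow_one _).symm
      _ ≤ A ^ d := pow_le_pow_right₀ hA4 (by omega)
  have k2 : τ ^ 2 * 4 ^ j ≤ (B * t) ^ 2 := by
    calc τ ^ 2 * 4 ^ j = (τ * 2 ^ j) ^ 2 := by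
          rw [mul_pow, ← pow_mul, mul_comm j 2, pow_mul]; norm_num
      _ ≤ (B * t) ^ 2 := by gcongr
  have k3 : τ ^ 2 * n ^ 2 < 8 * C2 * (B * t) ^ 2 * (τ ^ d + τ * n) := by
    rw [div_lt_iff₀ (by positivity)] at k1
    calc τ ^ 2 * n ^ 2 < τ ^ 2 * (C2 * (τ ^ d + τ * n) * (8 * 4 ^ j)) := by gcongr
      _ = 8 * C2 * (τ ^ 2 * 4 ^ j) * (τ ^ d + τ * n) := by ring
      _ ≤ 8 * C2 * (B * t) ^ 2 * (τ ^ d + τ * n) := by gcongr
  have k4 : n ^ 2 < C3 * t ^ 2 * ((B * t) ^ (d - 2) + n) := by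
    have e1 : τ ^ d + τ * n ≤ τ ^ 2 * ((B * t) ^ (d - 2) + n) := by
      have e2 : τ ^ d = τ ^ 2 * τ ^ (d - 2) := by
        rw [← pow_add]; congr 1; omega
      have e3 : τ ^ (d - 2) ≤ (B * t) ^ (d - 2) := by gcongr
      have e4 : τ * n ≤ τ ^ 2 * n := by
        have e5 : τ ≤ τ ^ 2 := by nlinarith
        gcongr
      rw [e2, mul_add]
      gcongr
    have e5 : τ ^ 2 * n ^ 2 < τ ^ 2 * (C3 * t ^ 2 * ((B * t) ^ (d - 2) + n)) := by
      calc τ ^ 2 * n ^ 2 < 8 * C2 * (B * t) ^ 2 * (τ ^ d + τ * n) := k3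
        _ ≤ 8 * C2 * (B * t) ^ 2 * (τ ^ 2 * ((B * t) ^ (d - 2) + n)) := by gcongr
        _ = τ ^ 2 * (C3 * t ^ 2 * ((B * t) ^ (d - 2) + n)) := by rw [hC3]; ring
    exact lt_of_mul_lt_mul_left e5 (by positivity)
  rcases le_total ((B * t) ^ (d - 2)) n with h | h
  · have e1 : n ^ 2 < C3 * t ^ 2 * (n + n) := lt_of_lt_of_le k4 (by gcongr)
    have e2 : n < 2 * C3 * t ^ 2 := by
      have : n * n < (2 * C3 * t ^ 2) * n := by
        calc n * n = n ^ 2 := (sq n).symm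
          _ < C3 * t ^ 2 * (n + n) := e1
          _ = _ := by ring
      exact lt_of_mul_lt_mul_right this hn0.le
    calc n ^ 2 ≤ (2 * C3 * t ^ 2) ^ 2 := by gcongr
      _ = 4 * C3 ^ 2 * t ^ 4 := by ring
      _ ≤ A * t ^ 4 := by gcongr
      _ ≤ A ^ d * t ^ d := by gcongr
      _ = (A * t) ^ d := (mul_pow _ _ _).symm
  · have e1 : n ^ 2 < C3 * t ^ 2 * ((B * t) ^ (d - 2) + (B * t) ^ (d - 2)) :=
      lt_of_lt_of_le k4 (by gcongr)
    have g1 : t ^ 2 * (B * t) ^ (d - 2) ≤ B ^ d * t ^ d := by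
      rw [mul_pow]
      have g2 : B ^ (d - 2) ≤ B ^ d := pow_le_pow_right₀ hB (by omega)
      have g3 : t ^ 2 * t ^ (d - 2) = t ^ d := by
        rw [← pow_add]; congr 1; omega
      calc t ^ 2 * (B ^ (d - 2) * t ^ (d - 2)) = B ^ (d - 2) * (t ^ 2 * t ^ (d - 2)) := by ring
        _ = B ^ (d - 2) * t ^ d := by rw [g3]
        _ ≤ B ^ d * t ^ d := by gcongr
    calc n ^ 2 ≤ C3 * t ^ 2 * ((B * t) ^ (d - 2) + (B * t) ^ (d - 2)) := e1.le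
      _ = 2 * C3 * (t ^ 2 * (B * t) ^ (d - 2)) := by ring
      _ ≤ 2 * C3 * (B ^ d * t ^ d) := by gcongr
      _ = 2 * C3 * B ^ d * t ^ d := by ring
      _ ≤ A * t ^ d := by gcongr
      _ ≤ A ^ d * t ^ d := by gcongr
      _ = (A * t) ^ d := (mul_pow _ _ _).symm

/-- some level is populated -/
lemma exists_level {ι : Type*} (s : Finset ι) (x : ι → ℝ) {n t : ℝ} (hn : 0 < n) (ht : 1 ≤ t)
    (T : ℕ) (hT : t = T) (hs : (s.card : ℝ) = n ^ 2)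
    (hx2 : ∀ z ∈ s, x z ≤ n ^ 2)
    (hS : n ^ 4 ≤ 128 * t * ∑ z ∈ s, x z) :
    ∃ j : ℕ, n ^ 2 / (8 * 4 ^ j) <
      ((s.filter fun z => 2 ^ j * (n ^ 2 / (256 * t)) ≤ x z).card : ℝ) := by
  classical
  obtain ⟨M0, hM0⟩ : ∃ M0 : ℝ, M0 = n ^ 2 / (256 * t) := ⟨_, rfl⟩
  rw [← hM0]
  have ht0 : 0 < t := by linarith
  have hM0p : 0 < M0 := by rw [hM0]; positivity
  have hM0t : M0 * (256 * t) = n ^ 2 := by rw [hM0, div_mul_cancel₀ _ (by positivity)]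
  have hJlt : ∀ z ∈ s, x z < 2 ^ (256 * T) * M0 := by
    intro z hz
    refine lt_of_le_of_lt (hx2 z hz) ?_
    rw [← hM0t, mul_comm]
    have e1 : ((256 * T : ℕ) : ℝ) < 2 ^ (256 * T) := by
      exact_mod_cast (Nat.lt_two_pow_self : 256 * T < 2 ^ (256 * T))
    have e2 : ((256 * T : ℕ) : ℝ) = 256 * t := by rw [hT]; push_cast; ring
    rw [← e2]
    exact mul_lt_mul_of_pos_right e1 hM0p
  generalize 256 * T = J at hJlt
  have hdy := dyadic s x M0 hM0p J hJlt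
  by_contra hno
  push Not at hno
  have e1 : ∑ j ∈ Finset.range J, 2 ^ (j + 1) * M0 *
      ((s.filter fun z => 2 ^ j * M0 ≤ x z).card : ℝ) ≤
      ∑ j ∈ Finset.range J, n ^ 2 * M0 / 4 * ((1 : ℝ) / 2) ^ j := by
    refine Finset.sum_le_sum fun j _ => ?_
    have := hno j
    calc 2 ^ (j + 1) * M0 * ((s.filter fun z => 2 ^ j * M0 ≤ x z).card : ℝ)
        ≤ 2 ^ (j + 1) * M0 * (n ^ 2 / (8 * 4 ^ j)) := by gcongr
      _ = n ^ 2 * M0 / 4 * ((1 : ℝ) / 2) ^ j := by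
          have h4 : (4 : ℝ) ^ j = 2 ^ j * 2 ^ j := by rw [← mul_pow]; norm_num
          rw [h4, pow_succ, div_pow, one_pow]
          field_simp
          norm_num
  rw [← Finset.mul_sum] at e1
  have e2 := geom_half J
  have e3 : n ^ 2 * M0 / 4 * ∑ j ∈ Finset.range J, ((1 : ℝ) / 2) ^ j ≤
      n ^ 2 * M0 / 4 * 2 := by gcongr
  rw [hs] at hdy
  have e4 : ∑ z ∈ s, x z ≤ 3 / 2 * n ^ 2 * M0 := by
    have := hdy.trans (add_le_add le_rfl (e1.trans e3))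
    linarith
  have e5 : n ^ 4 ≤ 128 * t * (3 / 2 * n ^ 2 * M0) := by
    refine hS.trans ?_
    gcongr
  have e6 : 128 * t * (3 / 2 * n ^ 2 * M0) = 3 / 4 * n ^ 4 := by
    have : 128 * t * (3 / 2 * n ^ 2 * M0) = 3 / 4 * n ^ 2 * (M0 * (256 * t)) := by
      ring
    rw [this, hM0t]; ring
  rw [e6] at e5
  have e7 : (0 : ℝ) < n ^ 4 := by positivity
  linarith

lemma sum_ge {d : ℕ} (P : Finset (EuclideanSpace ℝ (Fin d))) (h1 : 1 ≤ nd P) :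
    (P.card : ℝ) ^ 4 ≤ 128 * (nd P : ℝ) * ∑ z ∈ P ×ˢ P, ((Nb P z).card : ℝ) := by
  have e1 : (Bs P).card ^ 2 ≤ (nd P + 1) * ∑ z ∈ P ×ˢ P, (Nb P z).card :=
    (sum_Nb P).trans (Nat.mul_le_mul_right _ (card_dists P))
  have e2 := card_Bs P
  have e1' : ((Bs P).card : ℝ) ^ 2 ≤ ((nd P : ℝ) + 1) * ∑ z ∈ P ×ˢ P, ((Nb P z).card : ℝ) := by
    exact_mod_cast e1
  have e2' : (P.card : ℝ) ^ 2 ≤ 8 * (Bs P).card := by exact_mod_cast e2
  have h1' : (1 : ℝ) ≤ nd P := by exact_mod_cast h1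
  have e3 : (0 : ℝ) ≤ ∑ z ∈ P ×ˢ P, ((Nb P z).card : ℝ) :=
    Finset.sum_nonneg fun _ _ => Nat.cast_nonneg _
  generalize ∑ z ∈ P ×ˢ P, ((Nb P z).card : ℝ) = X at *
  generalize (nd P : ℝ) = t at *
  generalize ((Bs P).card : ℝ) = b at *
  calc (P.card : ℝ) ^ 4 = ((P.card : ℝ) ^ 2) ^ 2 := by ring
    _ ≤ (8 * b) ^ 2 := by gcongr
    _ = 64 * b ^ 2 := by ring
    _ ≤ 64 * ((t + 1) * X) := by gcongr
    _ ≤ 64 * ((t + t) * X) := by gcongr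
    _ = _ := by ring

/-- **`d ≥ 4`, no rich hyperplane.** -/
theorem bound_noHyp {d : ℕ} (hd : 4 ≤ d) (h0 : L0 d) (h1 : L1 d) :
    ∃ A : ℝ, 0 < A ∧ ∀ P : Finset (EuclideanSpace ℝ (Fin d)), 2 ≤ P.card → NoHyp P →
      (P.card : ℝ) ^ 2 ≤ (A * (nd P : ℝ)) ^ d := by
  classical
  obtain ⟨C1, C2, hC1, hC2, hlev⟩ := level hd h0 h1
  obtain ⟨B, hB⟩ : ∃ B : ℝ, B = 1280 := ⟨_, rfl⟩
  have hB1 : 1 ≤ B := by rw [hB]; norm_num
  obtain ⟨C3, hC3⟩ : ∃ C3 : ℝ, C3 = 8 * B ^ 2 * C2 := ⟨_, rfl⟩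
  have hC3p : 0 < C3 := by rw [hC3]; positivity
  obtain ⟨A, hA⟩ : ∃ A : ℝ, A = (B + 1) * C1 + (2 * C3 * B ^ d + (4 * C3 ^ 2 + 1)) := ⟨_, rfl⟩
  have hC1R : (1 : ℝ) ≤ C1 := by exact_mod_cast hC1
  have p1 : 0 ≤ 2 * C3 * B ^ d := by positivity
  have p2 : 0 ≤ 4 * C3 ^ 2 := by positivity
  have p3 : 0 ≤ (B + 1) * C1 := by positivity
  have hA1 : (B + 1) * C1 ≤ A := by linarith
  have hA2 : 2 * C3 * B ^ d ≤ A := by linarith
  have hA3 : 4 * C3 ^ 2 ≤ A := by linarith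
  have hA4 : 1 ≤ A := by linarith
  refine ⟨A, by linarith, fun P hP2 hP => ?_⟩
  by_contra hcon
  push Not at hcon
  have ht1 : 1 ≤ nd P := nd_pos hP2
  have hS := sum_ge P ht1
  have hscard : ((P ×ˢ P).card : ℝ) = (P.card : ℝ) ^ 2 := by
    rw [Finset.card_product, sq]; push_cast; rfl
  have hNb : ∀ z ∈ P ×ˢ P, ((Nb P z).card : ℝ) ≤ (P.card : ℝ) ^ 2 := by
    intro z _
    have : (Nb P z).card ≤ (P ×ˢ P).card := Finset.card_le_card (by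
      intro w hw
      exact Finset.mem_product.2 ((mem_Nb P).1 hw).1)
    rw [← hscard]
    exact_mod_cast this
  have hnR : (2 : ℝ) ≤ P.card := by exact_mod_cast hP2
  have htR : (1 : ℝ) ≤ nd P := by exact_mod_cast ht1
  obtain ⟨j, hjc⟩ := exists_level (P ×ˢ P) (fun z => ((Nb P z).card : ℝ)) (n := (P.card : ℝ))
    (t := (nd P : ℝ)) (by linarith) htR (nd P) rfl hscard hNb hS
  obtain ⟨n, hn⟩ : ∃ n, n = P.card := ⟨_, rfl⟩
  obtain ⟨t, ht⟩ : ∃ t, t = nd P := ⟨_, rfl⟩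
  rw [← hn, ← ht] at hjc hcon
  rw [← hn] at hnR hNb
  rw [← ht] at htR
  have hn0 : (0 : ℝ) < n := by linarith
  have ht0 : (0 : ℝ) < t := by linarith
  -- the level
  obtain ⟨M0, hM0⟩ : ∃ M0 : ℝ, M0 = (n : ℝ) ^ 2 / (256 * t) := ⟨_, rfl⟩
  rw [← hM0] at hjc
  have hM0p : 0 < M0 := by rw [hM0]; positivity
  have hM0t : M0 * (256 * t) = (n : ℝ) ^ 2 := by rw [hM0, div_mul_cancel₀ _ (by positivity)]
  obtain ⟨M, hM⟩ : ∃ M : ℕ, M = ⌈2 ^ j * M0⌉₊ := ⟨_, rfl⟩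
  have hMpos : 0 < M := by rw [hM]; exact Nat.ceil_pos.2 (by positivity)
  have hMge : 2 ^ j * M0 ≤ M := by rw [hM]; exact Nat.le_ceil _
  have hMR : (0 : ℝ) < M := by exact_mod_cast hMpos
  have hrich : ((P ×ˢ P).filter fun z => 2 ^ j * M0 ≤ ((Nb P z).card : ℝ)) = rich P M := by
    unfold rich
    apply Finset.filter_congr
    intro z _
    rw [hM, Nat.ceil_le]
  rw [hrich] at hjc
  have hMn : (M : ℝ) ≤ (n : ℝ) ^ 2 := by
    have h3 : (rich P M).Nonempty := by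
      rw [← Finset.card_pos]
      have h4 : (0 : ℝ) < ((rich P M).card : ℝ) := lt_of_le_of_lt (by positivity) hjc
      exact_mod_cast h4
    obtain ⟨z, hz⟩ := h3
    unfold rich at hz
    rw [Finset.mem_filter] at hz
    refine le_trans ?_ (hNb z hz.1)
    exact_mod_cast hz.2
  obtain ⟨τ, hτ⟩ : ∃ τ : ℕ, τ = ⌈4 * (n : ℝ) ^ 2 / M⌉₊ := ⟨_, rfl⟩
  have hτpos : 0 < τ := by rw [hτ]; exact Nat.ceil_pos.2 (by positivity)
  have hτR : (1 : ℝ) ≤ τ := by exact_mod_cast hτpos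
  have hτ1 : 4 * (n : ℝ) ^ 2 / M ≤ τ := by rw [hτ]; exact Nat.le_ceil _
  have hτM : 4 * P.card ^ 2 ≤ τ * M := by
    rw [div_le_iff₀ hMR] at hτ1
    rw [← hn]
    exact_mod_cast hτ1
  have hτ2 : (τ : ℝ) ≤ 5 * n ^ 2 / M := by
    have e1 : (τ : ℝ) ≤ 4 * (n : ℝ) ^ 2 / M + 1 := by
      rw [hτ]; exact (Nat.ceil_lt_add_one (by positivity)).le
    have e2 : 1 ≤ (n : ℝ) ^ 2 / M := by rwa [le_div_iff₀ hMR, one_mul]
    have e3 : 5 * (n : ℝ) ^ 2 / M = 4 * (n : ℝ) ^ 2 / M + (n : ℝ) ^ 2 / M := by ring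
    linarith
  have hτ3 : (τ : ℝ) * 2 ^ j ≤ B * t := by
    have e0 : (τ : ℝ) * M ≤ 5 * n ^ 2 := by rwa [le_div_iff₀ hMR] at hτ2
    have e1 : (τ : ℝ) * (2 ^ j * M0) ≤ 5 * n ^ 2 := le_trans (by gcongr) e0
    rw [← hM0t] at e1
    have e2 : (τ : ℝ) * 2 ^ j * M0 ≤ (B * t) * M0 := by
      rw [hB]
      linarith
    exact le_of_mul_le_mul_right e2 hM0p
  have hτ4 : (τ : ℝ) ≤ B * t := by
    have h3 : (1 : ℝ) ≤ 2 ^ j := one_le_pow₀ (by norm_num)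
    calc (τ : ℝ) = τ * 1 := (mul_one _).symm
      _ ≤ τ * 2 ^ j := by gcongr
      _ ≤ B * t := hτ3
  have hbig : (C1 * τ + 1) ^ d ≤ P.card ^ 2 := by
    rw [← hn]
    have e1 : ((C1 : ℝ) * τ + 1) ^ d ≤ (A * t) ^ d := by
      apply pow_le_pow_left₀ (by positivity)
      have h3 : (1 : ℝ) ≤ C1 * t := by nlinarith
      calc (C1 : ℝ) * τ + 1 ≤ C1 * (B * t) + C1 * t := by gcongr
        _ = (B + 1) * C1 * t := by ring
        _ ≤ A * t := by gcongr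
    have e2 : ((C1 : ℝ) * τ + 1) ^ d ≤ (n : ℝ) ^ 2 := e1.trans hcon.le
    exact_mod_cast e2
  have hl := hlev P hP τ M hτpos hτM hbig
  rw [← hn] at hl
  have k1 : (n : ℝ) ^ 2 / (8 * 4 ^ j) < C2 * ((τ : ℝ) ^ d + τ * n) := lt_of_lt_of_le hjc hl
  have := final_arith hd hC2 hC3 hB1 hA2 hA3 hA4 hnR htR hτR hτ3 k1
  linarith

end Crest.Agent.R065.Main4348
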