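import Crest.Agent.R065.Base_348
import Crest.Agent.R065.DimDeg_669

/-!
# Row 65: the constant variety ("M-block")   (helper474)

`K = Frac k[S_p]`, `F` a field extension of `K` with derivations `D_p` extending `∂/∂S_p`.
(M1) Elements of `F` killed by all `D_p` and linearly independent over `k` are linearly independent
over `K`.
-/

set_option autoImplicit false

open MvPolynomial Module

namespace Crest.Agent.R065.Mblk474

open Crest.Agent.R065.HF669 Crest.Agent.R065.Base348

section const

variable {k : Type*} [Field k] {τ : Type*}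

lemma eq_C_of_pderiv [CharZero k] (f : MvPolynomial τ k) (h : ∀ p, pderiv p f = 0) :
    f = C (coeff 0 f) := by
  classical
  ext n
  rw [coeff_C]
  split_ifs with hn
  · rw [hn]
  · obtain ⟨p, hp⟩ : ∃ p, n p ≠ 0 := by
      by_contra hcon
      push Not at hcon
      exact hn (by ext p; simp [hcon p])
    have h1 := congrArg (coeff (n - Finsupp.single p 1)) (h p)
    rw [coeff_pderiv, coeff_zero, tsub_add_cancel_of_le (by
      rw [Finsupp.single_le_iff]; exact Nat.one_le_iff_ne_zero.2 hp)] at h1
    refine (mul_eq_zero.1 h1).resolve_right ?_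
    have : ((n - Finsupp.single p 1 : τ →₀ ℕ) p : k) + 1 = ((n p : ℕ) : k) := by
      rw [Finsupp.tsub_apply, Finsupp.single_eq_same]
      obtain ⟨q, hq⟩ := Nat.exists_eq_succ_of_ne_zero hp
      rw [hq]; push_cast; simp
    rw [this]
    exact_mod_cast hp

lemma totalDegree_pderiv_le (p : τ) (f : MvPolynomial τ k) :
    (pderiv p f).totalDegree ≤ f.totalDegree - 1 := by
  classical
  rw [totalDegree_eq]
  refine Finset.sup_le fun n hn => ?_
  rw [MvPolynomial.mem_support_iff, coeff_pderiv] at hn
  have h1 : coeff (n + Finsupp.single p 1) f ≠ 0 := left_ne_zero_of_mul hn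
  have h2 := le_totalDegree (MvPolynomial.mem_support_iff.2 h1)
  rw [Finsupp.sum_add_index' (by simp) (by simp), Finsupp.sum_single_index rfl] at h2
  rw [Finsupp.card_toMultiset]
  change (n.sum fun _ e => e) ≤ _
  omega

variable {K : Type*} [Field K] [Algebra (MvPolynomial τ k) K]
  [IsFractionRing (MvPolynomial τ k) K]
  {F : Type*} [Field F] [Algebra K F] [Algebra k F]

/-- **(M1)** linear disjointness of the constants. -/
theorem linearIndependent_of_const [CharZero k] [Algebra k K] [IsScalarTower k K F]
    [IsScalarTower k (MvPolynomial τ k) K]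
    (D : τ → Derivation ℤ F F)
    (hD : ∀ p (g : MvPolynomial τ k), D p (algebraMap K F (algebraMap (MvPolynomial τ k) K g)) =
      algebraMap K F (algebraMap (MvPolynomial τ k) K (pderiv p g)))
    {ι : Type*} (v : ι → F) (hv : ∀ i p, D p (v i) = 0) (hli : LinearIndependent k v) :
    LinearIndependent K v := by
  classical
  let _ : Algebra (MvPolynomial τ k) F :=
    ((algebraMap K F).comp (algebraMap (MvPolynomial τ k) K)).toAlgebra
  have htower : IsScalarTower (MvPolynomial τ k) K F := IsScalarTower.of_algebraMap_eq fun _ => rfl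
  rw [← LinearIndependent.iff_fractionRing (R := MvPolynomial τ k)]
  have hsmul : ∀ (a : MvPolynomial τ k) (x : F), a • x = algebraMap K F (algebraMap _ K a) * x :=
    fun _ _ => rfl
  have hC : ∀ (c : k) (x : F), (C c : MvPolynomial τ k) • x = c • x := by
    intro c x
    rw [hsmul, Algebra.smul_def]
    congr 1
    rw [IsScalarTower.algebraMap_apply k K F c,
      IsScalarTower.algebraMap_apply k (MvPolynomial τ k) K c]
    rfl
  -- constant coefficients
  have hconst : ∀ (s : Finset ι) (c : ι → MvPolynomial τ k), (∀ i ∈ s, ∀ p, pderiv p (c i) = 0) →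
      ∑ i ∈ s, c i • v i = 0 → ∀ i ∈ s, c i = 0 := by
    intro s c hc hsum i hi
    have h1 : ∑ i ∈ s, coeff 0 (c i) • v i = 0 := by
      rw [← hsum]
      refine Finset.sum_congr rfl fun i hi => ?_
      rw [← hC, ← eq_C_of_pderiv (c i) (hc i hi)]
    have h2 := linearIndependent_iff'.1 hli s _ h1 i hi
    rw [eq_C_of_pderiv (c i) (hc i hi), h2, map_zero]
  rw [linearIndependent_iff']
  have key : ∀ (n : ℕ) (s : Finset ι) (c : ι → MvPolynomial τ k),
      (∀ i ∈ s, (c i).totalDegree ≤ n) → ∑ i ∈ s, c i • v i = 0 → ∀ i ∈ s, c i = 0 := by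
    intro n
    induction n with
    | zero =>
      intro s c hc hsum
      refine hconst s c (fun i hi p => ?_) hsum
      have h1 := totalDegree_eq_zero_iff_eq_C.1 (Nat.le_zero.1 (hc i hi))
      rw [h1, pderiv_C]
    | succ n ih =>
      intro s c hc hsum
      refine hconst s c (fun i hi p => ?_) hsum
      have h1 : ∑ i ∈ s, pderiv p (c i) • v i = 0 := by
        have h2 := congrArg (D p) hsum
        rw [map_sum, map_zero] at h2
        rw [← h2]
        refine Finset.sum_congr rfl fun i _ => ?_
        rw [hsmul, hsmul, Derivation.leibniz, hv i p, hD]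
        simp [mul_comm]
      refine ih s (fun i => pderiv p (c i)) (fun i hi => ?_) h1 i hi
      exact (totalDegree_pderiv_le p _).trans (by have := hc i hi; omega)
  intro s c hsum i hi
  exact key (s.sup fun i => (c i).totalDegree) s c
    (fun i hi => Finset.le_sup (f := fun i => (c i).totalDegree) hi) hsum i hi

omit [IsFractionRing (MvPolynomial τ k) K] in
/-- polynomials in constants are constants -/
lemma D_eq_zero_of_mem_U [Algebra k K] [IsScalarTower k K F]
    [IsScalarTower k (MvPolynomial τ k) K]
    (D : τ → Derivation ℤ F F)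
    (hD : ∀ p (g : MvPolynomial τ k), D p (algebraMap K F (algebraMap (MvPolynomial τ k) K g)) =
      algebraMap K F (algebraMap (MvPolynomial τ k) K (pderiv p g)))
    {σ : Type*} (z : σ → F) (hz : ∀ i p, D p (z i) = 0) {m : ℕ} {x : F} (hx : x ∈ U k z m)
    (p : τ) : D p x = 0 := by
  have hk : ∀ c : k, D p (algebraMap k F c) = 0 := by
    intro c
    have h1 := hD p (C c)
    rw [pderiv_C, map_zero, map_zero] at h1
    rw [IsScalarTower.algebraMap_apply k K F c,
      IsScalarTower.algebraMap_apply k (MvPolynomial τ k) K c]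
    exact h1
  obtain ⟨f, -, rfl⟩ := mem_U.1 hx
  clear hx
  induction f using MvPolynomial.induction_on with
  | C a => rw [aeval_C]; exact hk a
  | add f g hf hg => rw [map_add, map_add, hf, hg, add_zero]
  | mul_X f i hf => rw [map_mul, aeval_X, Derivation.leibniz, hf, hz i p, smul_zero, smul_zero,
      add_zero]

lemma monomial_mem_U {R : Type*} [Field R] {E : Type*} [CommRing E] [Algebra R E] {σ : Type*}
    (z : σ → E) (n : σ →₀ ℕ) {q : ℕ} (hn : n.degree ≤ q) : (n.prod fun i e => z i ^ e) ∈ U R z q := by
  refine U_mono z hn ?_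
  rw [Finsupp.prod, Finsupp.degree_apply]
  refine prod_mem_U _ _ _ fun i _ => ?_
  have := pow_mem_U (self_mem_U (k := R) z i) (n i)
  rwa [mul_one] at this

/-- the `K`-filtration is spanned by the `k`-filtration -/
lemma U_eq_span [Algebra k K] [IsScalarTower k K F] {σ : Type*} (z : σ → F) (m : ℕ) :
    U K z m = Submodule.span K (U k z m : Set F) := by
  apply le_antisymm
  · apply U_le_of_monomials
    intro n hn
    exact Submodule.subset_span (monomial_mem_U z n hn)
  · refine Submodule.span_le.2 ?_
    have : U k z m ≤ (U K z m).restrictScalars k := by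
      apply U_le_of_monomials
      intro n hn
      exact monomial_mem_U z n hn
    exact this

/-- **(M1')** Hilbert function of the constant variety over `k` and over `K`. -/
theorem finrank_U_eq [CharZero k] [Algebra k K] [IsScalarTower k K F]
    [IsScalarTower k (MvPolynomial τ k) K]
    (D : τ → Derivation ℤ F F)
    (hD : ∀ p (g : MvPolynomial τ k), D p (algebraMap K F (algebraMap (MvPolynomial τ k) K g)) =
      algebraMap K F (algebraMap (MvPolynomial τ k) K (pderiv p g)))
    {σ : Type*} [Finite σ] (z : σ → F) (hz : ∀ i p, D p (z i) = 0) (m : ℕ) :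
    finrank k (U k z m) = finrank K (U K z m) := by
  let b := Module.finBasis k (U k z m)
  let v : Fin (finrank k (U k z m)) → F := fun i => (b i : F)
  have hli : LinearIndependent k v :=
    b.linearIndependent.map' (U k z m).subtype (Submodule.ker_subtype _)
  have hK := linearIndependent_of_const D hD v
    (fun i p => D_eq_zero_of_mem_U D hD z hz (b i).2 p) hli
  have h1 : Submodule.span K (Set.range v) = U K z m := by
    refine Eq.trans ?_ (U_eq_span (k := k) z m).symm
    apply le_antisymm
    · refine Submodule.span_mono ?_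
      rintro _ ⟨i, rfl⟩
      exact (b i).2
    · refine Submodule.span_le.2 ?_
      intro x hx
      have h2 : x ∈ Submodule.span k (Set.range v) := by
        have h3 : Submodule.span k (Set.range v) = U k z m := by
          have h4 := congrArg (Submodule.map (U k z m).subtype) b.span_eq
          rw [Submodule.map_span, Submodule.map_top, Submodule.range_subtype] at h4
          refine Eq.trans ?_ h4
          congr 1
          ext x
          simp [v]
        rw [h3]; exact hx
      have h5 : Submodule.span k (Set.range v) ≤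
          (Submodule.span K (Set.range v)).restrictScalars k :=
        Submodule.span_le.2 fun x hx => Submodule.subset_span hx
      exact h5 h2
  rw [← h1, finrank_span_eq_card hK, Fintype.card_fin]

end const

section numeric

lemma exists_small_increment (b e1 δ : ℕ) (h : ℕ → ℕ) (hmono : Monotone h)
    (hle : ∀ m, h m ≤ δ * (m + e1).choose e1) :
    ∃ m, 1 ≤ m ∧ (m + b).choose b * (h m - h (m - 1)) < (m + (b + e1)).choose (b + e1) := by
  by_contra hcon
  push Not at hcon
  set L := (b + e1).choose b with hL
  have h1 : ∀ m, 1 ≤ m → (m + e1).choose e1 ≤ L * (h m - h (m - 1)) := by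
    intro m hm
    have h2 := hcon m hm
    have h3 := Nat.choose_mul (n := m + (b + e1)) (k := b + e1) (s := b) (by omega)
    have e1' : m + (b + e1) - b = m + e1 := by omega
    have e2' : b + e1 - b = e1 := by omega
    rw [e1', e2', ← hL] at h3
    have h4 : (m + b).choose b ≤ (m + (b + e1)).choose b := Nat.choose_le_choose b (by omega)
    have h5 : (m + b).choose b * (m + e1).choose e1 ≤
        (m + b).choose b * (L * (h m - h (m - 1))) := by
      calc (m + b).choose b * (m + e1).choose e1 ≤ (m + (b + e1)).choose b * (m + e1).choose e1 :=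
            Nat.mul_le_mul_right _ h4
        _ = (m + (b + e1)).choose (b + e1) * L := h3.symm
        _ ≤ ((m + b).choose b * (h m - h (m - 1))) * L := Nat.mul_le_mul_right _ h2
        _ = (m + b).choose b * (L * (h m - h (m - 1))) := by ring
    exact Nat.le_of_mul_le_mul_left h5 (Nat.choose_pos (by omega))
  have h2 : ∀ M, ∑ i ∈ Finset.range (M + 1), (i + e1).choose e1 ≤ 1 + L * h M := by
    intro M
    induction M with
    | zero => simp
    | succ M ih =>
      rw [Finset.sum_range_succ]
      have h3 := h1 (M + 1) (by omega)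
      have h4 : h M ≤ h (M + 1) := hmono (Nat.le_succ M)
      rw [Nat.add_sub_cancel] at h3
      have h5 : L * h (M + 1) = L * h M + L * (h (M + 1) - h M) := by
        rw [← Nat.mul_add, Nat.add_sub_cancel' h4]
      omega
  set M := (e1 + 1) * (1 + L * δ) with hM
  have h3 := h2 M
  rw [Nat.sum_range_add_choose] at h3
  have h4 := Nat.add_one_mul_choose_eq (M + e1) e1
  have h5 : 1 ≤ (M + e1).choose e1 := Nat.choose_pos (by omega)
  have h6 : (M + e1 + 1) * (M + e1).choose e1 ≤ (e1 + 1) * (1 + L * δ) * (M + e1).choose e1 := by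
    calc (M + e1 + 1) * (M + e1).choose e1 = (M + e1 + 1).choose (e1 + 1) * (e1 + 1) := h4
      _ ≤ (1 + L * h M) * (e1 + 1) := Nat.mul_le_mul_right _ h3
      _ ≤ (1 + L * (δ * (M + e1).choose e1)) * (e1 + 1) := by
          gcongr; exact hle M
      _ ≤ ((M + e1).choose e1 + L * (δ * (M + e1).choose e1)) * (e1 + 1) := by
          gcongr
      _ = (e1 + 1) * (1 + L * δ) * (M + e1).choose e1 := by ring
  have h7 := Nat.le_of_mul_le_mul_right h6 h5
  omega

end numeric

section centre

variable {k : Type*} [Field k] {d : ℕ}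
  {K : Type*} [Field K] [Algebra (MvPolynomial (Pr d) k) K]
  [IsFractionRing (MvPolynomial (Pr d) k) K]
  {F : Type*} [Field F] [Algebra K F] [Algebra k F] [Algebra k K] [IsScalarTower k K F]
  [IsScalarTower k (MvPolynomial (Pr d) k) K]

/-- the generic skew parameter as elements of `K` -/
noncomputable def sK (k : Type*) [Field k] {d : ℕ} (K : Type*) [Field K]
    [Algebra (MvPolynomial (Pr d) k) K] (p : Pr d) : K :=
  algebraMap (MvPolynomial (Pr d) k) K (X p)

/-- the generic skew parameter as elements of `F` -/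
noncomputable def sF (k : Type*) [Field k] {d : ℕ} (K : Type*) [Field K]
    [Algebra (MvPolynomial (Pr d) k) K] (F : Type*) [Field F] [Algebra K F] (p : Pr d) : F :=
  algebraMap K F (sK k K p)

/-- the pairs avoiding `κ` -/
abbrev Pr' (d : ℕ) (κ : Fin d) : Type := {p : Pr d // p.1.1 ≠ κ ∧ p.1.2 ≠ κ}

/-- `K`-span of `1, θ` times polynomials of degree `≤ n` in `z`, shifted by one -/
noncomputable def NN (K : Type*) [Field K] {F : Type*} [Field F] [Algebra K F] {d : ℕ} {σ : Type*}
    (θ : Fin d → F) (z : σ → F) : ℕ → Submodule K F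
  | 0 => ⊥
  | n + 1 => U K θ 1 * U K z n

omit [IsFractionRing (MvPolynomial (Pr d) k) K] [IsScalarTower k (MvPolynomial (Pr d) k) K] in
lemma reduce_step (ξ η : Fin d → F) (κ : Fin d) :
    ∀ n, U k (sF k K F : Pr d → F) n ≤
      ((U k (fun p : Pr' d κ => sF k K F p.1) n * U k (Sum.elim ξ η) n) ⊔
        (NN K (fun i => η i + act (sF k K F) ξ i) (Sum.elim ξ η) n).restrictScalars k).comap
          (LinearMap.mulLeft k (ξ κ ^ n)) := by
  set θ : Fin d → F := fun i => η i + act (sF k K F) ξ i with hθ
  set z : Fin d ⊕ Fin d → F := Sum.elim ξ η with hz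
  set s' : Pr' d κ → F := fun p => sF k K F p.1 with hs'
  have hUkK : ∀ n, U k z n ≤ (U K z n).restrictScalars k := by
    intro n
    apply U_le_of_monomials
    intro a ha
    exact monomial_mem_U z a ha
  have hs'K : ∀ n, ∀ x ∈ U k s' n, ∃ a : K, x = algebraMap K F a := by
    intro n x hx
    obtain ⟨f, -, rfl⟩ := mem_U.1 hx
    refine ⟨aeval (fun p : Pr' d κ => sK k K p.1) f, ?_⟩
    rw [← MvPolynomial.aeval_algebraMap_apply]
    rfl
  have hξz : ∀ i, ξ i ∈ U k z 1 := fun i => self_mem_U (k := k) z (Sum.inl i)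
  have hηz : ∀ i, η i ∈ U k z 1 := fun i => self_mem_U (k := k) z (Sum.inr i)
  have hRK : ∀ n, U k s' n * U k z n ≤ (U K z n).restrictScalars k := by
    intro n
    rw [Submodule.mul_le]
    intro x hx y hy
    obtain ⟨a, rfl⟩ := hs'K n x hx
    rw [← Algebra.smul_def]
    exact (U K z n).smul_mem a (hUkK n hy)
  intro n
  induction n with
  | zero =>
    apply U_le_of_monomials
    intro a ha
    have h0 : a = 0 := by
      rw [← Finsupp.degree_eq_zero_iff]; omega
    subst h0
    refine Submodule.mem_sup_left ?_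
    simp only [pow_zero, LinearMap.mulLeft_apply, one_mul, Finsupp.prod_zero_index]
    have := Submodule.mul_mem_mul (one_mem_U (k := k) s' 0) (one_mem_U (k := k) z 0)
    rwa [one_mul] at this
  | succ n ih =>
    have hmul1 : ∀ x ∈ U k s' n * U k z n, ∀ y ∈ U k z 1, y * x ∈ U k s' (n + 1) * U k z (n + 1) := by
      intro x hx y hy
      have : U k s' n * U k z n ≤ (U k s' (n + 1) * U k z (n + 1)).comap (LinearMap.mulLeft k y) := by
        rw [Submodule.mul_le]
        intro u hu v hv
        rw [Submodule.mem_comap, LinearMap.mulLeft_apply, mul_left_comm]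
        refine Submodule.mul_mem_mul (U_mono s' (Nat.le_succ n) hu) ?_
        rw [mul_comm]
        exact mul_mem_U hv hy
      exact this hx
    have hmul2 : ∀ x ∈ U k s' n * U k z n, ∀ y ∈ U k z 1, ∀ w ∈ U k s' 1,
        (w * y) * x ∈ U k s' (n + 1) * U k z (n + 1) := by
      intro x hx y hy w hw
      have : U k s' n * U k z n ≤
          (U k s' (n + 1) * U k z (n + 1)).comap (LinearMap.mulLeft k (w * y)) := by
        rw [Submodule.mul_le]
        intro u hu v hv
        have e : (w * y) * (u * v) = (u * w) * (v * y) := by ring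
        rw [Submodule.mem_comap, LinearMap.mulLeft_apply, e]
        exact Submodule.mul_mem_mul (mul_mem_U hu hw) (mul_mem_U hv hy)
      exact this hx
    have hN : ∀ x ∈ NN K θ z n, ∀ y ∈ U K z 1, y * x ∈ NN K θ z (n + 1) := by
      intro x hx y hy
      cases n with
      | zero =>
        change x ∈ (⊥ : Submodule K F) at hx
        rw [Submodule.mem_bot] at hx
        rw [hx, mul_zero]
        exact Submodule.zero_mem _
      | succ n =>
        change x ∈ U K θ 1 * U K z n at hx
        change y * x ∈ U K θ 1 * U K z (n + 1)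
        have : U K θ 1 * U K z n ≤ (U K θ 1 * U K z (n + 1)).comap (LinearMap.mulLeft K y) := by
          rw [Submodule.mul_le]
          intro u hu v hv
          rw [Submodule.mem_comap, LinearMap.mulLeft_apply, mul_left_comm]
          refine Submodule.mul_mem_mul hu ?_
          rw [mul_comm]
          exact mul_mem_U hv hy
        exact this hx
    apply U_succ_le
    · refine Submodule.mem_sup_left ?_
      rw [LinearMap.mulLeft_apply, mul_one, ← one_mul (ξ κ ^ (n + 1))]
      refine Submodule.mul_mem_mul (one_mem_U s' _) ?_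
      have := pow_mem_U (hξz κ) (n + 1)
      rwa [mul_one] at this
    · intro p x hx
      rw [Submodule.mem_comap, LinearMap.mulLeft_apply]
      have h1 := ih hx
      rw [Submodule.mem_comap, LinearMap.mulLeft_apply, Submodule.mem_sup] at h1
      obtain ⟨r, hr, ν, hν, hrν⟩ := h1
      have hν' : ν ∈ NN K θ z n := hν
      have e0 : ξ κ ^ (n + 1) * (sF k K F p * x) = (ξ κ * sF k K F p) * r +
          (ξ κ * sF k K F p) * ν := by
        rw [← mul_add, hrν, pow_succ]; ring
      rw [e0]
      refine Submodule.add_mem _ ?_ (Submodule.mem_sup_right ?_)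
      · by_cases hp : p.1.1 ≠ κ ∧ p.1.2 ≠ κ
        · refine Submodule.mem_sup_left ?_
          have := hmul2 r hr (ξ κ) (hξz κ) (sF k K F p) (self_mem_U (k := k) s' ⟨p, hp⟩)
          rwa [mul_comm (sF k K F p)] at this
        · -- the other index
          obtain ⟨i, hiκ, ε, hε, hεp⟩ : ∃ i : Fin d, i ≠ κ ∧ ∃ ε : ℤ, (ε = 1 ∨ ε = -1) ∧
              sF k K F p = (ε : F) * sk (sF k K F) i κ := by
            by_cases h1 : p.1.2 = κ
            · refine ⟨p.1.1, ?_, 1, Or.inl rfl, ?_⟩
              · rw [← h1]; exact ne_of_lt p.2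
              · have := sk_of_lt (sF k K F) p
                rw [h1] at this
                rw [this]; simp
            · have h2 : p.1.1 = κ := by
                by_contra h2
                exact hp ⟨h2, h1⟩
              refine ⟨p.1.2, h1, -1, Or.inr rfl, ?_⟩
              have := sk_of_lt (sF k K F) p
              rw [h2] at this
              rw [sk_swap, this]; simp
          have h3 : ξ κ * sk (sF k K F) i κ = θ i - η i -
              ∑ j ∈ Finset.univ.erase κ, sk (sF k K F) i j * ξ j := by
            have : act (sF k K F) ξ i = sk (sF k K F) i κ * ξ κ +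
                ∑ j ∈ Finset.univ.erase κ, sk (sF k K F) i j * ξ j := by
              unfold act
              exact (Finset.add_sum_erase _ (fun j => sk (sF k K F) i j * ξ j)
                (Finset.mem_univ κ)).symm
            rw [hθ]
            simp only [this]
            ring
          have h4 : (ξ κ * sF k K F p) * r = (ε : F) * (θ i * r) - (ε : F) * (η i * r) -
              ∑ j ∈ Finset.univ.erase κ, (ε : F) * ((sk (sF k K F) i j * ξ j) * r) := by
            rw [hεp]
            have : ξ κ * ((ε : F) * sk (sF k K F) i κ) * r =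
                (ε : F) * ((ξ κ * sk (sF k K F) i κ) * r) := by ring
            rw [this, h3, ← Finset.mul_sum, sub_mul, sub_mul, Finset.sum_mul]
            ring
          rw [h4]
          have hεm : ∀ (T : Submodule k F) (x : F), x ∈ T → (ε : F) * x ∈ T := by
            intro T x hx
            rcases hε with rfl | rfl
            · simpa using hx
            · simpa using hx
          refine Submodule.sub_mem _ (Submodule.sub_mem _ (Submodule.mem_sup_right ?_)
            (Submodule.mem_sup_left ?_)) (Submodule.sum_mem _ fun j hj => Submodule.mem_sup_left ?_)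
          · apply hεm
            change θ i * r ∈ NN K θ z (n + 1)
            exact Submodule.mul_mem_mul (self_mem_U θ i) (hRK n hr)
          · exact hεm _ _ (hmul1 r hr _ (hηz i))
          · apply hεm
            refine hmul2 r hr _ (hξz j) _ ?_
            have hjκ : j ≠ κ := (Finset.mem_erase.1 hj).1
            unfold sk
            split_ifs with h5 h6
            · exact self_mem_U (k := k) s' ⟨⟨(i, j), h5⟩, hiκ, hjκ⟩
            · exact Submodule.neg_mem _ (self_mem_U (k := k) s' ⟨⟨(j, i), h6⟩, hjκ, hiκ⟩)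
            · exact Submodule.zero_mem _
      · change (ξ κ * sF k K F p) * ν ∈ NN K θ z (n + 1)
        have e1 : (ξ κ * sF k K F p) * ν = sK k K p • (ξ κ * ν) := by
          rw [Algebra.smul_def]; unfold sF; ring
        rw [e1]
        exact Submodule.smul_mem _ _ (hN ν hν' (ξ κ) (self_mem_U (k := K) z (Sum.inl κ)))

lemma finrank_mul_le' {R : Type*} [Field R] {E : Type*} [CommRing E] [Algebra R E]
    (M N : Submodule R E) [Module.Finite R M] [Module.Finite R N] :
    Module.Finite R (M * N : Submodule R E) ∧
      finrank R (M * N : Submodule R E) ≤ finrank R M * finrank R N := by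
  rw [← Submodule.mulMap_range]
  refine ⟨inferInstance, ?_⟩
  refine (LinearMap.finrank_range_le _).trans ?_
  rw [Module.finrank_tensorProduct]

omit [IsFractionRing (MvPolynomial (Pr d) k) K] [IsScalarTower k (MvPolynomial (Pr d) k) K] in
lemma exists_pow_mem (ξ η : Fin d → F) (κ : Fin d) (m : ℕ)
    (hm : finrank k (U k (fun p : Pr' d κ => sF k K F p.1) (m + 1)) *
      (finrank k (U k (Sum.elim ξ η) (m + 1)) - finrank k (U k (Sum.elim ξ η) m)) <
      finrank k (U k (sF k K F : Pr d → F) (m + 1))) :
    ξ κ ^ (m + 1) ∈ U K (fun i => η i + act (sF k K F) ξ i) 1 * U K (Sum.elim ξ η) m := by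
  classical
  have hstep := reduce_step (k := k) (K := K) ξ η κ (m + 1)
  set θ : Fin d → F := fun i => η i + act (sF k K F) ξ i with hθ
  set z : Fin d ⊕ Fin d → F := Sum.elim ξ η with hz
  set s' : Pr' d κ → F := fun p => sF k K F p.1 with hs'
  set s : Pr d → F := sF k K F with hs
  set N : Submodule k F := (U K θ 1 * U K z m).restrictScalars k with hN
  let q : F →ₗ[k] F ⧸ N := N.mkQ
  obtain ⟨V', hV'⟩ := Submodule.exists_isCompl (U k z m)
  let V : Submodule k F := V' ⊓ U k z (m + 1)
  have hsup : U k z m ⊔ V = U k z (m + 1) := by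
    have h1 : U k z m ≤ U k z (m + 1) := U_mono z (Nat.le_succ m)
    change U k z m ⊔ V' ⊓ U k z (m + 1) = U k z (m + 1)
    rw [← sup_inf_assoc_of_le V' h1, hV'.sup_eq_top, top_inf_eq]
  have hVfin : Module.Finite k V := Submodule.finiteDimensional_of_le inf_le_right
  have hVrank : finrank k V = finrank k (U k z (m + 1)) - finrank k (U k z m) := by
    have h1 := Submodule.finrank_sup_add_finrank_inf_eq (U k z m) V
    have h2 : U k z m ⊓ V = ⊥ := by
      rw [eq_bot_iff, ← hV'.inf_eq_bot]
      exact inf_le_inf_left _ inf_le_left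
    rw [h2, hsup, finrank_bot] at h1
    omega
  obtain ⟨hTfin, hTrank⟩ := finrank_mul_le' (U k s' (m + 1)) V
  -- the target
  let T : Submodule k (F ⧸ N) := (U k s' (m + 1) * V).map q
  have hTle : finrank k T ≤ finrank k (U k s' (m + 1)) * finrank k V :=
    (Submodule.finrank_map_le q _).trans hTrank
  have hs'K : ∀ n, ∀ x ∈ U k s' n, ∃ a : K, x = algebraMap K F a := by
    intro n x hx
    obtain ⟨f, -, rfl⟩ := mem_U.1 hx
    refine ⟨aeval (fun p : Pr' d κ => sK k K p.1) f, ?_⟩
    rw [← MvPolynomial.aeval_algebraMap_apply]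
    rfl
  have hUkK : ∀ n, U k z n ≤ (U K z n).restrictScalars k := by
    intro n
    apply U_le_of_monomials
    intro a ha
    exact monomial_mem_U z a ha
  have hR : (U k s' (m + 1) * U k z (m + 1)).map q ≤ T := by
    rw [← hsup, Submodule.mul_sup, Submodule.map_sup]
    refine sup_le ?_ le_rfl
    have : U k s' (m + 1) * U k z m ≤ N := by
      rw [Submodule.mul_le]
      intro x hx y hy
      obtain ⟨a, rfl⟩ := hs'K _ x hx
      rw [← Algebra.smul_def]
      refine (U K θ 1 * U K z m).smul_mem a ?_
      rw [← one_mul y]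
      exact Submodule.mul_mem_mul (one_mem_U θ 1) (hUkK m hy)
    refine le_trans (Submodule.map_mono this) ?_
    rw [Submodule.mkQ_map_self]
    exact bot_le
  let L0 : F →ₗ[k] F ⧸ N := q ∘ₗ LinearMap.mulLeft k (ξ κ ^ (m + 1))
  have hL0 : ∀ x ∈ U k s (m + 1), L0 x ∈ T := by
    intro x hx
    have h1 := hstep hx
    rw [Submodule.mem_comap, Submodule.mem_sup] at h1
    obtain ⟨r, hr, ν, hν, hrν⟩ := h1
    change q (LinearMap.mulLeft k (ξ κ ^ (m + 1)) x) ∈ T
    rw [← hrν, map_add]
    have h2 : q ν = 0 := (Submodule.Quotient.mk_eq_zero _).2 hν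
    rw [h2, add_zero]
    exact hR ⟨r, hr, rfl⟩
  let L : U k s (m + 1) →ₗ[k] T := (L0.domRestrict (U k s (m + 1))).codRestrict T
    (fun x => hL0 x x.2)
  have hTfin' : Module.Finite k T := inferInstance
  obtain ⟨x, hx0, hx⟩ : ∃ x : U k s (m + 1), x ≠ 0 ∧ L x = 0 := by
    by_contra hcon
    push Not at hcon
    have hinj : Function.Injective L := by
      rw [injective_iff_map_eq_zero]
      intro x hx
      by_contra h0
      exact hcon x h0 hx
    have h1 := LinearMap.finrank_le_finrank_of_injective hinj
    rw [hVrank] at hTle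
    omega
  have hx1 : ξ κ ^ (m + 1) * (x : F) ∈ U K θ 1 * U K z m := by
    have h1 : L0 x = 0 := congrArg Subtype.val hx
    exact (Submodule.Quotient.mk_eq_zero N).1 h1
  obtain ⟨f, -, hf⟩ := mem_U.1 x.2
  have hxK : (x : F) = algebraMap K F (aeval (sK k K : Pr d → K) f) := by
    rw [← hf, ← MvPolynomial.aeval_algebraMap_apply]; rfl
  set a : K := aeval (sK k K : Pr d → K) f with ha
  have ha0 : a ≠ 0 := by
    intro h0
    apply hx0
    apply Subtype.ext
    rw [hxK, h0, map_zero]; rfl
  have h2 : ξ κ ^ (m + 1) = a⁻¹ • (ξ κ ^ (m + 1) * (x : F)) := by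
    rw [Algebra.smul_def, hxK, mul_left_comm, ← map_mul, inv_mul_cancel₀ ha0, map_one, mul_one]
  rw [h2]
  exact Submodule.smul_mem _ _ hx1


lemma card_Pr (κ : Fin d) : Fintype.card (Pr d) = Fintype.card (Pr' d κ) + (d - 1) := by
  classical
  have h1 : Fintype.card (Pr d) = Fintype.card (Pr' d κ) +
      Fintype.card {p : Pr d // ¬ (p.1.1 ≠ κ ∧ p.1.2 ≠ κ)} := by
    rw [← Fintype.card_sum]
    exact Fintype.card_congr (Equiv.sumCompl (fun p : Pr d => p.1.1 ≠ κ ∧ p.1.2 ≠ κ)).symm
  rw [h1]
  congr 1
  have h2 : Fintype.card {i : Fin d // i ≠ κ} = d - 1 := by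
    rw [Fintype.card_subtype_compl, Fintype.card_fin, Fintype.card_subtype_eq]
  rw [← h2]
  symm
  let g : {i : Fin d // i ≠ κ} → {p : Pr d // ¬ (p.1.1 ≠ κ ∧ p.1.2 ≠ κ)} := fun i =>
    if h : i.1 < κ then ⟨⟨(i.1, κ), h⟩, by simp⟩
    else ⟨⟨(κ, i.1), lt_of_le_of_ne (not_lt.1 h) (Ne.symm i.2)⟩, by simp⟩
  refine Fintype.card_of_bijective (f := g) ⟨?_, ?_⟩
  · intro i j hij
    simp only [g] at hij
    split_ifs at hij with h3 h4 h4
    · have := congrArg (fun p => p.1.1.1) hij
      exact Subtype.ext this
    · exfalso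
      have := congrArg (fun p => p.1.1.1) hij
      exact i.2 this
    · exfalso
      have := congrArg (fun p => p.1.1.1) hij
      exact j.2 this.symm
    · have := congrArg (fun p => p.1.1.2) hij
      exact Subtype.ext this
  · rintro ⟨⟨⟨a, b⟩, hab⟩, hp⟩
    simp only [ne_eq, not_and_or, not_not] at hp
    by_cases ha : a = κ
    · subst ha
      refine ⟨⟨b, ne_of_gt hab⟩, ?_⟩
      simp only [g]
      rw [dif_neg (not_lt.2 (le_of_lt hab))]
    · have hb : b = κ := hp.resolve_left ha
      subst hb
      refine ⟨⟨a, ha⟩, ?_⟩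
      simp only [g]
      rw [dif_pos hab]

lemma finrank_U_sF (m : ℕ) : finrank k (U k (sF k K F : Pr d → F) m) =
    (m + Fintype.card (Pr d)).choose (Fintype.card (Pr d)) := by
  rw [← HF_ker_aeval, ← HF_bot (k := k) (σ := Pr d)]
  congr 1
  have h1 : ∀ f : MvPolynomial (Pr d) k, aeval (sF k K F : Pr d → F) f =
      algebraMap K F (algebraMap (MvPolynomial (Pr d) k) K f) := by
    intro f
    have h2 : algebraMap (MvPolynomial (Pr d) k) K f = aeval (sK k K : Pr d → K) f := by
      have h3 := MvPolynomial.aeval_algebraMap_apply (A := MvPolynomial (Pr d) k) K X f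
      rw [aeval_X_left_apply] at h3
      exact h3.symm
    rw [h2, ← MvPolynomial.aeval_algebraMap_apply]
    rfl
  rw [RingHom.ker_eq_bot_iff_eq_zero]
  intro f hf
  change aeval (sF k K F : Pr d → F) f = 0 at hf
  rw [h1] at hf
  have h2 := (map_eq_zero_iff _ (algebraMap K F).injective).1 hf
  exact (map_eq_zero_iff _ (IsFractionRing.injective (MvPolynomial (Pr d) k) K)).1 h2

/-- **(M2)**, first form -/
theorem exists_forall_pow_mem (ξ η : Fin d → F) {r δ : ℕ} (hr : r + 1 ≤ d)
    (hle : ∀ m, finrank k (U k (Sum.elim ξ η : Fin d ⊕ Fin d → F) m) ≤ δ * (m + r).choose r) :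
    ∃ m, ∀ κ, ξ κ ^ (m + 1) ∈
      U K (fun i => η i + act (sF k K F) ξ i) 1 * U K (Sum.elim ξ η) m := by
  obtain ⟨m, hm1, hm⟩ := exists_small_increment (Fintype.card (Pr d) - (d - 1)) (d - 1) δ
    (fun m => finrank k (U k (Sum.elim ξ η : Fin d ⊕ Fin d → F) m))
    (fun a b hab => Submodule.finrank_mono (U_mono _ hab)) (fun m => by
      refine (hle m).trans (Nat.mul_le_mul_left _ ?_)
      have e : d - 1 = r + (d - 1 - r) := by omega
      rw [e]
      calc (m + r).choose r = (m + r).choose m := (Nat.choose_symm_of_eq_add rfl).symm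
        _ ≤ (m + (r + (d - 1 - r))).choose m := Nat.choose_le_choose _ (by omega)
        _ = (m + (r + (d - 1 - r))).choose (r + (d - 1 - r)) := Nat.choose_symm_of_eq_add rfl)
  obtain ⟨m', rfl⟩ : ∃ m', m = m' + 1 := ⟨m - 1, by omega⟩
  rw [Nat.add_sub_cancel] at hm
  refine ⟨m', fun κ => exists_pow_mem (k := k) ξ η κ m' ?_⟩
  have hc := card_Pr κ
  have hc' : Fintype.card (Pr d) - (d - 1) = Fintype.card (Pr' d κ) := by omega
  rw [finrank_U_sF]
  rw [hc', ← hc] at hm
  refine lt_of_le_of_lt (Nat.mul_le_mul_right _ ?_) hm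
  rw [← HF_ker_aeval]
  exact HF_le_choose _ _


/-- the finite set of monomials of bounded partial degrees in `ξ` -/
def BB (ξ : Fin d → F) (m : ℕ) : Set F := Set.range fun α : Fin d → Fin (m + 1) =>
  ∏ i, ξ i ^ (α i : ℕ)

omit [Algebra k F] [Algebra k K] [IsScalarTower k K F] [IsFractionRing (MvPolynomial (Pr d) k) K]
  [IsScalarTower k (MvPolynomial (Pr d) k) K] in
lemma act_mem_U {σ : Type*} {z : σ → F} {ξ : Fin d → F} (hξ : ∀ i, ξ i ∈ U K z 1) (i : Fin d) :
    act (sF k K F) ξ i ∈ U K z 1 := by
  unfold act
  refine Submodule.sum_mem _ fun j _ => ?_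
  have : ∃ a : K, sk (sF k K F : Pr d → F) i j = algebraMap K F a := by
    refine ⟨sk (sK k K : Pr d → K) i j, ?_⟩
    rw [← sk_map]; rfl
  obtain ⟨a, ha⟩ := this
  rw [ha, ← Algebra.smul_def]
  exact Submodule.smul_mem _ _ (hξ j)

omit [Algebra k F] [Algebra k K] [IsScalarTower k K F] [IsFractionRing (MvPolynomial (Pr d) k) K]
  [IsScalarTower k (MvPolynomial (Pr d) k) K] in
/-- **(M2)** finiteness with degree control -/
theorem U_le_span_mul (ξ η : Fin d → F) {m : ℕ}
    (hm : ∀ κ, ξ κ ^ (m + 1) ∈
      U K (fun i => η i + act (sF k K F) ξ i) 1 * U K (Sum.elim ξ η) m) (q : ℕ) :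
    U K (Sum.elim ξ η) q ≤ Submodule.span K (BB ξ m) *
      U K (fun i => η i + act (sF k K F) ξ i) q := by
  classical
  set θ : Fin d → F := fun i => η i + act (sF k K F) ξ i with hθ
  set z : Fin d ⊕ Fin d → F := Sum.elim ξ η with hz
  set z' : Fin d ⊕ Fin d → F := Sum.elim ξ θ with hz'
  have hone : (1 : F) ∈ BB ξ m := ⟨fun _ => 0, by simp⟩
  have hξz : ∀ i, ξ i ∈ U K z 1 := fun i => self_mem_U (k := K) z (Sum.inl i)
  have hηz : ∀ i, η i ∈ U K z 1 := fun i => self_mem_U (k := K) z (Sum.inr i)
  have hξz' : ∀ i, ξ i ∈ U K z' 1 := fun i => self_mem_U (k := K) z' (Sum.inl i)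
  have hθz' : ∀ i, θ i ∈ U K z' 1 := fun i => self_mem_U (k := K) z' (Sum.inr i)
  have hzz' : ∀ q, U K z q ≤ U K z' q := by
    refine U_le_U ?_
    rintro (i | i)
    · exact hξz' i
    · have : η i = θ i - act (sF k K F) ξ i := by rw [hθ]; ring
      change η i ∈ _
      rw [this]
      exact Submodule.sub_mem _ (hθz' i) (act_mem_U hξz' i)
  have hz'z : ∀ q, U K z' q ≤ U K z q := by
    refine U_le_U ?_
    rintro (i | i)
    · exact hξz i
    · exact Submodule.add_mem _ (hηz i) (act_mem_U hξz i)
  induction q with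
  | zero =>
    apply U_le_of_monomials
    intro a ha
    have h0 : a = 0 := by
      rw [← Finsupp.degree_eq_zero_iff]; omega
    subst h0
    have := Submodule.mul_mem_mul (Submodule.subset_span (R := K) hone) (one_mem_U (k := K) θ 0)
    rwa [one_mul] at this
  | succ q ih =>
    have hT : U K θ 1 * U K z q ≤ Submodule.span K (BB ξ m) * U K θ (q + 1) := by
      rw [Submodule.mul_le]
      intro x hx y hy
      have h1 : Submodule.span K (BB ξ m) * U K θ q ≤
          (Submodule.span K (BB ξ m) * U K θ (q + 1)).comap (LinearMap.mulLeft K x) := by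
        rw [Submodule.mul_le]
        intro u hu v hv
        rw [Submodule.mem_comap, LinearMap.mulLeft_apply, mul_left_comm]
        refine Submodule.mul_mem_mul hu ?_
        rw [mul_comm]
        exact mul_mem_U hv hx
      exact h1 (ih hy)
    have hB : Submodule.span K (BB ξ m) ≤ Submodule.span K (BB ξ m) * U K θ (q + 1) := by
      intro x hx
      have := Submodule.mul_mem_mul hx (one_mem_U (k := K) θ (q + 1))
      rwa [mul_one] at this
    refine (hzz' (q + 1)).trans ?_
    apply U_le_of_monomials
    intro n hn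
    by_cases h1 : ∃ i, n (Sum.inr i) ≠ 0
    · obtain ⟨i, hi⟩ := h1
      apply hT
      have hle : Finsupp.single (Sum.inr i) 1 ≤ n := by
        rw [Finsupp.single_le_iff]; exact Nat.one_le_iff_ne_zero.2 hi
      obtain ⟨n', rfl⟩ := exists_add_of_le hle
      rw [Finsupp.prod_add_index' (by simp) (by intro a b c; rw [pow_add]),
        Finsupp.prod_single_index (by simp), pow_one]
      refine Submodule.mul_mem_mul (self_mem_U (k := K) θ i) (hz'z q (monomial_mem_U z' n' ?_))
      rw [map_add, Finsupp.degree_single] at hn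
      omega
    · push Not at h1
      by_cases h2 : ∃ κ, m + 1 ≤ n (Sum.inl κ)
      · obtain ⟨κ, hκ⟩ := h2
        apply hT
        have hle : Finsupp.single (Sum.inl κ) (m + 1) ≤ n := by
          rw [Finsupp.single_le_iff]; exact hκ
        obtain ⟨n', rfl⟩ := exists_add_of_le hle
        rw [Finsupp.prod_add_index' (by simp) (by intro a b c; rw [pow_add]),
          Finsupp.prod_single_index (by simp)]
        rw [map_add, Finsupp.degree_single] at hn
        have h3 : (n'.prod fun i e => z' i ^ e) ∈ U K z (q - m) :=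
          hz'z _ (monomial_mem_U z' n' (by omega))
        have h4 : U K θ 1 * U K z m ≤ (U K θ 1 * U K z q).comap
            (LinearMap.mulRight K (n'.prod fun i e => z' i ^ e)) := by
          rw [Submodule.mul_le]
          intro u hu v hv
          rw [Submodule.mem_comap, LinearMap.mulRight_apply, mul_assoc]
          refine Submodule.mul_mem_mul hu ?_
          have := mul_mem_U hv h3
          rwa [Nat.add_sub_cancel' (by omega)] at this
        exact h4 (hm κ)
      · push Not at h2
        apply hB
        refine Submodule.subset_span ⟨fun i => ⟨n (Sum.inl i), h2 i⟩, ?_⟩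
        rw [Finsupp.prod_fintype _ _ (by simp), Fintype.prod_sum_type]
        simp [h1, hz']


end centre

end Crest.Agent.R065.Mblk474
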