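import Crest.Agent.R065.HFcut_669

/-!
# Multiplicity through Hilbert functions (row 65)

Chains of ideals whose colon ideals lie in a prime `P`, and the telescoped cut inequality for a
regular sequence: `N * δ ≤ d_1 ... d_c`.
-/

set_option autoImplicit false

open MvPolynomial Module

namespace Crest.Agent.R065.Mult496

open Crest.Agent.R065.HF669

variable {k : Type*} [Field k] {σ : Type*}

/-- one step of a chain: `J ∋ u` and `I : u ≤ P` -/
lemma HF_step [Finite σ] {I J P : Ideal (MvPolynomial σ k)} (h : I ≤ J)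
    {u : MvPolynomial σ k} (huJ : u ∈ J) (hu : ∀ g, u * g ∈ I → g ∈ P) {e : ℕ}
    (he : u.totalDegree ≤ e) (m : ℕ) : HF J (m + e) + HF P m ≤ HF I (m + e) := by
  have h1 := HF_add_col_le h huJ he m
  have h2 : col I u ≤ P := fun g hg => hu g (mem_col.1 hg)
  have h3 := HF_anti h2 m
  omega

/-- a chain of ideals `J 0 ≤ J 1 ≤ ... ≤ J N` all of whose steps contain a copy of `R/P'` with
`P' ≤ P` -/
def PChain {R : Type*} [CommRing R] (P : Ideal R) (J : ℕ → Ideal R) (N : ℕ) : Prop :=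
  ∀ i < N, J i ≤ J (i + 1) ∧ ∃ u ∈ J (i + 1), ∀ g, u * g ∈ J i → g ∈ P

/-- a chain of length `N` above `W` gives `N * HF P m ≤ HF W (m + b)` -/
lemma HF_chain [Finite σ] {P : Ideal (MvPolynomial σ k)} {J : ℕ → Ideal (MvPolynomial σ k)}
    {N : ℕ} (hJ : PChain P J N) :
    ∃ b : ℕ, ∀ m, HF (J N) (m + b) + N * HF P m ≤ HF (J 0) (m + b) := by
  induction N with
  | zero => exact ⟨0, fun m => by simp⟩
  | succ N ih =>
    obtain ⟨b, hb⟩ := ih fun i hi => hJ i (by omega)
    obtain ⟨h1, u, hu1, hu2⟩ := hJ N (by omega)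
    refine ⟨b + u.totalDegree, fun m => ?_⟩
    have h3 := HF_step h1 hu1 hu2 le_rfl (m + b)
    have h4 := hb (m + u.totalDegree)
    have h5 : HF P m ≤ HF P (m + b) := HF_mono P (by omega)
    have h6 : HF P m ≤ HF P (m + u.totalDegree) := HF_mono P (by omega)
    have h7 : N * HF P m ≤ N * HF P (m + u.totalDegree) := Nat.mul_le_mul_left _ h6
    have e1 : m + u.totalDegree + b = m + b + u.totalDegree := by omega
    rw [e1] at h4
    have e2 : m + (b + u.totalDegree) = m + b + u.totalDegree := by omega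
    rw [e2, Nat.succ_mul]
    omega

lemma HF_chain' [Finite σ] {P : Ideal (MvPolynomial σ k)} {J : ℕ → Ideal (MvPolynomial σ k)}
    {N : ℕ} (hJ : PChain P J N) : ∃ b : ℕ, ∀ m, N * HF P m ≤ HF (J 0) (m + b) := by
  obtain ⟨b, hb⟩ := HF_chain hJ
  exact ⟨b, fun m => (Nat.le_add_left _ _).trans (hb m)⟩

/-! ### Elementary inequalities -/

lemma add_pow_le (a d s : ℕ) : (a + d) ^ (s + 1) ≤ a ^ (s + 1) + (s + 1) * d * (a + d) ^ s := by
  induction s with
  | zero => simp
  | succ s ih =>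
    have h1 : (a + d) ^ (s + 2) = a * (a + d) ^ (s + 1) + d * (a + d) ^ (s + 1) := by ring
    have h2 : a * (a + d) ^ (s + 1) ≤ a * (a ^ (s + 1) + (s + 1) * d * (a + d) ^ s) :=
      Nat.mul_le_mul_left _ ih
    have h3 : a * ((s + 1) * d * (a + d) ^ s) ≤ (s + 1) * d * (a + d) ^ (s + 1) := by
      have h4 : a * (a + d) ^ s ≤ (a + d) ^ (s + 1) := by
        rw [pow_succ']; exact Nat.mul_le_mul_right _ (by omega)
      calc a * ((s + 1) * d * (a + d) ^ s) = (s + 1) * d * (a * (a + d) ^ s) := by ring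
        _ ≤ _ := Nat.mul_le_mul_left _ h4
    have e1 : (s + 1 + 1) * d * (a + d) ^ (s + 1) =
        (s + 1) * d * (a + d) ^ (s + 1) + d * (a + d) ^ (s + 1) := by ring
    have e2 : a ^ (s + 1 + 1) = a * a ^ (s + 1) := by ring
    have e3 : a * (a ^ (s + 1) + (s + 1) * d * (a + d) ^ s) =
      a * a ^ (s + 1) + a * ((s + 1) * d * (a + d) ^ s) := by ring
    rw [e1, e2]
    change (a + d) ^ (s + 2) ≤ _
    rw [h1]
    rw [e3] at h2
    omega

/-- the limit argument -/
lemma le_of_pow_le {x y a s : ℕ} (h : ∀ m : ℕ, x * m ^ s ≤ y * (m + a) ^ s) : x ≤ y := by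
  rcases Nat.eq_zero_or_pos s with rfl | hs
  · simpa using h 0
  obtain ⟨s, rfl⟩ : ∃ t, s = t + 1 := ⟨s - 1, by omega⟩
  by_contra hxy
  push Not at hxy
  -- m ^ (s+1) ≤ y * (s+1) * a * (m+a) ^ s
  have h1 : ∀ m, m ^ (s + 1) ≤ y * ((s + 1) * a * (m + a) ^ s) := by
    intro m
    have h2 : (y + 1) * m ^ (s + 1) ≤ x * m ^ (s + 1) := Nat.mul_le_mul_right _ hxy
    have h3 : y * (m + a) ^ (s + 1) ≤ y * (m ^ (s + 1) + (s + 1) * a * (m + a) ^ s) :=
      Nat.mul_le_mul_left _ (add_pow_le m a s)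
    have h4 := h m
    have e1 : (y + 1) * m ^ (s + 1) = y * m ^ (s + 1) + m ^ (s + 1) := by ring
    rw [mul_add] at h3
    omega
  have h2 := h1 (a + y * (s + 1) * a * 2 ^ s + 1)
  set m := a + y * (s + 1) * a * 2 ^ s + 1 with hm
  have h3 : (m + a) ^ s ≤ (2 * m) ^ s := Nat.pow_le_pow_left (by omega) s
  have h4 : y * ((s + 1) * a * (m + a) ^ s) ≤ y * ((s + 1) * a * (2 * m) ^ s) :=
    Nat.mul_le_mul_left _ (Nat.mul_le_mul_left _ h3)
  have h5 : y * ((s + 1) * a * (2 * m) ^ s) = (y * (s + 1) * a * 2 ^ s) * m ^ s := by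
    rw [mul_pow]; ring
  have h6 : m ^ (s + 1) = m * m ^ s := by ring
  have h7 : m * m ^ s ≤ (y * (s + 1) * a * 2 ^ s) * m ^ s := by
    rw [← h6, ← h5]; exact h2.trans h4
  have h8 : 0 < m ^ s := Nat.pow_pos (by omega)
  have h9 := Nat.le_of_mul_le_mul_right h7 h8
  omega

lemma pow_le_factorial_choose (m r : ℕ) : m ^ r ≤ r.factorial * (m + r).choose r := by
  rw [← Nat.ascFactorial_eq_factorial_mul_choose]
  exact (Nat.pow_le_pow_left (Nat.le_succ m) r).trans (Nat.pow_succ_le_ascFactorial (m + 1) r)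

lemma factorial_choose_le_pow (m r : ℕ) : r.factorial * (m + r).choose r ≤ (m + r) ^ r := by
  rw [← Nat.ascFactorial_eq_factorial_mul_choose]
  exact Nat.ascFactorial_le_pow_add m r

/-! ### The telescoped inequality -/

/-- one step of the summation: from `I = J_j` to `J = J_{j+1}` -/
lemma cut_step {F G : ℕ → ℕ} {d s b x y : ℕ} (hFG : ∀ m, F m ≤ G m)
    (hcut : ∀ m, F (m + d) + G m ≤ G (m + d)) (hF : ∀ m, x * m ^ s ≤ y * F (m + b)) (m : ℕ) :
    x * m ^ (s + 1) ≤ ((s + 1) * d * y) * G (m + b) := by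
  rcases Nat.eq_zero_or_pos d with rfl | hd
  · have h1 : F (m + b) = 0 := by
      have := hcut (m + b)
      simp only [add_zero] at this
      omega
    have h2 := hF m
    rw [h1, mul_zero, Nat.le_zero] at h2
    rw [pow_succ, ← mul_assoc, h2, zero_mul]
    exact Nat.zero_le _
  induction m using Nat.strong_induction_on with
  | _ m ih =>
    by_cases hm : m < d
    · calc x * m ^ (s + 1) = (x * m ^ s) * m := by ring
        _ ≤ (y * F (m + b)) * ((s + 1) * d) := by
            refine Nat.mul_le_mul (hF m) ?_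
            nlinarith
        _ = ((s + 1) * d * y) * F (m + b) := by ring
        _ ≤ _ := Nat.mul_le_mul_left _ (hFG _)
    · push Not at hm
      obtain ⟨m', rfl⟩ := Nat.exists_eq_add_of_le' hm
      have h1 := ih m' (by omega)
      have h2 := hcut (m' + b)
      have h3 := hF (m' + d)
      have e0 : m' + d + b = m' + b + d := by omega
      rw [e0] at h3 ⊢
      have h4 := add_pow_le m' d s
      calc x * (m' + d) ^ (s + 1) ≤ x * (m' ^ (s + 1) + (s + 1) * d * (m' + d) ^ s) :=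
            Nat.mul_le_mul_left _ h4
        _ = x * m' ^ (s + 1) + (s + 1) * d * (x * (m' + d) ^ s) := by ring
        _ ≤ (s + 1) * d * y * G (m' + b) + (s + 1) * d * (y * F (m' + b + d)) :=
            Nat.add_le_add h1 (Nat.mul_le_mul_left _ h3)
        _ = (s + 1) * d * y * (F (m' + b + d) + G (m' + b)) := by ring
        _ ≤ _ := Nat.mul_le_mul_left _ h2

/-- data of a regular sequence `f 0, ..., f (c-1)` with degrees `≤ d j` relative to the chain of
ideals `J 0 ≤ ... ≤ J c` -/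
structure RegChain (J : ℕ → Ideal (MvPolynomial σ k)) (f : ℕ → MvPolynomial σ k) (d : ℕ → ℕ)
    (c : ℕ) : Prop where
  le : ∀ j < c, J j ≤ J (j + 1)
  mem : ∀ j < c, f j ∈ J (j + 1)
  deg : ∀ j < c, (f j).totalDegree ≤ d j
  nzd : ∀ j < c, ∀ g, f j * g ∈ J j → g ∈ J j

lemma RegChain.HF_pow [Finite σ] {J : ℕ → Ideal (MvPolynomial σ k)} {f : ℕ → MvPolynomial σ k}
    {d : ℕ → ℕ} {c : ℕ} (h : RegChain J f d c) {x r b : ℕ}
    (hx : ∀ m, x * m ^ r ≤ r.factorial * HF (J c) (m + b)) :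
    ∀ i ≤ c, ∀ m, x * m ^ (r + i) ≤
      ((r + i).factorial * ∏ j ∈ Finset.Ico (c - i) c, d j) * HF (J (c - i)) (m + b) := by
  intro i
  induction i with
  | zero => intro _ m; simpa using hx m
  | succ i ih =>
    intro hi m
    have h1 := ih (by omega)
    have e1 : c - i = (c - (i + 1)) + 1 := by omega
    have hj : c - (i + 1) < c := by omega
    have h2 := cut_step (F := HF (J (c - i))) (G := HF (J (c - (i + 1)))) (d := d (c - (i + 1)))
      (s := r + i) (b := b) (x := x) (y := (r + i).factorial * ∏ j ∈ Finset.Ico (c - i) c, d j)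
      (fun m => by rw [e1]; exact HF_anti (h.le _ hj) m)
      (fun m => by
        rw [e1]
        exact HF_cut (h.le _ hj) (h.mem _ hj) (h.deg _ hj) (h.nzd _ hj) m)
      h1 m
    have e2 : (r + (i + 1)).factorial * ∏ j ∈ Finset.Ico (c - (i + 1)) c, d j =
        (r + i + 1) * d (c - (i + 1)) *
          ((r + i).factorial * ∏ j ∈ Finset.Ico (c - i) c, d j) := by
      rw [Finset.prod_eq_prod_Ico_succ_bot hj, ← e1, ← add_assoc, Nat.factorial_succ]
      ring
    rw [e2, ← add_assoc]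
    exact h2

/-- **Multiplicity bound.** If `HF (J c) (m+b) ≥ x * C(m+r,r)` and `c + r ≥ dim`, then
`x ≤ d_0 ... d_{c-1}`. -/
theorem RegChain.le_prod [Fintype σ] {J : ℕ → Ideal (MvPolynomial σ k)}
    {f : ℕ → MvPolynomial σ k} {d : ℕ → ℕ} {c : ℕ} (h : RegChain J f d c) {x r b : ℕ}
    (hcr : Fintype.card σ ≤ r + c)
    (hx : ∀ m, x * (m + r).choose r ≤ HF (J c) (m + b)) : x ≤ ∏ j ∈ Finset.range c, d j := by
  have h1 := h.HF_pow (x := x) (r := r) (b := b) (fun m => by
    calc x * m ^ r ≤ x * (r.factorial * (m + r).choose r) :=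
          Nat.mul_le_mul_left _ (pow_le_factorial_choose m r)
      _ = r.factorial * (x * (m + r).choose r) := by ring
      _ ≤ _ := Nat.mul_le_mul_left _ (hx m)) c le_rfl
  simp only [Nat.sub_self, ← Finset.range_eq_Ico] at h1
  refine le_of_pow_le (s := r + c) (a := b + (r + c)) (fun m => (h1 m).trans ?_)
  have h2 := HF_le_choose (J 0) (m + b)
  have h3 : (m + b + Fintype.card σ).choose (Fintype.card σ) ≤
      (m + b + (r + c)).choose (r + c) := by
    rw [← Nat.choose_symm_add, ← Nat.choose_symm_add]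
    exact Nat.choose_le_choose _ (by omega)
  calc (r + c).factorial * (∏ j ∈ Finset.range c, d j) * HF (J 0) (m + b)
      ≤ (r + c).factorial * (∏ j ∈ Finset.range c, d j) * (m + b + (r + c)).choose (r + c) :=
        Nat.mul_le_mul_left _ (h2.trans h3)
    _ = (∏ j ∈ Finset.range c, d j) * ((r + c).factorial * (m + b + (r + c)).choose (r + c)) := by
        ring
    _ ≤ (∏ j ∈ Finset.range c, d j) * (m + b + (r + c)) ^ (r + c) :=
        Nat.mul_le_mul_left _ (factorial_choose_le_pow _ _)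
    _ = _ := by rw [add_assoc]

/-- **Multiplicity bound, chain form.** A `P`-chain of length `N` above `J c`, `δ` a lower bound for
the degree of `P`: `N * δ ≤ d_0 ... d_{c-1}`. -/
theorem RegChain.chain_le_prod [Fintype σ] {J : ℕ → Ideal (MvPolynomial σ k)}
    {f : ℕ → MvPolynomial σ k} {d : ℕ → ℕ} {c : ℕ} (h : RegChain J f d c)
    {P : Ideal (MvPolynomial σ k)} {δ r b : ℕ} (hcr : Fintype.card σ ≤ r + c)
    (hδ : ∀ m, δ * (m + r).choose r ≤ HF P (m + b)) {K : ℕ → Ideal (MvPolynomial σ k)} {N : ℕ}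
    (hK : PChain P K N) (hJK : J c ≤ K 0) : N * δ ≤ ∏ j ∈ Finset.range c, d j := by
  obtain ⟨b', hb'⟩ := HF_chain' hK
  refine h.le_prod (x := N * δ) (r := r) (b := b + b') hcr fun m => ?_
  calc N * δ * (m + r).choose r = N * (δ * (m + r).choose r) := by ring
    _ ≤ N * HF P (m + b) := Nat.mul_le_mul_left _ (hδ m)
    _ ≤ HF (K 0) (m + b + b') := hb' _
    _ ≤ HF (J c) (m + b + b') := HF_anti hJK _
    _ = _ := by rw [add_assoc]

end Crest.Agent.R065.Mult496
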