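import Crest.Agent.R065.U_669

/-!
# Linear Noether normalisation with degree control
-/

set_option autoImplicit false

open MvPolynomial Module
open scoped Pointwise

namespace Crest.Agent.R065.HF669

variable {k : Type*} [Field k] {σ τ : Type*} {E : Type*} [CommRing E] [Algebra k E]

lemma U_succ_le {z : σ → E} {q : ℕ} {S : Submodule k E} (h1 : (1 : E) ∈ S)
    (h : ∀ i, ∀ x ∈ U k z q, z i * x ∈ S) : U k z (q + 1) ≤ S := by
  apply U_le_of_monomials
  intro n hn
  by_cases h0 : n = 0
  · subst h0; simpa using h1
  obtain ⟨i, hi⟩ := Finsupp.support_nonempty_iff.2 h0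
  rw [Finsupp.mem_support_iff] at hi
  have hle : Finsupp.single i 1 ≤ n := by
    rw [Finsupp.single_le_iff]; exact Nat.one_le_iff_ne_zero.2 hi
  obtain ⟨n', rfl⟩ := exists_add_of_le hle
  rw [Finsupp.prod_add_index' (by simp) (by intro a b c; rw [pow_add])]
  rw [Finsupp.prod_single_index (by simp), pow_one]
  apply h
  rw [map_add, Finsupp.degree_single] at hn
  have hn' : n'.degree ≤ q := by omega
  refine U_mono z hn' ?_
  rw [Finsupp.prod, Finsupp.degree_apply]
  refine prod_mem_U _ _ _ fun i _ => ?_
  have := pow_mem_U (self_mem_U (k := k) z i) (n' i)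
  rwa [mul_one] at this

/-- `span { t^i u : i < g, i + r ≤ q, u ∈ U z' r }` -/
def TT (k : Type*) [Field k] {τ : Type*} {E : Type*} [CommRing E] [Algebra k E]
    (t : E) (z' : τ → E) (g q : ℕ) : Submodule k E :=
  Submodule.span k {x | ∃ i r : ℕ, ∃ u ∈ U k z' r, i < g ∧ i + r ≤ q ∧ x = t ^ i * u}

lemma mem_TT {t : E} {z' : τ → E} {g q i r : ℕ} {u : E} (hu : u ∈ U k z' r) (hi : i < g)
    (hr : i + r ≤ q) : t ^ i * u ∈ TT k t z' g q :=
  Submodule.subset_span ⟨i, r, u, hu, hi, hr, rfl⟩

lemma TT_le {t : E} {z' : τ → E} {g q : ℕ} {S : Submodule k E}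
    (h : ∀ i r : ℕ, ∀ u ∈ U k z' r, i < g → i + r ≤ q → t ^ i * u ∈ S) : TT k t z' g q ≤ S := by
  refine Submodule.span_le.2 ?_
  rintro _ ⟨i, r, u, hu, hi, hr, rfl⟩
  exact h i r u hu hi hr

lemma TT_mono {t : E} {z' : τ → E} {g g' q q' : ℕ} (hg : g ≤ g') (hq : q ≤ q') :
    TT k t z' g q ≤ TT k t z' g' q' :=
  TT_le fun _ _ _ hu hi hr => mem_TT hu (hi.trans_le hg) (hr.trans hq)

lemma TT_mul {t : E} {z' : τ → E} {g g' q q' : ℕ} {x y : E}
    (hx : x ∈ TT k t z' g q) (hy : y ∈ TT k t z' g' q') :
    x * y ∈ TT k t z' (g + g' - 1) (q + q') := by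
  have h1 : TT k t z' g q * TT k t z' g' q' ≤ TT k t z' (g + g' - 1) (q + q') := by
    unfold TT
    rw [Submodule.span_mul_span, Submodule.span_le]
    rintro _ ⟨_, ⟨i, r, u, hu, hi, hr, rfl⟩, _, ⟨i', r', u', hu', hi', hr', rfl⟩, rfl⟩
    have e : t ^ i * u * (t ^ i' * u') = t ^ (i + i') * (u * u') := by ring
    simp only
    rw [e]
    exact mem_TT (mul_mem_U hu hu') (by omega) (by omega)
  exact h1 (Submodule.mul_mem_mul hx hy)

lemma pow_mem_TT {t : E} {z' : τ → E} {g q n : ℕ} (h1 : n < g) (h2 : n ≤ q) :
    t ^ n ∈ TT k t z' g q := by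
  have := mem_TT (k := k) (t := t) (one_mem_U (k := k) z' 0) h1 (q := q) (by omega)
  rwa [mul_one] at this

/-- `x` has leading coefficient `α` in degree `a` -/
def Lead (k : Type*) [Field k] {τ : Type*} {E : Type*} [CommRing E] [Algebra k E]
    (t : E) (z' : τ → E) (a : ℕ) (α : k) (x : E) : Prop :=
  x - α • t ^ a ∈ TT k t z' a a

lemma Lead.mem {t : E} {z' : τ → E} {a : ℕ} {α : k} {x : E} (h : Lead k t z' a α x) :
    x ∈ TT k t z' (a + 1) a := by
  have h1 := TT_mono (Nat.le_succ a) le_rfl h
  have h2 : α • t ^ a ∈ TT k t z' (a + 1) a :=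
    Submodule.smul_mem _ _ (pow_mem_TT (Nat.lt_succ_self a) le_rfl)
  simpa using Submodule.add_mem _ h1 h2

lemma Lead.mul {t : E} {z' : τ → E} {a b : ℕ} {α β : k} {x y : E} (hx : Lead k t z' a α x)
    (hy : Lead k t z' b β y) : Lead k t z' (a + b) (α * β) (x * y) := by
  unfold Lead
  have e : x * y - (α * β) • t ^ (a + b) =
      x * (y - β • t ^ b) + (x - α • t ^ a) * (β • t ^ b) := by
    simp only [Algebra.smul_def, map_mul]; ring
  rw [e]
  refine Submodule.add_mem _ ?_ ?_
  · have := TT_mul hx.mem hy
    exact TT_mono (by omega) le_rfl this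
  · have := TT_mul hx (Submodule.smul_mem _ β (pow_mem_TT (k := k) (t := t) (z' := z')
      (Nat.lt_succ_self b) le_rfl))
    exact TT_mono (by omega) le_rfl this

lemma Lead.one {t : E} {z' : τ → E} : Lead k t z' 0 1 1 := by
  unfold Lead; simp

lemma Lead.pow {t : E} {z' : τ → E} {a : ℕ} {α : k} {x : E} (hx : Lead k t z' a α x) (n : ℕ) :
    Lead k t z' (n * a) (α ^ n) (x ^ n) := by
  induction n with
  | zero => simpa using Lead.one
  | succ n ih =>
    rw [Nat.succ_mul, pow_succ, pow_succ]
    exact ih.mul hx

lemma Lead.prod {ι : Type*} (s : Finset ι) {t : E} {z' : τ → E} (a : ι → ℕ) (α : ι → k)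
    (x : ι → E) (h : ∀ i ∈ s, Lead k t z' (a i) (α i) (x i)) :
    Lead k t z' (∑ i ∈ s, a i) (∏ i ∈ s, α i) (∏ i ∈ s, x i) := by
  classical
  induction s using Finset.induction_on with
  | empty => simpa using Lead.one
  | insert i s hi ih =>
    rw [Finset.prod_insert hi, Finset.prod_insert hi, Finset.sum_insert hi]
    exact (h i (Finset.mem_insert_self _ _)).mul
      (ih fun j hj => h j (Finset.mem_insert_of_mem hj))

/-- integrality with degree control, from a relation -/
lemma pow_mem_TT_of_relation {z : σ → E} (G : MvPolynomial σ k) (hG : aeval z G = 0)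
    (b : σ → k) (hb : eval b (homogeneousComponent G.totalDegree G) ≠ 0) (t : E) (z' : τ → E)
    (hz : ∀ i, z i - b i • t ∈ U k z' 1) :
    t ^ G.totalDegree ∈ TT k t z' G.totalDegree G.totalDegree := by
  set g := G.totalDegree with hg
  have hlead : ∀ i, Lead k t z' 1 (b i) (z i) := by
    intro i
    unfold Lead
    rw [pow_one]
    have := mem_TT (k := k) (t := t) (hz i) (g := 1) (i := 0) (q := 1) (by omega) (by omega)
    simpa using this
  have hmon : ∀ n : σ →₀ ℕ, Lead k t z' n.degree (n.prod fun i e => b i ^ e)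
      (n.prod fun i e => z i ^ e) := by
    intro n
    rw [Finsupp.prod, Finsupp.prod, Finsupp.degree_apply]
    refine Lead.prod _ _ _ _ fun i _ => ?_
    have := (hlead i).pow (n i)
    rwa [mul_one] at this
  have h1 : aeval z G = ∑ n ∈ G.support, coeff n G • (n.prod fun i e => z i ^ e) := by
    rw [aeval_def, eval₂_eq]
    simp only [Algebra.smul_def, Finsupp.prod]
  have h2 : eval b (homogeneousComponent g G) =
      ∑ n ∈ G.support, if n.degree = g then coeff n G * (n.prod fun i e => b i ^ e) else 0 := by
    rw [homogeneousComponent_apply, map_sum, Finset.sum_filter]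
    refine Finset.sum_congr rfl fun n _ => ?_
    split_ifs with h
    · rw [eval_monomial]
    · rfl
  have h3 : eval b (homogeneousComponent g G) • t ^ g ∈ TT k t z' g g := by
    have : eval b (homogeneousComponent g G) • t ^ g =
        - ∑ n ∈ G.support, (coeff n G • (n.prod fun i e => z i ^ e) -
          (if n.degree = g then coeff n G * (n.prod fun i e => b i ^ e) else 0) • t ^ g) := by
      rw [Finset.sum_sub_distrib, ← h1, hG, h2, Finset.sum_smul]
      simp
    rw [this]
    refine Submodule.neg_mem _ (Submodule.sum_mem _ fun n hn => ?_)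
    have hn' : n.degree ≤ g := by
      have := le_totalDegree hn
      rwa [Finsupp.degree_apply]
    split_ifs with h
    · have := hmon n
      unfold Lead at this
      rw [h] at this
      have h4 := Submodule.smul_mem _ (coeff n G) this
      rwa [smul_sub, smul_smul] at h4
    · rw [zero_smul, sub_zero]
      refine Submodule.smul_mem _ _ (TT_mono ?_ hn' (hmon n).mem)
      omega
  have h4 := Submodule.smul_mem _ (eval b (homogeneousComponent g G))⁻¹ h3
  rwa [smul_smul, inv_mul_cancel₀ hb, one_smul] at h4

/-- if `t` is integral with degree control then `U z q ≤ TT` -/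
lemma U_le_TT {z : σ → E} {g : ℕ} (hg : 0 < g) (b : σ → k) {t : E} {z' : τ → E}
    (hz : ∀ i, z i - b i • t ∈ U k z' 1) (ht : t ^ g ∈ TT k t z' g g) (q : ℕ) :
    U k z q ≤ TT k t z' g q := by
  have hone : ∀ q, (1 : E) ∈ TT k t z' g q := fun q => by
    have := pow_mem_TT (k := k) (t := t) (z' := z') (n := 0) hg (Nat.zero_le q)
    simpa using this
  have htmul : ∀ q, ∀ x ∈ TT k t z' g q, t * x ∈ TT k t z' g (q + 1) := by
    intro q x hx
    have : TT k t z' g q ≤ (TT k t z' g (q + 1)).comap (LinearMap.mulLeft k t) := by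
      apply TT_le
      intro i r u hu hi hr
      change t * (t ^ i * u) ∈ TT k t z' g (q + 1)
      rw [← mul_assoc, ← pow_succ']
      rcases Nat.lt_or_ge (i + 1) g with h | h
      · exact mem_TT hu h (by omega)
      · have hi' : i + 1 = g := by omega
        rw [hi']
        have h0 : u ∈ TT k t z' 1 r := by
          have := mem_TT (k := k) (t := t) hu (g := 1) (i := 0) (q := r) (by omega) (by omega)
          simpa using this
        have h1 := TT_mul ht h0
        exact TT_mono (by omega) (by omega) h1
    exact this hx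
  have hzmul : ∀ q, ∀ i, ∀ x ∈ TT k t z' g q, z i * x ∈ TT k t z' g (q + 1) := by
    intro q i x hx
    have h0 : z i - b i • t ∈ TT k t z' 1 1 := by
      have := mem_TT (k := k) (t := t) (hz i) (g := 1) (i := 0) (q := 1) (by omega) (by omega)
      simpa using this
    have h1 := TT_mul h0 hx
    have h2 := Submodule.smul_mem _ (b i) (htmul q x hx)
    have h3 := Submodule.add_mem _ (TT_mono (g' := g) (q' := q + 1) (by omega) (by omega) h1) h2
    have e : (z i - b i • t) * x + b i • (t * x) = z i * x := by
      simp only [Algebra.smul_def]; ring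
    rwa [e] at h3
  induction q with
  | zero =>
    apply U_le_of_monomials
    intro n hn
    have : n = 0 := by
      rw [← Finsupp.degree_eq_zero_iff]; omega
    subst this
    simpa using hone 0
  | succ q ih =>
    apply U_succ_le (hone _)
    intro i x hx
    exact hzmul q i x (ih hx)

lemma TT_le_span_mul {t : E} {z' : τ → E} {g q : ℕ} :
    TT k t z' g q ≤ Submodule.span k ((fun i : ℕ => t ^ i) '' Set.Iio g) * U k z' q := by
  apply TT_le
  intro i r u hu hi hr
  exact Submodule.mul_mem_mul (Submodule.subset_span ⟨i, hi, rfl⟩) (U_mono z' (by omega) hu)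

/-- **Linear Noether normalisation with degree control.** -/
theorem noether_normalisation [Infinite k] [Nontrivial E] (N : ℕ) (z : Fin N → E) :
    ∃ (j : ℕ) (y : Fin j → E) (B : Set E), j ≤ N ∧ (∀ i, y i ∈ U k z 1) ∧
      AlgebraicIndependent k y ∧ B.Finite ∧ (∀ b ∈ B, ∃ q, b ∈ U k z q) ∧
      ∀ q, U k z q ≤ Submodule.span k B * U k y q := by
  induction N with
  | zero =>
    refine ⟨0, z, {1}, le_rfl, fun i => i.elim0, ?_, Set.finite_singleton _, ?_, ?_⟩
    · rw [algebraicIndependent_empty_type_iff]
      exact (algebraMap k E).injective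
    · rintro b rfl
      exact ⟨0, one_mem_U _ _⟩
    · intro q x hx
      have := Submodule.mul_mem_mul (Submodule.subset_span (R := k) (Set.mem_singleton (1 : E))) hx
      rwa [one_mul] at this
  | succ N ih =>
    by_cases hind : AlgebraicIndependent k z
    · refine ⟨N + 1, z, {1}, le_rfl, fun i => self_mem_U z i, hind, Set.finite_singleton _, ?_, ?_⟩
      · rintro b rfl
        exact ⟨0, one_mem_U _ _⟩
      · intro q x hx
        have := Submodule.mul_mem_mul (Submodule.subset_span (R := k) (Set.mem_singleton (1 : E))) hx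
        rwa [one_mul] at this
    · -- a relation
      obtain ⟨G, hG0, hGne⟩ : ∃ G : MvPolynomial (Fin (N + 1)) k, aeval z G = 0 ∧ G ≠ 0 := by
        rw [algebraicIndependent_iff] at hind
        push Not at hind
        exact hind
      have hg : 0 < G.totalDegree := by
        by_contra hcon
        have h0 : G.totalDegree = 0 := by omega
        rw [totalDegree_eq_zero_iff_eq_C] at h0
        rw [h0, aeval_C] at hG0
        have : coeff 0 G = 0 := by
          by_contra hne
          exact hne ((algebraMap k E).injective (by rw [hG0, map_zero]))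
        rw [this, map_zero] at h0
        exact hGne h0
      have hcomp : homogeneousComponent G.totalDegree G ≠ 0 := by
        intro h0
        obtain ⟨n, hn, hn'⟩ : ∃ n ∈ G.support, n.degree = G.totalDegree := by
          obtain ⟨n, hn, hn'⟩ := Finset.exists_mem_eq_sup G.support
            (support_nonempty.2 hGne) (fun s => s.sum fun _ e => e)
          exact ⟨n, hn, by rw [totalDegree, hn', Finsupp.degree_apply]; rfl⟩
        have := congrArg (coeff n) h0
        rw [coeff_homogeneousComponent, if_pos hn', coeff_zero] at this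
        exact (mem_support_iff.1 hn) this
      obtain ⟨b, hb⟩ : ∃ b, eval b (homogeneousComponent G.totalDegree G) ≠ 0 := by
        by_contra hcon
        push Not at hcon
        exact hcomp (MvPolynomial.funext fun b => by rw [hcon b, map_zero])
      obtain ⟨l, hl⟩ : ∃ l, b l ≠ 0 := by
        by_contra hcon
        push Not at hcon
        have hb0 : b = 0 := funext hcon
        apply hb
        rw [hb0, MvPolynomial.eval_zero, constantCoeff_eq, coeff_homogeneousComponent, if_neg]
        simpa using hg.ne
      let t : E := (b l)⁻¹ • z l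
      let z' : Fin N → E := fun i => z (l.succAbove i) - b (l.succAbove i) • t
      have hz : ∀ i, z i - b i • t ∈ U k z' 1 := by
        intro i
        by_cases hi : i = l
        · subst hi
          simp only [t]
          rw [smul_smul, mul_inv_cancel₀ hl, one_smul, sub_self]
          exact Submodule.zero_mem _
        · obtain ⟨i', rfl⟩ := Fin.exists_succAbove_eq hi
          exact self_mem_U z' i'
      have ht : t ∈ U k z 1 := Submodule.smul_mem _ _ (self_mem_U z l)
      have hz'U : ∀ i, z' i ∈ U k z 1 := fun i =>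
        Submodule.sub_mem _ (self_mem_U z _) (Submodule.smul_mem _ _ ht)
      have hint := pow_mem_TT_of_relation G hG0 b hb t z' hz
      obtain ⟨j, y, B, hj, hy1, hy2, hB1, hB2, hB3⟩ := ih z'
      refine ⟨j, y, ((fun i : ℕ => t ^ i) '' Set.Iio G.totalDegree) * B, hj.trans (Nat.le_succ N),
        fun i => U_le_U hz'U 1 (hy1 i), hy2, ((Set.finite_Iio _).image _).mul hB1, ?_, ?_⟩
      · rintro _ ⟨_, ⟨i, hi, rfl⟩, b', hb', rfl⟩
        obtain ⟨q, hq⟩ := hB2 b' hb'
        exact ⟨_, mul_mem_U (pow_mem_U ht i) (U_le_U hz'U q hq)⟩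
      · intro q
        refine (U_le_TT hg b hz hint q).trans (TT_le_span_mul.trans ?_)
        rw [← Submodule.span_mul_span, mul_assoc]
        exact Submodule.mul_le.2 fun x hx y hy => Submodule.mul_mem_mul hx (hB3 q hy)

end Crest.Agent.R065.HF669
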