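import Mathlib

/-! # The NU-LEMMA (E4) of the `d ≥ 4` engine of row 65 (helper272 #15513)

`PN S` : the pairs of `S` are pairwise null.  A pairwise null set is contained in the
"closure" of at most `d + 1` of its points, and each closure has at most `n` points.
Hence a uniform `k`-subset of `Y` contains large pairwise null sets only rarely. -/

namespace Crest.Agent.R065.Nu238

open Finset

abbrev PQ (d : ℕ) := EuclideanSpace ℝ (Fin d) × EuclideanSpace ℝ (Fin d)

/-- pairwise null -/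
def PN {d : ℕ} (S : Finset (PQ d)) : Prop :=
  ∀ z ∈ S, ∀ w ∈ S, dist z.1 w.1 = dist z.2 w.2

theorem PN.mono {d : ℕ} {S T : Finset (PQ d)} (h : PN S) (hT : T ⊆ S) : PN T :=
  fun z hz w hw => h z (hT hz) w (hT hw)

/-- an affine dependency is transported by a finite isometry -/
theorem sum_transport {E : Type*} [NormedAddCommGroup E] [InnerProductSpace ℝ E]
    {ι : Type*} (s : Finset ι) (μ : ι → ℝ) (hμ : ∑ i ∈ s, μ i = 0) (p q : ι → E)
    (h : ∀ i ∈ s, ∀ j ∈ s, dist (p i) (p j) = dist (q i) (q j))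
    (h0 : ∑ i ∈ s, μ i • p i = 0) : ∑ i ∈ s, μ i • q i = 0 := by
  have h1 := inner_sum_smul_sum_smul_of_sum_eq_zero (s₁ := s) (w₁ := μ) p hμ
    (s₂ := s) (w₂ := μ) p hμ
  have h2 := inner_sum_smul_sum_smul_of_sum_eq_zero (s₁ := s) (w₁ := μ) q hμ
    (s₂ := s) (w₂ := μ) q hμ
  rw [h0, inner_zero_left] at h1
  have h3 : (∑ i₁ ∈ s, ∑ i₂ ∈ s, μ i₁ * μ i₂ * (‖p i₁ - p i₂‖ * ‖p i₁ - p i₂‖))
      = ∑ i₁ ∈ s, ∑ i₂ ∈ s, μ i₁ * μ i₂ * (‖q i₁ - q i₂‖ * ‖q i₁ - q i₂‖) := by
    refine Finset.sum_congr rfl fun i hi => Finset.sum_congr rfl fun j hj => ?_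
    rw [← dist_eq_norm, ← dist_eq_norm, h i hi j hj]
  rw [← h3, ← h1] at h2
  exact inner_self_eq_zero.mp h2

/-- two points with the same first coordinate in the span and the same distances agree -/
theorem snd_eq {d : ℕ} (B : Finset (PQ d)) (hB : PN B) (z w : PQ d)
    (hz : z.1 ∈ affineSpan ℝ (Prod.fst '' (B : Set (PQ d)))) (hzw : z.1 = w.1)
    (h1 : ∀ b ∈ B, dist z.1 b.1 = dist z.2 b.2)
    (h2 : ∀ b ∈ B, dist w.1 b.1 = dist w.2 b.2) : z.2 = w.2 := by
  classical
  have hr : Prod.fst '' (B : Set (PQ d)) = Set.range (fun b : B => (b : PQ d).1) := by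
    ext x; simp
  rw [hr] at hz
  obtain ⟨c, hc, hzc⟩ := eq_affineCombination_of_mem_affineSpan_of_fintype hz
  have hlin : z.1 = ∑ b : B, c b • (b : PQ d).1 := by
    rw [hzc, Finset.affineCombination_eq_linear_combination _ _ _ hc]
  -- key: the second coordinate is the same combination
  have key : ∀ u : PQ d, u.1 = z.1 → (∀ b ∈ B, dist u.1 b.1 = dist u.2 b.2) →
      u.2 = ∑ b : B, c b • (b : PQ d).2 := by
    intro u hu h
    have := sum_transport (E := EuclideanSpace ℝ (Fin d)) (ι := Option B) Finset.univ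
      (fun o => match o with | none => (-1 : ℝ) | some b => c b)
      (by
        rw [Fintype.sum_option]
        change (-1 : ℝ) + ∑ b : B, c b = 0
        rw [hc]; norm_num)
      (fun o => match o with | none => u.1 | some b => (b : PQ d).1)
      (fun o => match o with | none => u.2 | some b => (b : PQ d).2)
      (by
        intro i _ j _
        match i, j with
        | none, none => simp
        | none, some b => exact h b b.2
        | some b, none => rw [dist_comm, dist_comm (b : PQ d).2]; exact h b b.2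
        | some b, some b' => exact hB b b.2 b' b'.2)
      (by
        rw [Fintype.sum_option]
        simp only [neg_smul, one_smul]
        rw [hu, ← hlin]; simp)
    rw [Fintype.sum_option] at this
    simp only [neg_smul, one_smul] at this
    exact (neg_add_eq_zero.mp this)
  rw [key z rfl h1, key w hzw.symm h2]

/-- closure of `B` in `Y` -/
noncomputable def cl {d : ℕ} (Y B : Finset (PQ d)) : Finset (PQ d) :=
  open Classical in
  Y.filter fun z => z.1 ∈ affineSpan ℝ (Prod.fst '' (B : Set (PQ d))) ∧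
    ∀ b ∈ B, dist z.1 b.1 = dist z.2 b.2

theorem card_cl_le {d : ℕ} (Y B : Finset (PQ d)) (hB : PN B) :
    (cl Y B).card ≤ (Y.image Prod.fst).card := by
  classical
  apply Finset.card_le_card_of_injOn Prod.fst
  · intro z hz
    rw [cl, Finset.mem_coe, Finset.mem_filter] at hz
    exact Finset.mem_coe.mpr (Finset.mem_image_of_mem _ hz.1)
  · intro z hz w hw h
    rw [cl, Finset.mem_coe, Finset.mem_filter] at hz hw
    exact Prod.ext h (snd_eq B hB z w hz.2.1 h hz.2.2 hw.2.2)

theorem exists_base {d : ℕ} (Y S : Finset (PQ d)) (hS : PN S) (hSY : S ⊆ Y) :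
    ∃ B ⊆ S, B.card ≤ d + 1 ∧ S ⊆ cl Y B := by
  classical
  obtain ⟨t, ht, hspan, hind⟩ := exists_affineIndependent ℝ
    (EuclideanSpace ℝ (Fin d)) (Prod.fst '' (S : Set (PQ d)))
  have htf : t.Finite := (S.finite_toSet.image _).subset ht
  -- choose preimages
  have hch : ∀ x : EuclideanSpace ℝ (Fin d), x ∈ t → ∃ z : PQ d, z ∈ S ∧ z.1 = x := by
    intro x hx
    obtain ⟨z, hz, hzx⟩ := ht hx
    exact ⟨z, hz, hzx⟩
  choose! g hgS hg using hch
  refine ⟨htf.toFinset.image g, ?_, ?_, ?_⟩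
  · intro z hz
    rw [Finset.mem_image] at hz
    obtain ⟨x, hx, rfl⟩ := hz
    exact hgS x (htf.mem_toFinset.mp hx)
  · refine Finset.card_image_le.trans ?_
    let _ : Fintype t := htf.fintype
    have h1 := hind.card_le_finrank_succ
    have h2 : Module.finrank ℝ (vectorSpan ℝ (Set.range (Subtype.val : t → EuclideanSpace ℝ (Fin d))))
        ≤ d := by
      refine (Submodule.finrank_le _).trans ?_
      simp
    have h3 : htf.toFinset.card = Fintype.card t := by
      rw [← Nat.card_eq_fintype_card, Nat.card_coe_set_eq, Set.ncard_eq_toFinset_card t htf]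
    rw [h3]
    exact h1.trans (Nat.add_le_add_right h2 1)
  · have himg : Prod.fst '' ((htf.toFinset.image g : Finset (PQ d)) : Set (PQ d)) = t := by
      ext x
      simp only [Finset.coe_image, Set.Finite.coe_toFinset, Set.mem_image, exists_exists_and_eq_and]
      constructor
      · rintro ⟨y, hy, rfl⟩; rwa [hg y hy]
      · intro hx; exact ⟨x, hx, hg x hx⟩
    intro z hz
    rw [cl, Finset.mem_filter]
    refine ⟨hSY hz, ?_, ?_⟩
    · rw [himg, hspan]
      exact subset_affineSpan ℝ _ ⟨z, hz, rfl⟩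
    · intro b hb
      rw [Finset.mem_image] at hb
      obtain ⟨x, hx, rfl⟩ := hb
      exact hS z hz _ (hgS x (htf.mem_toFinset.mp hx))


/-! ## counting -/

/-- `k`-subsets of `Y` containing a given `s`-subset -/
theorem card_supersets_le {α : Type*} [DecidableEq α] (Y T : Finset α) (k s : ℕ)
    (hT : T ⊆ Y) (hs : T.card = s) :
    ((powersetCard k Y).filter fun Ω => T ⊆ Ω).card ≤ (Y.card - s).choose (k - s) := by
  rw [← hs]
  have : (Y.card - T.card) = (Y \ T).card := (Finset.card_sdiff_of_subset hT).symm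
  rw [this, ← Finset.card_powersetCard]
  apply Finset.card_le_card_of_injOn (fun Ω => Ω \ T)
  · intro Ω hΩ
    rw [Finset.mem_coe, Finset.mem_filter, Finset.mem_powersetCard] at hΩ
    obtain ⟨⟨h1, h2⟩, h3⟩ := hΩ
    rw [Finset.mem_coe, Finset.mem_powersetCard]
    exact ⟨Finset.sdiff_subset_sdiff h1 (le_refl _), by
      rw [Finset.card_sdiff_of_subset h3, h2]⟩
  · intro Ω hΩ Ω' hΩ' h
    rw [Finset.mem_coe, Finset.mem_filter] at hΩ hΩ'
    simp only at h
    rw [← Finset.sdiff_union_of_subset hΩ.2, ← Finset.sdiff_union_of_subset hΩ'.2, h]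

theorem desc_le (k y : ℕ) (h : k ≤ y) (s : ℕ) :
    k.descFactorial s * y ^ s ≤ y.descFactorial s * k ^ s := by
  induction s with
  | zero => simp
  | succ s ih =>
    rw [Nat.descFactorial_succ, Nat.descFactorial_succ, pow_succ, pow_succ]
    have h1 : (k - s) * y ≤ (y - s) * k := by
      rcases le_total k s with hks | hks
      · simp [Nat.sub_eq_zero_of_le hks]
      · have : s ≤ y := hks.trans h
        zify [hks, this]
        nlinarith
    calc (k - s) * k.descFactorial s * (y ^ s * y)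
        = ((k - s) * y) * (k.descFactorial s * y ^ s) := by ring
      _ ≤ ((y - s) * k) * (y.descFactorial s * k ^ s) := Nat.mul_le_mul h1 ih
      _ = (y - s) * y.descFactorial s * (k ^ s * k) := by ring

theorem choose_ratio (y k s : ℕ) (hk : k ≤ y) (hs : s ≤ k) :
    (y - s).choose (k - s) * y ^ s ≤ k ^ s * y.choose k := by
  have h1 : k.choose s * y ^ s ≤ y.choose s * k ^ s := by
    have := desc_le k y hk s
    rw [Nat.descFactorial_eq_factorial_mul_choose, Nat.descFactorial_eq_factorial_mul_choose,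
      mul_assoc, mul_assoc] at this
    exact Nat.le_of_mul_le_mul_left this (Nat.factorial_pos s)
  have h2 : y.choose k * k.choose s = y.choose s * (y - s).choose (k - s) :=
    Nat.choose_mul hs
  have h3 : 0 < y.choose s := Nat.choose_pos (hs.trans hk)
  refine Nat.le_of_mul_le_mul_left ?_ h3
  calc y.choose s * ((y - s).choose (k - s) * y ^ s)
      = (y.choose s * (y - s).choose (k - s)) * y ^ s := by ring
    _ = y.choose k * (k.choose s * y ^ s) := by rw [← h2]; ring
    _ ≤ y.choose k * (y.choose s * k ^ s) := Nat.mul_le_mul_left _ h1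
    _ = y.choose s * (k ^ s * y.choose k) := by ring

/-- the `k`-subsets of `Y` with a pairwise null subset of size `≥ s` -/
noncomputable def Bad {d : ℕ} (Y : Finset (PQ d)) (k s : ℕ) : Finset (Finset (PQ d)) :=
  open Classical in
  (powersetCard k Y).filter fun Ω => ∃ S ⊆ Ω, PN S ∧ s ≤ S.card

theorem card_bad_le {d : ℕ} (Y : Finset (PQ d)) (n k s : ℕ)
    (hn : (Y.image Prod.fst).card ≤ n) (hs : d + 1 ≤ s) :
    (Bad Y k s).card ≤ ∑ j ∈ range (d + 2),
      Y.card.choose j * (n.choose (s - j) * (Y.card - s).choose (k - s)) := by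
  classical
  have hsub : Bad Y k s ⊆ (range (d + 2)).biUnion fun j =>
      ((powersetCard j Y).filter fun B => PN B).biUnion fun B =>
        (powersetCard (s - j) (cl Y B \ B)).biUnion fun R =>
          (powersetCard k Y).filter fun Ω => B ∪ R ⊆ Ω := by
    intro Ω hΩ
    rw [Bad, Finset.mem_filter] at hΩ
    obtain ⟨hΩk, S, hSΩ, hS, hcard⟩ := hΩ
    have hΩY : Ω ⊆ Y := (Finset.mem_powersetCard.mp hΩk).1
    obtain ⟨B, hBS, hBc, hScl⟩ := exists_base Y S hS (hSΩ.trans hΩY)
    have h1 : s - B.card ≤ (S \ B).card := by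
      rw [Finset.card_sdiff_of_subset hBS]
      exact Nat.sub_le_sub_right hcard _
    obtain ⟨R, hRS, hRc⟩ := Finset.exists_subset_card_eq h1
    rw [Finset.mem_biUnion]
    refine ⟨B.card, Finset.mem_range.mpr (by omega), ?_⟩
    rw [Finset.mem_biUnion]
    refine ⟨B, ?_, ?_⟩
    · rw [Finset.mem_filter, Finset.mem_powersetCard]
      exact ⟨⟨(hBS.trans hSΩ).trans hΩY, rfl⟩, hS.mono hBS⟩
    rw [Finset.mem_biUnion]
    refine ⟨R, ?_, ?_⟩
    · rw [Finset.mem_powersetCard]
      refine ⟨fun z hz => ?_, hRc⟩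
      have := hRS hz
      rw [Finset.mem_sdiff] at this ⊢
      exact ⟨hScl this.1, this.2⟩
    · rw [Finset.mem_filter]
      refine ⟨hΩk, Finset.union_subset (hBS.trans hSΩ) ?_⟩
      exact (hRS.trans Finset.sdiff_subset).trans hSΩ
  refine (Finset.card_le_card hsub).trans ?_
  refine Finset.card_biUnion_le.trans ?_
  refine Finset.sum_le_sum fun j hj => ?_
  have hj' : j ≤ d + 1 := by have := Finset.mem_range.mp hj; omega
  refine Finset.card_biUnion_le.trans ?_
  have hB : ∀ B ∈ (powersetCard j Y).filter fun B => PN B,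
      ((powersetCard (s - j) (cl Y B \ B)).biUnion fun R =>
          (powersetCard k Y).filter fun Ω => B ∪ R ⊆ Ω).card
        ≤ n.choose (s - j) * (Y.card - s).choose (k - s) := by
    intro B hB
    rw [Finset.mem_filter, Finset.mem_powersetCard] at hB
    obtain ⟨⟨hBY, hBc⟩, hPN⟩ := hB
    refine Finset.card_biUnion_le.trans ?_
    have hR : ∀ R ∈ powersetCard (s - j) (cl Y B \ B),
        ((powersetCard k Y).filter fun Ω => B ∪ R ⊆ Ω).card
          ≤ (Y.card - s).choose (k - s) := by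
      intro R hR
      rw [Finset.mem_powersetCard] at hR
      apply card_supersets_le
      · refine Finset.union_subset hBY fun z hz => ?_
        have := hR.1 hz
        rw [Finset.mem_sdiff, cl, Finset.mem_filter] at this
        exact this.1.1
      · rw [Finset.card_union_of_disjoint, hBc, hR.2]
        · omega
        · rw [Finset.disjoint_left]
          intro z hz hz'
          exact (Finset.mem_sdiff.mp (hR.1 hz')).2 hz
    refine (Finset.sum_le_card_nsmul _ _ _ hR).trans ?_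
    rw [Finset.card_powersetCard, smul_eq_mul]
    refine Nat.mul_le_mul_right _ (Nat.choose_le_choose _ ?_)
    exact (Finset.card_le_card Finset.sdiff_subset).trans ((card_cl_le Y B hPN).trans hn)
  refine (Finset.sum_le_card_nsmul _ _ _ hB).trans ?_
  rw [smul_eq_mul]
  refine Nat.mul_le_mul_right _ ?_
  refine (Finset.card_filter_le _ _).trans ?_
  rw [Finset.card_powersetCard]


theorem geom_le (k D : ℕ) : ∑ j ∈ range (D + 1), (k : ℝ) ^ j ≤ ((k : ℝ) + 1) ^ D := by
  induction D with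
  | zero => simp
  | succ D ih =>
    rw [Finset.sum_range_succ, pow_succ ((k : ℝ) + 1), mul_add, mul_one]
    have hk : (0 : ℝ) ≤ k := Nat.cast_nonneg k
    have : (k : ℝ) ^ (D + 1) ≤ ((k : ℝ) + 1) ^ D * k := by
      rw [pow_succ]
      exact mul_le_mul_of_nonneg_right (pow_le_pow_left₀ hk (by linarith) D) hk
    linarith

/-- tail bound -/
theorem card_bad_le_real {d : ℕ} (Y : Finset (PQ d)) (n k s : ℕ)
    (hn : (Y.image Prod.fst).card ≤ n) (hk : k ≤ Y.card) (hs : d + 1 < s)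
    (θ : ℝ) (hθ0 : 0 ≤ θ) (hθ1 : θ ≤ 1)
    (hx : Real.exp 1 * (n * k) ≤ θ * Y.card * ((s : ℝ) - (d + 1))) :
    ((Bad Y k s).card : ℝ) ≤ ((k : ℝ) + 1) ^ (d + 1) * θ ^ (s - (d + 1)) * (Y.card.choose k) := by
  classical
  rcases lt_or_ge k s with hks | hks
  · have : Bad Y k s = ∅ := by
      rw [Bad, Finset.filter_eq_empty_iff]
      rintro Ω hΩ ⟨S, hS, -, hc⟩
      have h1 := Finset.card_le_card hS
      rw [(Finset.mem_powersetCard.mp hΩ).2] at h1
      omega
    rw [this]
    simp only [Finset.card_empty, Nat.cast_zero]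
    positivity
  have hk0 : 0 < k := by omega
  have hy0 : 0 < Y.card := hk0.trans_le hk
  have hyR : (0 : ℝ) < Y.card := by exact_mod_cast hy0
  have h1 : ((Bad Y k s).card : ℝ) ≤ ∑ j ∈ range (d + 2),
      ((Y.card.choose j : ℝ) * ((n.choose (s - j) : ℝ) * ((Y.card - s).choose (k - s) : ℝ))) := by
    exact_mod_cast card_bad_le Y n k s hn (by omega)
  refine h1.trans ?_
  have hterm : ∀ j ∈ range (d + 2),
      ((Y.card.choose j : ℝ) * ((n.choose (s - j) : ℝ) * ((Y.card - s).choose (k - s) : ℝ)))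
        ≤ (k : ℝ) ^ j * (θ ^ (s - (d + 1)) * (Y.card.choose k)) := by
    intro j hj
    have hj' : j ≤ d + 1 := by have := Finset.mem_range.mp hj; omega
    obtain ⟨r, hr⟩ : ∃ r, s = j + r := ⟨s - j, by omega⟩
    have hrs : s - j = r := by omega
    have hr1 : s - (d + 1) ≤ r := by omega
    have hrpos : 0 < r := by omega
    have hrR : (0 : ℝ) < r := by exact_mod_cast hrpos
    rw [hrs]
    have e1 : (Y.card.choose j : ℝ) ≤ (Y.card : ℝ) ^ j := by
      exact_mod_cast Nat.choose_le_pow Y.card j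
    have e2 : (n.choose r : ℝ) ≤ (n : ℝ) ^ r / r.factorial := Nat.choose_le_pow_div r n
    have e3 : ((Y.card - s).choose (k - s) : ℝ) * (Y.card : ℝ) ^ s
        ≤ (k : ℝ) ^ s * (Y.card.choose k : ℝ) := by
      exact_mod_cast choose_ratio Y.card k s hk hks
    have e3' : ((Y.card - s).choose (k - s) : ℝ)
        ≤ (k : ℝ) ^ s * (Y.card.choose k : ℝ) / (Y.card : ℝ) ^ s := by
      rw [le_div_iff₀ (by positivity)]; exact e3
    have hprod : ((Y.card.choose j : ℝ) * ((n.choose r : ℝ) * ((Y.card - s).choose (k - s) : ℝ)))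
        ≤ (Y.card : ℝ) ^ j * ((n : ℝ) ^ r / r.factorial *
          ((k : ℝ) ^ s * (Y.card.choose k : ℝ) / (Y.card : ℝ) ^ s)) := by
      gcongr
    refine hprod.trans ?_
    have hid : (Y.card : ℝ) ^ j * ((n : ℝ) ^ r / r.factorial *
          ((k : ℝ) ^ s * (Y.card.choose k : ℝ) / (Y.card : ℝ) ^ s))
        = (k : ℝ) ^ j * (((n * k / Y.card : ℝ) ^ r / r.factorial) * (Y.card.choose k)) := by
      rw [hr, pow_add, pow_add, div_pow, mul_pow]
      field_simp
    rw [hid]
    have hxr : (n * k / Y.card : ℝ) ≤ θ * r / Real.exp 1 := by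
      rw [le_div_iff₀ (Real.exp_pos 1), div_mul_eq_mul_div, div_le_iff₀ hyR]
      have hsr : ((s : ℝ) - (d + 1)) ≤ r := by
        have : (s : ℝ) ≤ (d + 1) + r := by exact_mod_cast (by omega : s ≤ (d + 1) + r)
        linarith
      have := mul_le_mul_of_nonneg_left hsr (by positivity : 0 ≤ θ * (Y.card : ℝ))
      nlinarith
    have hmain : ((n * k / Y.card : ℝ) ^ r / r.factorial) ≤ θ ^ (s - (d + 1)) := by
      have a1 : (n * k / Y.card : ℝ) ^ r ≤ (θ * r / Real.exp 1) ^ r :=
        pow_le_pow_left₀ (by positivity) hxr r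
      have a2 : (r : ℝ) ^ r / r.factorial ≤ Real.exp r :=
        Real.pow_div_factorial_le_exp (r : ℝ) hrR.le r
      have a3 : (θ * r / Real.exp 1) ^ r / r.factorial
          = θ ^ r * ((r : ℝ) ^ r / r.factorial) / Real.exp r := by
        rw [div_pow, mul_pow, ← Real.exp_nat_mul, mul_one]
        field_simp
      calc ((n * k / Y.card : ℝ) ^ r / r.factorial)
          ≤ (θ * r / Real.exp 1) ^ r / r.factorial := by gcongr
        _ = θ ^ r * ((r : ℝ) ^ r / r.factorial) / Real.exp r := a3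
        _ ≤ θ ^ r * Real.exp r / Real.exp r := by gcongr
        _ = θ ^ r := by field_simp
        _ ≤ θ ^ (s - (d + 1)) := pow_le_pow_of_le_one hθ0 hθ1 hr1
    gcongr
  refine (Finset.sum_le_sum hterm).trans ?_
  rw [← Finset.sum_mul, mul_assoc]
  gcongr
  exact geom_le k (d + 1)

/-- maximal size of a pairwise null subset -/
noncomputable def nu {d : ℕ} (Ω : Finset (PQ d)) : ℕ :=
  open Classical in
  (Ω.powerset.filter fun S => PN S).sup Finset.card

theorem le_nu {d : ℕ} {Ω S : Finset (PQ d)} (hS : S ⊆ Ω) (h : PN S) : S.card ≤ nu Ω := by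
  classical
  exact Finset.le_sup (f := Finset.card)
    (Finset.mem_filter.mpr ⟨Finset.mem_powerset.mpr hS, h⟩)

theorem nu_le_card {d : ℕ} (Ω : Finset (PQ d)) : nu Ω ≤ Ω.card := by
  classical
  refine Finset.sup_le fun S hS => ?_
  exact Finset.card_le_card (Finset.mem_powerset.mp (Finset.mem_filter.mp hS).1)

theorem exists_nu {d : ℕ} (Ω : Finset (PQ d)) : ∃ S ⊆ Ω, PN S ∧ S.card = nu Ω := by
  classical
  obtain ⟨S, hS, h⟩ := Finset.exists_mem_eq_sup (Ω.powerset.filter fun S => PN S)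
    ⟨∅, Finset.mem_filter.mpr ⟨by simp, fun z hz => by simp at hz⟩⟩ Finset.card
  exact ⟨S, Finset.mem_powerset.mp (Finset.mem_filter.mp hS).1, (Finset.mem_filter.mp hS).2,
    h.symm⟩

theorem nu_mono {d : ℕ} {Ω Ω' : Finset (PQ d)} (h : Ω ⊆ Ω') : nu Ω ≤ nu Ω' := by
  obtain ⟨S, hS, hPN, hc⟩ := exists_nu Ω
  rw [← hc]
  exact le_nu (hS.trans h) hPN

theorem nu_union_le {d : ℕ} (A B : Finset (PQ d)) : nu (A ∪ B) ≤ nu A + nu B := by
  classical
  obtain ⟨S, hS, hPN, hc⟩ := exists_nu (A ∪ B)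
  rw [← hc]
  have : S = (S ∩ A) ∪ (S ∩ B) := by
    rw [← Finset.inter_union_distrib_left]; exact (Finset.inter_eq_left.mpr hS).symm
  calc S.card = ((S ∩ A) ∪ (S ∩ B)).card := by rw [← this]
    _ ≤ (S ∩ A).card + (S ∩ B).card := Finset.card_union_le _ _
    _ ≤ nu A + nu B := Nat.add_le_add
        (le_nu Finset.inter_subset_right (hPN.mono Finset.inter_subset_left))
        (le_nu Finset.inter_subset_right (hPN.mono Finset.inter_subset_left))

theorem sum_nu_le {d : ℕ} (Y : Finset (PQ d)) (n k s : ℕ)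
    (hn : (Y.image Prod.fst).card ≤ n) (hk : k ≤ Y.card) (hs : d + 1 < s)
    (θ : ℝ) (hθ0 : 0 ≤ θ) (hθ1 : θ ≤ 1)
    (hx : Real.exp 1 * (n * k) ≤ θ * Y.card * ((s : ℝ) - (d + 1))) :
    ∑ Ω ∈ powersetCard k Y, (nu Ω : ℝ) ≤
      (s + k * (((k : ℝ) + 1) ^ (d + 1) * θ ^ (s - (d + 1)))) * (Y.card.choose k) := by
  classical
  have h1 : ∀ Ω ∈ powersetCard k Y, (nu Ω : ℝ) ≤ s + (if Ω ∈ Bad Y k s then (k : ℝ) else 0) := by
    intro Ω hΩ
    by_cases hb : Ω ∈ Bad Y k s
    · rw [if_pos hb]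
      have h2 : nu Ω ≤ k := by
        have := nu_le_card Ω
        rwa [(Finset.mem_powersetCard.mp hΩ).2] at this
      have : (nu Ω : ℝ) ≤ k := by exact_mod_cast h2
      have hs0 : (0 : ℝ) ≤ s := Nat.cast_nonneg s
      linarith
    · rw [if_neg hb, add_zero]
      have h2 : nu Ω ≤ s := by
        by_contra hcon
        push Not at hcon
        obtain ⟨S, hS, hPN, hc⟩ := exists_nu Ω
        exact hb (Finset.mem_filter.mpr ⟨hΩ, S, hS, hPN, by omega⟩)
      exact_mod_cast h2
  refine (Finset.sum_le_sum h1).trans ?_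
  rw [Finset.sum_add_distrib, Finset.sum_const, Finset.card_powersetCard, nsmul_eq_mul,
    Finset.sum_ite_mem, Finset.sum_const, nsmul_eq_mul]
  have h3 : ((powersetCard k Y ∩ Bad Y k s).card : ℝ)
      ≤ ((k : ℝ) + 1) ^ (d + 1) * θ ^ (s - (d + 1)) * (Y.card.choose k) := by
    refine le_trans ?_ (card_bad_le_real Y n k s hn hk hs θ hθ0 hθ1 hx)
    exact_mod_cast Finset.card_le_card Finset.inter_subset_right
  have hk0 : (0 : ℝ) ≤ k := Nat.cast_nonneg k
  have := mul_le_mul_of_nonneg_right h3 hk0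
  calc _ ≤ (Y.card.choose k : ℝ) * s
        + ((k : ℝ) + 1) ^ (d + 1) * θ ^ (s - (d + 1)) * (Y.card.choose k) * k := by linarith
    _ = _ := by ring

/-- **NU-LEMMA** (E4): the average size of the largest pairwise null subset of a uniform
`k`-subset of `Y` is at most `ε m^(d-2)`. -/
theorem avg_nu (d : ℕ) (hd : 3 ≤ d) (ε c : ℝ) (hε : 0 < ε) (hc : 0 < c) :
    ∃ (m0 : ℕ) (θ : ℝ), 0 < θ ∧ ∀ (Y : Finset (PQ d)) (n k m : ℕ),
      (Y.image Prod.fst).card ≤ n → m0 ≤ m → (k : ℝ) ≤ c * (m : ℝ) ^ d → k ≤ Y.card →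
      (n : ℝ) * k ≤ θ * (m : ℝ) ^ (d - 2) * Y.card →
      ∑ Ω ∈ powersetCard k Y, (nu Ω : ℝ) ≤ ε * (m : ℝ) ^ (d - 2) * (Y.card.choose k) := by
  -- asymptotics
  have hlim := Real.tendsto_pow_mul_exp_neg_atTop_nhds_zero (d * (d + 2))
  have hlim2 : Filter.Tendsto (fun m : ℕ => ((c + 1) ^ (d + 2) * (4 / ε) ^ (d * (d + 2))) *
      ((ε / 4 * (m : ℝ)) ^ (d * (d + 2)) * Real.exp (-(ε / 4 * (m : ℝ))))) Filter.atTop
      (nhds (((c + 1) ^ (d + 2) * (4 / ε) ^ (d * (d + 2))) * 0)) := by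
    refine Filter.Tendsto.const_mul _ (hlim.comp ?_)
    exact Filter.Tendsto.const_mul_atTop (by positivity) tendsto_natCast_atTop_atTop
  rw [mul_zero] at hlim2
  have hev := (hlim2.eventually (gt_mem_nhds (show (0 : ℝ) < Real.exp (-(d + 1 : ℝ)) from
    Real.exp_pos _))).exists_forall_of_atTop
  obtain ⟨m1, hm1⟩ := hev
  obtain ⟨m2, hm2⟩ := exists_nat_ge (4 * (d + 2) / ε + 4 / ε + 1)
  refine ⟨max m1 m2, ε / (4 * Real.exp 2), by positivity, ?_⟩
  intro Y n k m hn hm hkm hk hnk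
  have hmm1 := hm1 m (le_of_max_le_left hm)
  have hmm2 : 4 * (d + 2) / ε + 4 / ε + 1 ≤ (m : ℝ) :=
    hm2.trans (by exact_mod_cast le_of_max_le_right hm)
  have hmpos : (1 : ℝ) ≤ m := by
    have : 0 ≤ 4 * ((d : ℝ) + 2) / ε + 4 / ε := by positivity
    linarith
  set M : ℝ := (m : ℝ) ^ (d - 2) with hM
  have hMm : (m : ℝ) ≤ M := by
    rw [hM]; exact le_self_pow₀ hmpos (by omega)
  have hM1 : 4 * (d + 2) ≤ ε * M := by
    have h1 : 4 * ((d : ℝ) + 2) / ε ≤ M := by
      have : 0 ≤ 4 / ε := by positivity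
      linarith
    rw [div_le_iff₀ hε] at h1
    linarith
  set s : ℕ := ⌈ε / 2 * M⌉₊ with hs
  have hs1 : ε / 2 * M ≤ s := Nat.le_ceil _
  have hs2 : (s : ℝ) ≤ ε / 2 * M + 1 := (Nat.ceil_lt_add_one (by positivity)).le
  have hsd : d + 1 < s := by
    have : ((d + 1 : ℕ) : ℝ) < s := by push_cast; linarith
    exact_mod_cast this
  have hsd' : ε / 4 * M ≤ (s : ℝ) - (d + 1) := by linarith
  have hx : Real.exp 1 * (n * k) ≤ Real.exp (-1) * Y.card * ((s : ℝ) - (d + 1)) := by
    have hY : (0 : ℝ) ≤ Y.card := Nat.cast_nonneg _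
    calc Real.exp 1 * (n * k) ≤ Real.exp 1 * (ε / (4 * Real.exp 2) * M * Y.card) := by gcongr
      _ = Real.exp (-1) * Y.card * (ε / 4 * M) := by
          rw [show (2 : ℝ) = 1 + 1 by norm_num, Real.exp_add, Real.exp_neg]
          field_simp
      _ ≤ _ := by gcongr
  have hmain := sum_nu_le Y n k s hn hk hsd (Real.exp (-1)) (Real.exp_pos _).le
    (Real.exp_le_one_iff.mpr (by norm_num)) hx
  refine hmain.trans ?_
  refine mul_le_mul_of_nonneg_right ?_ (Nat.cast_nonneg _)
  -- k (k+1)^(d+1) e^{-(s-d-1)} ≤ 1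
  have hsmall : (k : ℝ) * (((k : ℝ) + 1) ^ (d + 1) * Real.exp (-1) ^ (s - (d + 1))) ≤ 1 := by
    have hk1 : (k : ℝ) + 1 ≤ (c + 1) * (m : ℝ) ^ d := by
      have : (1 : ℝ) ≤ (m : ℝ) ^ d := one_le_pow₀ hmpos
      nlinarith
    have hk0 : (0 : ℝ) ≤ k := Nat.cast_nonneg k
    have b1 : (k : ℝ) * ((k : ℝ) + 1) ^ (d + 1) ≤ ((c + 1) * (m : ℝ) ^ d) ^ (d + 2) := by
      calc (k : ℝ) * ((k : ℝ) + 1) ^ (d + 1) ≤ ((k : ℝ) + 1) * ((k : ℝ) + 1) ^ (d + 1) := by
            gcongr; linarith
        _ = ((k : ℝ) + 1) ^ (d + 2) := by ring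
        _ ≤ _ := by gcongr
    have b2 : Real.exp (-1) ^ (s - (d + 1)) ≤ Real.exp (d + 1) * Real.exp (-(ε / 4 * m))
        * 1 := by
      rw [← Real.exp_nat_mul, mul_one, ← Real.exp_add]
      apply Real.exp_le_exp.mpr
      rw [Nat.cast_sub hsd.le]
      push_cast
      have : ε / 4 * (m : ℝ) ≤ ε / 4 * M := by gcongr
      have hd0 : (0 : ℝ) ≤ d := Nat.cast_nonneg d
      linarith
    have b3 : ((c + 1) * (m : ℝ) ^ d) ^ (d + 2) * Real.exp (-(ε / 4 * m)) ≤
        Real.exp (-(d + 1 : ℝ)) := by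
      refine le_trans (le_of_eq ?_) hmm1.le
      rw [mul_pow, ← pow_mul, mul_pow (ε / 4)]
      have : (4 / ε) ^ (d * (d + 2)) * (ε / 4) ^ (d * (d + 2)) = 1 := by
        rw [← mul_pow]
        have : 4 / ε * (ε / 4) = 1 := by field_simp
        rw [this, one_pow]
      calc (c + 1) ^ (d + 2) * (m : ℝ) ^ (d * (d + 2)) * Real.exp (-(ε / 4 * m))
          = (c + 1) ^ (d + 2) * ((4 / ε) ^ (d * (d + 2)) * (ε / 4) ^ (d * (d + 2)))
            * (m : ℝ) ^ (d * (d + 2)) * Real.exp (-(ε / 4 * m)) := by rw [this, mul_one]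
        _ = _ := by ring
    calc (k : ℝ) * (((k : ℝ) + 1) ^ (d + 1) * Real.exp (-1) ^ (s - (d + 1)))
        = ((k : ℝ) * ((k : ℝ) + 1) ^ (d + 1)) * Real.exp (-1) ^ (s - (d + 1)) := by ring
      _ ≤ ((c + 1) * (m : ℝ) ^ d) ^ (d + 2) *
          (Real.exp (d + 1) * Real.exp (-(ε / 4 * m)) * 1) := by
            gcongr
      _ = (((c + 1) * (m : ℝ) ^ d) ^ (d + 2) * Real.exp (-(ε / 4 * m))) * Real.exp (d + 1) := by
            ring
      _ ≤ Real.exp (-(d + 1 : ℝ)) * Real.exp (d + 1) := by gcongr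
      _ = 1 := by rw [← Real.exp_add]; simp
  linarith

end Crest.Agent.R065.Nu238
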