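import Crest.Agent.R065.Wt_639

/-!
# Row 65: orders at points and iterated derivatives

`ord_shift_iff` : in characteristic zero `h` has order `≥ n` at `p` iff all iterated partial
derivatives of order `< n` vanish at `p`.
-/

set_option autoImplicit false

open MvPolynomial Module

namespace Crest.Agent.R065.Wt639

open Crest.Agent.R065.HF669

variable {k : Type*} [Field k] {σ : Type*}

lemma pderiv_shift (p : σ → k) (i : σ) (f : MvPolynomial σ k) :
    pderiv i (shift p f) = shift p (pderiv i f) := by
  classical
  induction f using MvPolynomial.induction_on with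
  | C a => simp [shift]
  | add f g hf hg => rw [map_add, map_add, hf, hg, map_add, map_add]
  | mul_X f j hf =>
    rw [map_mul, Derivation.leibniz, hf, Derivation.leibniz]
    have h1 : pderiv i (shift p (X j)) = shift p (pderiv i (X j : MvPolynomial σ k)) := by
      rw [shift, aeval_X, map_add, pderiv_C, add_zero, pderiv_X]
      by_cases h : i = j
      · subst h; simp
      · simp [Pi.single_eq_of_ne (Ne.symm h)]
    rw [h1]
    simp only [smul_eq_mul, map_add, map_mul]

lemma Dl_shift (p : σ → k) (l : List σ) (f : MvPolynomial σ k) :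
    Dl l (shift p f) = shift p (Dl l f) := by
  induction l with
  | nil => rfl
  | cons i l ih => rw [Dl_cons, ih, pderiv_shift, Dl_cons]

lemma constantCoeff_Dl_shift (p : σ → k) (l : List σ) (f : MvPolynomial σ k) :
    constantCoeff (Dl l (shift p f)) = eval p (Dl l f) := by
  rw [Dl_shift, constantCoeff_shift]

/-- derivatives lower the order -/
lemma Ord.Dl {n : ℕ} {g : MvPolynomial σ k} (l : List σ) (hg : Ord (n + l.length) g) :
    Ord n (Dl l g) := by
  induction l generalizing n with
  | nil => simpa using hg
  | cons i l ih =>
    have h1 : Ord (n + 1) (Wt639.Dl l g) := ih (by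
      rw [List.length_cons] at hg
      rwa [add_assoc, add_comm 1])
    rw [Dl_cons, ord_iff]
    intro m hm
    rw [coeff_pderiv, ord_iff.1 h1, zero_mul]
    rw [map_add, Finsupp.degree_single]
    omega

/-- no order `> |l|` at a point where the derivative `Dl l h` does not vanish -/
lemma not_ord_of_ne {p : σ → k} {l : List σ} {h : MvPolynomial σ k}
    (hl : eval p (Dl l h) ≠ 0) : ¬ Ord (l.length + 1) (shift p h) := by
  intro hO
  apply hl
  rw [add_comm] at hO
  have h1 := Ord.Dl l hO
  rw [← constantCoeff_Dl_shift, constantCoeff_eq]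
  exact ord_iff.1 h1 0 (by simp)

lemma ord_of_Dl [CharZero k] {n : ℕ} {g : MvPolynomial σ k}
    (hg : ∀ l : List σ, l.length < n → constantCoeff (Dl l g) = 0) : Ord n g := by
  classical
  induction n generalizing g with
  | zero => exact Ord.zero
  | succ n ih =>
    rw [ord_iff]
    intro m hm
    by_cases h0 : m = 0
    · have := hg [] (by simp)
      rw [h0]
      simpa [constantCoeff_eq] using this
    · obtain ⟨i, hi⟩ : ∃ i, m i ≠ 0 := by
        by_contra hc
        push Not at hc
        exact h0 (Finsupp.ext hc)
      have h1 : Ord n (pderiv i g) := ih fun l hl => by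
        have := hg (l ++ [i]) (by rw [List.length_append, List.length_singleton]; omega)
        rwa [Dl_append] at this
      have h2 : m = (m - Finsupp.single i 1) + Finsupp.single i 1 := by
        rw [tsub_add_cancel_of_le]
        rw [Finsupp.single_le_iff]
        omega
      have h3 : (m - Finsupp.single i 1).degree < n := by
        have := congrArg Finsupp.degree h2
        rw [map_add, Finsupp.degree_single] at this
        omega
      have h4 := ord_iff.1 h1 _ h3
      rw [coeff_pderiv, ← h2] at h4
      rcases mul_eq_zero.1 h4 with h5 | h5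
      · exact h5
      · exfalso
        exact Nat.cast_add_one_ne_zero _ h5

/-- **order at a point and derivatives** -/
theorem ord_shift_iff [CharZero k] {n : ℕ} {p : σ → k} {h : MvPolynomial σ k} :
    Ord n (shift p h) ↔ ∀ l : List σ, l.length < n → eval p (Dl l h) = 0 := by
  constructor
  · intro hO l hl
    by_contra hc
    apply not_ord_of_ne hc
    rw [ord_iff] at hO ⊢
    intro m hm
    exact hO m (by omega)
  · intro hD
    exact ord_of_Dl fun l hl => by rw [constantCoeff_Dl_shift]; exact hD l hl

/-- at the points of `V` the order of `h` is at least `ordP V h` -/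
lemma ord_shift_ordP [CharZero k] {V : Ideal (MvPolynomial σ k)} {p : σ → k}
    (hp : ∀ g ∈ V, eval p g = 0) (h : MvPolynomial σ k) : Ord (ordP V h) (shift p h) :=
  ord_shift_iff.2 fun _ hl => hp _ (mem_of_lt_ordP hl)

/-- **terminal step**: one polynomial `g = Dl l h ∉ V`, of degree `≤ deg h - ord_V h`, such that
at every zero of `V` with `g p ≠ 0` the order of `h` is exactly `ord_V h` -/
theorem exists_good_derivative [CharZero k] [Fintype σ] {V : Ideal (MvPolynomial σ k)}
    (hV : V ≠ ⊤) {h : MvPolynomial σ k} (hh : h ≠ 0) :
    ∃ g : MvPolynomial σ k, g ∉ V ∧ g.totalDegree ≤ h.totalDegree - ordP V h ∧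
      ∀ p : σ → k, eval p g ≠ 0 → ¬ Ord (ordP V h + 1) (shift p h) := by
  obtain ⟨l, hl1, hl2⟩ := exists_ordP hV hh
  refine ⟨Dl l h, hl2, by rw [← hl1]; exact totalDegree_Dl_le' l h, fun p hp => ?_⟩
  rw [← hl1]
  exact not_ord_of_ne hp

end Crest.Agent.R065.Wt639
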