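import Crest.Agent.R065.Slice_417
import Crest.Agent.R065.D3blk_812

/-!
# Row 65, `d = 3`: the exceptional sets of the rank lemma are planes

`pl n κ` is the polynomial of the plane `n · vecS = κ`.  If a polynomial `g` of degree `≤ 1` of
the slice divides `slice S h` and vanishes at the points of two different coplanar leaves, the
plane of these leaves lies in `Z(h)`.
-/

set_option autoImplicit false

open MvPolynomial Module Matrix

namespace Crest.Agent.R065.Plane649

open Crest.Agent.R065.HF669 Crest.Agent.R065.Base348 Crest.Agent.R065.Cramer234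
  Crest.Agent.R065.Slice417 Crest.Agent.R065.D3blk812

/-! ### null pairs in the slice -/

section null

variable {e : ℕ} {k : Type*} [Field k]

lemma q_dir_sub {v w : Pt (e + 1) k} (hv : v.1 (Fin.last e) ≠ 0) (hw : w.1 (Fin.last e) ≠ 0)
    (hqv : q v = 0) (hqw : q w = 0) :
    v.1 (Fin.last e) * w.1 (Fin.last e) * q (dir v - dir w) = q (v - w) := by
  unfold q at *
  rw [Fin.sum_univ_castSucc] at *
  have h1 : v.1 (Fin.last e) * w.1 (Fin.last e) * ∑ i, (dir v - dir w).1 i * (dir v - dir w).2 i =
      w.1 (Fin.last e) / v.1 (Fin.last e) * ∑ i : Fin e, v.1 i.castSucc * v.2 i.castSucc +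
      v.1 (Fin.last e) / w.1 (Fin.last e) * ∑ i : Fin e, w.1 i.castSucc * w.2 i.castSucc -
      ∑ i : Fin e, (v.1 i.castSucc * w.2 i.castSucc + w.1 i.castSucc * v.2 i.castSucc) := by
    rw [Finset.mul_sum, Finset.mul_sum, Finset.mul_sum, ← Finset.sum_add_distrib,
      ← Finset.sum_sub_distrib]
    refine Finset.sum_congr rfl fun i _ => ?_
    simp only [dir, Prod.fst_sub, Prod.snd_sub, Pi.sub_apply]
    field_simp
    ring
  have h2 : ∑ i : Fin e, (v - w).1 i.castSucc * (v - w).2 i.castSucc =
      ∑ i : Fin e, v.1 i.castSucc * v.2 i.castSucc + ∑ i : Fin e, w.1 i.castSucc * w.2 i.castSucc -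
      ∑ i : Fin e, (v.1 i.castSucc * w.2 i.castSucc + w.1 i.castSucc * v.2 i.castSucc) := by
    rw [← Finset.sum_add_distrib, ← Finset.sum_sub_distrib]
    refine Finset.sum_congr rfl fun i _ => ?_
    simp only [Prod.fst_sub, Prod.snd_sub, Pi.sub_apply]
    ring
  rw [h1, h2]
  simp only [Prod.fst_sub, Prod.snd_sub, Pi.sub_apply]
  have h3 : w.1 (Fin.last e) / v.1 (Fin.last e) * ∑ i : Fin e, v.1 i.castSucc * v.2 i.castSucc =
      - (w.1 (Fin.last e) * v.2 (Fin.last e)) := by
    have : ∑ i : Fin e, v.1 i.castSucc * v.2 i.castSucc = -(v.1 (Fin.last e) * v.2 (Fin.last e)) := by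
      linear_combination hqv
    rw [this]; field_simp
  have h4 : v.1 (Fin.last e) / w.1 (Fin.last e) * ∑ i : Fin e, w.1 i.castSucc * w.2 i.castSucc =
      - (v.1 (Fin.last e) * w.2 (Fin.last e)) := by
    have : ∑ i : Fin e, w.1 i.castSucc * w.2 i.castSucc = -(w.1 (Fin.last e) * w.2 (Fin.last e)) := by
      linear_combination hqw
    rw [this]; field_simp
  rw [h3, h4]
  linear_combination -hqv - hqw

end null

/-! ### linear polynomials in two variables -/

section lin

variable {K : Type*} [Field K] [CharZero K]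

/-- a polynomial of degree at most one is affine -/
lemma eval_of_totalDegree_le_one {g : MvPolynomial (Fin 2) K} (hg : g.totalDegree ≤ 1) :
    ∃ μ : Fin 2 → K, ∀ x y : Fin 2 → K, eval x g - eval y g = ∑ j, μ j * (x j - y j) := by
  classical
  have h1 : ∀ j, ∃ c, pderiv j g = C c := by
    intro j
    refine ⟨coeff 0 (pderiv j g), ?_⟩
    rw [← totalDegree_eq_zero_iff_eq_C]
    have := totalDegree_pderiv_le j g
    omega
  choose μ hμ using h1
  refine ⟨μ, fun x y => ?_⟩
  obtain ⟨c, hc⟩ := eq_C_of_pderiv_eq_zero (p := g - ∑ j, C (μ j) * X j) (by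
    intro j
    rw [map_sub, hμ, map_sum, Finset.sum_eq_single j]
    · rw [pderiv_C_mul, pderiv_X_self, mul_one, sub_self]
    · intro i _ hi
      rw [pderiv_C_mul, pderiv_X_of_ne hi, mul_zero]
    · simp)
  have h1 : g = C c + ∑ j, C (μ j) * X j := by rw [← hc]; ring
  rw [h1]
  simp only [map_add, map_sum, map_mul, eval_C, eval_X, mul_sub, Finset.sum_sub_distrib]
  ring

/-- two polynomials of degree `≤ 1` in two variables with two common zeros are proportional -/
lemma dvd_of_two_zeros {f g : MvPolynomial (Fin 2) K} (hf : f.totalDegree ≤ 1)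
    (hg : g.totalDegree ≤ 1) {p p' : Fin 2 → K} (hne : p ≠ p') (hfp : eval p f = 0)
    (hfp' : eval p' f = 0) (hgp : eval p g = 0) (hgp' : eval p' g = 0) (hf0 : f ≠ 0) :
    f ∣ g := by
  obtain ⟨α, hα⟩ := eval_of_totalDegree_le_one hf
  obtain ⟨μ, hμ⟩ := eval_of_totalDegree_le_one hg
  have h1 := hα p p'
  have h2 := hμ p p'
  rw [hfp, hfp', sub_zero, Fin.sum_univ_two] at h1
  rw [hgp, hgp', sub_zero, Fin.sum_univ_two] at h2
  have hα0 : α ≠ 0 := by
    rintro rfl
    apply hf0
    apply MvPolynomial.funext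
    intro x
    have := hα x p
    rw [hfp, sub_zero] at this
    rw [this]; simp
  have hu : p 0 - p' 0 ≠ 0 ∨ p 1 - p' 1 ≠ 0 := by
    by_contra hc
    push Not at hc
    apply hne
    funext i
    fin_cases i
    · exact sub_eq_zero.1 hc.1
    · exact sub_eq_zero.1 hc.2
  have hdet : α 0 * μ 1 = α 1 * μ 0 := by
    rcases hu with hu | hu
    · apply mul_right_cancel₀ hu
      linear_combination (-μ 1) * h1 + (α 1) * h2
    · apply mul_right_cancel₀ hu
      linear_combination (μ 0) * h1 - (α 0) * h2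
  have hα' : α 0 ≠ 0 ∨ α 1 ≠ 0 := by
    by_contra hc
    push Not at hc
    apply hα0
    funext i
    fin_cases i
    · exact hc.1
    · exact hc.2
  obtain ⟨t, ht⟩ : ∃ t, ∀ i, μ i = t * α i := by
    rcases hα' with h | h
    · refine ⟨μ 0 / α 0, fun i => ?_⟩
      fin_cases i
      · simp only [Fin.zero_eta, Fin.isValue]; field_simp
      · simp only [Fin.mk_one, Fin.isValue]; field_simp; linear_combination hdet
    · refine ⟨μ 1 / α 1, fun i => ?_⟩
      fin_cases i
      · simp only [Fin.zero_eta, Fin.isValue]; field_simp; linear_combination -hdet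
      · simp only [Fin.mk_one, Fin.isValue]; field_simp
  refine ⟨C t, ?_⟩
  apply MvPolynomial.funext
  intro x
  have e1 := hα x p
  have e2 := hμ x p
  rw [hfp, sub_zero] at e1
  rw [hgp, sub_zero] at e2
  rw [map_mul, eval_C, e1, e2, Finset.sum_mul]
  refine Finset.sum_congr rfl fun i _ => ?_
  rw [ht]; ring

end lin

/-! ### planes -/

section plane

variable {k : Type*} [Field k]

/-- the index `(0,1)` -/
abbrev p01 : Pr 3 := ⟨(0, 1), by decide⟩
/-- the index `(0,2)` -/
abbrev p02 : Pr 3 := ⟨(0, 2), by decide⟩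
/-- the index `(1,2)` -/
abbrev p12 : Pr 3 := ⟨(1, 2), by decide⟩

lemma Pr3_cases : ∀ p : Pr 3, p = p01 ∨ p = p02 ∨ p = p12 := by decide

/-- the polynomial of the plane `n · vecS = κ` -/
noncomputable def pl (n : Fin 3 → k) (κ : k) : MvPolynomial (Pr 3) k :=
  C (n 1) * X p02 - C (n 0) * X p12 - C (n 2) * X p01 - C κ

lemma eval_pl (n : Fin 3 → k) (κ : k) (S : Pr 3 → k) : eval S (pl n κ) = n ⬝ᵥ vecS S - κ := by
  simp only [pl, map_sub, map_mul, eval_C, eval_X, vecS, dotProduct, Fin.sum_univ_three,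
    Matrix.cons_val_zero, Matrix.cons_val_one, Matrix.cons_val]
  ring

lemma totalDegree_pl_le (n : Fin 3 → k) (κ : k) : (pl n κ).totalDegree ≤ 1 := by
  have h : ∀ (c : k) (p : Pr 3), (C c * X p : MvPolynomial (Pr 3) k).totalDegree ≤ 1 := by
    intro c p
    refine (totalDegree_mul _ _).trans ?_
    rw [totalDegree_C, totalDegree_X]
  unfold pl
  refine (totalDegree_sub _ _).trans (max_le ((totalDegree_sub _ _).trans (max_le
    ((totalDegree_sub _ _).trans (max_le (h _ _) (h _ _))) (h _ _))) ?_)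
  rw [totalDegree_C]; exact Nat.zero_le _

/-- coefficients of a polynomial as a plane -/
noncomputable def cf (p : MvPolynomial (Pr 3) k) : (Fin 3 → k) × k :=
  (![-coeff (Finsupp.single p12 1) p, coeff (Finsupp.single p02 1) p,
    -coeff (Finsupp.single p01 1) p], -coeff 0 p)

lemma cf_C_mul (c : k) (p : MvPolynomial (Pr 3) k) :
    cf (C c * p) = (c • (cf p).1, c * (cf p).2) := by
  unfold cf
  simp only [coeff_C_mul]
  refine Prod.ext ?_ ?_
  · funext i
    fin_cases i <;> simp
  · simp

lemma cf_pl (n : Fin 3 → k) (κ : k) : cf (pl n κ) = (n, κ) := by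
  unfold cf pl
  have h01 : (p01 : Pr 3) ≠ p02 := by decide
  have h02 : (p01 : Pr 3) ≠ p12 := by decide
  have h12 : (p02 : Pr 3) ≠ p12 := by decide
  simp only [coeff_sub, coeff_C_mul, coeff_X, coeff_C, Finsupp.single_left_inj one_ne_zero,
    h01, h02, h12, h01.symm, h02.symm, h12.symm, if_true, if_false, mul_one, mul_zero, sub_zero,
    zero_sub, Finsupp.single_eq_zero, one_ne_zero]
  refine Prod.ext ?_ ?_
  · funext i
    fin_cases i <;> simp [eq_comm (a := (0 : Pr 3 →₀ ℕ))]
  · simp

variable {K : Type*} [Field K] [Algebra k K]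

/-- the variable of `so(2)` -/
def s01 (S : Pr 2 → K) : K := S ⟨(0, 1), by decide⟩

lemma sl_p01 (S : Pr 2 → K) : sl S p01 = C (s01 S) := by
  change slM S (Fin.castSucc 0) (Fin.castSucc 1) = _
  rw [slM_castSucc_castSucc]
  rfl

lemma sl_p02 (S : Pr 2 → K) : sl S p02 = -X 0 := by
  change slM S (Fin.castSucc 0) (Fin.last 2) = _
  rw [slM_castSucc_last]

lemma sl_p12 (S : Pr 2 → K) : sl S p12 = -X 1 := by
  change slM S (Fin.castSucc 1) (Fin.last 2) = _
  rw [slM_castSucc_last]

lemma slice_pl (S : Pr 2 → K) (n : Fin 3 → k) (κ : k) : slice S (pl n κ) =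
    C (algebraMap k K (n 0)) * X 1 - C (algebraMap k K (n 1)) * X 0 -
      C (algebraMap k K (n 2) * s01 S + algebraMap k K κ) := by
  unfold pl
  simp only [map_sub, map_mul, slice_C]
  unfold slice
  rw [aeval_X, aeval_X, aeval_X, sl_p01, sl_p02, sl_p12, C_add, C_mul]
  ring

/-- `1, s01` are linearly independent over `k` -/
lemma s01_indep {S : Pr 2 → K} (hS : AlgebraicIndependent k S) {a b : k}
    (h : algebraMap k K a + algebraMap k K b * s01 S = 0) : a = 0 ∧ b = 0 := by
  have h1 : aeval S (C a + C b * X (⟨(0, 1), by decide⟩ : Pr 2) : MvPolynomial (Pr 2) k) = 0 := by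
    rw [map_add, map_mul, aeval_C, aeval_C, aeval_X]; exact h
  have h2 := hS.eq_zero_of_aeval_eq_zero _ h1
  have ha := congrArg (coeff 0) h2
  have hb := congrArg (coeff (Finsupp.single (⟨(0, 1), by decide⟩ : Pr 2) 1)) h2
  rw [coeff_add, coeff_C_mul, coeff_C, coeff_X, coeff_zero] at ha hb
  constructor
  · simpa using ha
  · simpa [eq_comm (a := (0 : Pr 2 →₀ ℕ))] using hb

/-- **descent** from the slice to the plane -/
theorem pl_dvd_of_slice {S : Pr 2 → K} (hS : AlgebraicIndependent k S) {n : Fin 3 → k} {κ : k}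
    (hn : n 0 ≠ 0 ∨ n 1 ≠ 0) {h : MvPolynomial (Pr 3) k}
    (hdvd : slice S (pl n κ) ∣ slice S h) : pl n κ ∣ h := by
  classical
  -- general principle
  have key : ∀ (σ : MvPolynomial (Pr 3) k →ₐ[k] MvPolynomial (Pr 3) k)
      (σK : MvPolynomial (Fin 2) K →ₐ[K] MvPolynomial (Fin 2) K),
      (∀ p : Pr 3, pl n κ ∣ σ (X p) - X p) → σ (pl n κ) = 0 →
      (∀ p : Pr 3, slice S (σ (X p)) = σK (slice (k := k) S (X p))) → pl n κ ∣ h := by
    intro σ σK h1 h2 h3
    have h4 : ∀ f, slice S (σ f) = σK (slice S f) := by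
      intro f
      have : (slice S).comp σ = (σK.restrictScalars k).comp (slice S) := by
        apply MvPolynomial.algHom_ext
        intro p
        simpa using h3 p
      exact congrArg (fun g : MvPolynomial (Pr 3) k →ₐ[k] MvPolynomial (Fin 2) K => g f) this
    have h5 : ∀ f, pl n κ ∣ σ f - f := by
      intro f
      induction f using MvPolynomial.induction_on with
      | C c =>
        have : σ (C c) = C c := by rw [← algebraMap_eq, AlgHom.commutes]
        rw [this, sub_self]; exact dvd_zero _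
      | add f g hf hg =>
        rw [map_add]
        have := dvd_add hf hg
        convert this using 1; ring
      | mul_X f p hf =>
        rw [map_mul]
        have h6 : σ f * σ (X p) - f * X p = (σ f - f) * σ (X p) + f * (σ (X p) - X p) := by ring
        rw [h6]
        exact dvd_add (hf.mul_right _) ((h1 p).mul_left _)
    have h6 : σK (slice S h) = 0 := by
      obtain ⟨r, hr⟩ := hdvd
      rw [hr, map_mul, ← h4, h2, map_zero, zero_mul]
    have h7 : σ h = 0 := by
      apply slice_injective hS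
      rw [h4, h6, map_zero]
    have h8 := h5 h
    rw [h7, zero_sub] at h8
    exact (dvd_neg).1 h8
  rcases hn with hn | hn
  · have hn' : algebraMap k K (n 0) ≠ 0 := (map_ne_zero_iff _ (algebraMap k K).injective).2 hn
    refine key (aeval fun p => if p = p12 then X p + C (n 0)⁻¹ * pl n κ else X p)
      (aeval fun i => if i = 1 then X i - C (algebraMap k K (n 0))⁻¹ * slice S (pl n κ)
        else X i) ?_ ?_ ?_
    · intro p
      rw [aeval_X]
      split_ifs
      · exact ⟨C (n 0)⁻¹, by ring⟩
      · simp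
    · have e1 : (C (n 0) * C (n 0)⁻¹ : MvPolynomial (Pr 3) k) = 1 := by
        rw [← C_mul, mul_inv_cancel₀ hn, C_1]
      have h12 : (p02 : Pr 3) ≠ p12 := by decide
      have h02 : (p01 : Pr 3) ≠ p12 := by decide
      conv_lhs => rw [pl]
      simp only [map_sub, map_mul, aeval_X, aeval_C, algebraMap_eq, if_neg h12, if_neg h02, if_true]
      linear_combination
        (-(C (n 1) * X p02 - C (n 0) * X p12 - C (n 2) * X p01 - C κ)) * e1
    · intro p
      rw [aeval_X]
      rcases Pr3_cases p with rfl | rfl | rfl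
      · rw [if_neg (by decide)]
        simp only [slice, aeval_X, sl_p01, aeval_C, algebraMap_eq]
      · rw [if_neg (by decide)]
        simp only [slice, aeval_X, sl_p02, map_neg]
        rw [if_neg (by decide)]
      · rw [if_pos rfl, map_add, map_mul, slice_C]
        have : slice (k := k) S (X p12) = -X 1 := by rw [slice, aeval_X, sl_p12]
        rw [this, map_neg, aeval_X, if_pos rfl, map_inv₀]
        ring
  · have hn' : algebraMap k K (n 1) ≠ 0 := (map_ne_zero_iff _ (algebraMap k K).injective).2 hn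
    refine key (aeval fun p => if p = p02 then X p - C (n 1)⁻¹ * pl n κ else X p)
      (aeval fun i => if i = 0 then X i + C (algebraMap k K (n 1))⁻¹ * slice S (pl n κ)
        else X i) ?_ ?_ ?_
    · intro p
      rw [aeval_X]
      split_ifs
      · exact ⟨-C (n 1)⁻¹, by ring⟩
      · simp
    · have e1 : (C (n 1) * C (n 1)⁻¹ : MvPolynomial (Pr 3) k) = 1 := by
        rw [← C_mul, mul_inv_cancel₀ hn, C_1]
      have h12 : (p12 : Pr 3) ≠ p02 := by decide
      have h02 : (p01 : Pr 3) ≠ p02 := by decide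
      conv_lhs => rw [pl]
      simp only [map_sub, map_mul, aeval_X, aeval_C, algebraMap_eq, if_neg h12, if_neg h02, if_true]
      linear_combination
        (-(C (n 1) * X p02 - C (n 0) * X p12 - C (n 2) * X p01 - C κ)) * e1
    · intro p
      rw [aeval_X]
      rcases Pr3_cases p with rfl | rfl | rfl
      · rw [if_neg (by decide)]
        simp only [slice, aeval_X, sl_p01, aeval_C, algebraMap_eq]
      · rw [if_pos rfl, map_sub, map_mul, slice_C]
        have : slice (k := k) S (X p02) = -X 0 := by rw [slice, aeval_X, sl_p02]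
        rw [this, map_neg, aeval_X, if_pos rfl, map_inv₀]
        ring
      · rw [if_neg (by decide)]
        simp only [slice, aeval_X, sl_p12, map_neg]
        rw [if_neg (by decide)]

/-! ### leaves and planes -/

lemma pS_injective {S : Pr 2 → K} (hS : AlgebraicIndependent k S) {v v' : Pt 2 k}
    (h : pS S v = pS S v') : v = v' := by
  have h0 := congrFun h 0
  have h1 := congrFun h 1
  have e1 : sk S 0 1 = s01 S := rfl
  have e2 : sk S 1 0 = -s01 S := by rw [sk_swap]; rfl
  simp only [pS_apply, Fin.sum_univ_two, sk_self, e1, e2, zero_mul, zero_add, add_zero] at h0 h1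
  have a0 := s01_indep hS (a := v.2 0 - v'.2 0) (b := v.1 1 - v'.1 1) (by
    rw [map_sub, map_sub]; linear_combination h0)
  have a1 := s01_indep hS (a := v.2 1 - v'.2 1) (b := v'.1 0 - v.1 0) (by
    rw [map_sub, map_sub]; linear_combination h1)
  refine Prod.ext ?_ ?_
  · funext i
    fin_cases i
    · exact (sub_eq_zero.1 a1.2).symm
    · exact sub_eq_zero.1 a0.2
  · funext i
    fin_cases i
    · exact sub_eq_zero.1 a0.1
    · exact sub_eq_zero.1 a1.1

lemma dir_eq_of_om_eq {v v' : Pt 3 k} (h : om v = om v') : dir v = dir v' := by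
  refine Prod.ext ?_ ?_
  · funext i
    exact congrFun h (Sum.inl i)
  · funext i
    exact congrFun h (Sum.inr i)

lemma rho_eval_slice_pl (S : Pr 2 → K) {v : Pt 3 k} (hρ : v.1 2 ≠ 0) (n : Fin 3 → k) (κ : k) :
    algebraMap k K (v.1 2) * eval (pS S (dir v)) (slice S (pl n κ)) =
      algebraMap k K (n 0 * v.2 1 - n 1 * v.2 0 - κ * v.1 2) -
        s01 S * algebraMap k K (n ⬝ᵥ v.1) := by
  have hρ' : v.1 (Fin.last 2) ≠ 0 := hρ
  have h0 := rho_mul_pS S hρ' 0
  have h1 := rho_mul_pS S hρ' 1
  have e1 : sk S 0 1 = s01 S := rfl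
  have e2 : sk S 1 0 = -s01 S := by rw [sk_swap]; rfl
  simp only [Fin.sum_univ_two, sk_self, e1, e2, zero_mul, zero_add, add_zero] at h0 h1
  rw [slice_pl]
  simp only [map_sub, map_mul, map_add, eval_C, eval_X, dotProduct, Fin.sum_univ_three]
  change algebraMap k K (v.1 2) * pS S (dir v) 0 = algebraMap k K (v.2 0) +
    s01 S * algebraMap k K (v.1 1) at h0
  change algebraMap k K (v.1 2) * pS S (dir v) 1 = algebraMap k K (v.2 1) +
    -s01 S * algebraMap k K (v.1 0) at h1
  linear_combination (algebraMap k K (n 0)) * h1 - (algebraMap k K (n 1)) * h0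

lemma inD_of {v : Pt 3 k} (hρ : v.1 2 ≠ 0) (hq : q v = 0) {n : Fin 3 → k} {κ : k}
    (hA : n ⬝ᵥ v.1 = 0) (hC : n 0 * v.2 1 - n 1 * v.2 0 = κ * v.1 2) : inD n κ v := by
  refine ⟨hA, ?_⟩
  unfold q at hq
  rw [Fin.sum_univ_three] at hq
  rw [dotProduct, Fin.sum_univ_three] at hA
  funext i
  fin_cases i
  · simp only [cross_apply, Matrix.cons_val_zero, Fin.zero_eta, Pi.smul_apply, smul_eq_mul,
      Fin.isValue]
    apply mul_left_cancel₀ hρ
    linear_combination (n 1) * hq - (v.2 1) * hA + (v.1 0) * hC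
  · simp only [cross_apply, Matrix.cons_val_one, Fin.mk_one, Pi.smul_apply, smul_eq_mul,
      Fin.isValue, Matrix.cons_val_zero]
    apply mul_left_cancel₀ hρ
    linear_combination (-n 0) * hq + (v.2 0) * hA + (v.1 1) * hC
  · simp only [cross_apply, Matrix.cons_val, Fin.reduceFinMk, Pi.smul_apply, smul_eq_mul,
      Fin.isValue]
    exact hC

lemma eval_slice_pl_of_inD (S : Pr 2 → K) {v : Pt 3 k} (hρ : v.1 2 ≠ 0) {n : Fin 3 → k} {κ : k}
    (h : inD n κ v) : eval (pS S (dir v)) (slice S (pl n κ)) = 0 := by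
  have h1 := rho_eval_slice_pl S hρ n κ
  have h2 := congrFun h.2 2
  simp only [cross_apply, Matrix.cons_val, Pi.smul_apply, smul_eq_mul] at h2
  rw [h.1, h2, sub_self, map_zero, mul_zero, sub_zero] at h1
  exact (mul_eq_zero.1 h1).resolve_left ((map_ne_zero_iff _ (algebraMap k K).injective).2 hρ)

/-- two different coplanar directions span a plane -/
lemma exists_plane {v w : Pt 3 k} (hv : v.1 2 ≠ 0) (hw : w.1 2 ≠ 0) (hqv : q v = 0)
    (hqw : q w = 0) (hq : q (v - w) = 0) (hne : om v ≠ om w) :
    ∃ (n : Fin 3 → k) (κ : k), n ≠ 0 ∧ inD n κ v ∧ inD n κ w := by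
  have hB : ∑ i, (v.1 i * w.2 i + w.1 i * v.2 i) = 0 := by
    have : ∑ i, (v.1 i * w.2 i + w.1 i * v.2 i) = q v + q w - q (v - w) := by
      unfold q
      rw [← Finset.sum_add_distrib, ← Finset.sum_sub_distrib]
      refine Finset.sum_congr rfl fun i _ => ?_
      simp only [Prod.fst_sub, Prod.snd_sub, Pi.sub_apply]
      ring
    rw [this, hqv, hqw, hq]; ring
  by_cases hc : v.1 ⨯₃ w.1 = 0
  · have hv0 : v.1 ≠ 0 := fun h => hv (by rw [h]; rfl)
    obtain ⟨c, hcc⟩ := exists_smul_of_cross hv0 hc
    have hc0 : c ≠ 0 := by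
      rintro rfl
      apply hw
      rw [hcc]; simp
    have hci : ∀ i, w.1 i = c * v.1 i := fun i => by rw [hcc]; rfl
    set n : Fin 3 → k := fun i => c * v.2 i - w.2 i with hn
    have hn0 : n ≠ 0 := by
      intro h0
      apply hne
      have h1 : ∀ i, w.2 i = c * v.2 i := fun i => (sub_eq_zero.1 (congrFun h0 i)).symm
      have h2 : dir v = dir w := by
        have hl : v.1 (Fin.last 2) ≠ 0 := hv
        refine Prod.ext ?_ ?_
        · funext i
          simp only [dir, hci]
          field_simp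
        · funext i
          simp only [dir, hci, h1]
          field_simp
      unfold om
      rw [h2]
    have hq1 := hqv
    have hq2 := hqw
    unfold q at hq1 hq2
    rw [Fin.sum_univ_three] at hq1 hq2
    simp only [hci] at hq2
    have hA : n ⬝ᵥ v.1 = 0 := by
      rw [dotProduct, Fin.sum_univ_three]
      apply mul_left_cancel₀ hc0
      simp only [hn]
      linear_combination (c ^ 2) * hq1 - hq2
    refine ⟨n, (n 0 * v.2 1 - n 1 * v.2 0) / v.1 2, hn0, inD_of hv hqv hA (by field_simp),
      inD_of hw hqw ?_ ?_⟩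
    · rw [hcc, dotProduct_smul, hA, smul_zero]
    · rw [hci]
      field_simp
      simp only [hn]
      ring
  · refine ⟨v.1 ⨯₃ w.1, v.1 ⬝ᵥ w.2, hc, ⟨?_, ?_⟩, ⟨?_, ?_⟩⟩
    · rw [dotProduct_comm]; exact dot_self_cross _ _
    · unfold q at hqv
      rw [Fin.sum_univ_three] at hqv hB
      funext i
      fin_cases i <;>
        simp only [cross_apply, dotProduct, Fin.sum_univ_three, Matrix.cons_val_zero,
          Matrix.cons_val_one, Matrix.cons_val, Fin.zero_eta, Fin.mk_one, Fin.reduceFinMk,
          Pi.smul_apply, smul_eq_mul, Fin.isValue]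
      · linear_combination (w.1 0) * hqv - (v.1 0) * hB
      · linear_combination (w.1 1) * hqv - (v.1 1) * hB
      · linear_combination (w.1 2) * hqv - (v.1 2) * hB
    · rw [dotProduct_comm]; exact dot_cross_self _ _
    · unfold q at hqw
      rw [Fin.sum_univ_three] at hqw
      funext i
      fin_cases i <;>
        simp only [cross_apply, dotProduct, Fin.sum_univ_three, Matrix.cons_val_zero,
          Matrix.cons_val_one, Matrix.cons_val, Fin.zero_eta, Fin.mk_one, Fin.reduceFinMk,
          Pi.smul_apply, smul_eq_mul, Fin.isValue]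
      · linear_combination -(v.1 0) * hqw
      · linear_combination -(v.1 1) * hqw
      · linear_combination -(v.1 2) * hqw

/-- **two coplanar leaves on a linear factor of the slice: their plane lies in `Z(h)`** -/
theorem exists_plane_dvd [CharZero K] {S : Pr 2 → K} (hS : AlgebraicIndependent k S)
    {z w₁ w₂ : Pt 3 k} (hρ₁ : w₁.1 2 ≠ z.1 2) (hρ₂ : w₂.1 2 ≠ z.1 2) (hn₁ : Null z w₁)
    (hn₂ : Null z w₂) (hn : Null w₁ w₂) (hne : om (w₁ - z) ≠ om (w₂ - z))
    {h : MvPolynomial (Pr 3) k} {g : MvPolynomial (Fin 2) K} (hg1 : g.totalDegree ≤ 1)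
    (hgh : g ∣ slice S h) (h₁ : eval (pZ S z w₁) g = 0) (h₂ : eval (pZ S z w₂) g = 0) :
    ∃ (n : Fin 3 → k) (κ : k), n ≠ 0 ∧ pl n κ ∣ h ∧ inD n κ (w₁ - z) ∧ inD n κ (w₂ - z) := by
  have hv₁ : (w₁ - z).1 2 ≠ 0 := by simpa [sub_eq_zero] using hρ₁
  have hv₂ : (w₂ - z).1 2 ≠ 0 := by simpa [sub_eq_zero] using hρ₂
  obtain ⟨n, κ, hn0, hD₁, hD₂⟩ := exists_plane hv₁ hv₂ (null_symm hn₁) (null_symm hn₂)
    (by rw [sub_sub_sub_cancel_right]; exact hn) hne
  refine ⟨n, κ, hn0, ?_, hD₁, hD₂⟩
  have hn' : n 0 ≠ 0 ∨ n 1 ≠ 0 := by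
    by_contra hc
    push Not at hc
    have h3 := hD₁.1
    rw [dotProduct, Fin.sum_univ_three, hc.1, hc.2, zero_mul, zero_mul, zero_add, zero_add] at h3
    have h4 := (mul_eq_zero.1 h3).resolve_right hv₁
    apply hn0
    funext i
    fin_cases i
    · exact hc.1
    · exact hc.2
    · exact h4
  apply pl_dvd_of_slice hS hn'
  refine (dvd_of_two_zeros (slice_totalDegree_le S _ (totalDegree_pl_le n κ)) hg1
    (p := pZ S z w₁) (p' := pZ S z w₂) ?_ ?_ ?_ h₁ h₂ ?_).trans hgh
  · intro h
    apply hne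
    have := pS_injective hS h
    unfold om
    rw [this]
  · exact eval_slice_pl_of_inD S hv₁ hD₁
  · exact eval_slice_pl_of_inD S hv₂ hD₂
  · intro h0
    have h3 : pl n κ = 0 := slice_injective hS (by rw [h0, map_zero])
    have h4 := cf_pl n κ
    rw [h3] at h4
    apply hn0
    have h5 := congrArg Prod.fst h4
    simp only [cf, coeff_zero, neg_zero] at h5
    rw [← h5]
    funext i
    fin_cases i <;> simp

end plane

/-! ### the planes in `Z(h)` -/

section count

variable {k : Type*} [Field k]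

lemma pl_ne_zero {n : Fin 3 → k} (hn : n ≠ 0) (κ : k) : pl n κ ≠ 0 := by
  intro h3
  have h4 := cf_pl n κ
  rw [h3] at h4
  apply hn
  have h5 := congrArg Prod.fst h4
  simp only [cf, coeff_zero, neg_zero] at h5
  rw [← h5]
  funext i
  fin_cases i <;> simp

lemma irreducible_pl {n : Fin 3 → k} (hn : n ≠ 0) (κ : k) : Irreducible (pl n κ) := by
  have h1 : (pl n κ).totalDegree = 1 := by
    refine le_antisymm (totalDegree_pl_le n κ) ?_
    by_contra hlt
    have h0 : (pl n κ).totalDegree = 0 := by omega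
    rw [totalDegree_eq_zero_iff_eq_C] at h0
    apply hn
    have h2 := congrArg (fun p => (cf p).1) h0
    rw [cf_pl] at h2
    simp only at h2
    rw [h2]
    funext i
    fin_cases i <;> simp [cf, coeff_C, eq_comm (a := (0 : Pr 3 →₀ ℕ))]
  refine irreducible_of_totalDegree_eq_one h1 fun x hx => ?_
  rw [isUnit_iff_ne_zero]
  rintro rfl
  apply pl_ne_zero hn κ
  ext s
  rw [coeff_zero]
  exact zero_dvd_iff.1 (hx s)

open scoped Classical in
/-- the planes in `Z(h)` -/
noncomputable def planes (h : MvPolynomial (Pr 3) k) : Finset ((Fin 3 → k) × k) :=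
  ((UniqueFactorizationMonoid.factors h).toFinset.image cf).filter fun p => p.1 ≠ 0

lemma planes_ne_zero {h : MvPolynomial (Pr 3) k} {p : (Fin 3 → k) × k} (hp : p ∈ planes h) :
    p.1 ≠ 0 := by
  classical
  exact (Finset.mem_filter.1 hp).2

lemma card_le_totalDegree_prod (s : Multiset (MvPolynomial (Pr 3) k))
    (hs : ∀ p ∈ s, Irreducible p) : Multiset.card s ≤ s.prod.totalDegree := by
  induction s using Multiset.induction_on with
  | empty => simp
  | cons a s ih =>
    rw [Multiset.card_cons, Multiset.prod_cons]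
    have ha := hs a (Multiset.mem_cons_self a s)
    have hs' : ∀ p ∈ s, Irreducible p := fun p hp => hs p (Multiset.mem_cons_of_mem hp)
    have hprod : s.prod ≠ 0 := by
      intro h0
      rw [Multiset.prod_eq_zero_iff] at h0
      exact (hs' 0 h0).ne_zero rfl
    rw [totalDegree_mul_of_isDomain ha.ne_zero hprod]
    have h1 : 1 ≤ a.totalDegree := by
      by_contra hlt
      have h0 : a.totalDegree = 0 := by omega
      rw [totalDegree_eq_zero_iff_eq_C] at h0
      apply ha.not_isUnit
      rw [h0]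
      apply IsUnit.map
      rw [isUnit_iff_ne_zero]
      intro hc
      apply ha.ne_zero
      rw [h0, hc, C_0]
    have := ih hs'
    omega

lemma card_planes_le {h : MvPolynomial (Pr 3) k} (hh : h ≠ 0) :
    (planes h).card ≤ h.totalDegree := by
  classical
  have h1 := card_le_totalDegree_prod (UniqueFactorizationMonoid.factors h)
    (fun p hp => UniqueFactorizationMonoid.irreducible_of_factor p hp)
  obtain ⟨u, hu⟩ := UniqueFactorizationMonoid.factors_prod hh
  have h2 : (UniqueFactorizationMonoid.factors h).prod.totalDegree ≤ h.totalDegree := by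
    have hp0 : (UniqueFactorizationMonoid.factors h).prod ≠ 0 := by
      intro h0
      rw [h0, zero_mul] at hu
      exact hh hu.symm
    have h3 := congrArg totalDegree hu
    rw [totalDegree_mul_of_isDomain hp0 u.ne_zero] at h3
    omega
  calc (planes h).card ≤ ((UniqueFactorizationMonoid.factors h).toFinset.image cf).card :=
        Finset.card_filter_le _ _
    _ ≤ (UniqueFactorizationMonoid.factors h).toFinset.card := Finset.card_image_le
    _ ≤ Multiset.card (UniqueFactorizationMonoid.factors h) := Multiset.toFinset_card_le _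
    _ ≤ _ := h1.trans h2

lemma exists_mem_planes {h : MvPolynomial (Pr 3) k} (hh : h ≠ 0) {n : Fin 3 → k} (hn : n ≠ 0)
    {κ : k} (hd : pl n κ ∣ h) : ∃ p ∈ planes h, ∀ v : Pt 3 k, inD n κ v → inD p.1 p.2 v := by
  classical
  obtain ⟨r, hr, u, hu⟩ := UniqueFactorizationMonoid.exists_mem_factors_of_dvd hh
    (irreducible_pl hn κ) hd
  have hu1 : (u : MvPolynomial (Pr 3) k).totalDegree = 0 :=
    (isUnit_iff_totalDegree_of_isReduced.1 u.isUnit).2
  rw [totalDegree_eq_zero_iff_eq_C] at hu1
  set c := coeff 0 (u : MvPolynomial (Pr 3) k) with hc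
  have hc0 : c ≠ 0 := by
    intro h0
    apply u.ne_zero
    rw [hu1, h0, C_0]
  have hr' : r = C c * pl n κ := by rw [← hu, hu1, mul_comm]
  have hcf : cf r = (c • n, c * κ) := by rw [hr', cf_C_mul, cf_pl]
  refine ⟨cf r, ?_, ?_⟩
  · unfold planes
    rw [Finset.mem_filter, Finset.mem_image]
    refine ⟨⟨r, Multiset.mem_toFinset.2 hr, rfl⟩, ?_⟩
    rw [hcf]
    exact smul_ne_zero hc0 hn
  · intro v hv
    rw [hcf]
    exact (inD_smul_iff hc0).2 hv

end count

end Crest.Agent.R065.Plane649
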