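import Crest.Agent.R065.HFcut_669

/-!
# The filtration `U z q` of an algebra by degree in the generators `z`
-/

set_option autoImplicit false

open MvPolynomial Module

namespace Crest.Agent.R065.HF669

variable {k : Type*} [Field k] {σ τ : Type*} {E : Type*} [CommRing E] [Algebra k E]

/-- values at `z` of polynomials of degree `≤ q` -/
noncomputable def U (k : Type*) [Field k] {σ : Type*} {E : Type*} [CommRing E] [Algebra k E]
    (z : σ → E) (q : ℕ) : Submodule k E :=
  (W k σ q).map (aeval z : MvPolynomial σ k →ₐ[k] E).toLinearMap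

lemma mem_U {z : σ → E} {q : ℕ} {x : E} :
    x ∈ U k z q ↔ ∃ f : MvPolynomial σ k, f.totalDegree ≤ q ∧ aeval z f = x := by
  constructor
  · rintro ⟨f, hf, rfl⟩
    exact ⟨f, mem_W.1 hf, rfl⟩
  · rintro ⟨f, hf, rfl⟩
    exact ⟨f, mem_W.2 hf, rfl⟩

lemma aeval_mem_U {z : σ → E} {q : ℕ} {f : MvPolynomial σ k} (hf : f.totalDegree ≤ q) :
    aeval z f ∈ U k z q := mem_U.2 ⟨f, hf, rfl⟩

lemma U_mono (z : σ → E) {a b : ℕ} (h : a ≤ b) : U k z a ≤ U k z b :=
  Submodule.map_mono (W_mono h)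

lemma mul_mem_U {z : σ → E} {a b : ℕ} {x y : E} (hx : x ∈ U k z a) (hy : y ∈ U k z b) :
    x * y ∈ U k z (a + b) := by
  obtain ⟨f, hf, rfl⟩ := mem_U.1 hx
  obtain ⟨g, hg, rfl⟩ := mem_U.1 hy
  exact mem_U.2 ⟨f * g, (totalDegree_mul _ _).trans (add_le_add hf hg), by rw [map_mul]⟩

lemma algebraMap_mem_U (z : σ → E) (c : k) (q : ℕ) : algebraMap k E c ∈ U k z q :=
  mem_U.2 ⟨C c, by simp, by simp⟩

lemma one_mem_U (z : σ → E) (q : ℕ) : (1 : E) ∈ U k z q := by
  simpa using algebraMap_mem_U z (1 : k) q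

lemma self_mem_U (z : σ → E) (i : σ) : z i ∈ U k z 1 :=
  mem_U.2 ⟨X i, by rw [totalDegree_X], by simp⟩

lemma pow_mem_U {z : σ → E} {a : ℕ} {x : E} (hx : x ∈ U k z a) (n : ℕ) :
    x ^ n ∈ U k z (n * a) := by
  induction n with
  | zero => simpa using one_mem_U z 0
  | succ n ih =>
    rw [pow_succ, Nat.succ_mul]
    exact mul_mem_U ih hx

lemma prod_mem_U {ι : Type*} (s : Finset ι) {z : σ → E} (x : ι → E) (a : ι → ℕ)
    (hx : ∀ i ∈ s, x i ∈ U k z (a i)) : ∏ i ∈ s, x i ∈ U k z (∑ i ∈ s, a i) := by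
  classical
  induction s using Finset.induction_on with
  | empty => simpa using one_mem_U z 0
  | insert i s hi ih =>
    rw [Finset.prod_insert hi, Finset.sum_insert hi]
    exact mul_mem_U (hx i (Finset.mem_insert_self _ _))
      (ih fun j hj => hx j (Finset.mem_insert_of_mem hj))

instance instFiniteU [Finite σ] (z : σ → E) (q : ℕ) : Module.Finite k (U k z q) := by
  unfold U; infer_instance

/-- induction principle for the filtration -/
lemma U_le_of_monomials {z : σ → E} {q : ℕ} {S : Submodule k E}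
    (h : ∀ n : σ →₀ ℕ, n.degree ≤ q → (n.prod fun i e => z i ^ e) ∈ S) : U k z q ≤ S := by
  intro x hx
  obtain ⟨f, hf, rfl⟩ := mem_U.1 hx
  rw [aeval_def, eval₂_eq]
  refine Submodule.sum_mem _ fun n hn => ?_
  rw [← Algebra.smul_def]
  refine Submodule.smul_mem _ _ (h n ?_)
  have := le_totalDegree hn
  rw [Finsupp.degree_apply]
  exact this.trans hf

/-- polynomials of degree `≤ q` in elements of `U z 1` lie in `U z q` -/
lemma U_le_U {z : σ → E} {y : τ → E} (hy : ∀ i, y i ∈ U k z 1) (q : ℕ) : U k y q ≤ U k z q := by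
  apply U_le_of_monomials
  intro n hn
  refine U_mono z hn ?_
  rw [Finsupp.prod, Finsupp.degree_apply]
  refine prod_mem_U _ _ _ fun i _ => ?_
  have := pow_mem_U (hy i) (n i)
  rwa [mul_one] at this

lemma HF_ker_aeval [Finite σ] (z : σ → E) (m : ℕ) :
    HF (RingHom.ker (aeval z : MvPolynomial σ k →ₐ[k] E)) m = finrank k (U k z m) := by
  apply le_antisymm
  · exact HF_le_of_ker _ _ _ fun p _ hp => hp
  · exact le_HF_of_ker _ _ _ fun p _ hp => hp

lemma exists_mem_U (z : σ → E) {x : E} (hx : x ∈ Algebra.adjoin k (Set.range z)) :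
    ∃ q, x ∈ U k z q := by
  rw [Algebra.adjoin_range_eq_range_aeval] at hx
  obtain ⟨f, rfl⟩ := hx
  exact ⟨_, aeval_mem_U le_rfl⟩

end Crest.Agent.R065.HF669
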