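import Crest.Agent.R065.Plane3_649
import Crest.Agent.R065.U_669

/-!
# Row 65, `d = 3`: the exceptional sets outside the planes in `Z(h)` are small
-/

set_option autoImplicit false

open MvPolynomial Module Matrix

namespace Crest.Agent.R065.Plane649

open Crest.Agent.R065.HF669 Crest.Agent.R065.Base348 Crest.Agent.R065.Cramer234
  Crest.Agent.R065.Slice417 Crest.Agent.R065.D3blk812

section pt

variable {k : Type*} [Field k]

/-- the Hilbert function of a point -/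
lemma HF_point_le {σ : Type*} [Finite σ] (ω : σ → k) (m : ℕ) :
    HF (RingHom.ker (aeval ω : MvPolynomial σ k →ₐ[k] k)) m ≤ 1 := by
  rw [HF_ker_aeval]
  exact (Submodule.finrank_le _).trans (by rw [Module.finrank_self])

variable {e : ℕ} {K : Type*} [Field K] [Algebra k K]

/-- many points on one leaf -/
theorem card_le_of_same_leaf [Infinite k] [NeZero (2 : K)] (he : 0 < e) (S : Pr e → K) (a m : ℕ)
    (z : Pt (e + 1) k) (Sig : Finset (Pt (e + 1) k))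
    (hρ : ∀ w ∈ Sig, w.1 (Fin.last e) ≠ z.1 (Fin.last e))
    (hq : ∀ w ∈ Sig, Null w z) (F : Pt (e + 1) k → MvPolynomial (Pr (e + 1) ⊕ Fin (e + 1)) k)
    (hF : ∀ w ∈ Sig, (F w).totalDegree ≤ m)
    (hoff : ∀ w ∈ Sig, ∀ w' ∈ Sig, w' ≠ w → res w' (F w) = 0)
    (hord : ∀ w ∈ Sig, ¬ Ord (a + 1) (shift (pZ S z w) (slice S (res w (F w)))))
    (hsame : ∀ w ∈ Sig, ∀ w' ∈ Sig, om (w - z) = om (w' - z)) : Sig.card ≤ a + 1 := by
  classical
  rcases Sig.eq_empty_or_nonempty with rfl | ⟨w0, hw0⟩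
  · simp
  have h1 := card_le_rank he S a m z Sig hρ hq F hF hoff hord
    (RingHom.ker (aeval (om (w0 - z)) : MvPolynomial (Fin e ⊕ Fin e) k →ₐ[k] k)) (by
      intro w hw g hg
      rw [hsame w hw w0 hw0]
      exact RingHom.mem_ker.1 hg)
  have h2 := HF_point_le (om (w0 - z)) (m + a)
  calc Sig.card ≤ (a + 1) * _ := h1
    _ ≤ (a + 1) * 1 := Nat.mul_le_mul_left _ h2
    _ = a + 1 := by ring

end pt

section main

variable {k K : Type*} [Field k] [Infinite k] [Field K] [CharZero K] [Algebra k K]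

/-- **exceptional sets outside the planes in `Z(h)` have at most `m + 1` elements** -/
theorem card_exceptional_le {S : Pr 2 → K} (hS : AlgebraicIndependent k S) {m : ℕ} {z : Pt 3 k}
    {h : MvPolynomial (Pr 3) k} (hh : h ≠ 0) {Q : Finset (Pt 3 k)}
    (hρ : ∀ w ∈ Q, w.1 2 ≠ z.1 2) (hnz : ∀ w ∈ Q, Null z w)
    (F : Pt 3 k → MvPolynomial (Pr 3 ⊕ Fin 3) k)
    (hF : ∀ w ∈ Q, (F w).totalDegree ≤ m)
    (hoff : ∀ w ∈ Q, ∀ w' ∈ Q, w' ≠ w → res w' (F w) = 0)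
    (hord : ∀ w ∈ Q, ¬ Ord (m + 1) (shift (pZ S z w) (slice S (res w (F w)))))
    (hpl : ∀ w ∈ Q, ∀ p ∈ planes h, ¬ inD p.1 p.2 (w - z))
    (hnull : ∀ w ∈ Q, ∀ w' ∈ Q, Null w w')
    (hg : ∃ g : MvPolynomial (Fin 2) K, g.totalDegree ≤ 1 ∧ g ∣ slice S h ∧
      ∀ w ∈ Q, eval (pZ S z w) g = 0) : Q.card ≤ m + 1 := by
  obtain ⟨g, hg1, hgh, hgz⟩ := hg
  have h2 : NeZero (2 : K) := ⟨two_ne_zero⟩
  refine card_le_of_same_leaf (e := 2) (by norm_num) S m m z Q hρ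
    (fun w hw => null_symm (hnz w hw)) F hF hoff hord ?_
  intro w₁ hw₁ w₂ hw₂
  by_contra hne
  obtain ⟨n, κ, hn, hdvd, hD₁, -⟩ := exists_plane_dvd hS (hρ w₁ hw₁) (hρ w₂ hw₂) (hnz w₁ hw₁)
    (hnz w₂ hw₂) (hnull w₁ hw₁ w₂ hw₂) hne hg1 hgh (hgz w₁ hw₁) (hgz w₂ hw₂)
  obtain ⟨p, hp, hpD⟩ := exists_mem_planes hh hn hdvd
  exact hpl w₁ hw₁ p hp (hpD _ hD₁)

end main

end Crest.Agent.R065.Plane649
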