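import Crest.Agent.R065.Rank_417
import Crest.Agent.R065.M4defs_96

/-!
# Row 65: `RankD d` (input of the master for `d ≥ 4`) from `ExtrP` and `SweptP` (helper417)
-/

set_option autoImplicit false

open MvPolynomial Module

namespace Crest.Agent.R065.Rank417

open Crest.Agent.R065.HF669 Crest.Agent.R065.Base348 Crest.Agent.R065.Cramer234
  Crest.Agent.R065.Slice417 Crest.Agent.R065.Glue795

/-- the field of rational functions in the skew matrix -/
abbrev K1 (e : ℕ) : Type := FractionRing (MvPolynomial (Pr e) ℂ)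

instance instInfiniteK1 (e : ℕ) : Infinite (K1 e) :=
  Infinite.of_injective _ (algebraMap ℂ (K1 e)).injective

theorem rankD_of {e : ℕ} (he : 0 < e) (hE : ExtrP (K1 e) e) (hSw : SweptP ℂ (K1 e) e) :
    M4.RankD (e + 1) := by
  classical
  obtain ⟨C, hC, h⟩ := rankGen (k := ℂ) (K := K1 e) hE hSw he
  refine ⟨oo (SS e ℂ (K1 e)), C, hC, ?_⟩
  intro m Om z ν hm hν hbad Sg hSg hw hnull
  obtain ⟨f₀, hf₀, hz⟩ : ∃ f, M4.IsI m Om f ∧ res z f ≠ 0 := by
    unfold M4.IsBad at hbad
    push Not at hbad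
    exact hbad
  have h1 := h m Om z f₀ hm hf₀ hz Sg hSg
    (fun w hwS => ⟨null_symm (hw w hwS).1, (hw w hwS).2.1 _, (hw w hwS).2.2⟩) ν hν
    (fun Q hQ hQn _ => hnull Q hQ hQn)
  simpa using h1

end Crest.Agent.R065.Rank417
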