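import Crest.Agent.R065.Plane3b_649
import Crest.Agent.R065.RankD_417
import Crest.Agent.R065.D3in_855

/-!
# Row 65, `d = 3`: 855's `RankIn` from `ExtrP` and `SweptP`
-/

set_option autoImplicit false

open MvPolynomial Module

namespace Crest.Agent.R065.Plane649

open Crest.Agent.R065.HF669 Crest.Agent.R065.Base348 Crest.Agent.R065.Cramer234
  Crest.Agent.R065.Slice417 Crest.Agent.R065.Glue795 Crest.Agent.R065.Rank417
  Crest.Agent.R065.D3blk812 Crest.Agent.R065.D3in855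

open scoped Classical in
/-- `RankIn` with all coordinates different -/
def RankInAll : Prop :=
  ∃ (o : ℕ → Finset (Pt 3 ℂ) → Pt 3 ℂ → Pt 3 ℂ → ℕ∞) (C : ℝ), 0 < C ∧
    ∀ (m : ℕ) (Om : Finset (Pt 3 ℂ)) (z : Pt 3 ℂ), 1 ≤ m → ¬ IsBad m Om z → ∀ Sg ⊆ Om,
      (∀ w ∈ Sg, Null z w ∧ (∀ i, w.1 i ≠ z.1 i) ∧
        o m (Om.erase w) w z ≤ o m (Om.erase w) z w) →
      ∃ D : Finset ((Fin 3 → ℂ) × ℂ), D.card ≤ m ∧ (∀ p ∈ D, p.1 ≠ 0) ∧
        ((Sg.filter fun w => ∀ p ∈ D, ¬ inD p.1 p.2 (w - z)).card : ℝ) ≤ C * (m : ℝ) ^ 2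

theorem rankInAll_of (hE : ExtrP (K1 2) 2) (hSw : SweptP ℂ (K1 2) 2) : RankInAll := by
  classical
  obtain ⟨C, hC, h⟩ := rankGen (k := ℂ) (K := K1 2) hE hSw (by norm_num)
  refine ⟨oo (SS 2 ℂ (K1 2)), 3 * C, by positivity, ?_⟩
  intro m Om z hm hbad Sg hSg hw
  obtain ⟨f₀, hf₀, hz⟩ : ∃ f, D3in855.IsI m Om f ∧ res z f ≠ 0 := by
    unfold D3in855.IsBad at hbad
    push Not at hbad
    exact hbad
  have hf₀' : Rank417.IsI m Om f₀ := hf₀
  have hdeg : (res z f₀).totalDegree ≤ m := res_mem_W z f₀ hf₀.1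
  have hsl0 : slice (SS 2 ℂ (K1 2)) (res z f₀) ≠ 0 := by
    intro h0
    apply hz
    apply slice_injective (algebraicIndependent_SS (e := 2) (k := ℂ) (K := K1 2))
    rw [map_zero]
    exact h0
  have hslm : (slice (SS 2 ℂ (K1 2)) (res z f₀)).totalDegree ≤ m :=
    slice_totalDegree_le _ _ hdeg
  refine ⟨planes (res z f₀), (card_planes_le hz).trans hdeg, fun p hp => planes_ne_zero hp, ?_⟩
  set Sg' := Sg.filter fun w => ∀ p ∈ planes (res z f₀), ¬ inD p.1 p.2 (w - z) with hSg'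
  have hsub : Sg' ⊆ Sg := Finset.filter_subset _ _
  have h1 := h m Om z f₀ hm hf₀' hz Sg' (hsub.trans hSg)
    (fun w hwS => ⟨null_symm (hw w (hsub hwS)).1, (hw w (hsub hwS)).2.1 _,
      (hw w (hsub hwS)).2.2⟩) (m + 1) (by
        have : (0 : ℝ) ≤ m := Nat.cast_nonneg m
        linarith) ?_
  · have hm' : (1 : ℝ) ≤ m := by exact_mod_cast hm
    refine h1.trans ?_
    have : (m : ℝ) ^ 2 + m * (m + 1) ≤ 3 * (m : ℝ) ^ 2 := by nlinarith
    nlinarith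
  · intro Q hQ hQn hQg
    obtain ⟨g, hg1, -, hgd, hgz⟩ := hQg
    -- the functions
    have hord : ∀ w ∈ Q, ∃ f, Rank417.IsI m (Om.erase w) f ∧
        ¬ HF669.Ord (m + 1) (shift (pZ (SS 2 ℂ (K1 2)) z w) (slice (SS 2 ℂ (K1 2)) (res w f))) := by
      intro w hwQ
      refine exists_fun hf₀' (hw w (hsub (hQ hwQ))).2.2 ?_
      intro hO
      apply hsl0
      have h2 : shift (pZ (SS 2 ℂ (K1 2)) z w) (slice (SS 2 ℂ (K1 2)) (res z f₀)) = 0 :=
        hO.eq_zero (by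
          refine lt_of_le_of_lt (shift_totalDegree_le _ _) ?_
          omega)
      have h4 := aeval_sub_shift (pZ (SS 2 ℂ (K1 2)) z w)
        (fun i => (X i : MvPolynomial (Fin 2) (K1 2))) (slice (SS 2 ℂ (K1 2)) (res z f₀))
      rw [h2, map_zero, aeval_X_left_apply] at h4
      exact h4.symm
    have h2 : ∀ w, ∃ f, w ∈ Q → Rank417.IsI m (Om.erase w) f ∧
        ¬ HF669.Ord (m + 1) (shift (pZ (SS 2 ℂ (K1 2)) z w)
          (slice (SS 2 ℂ (K1 2)) (res w f))) := by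
      intro w
      by_cases hwQ : w ∈ Q
      · obtain ⟨f, hf⟩ := hord w hwQ
        exact ⟨f, fun _ => hf⟩
      · exact ⟨0, fun hc => absurd hc hwQ⟩
    choose F hF using h2
    have h3 := card_exceptional_le (algebraicIndependent_SS (e := 2) (k := ℂ) (K := K1 2))
      (m := m) (z := z) hz (Q := Q) (fun w hwQ => (hw w (hsub (hQ hwQ))).2.1 _)
      (fun w hwQ => (hw w (hsub (hQ hwQ))).1) F (fun w hwQ => (hF w hwQ).1.1)
      (fun w hwQ w' hwQ' hne' => (hF w hwQ).1.2 w'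
        (Finset.mem_erase.2 ⟨hne', hSg (hsub (hQ hwQ'))⟩))
      (fun w hwQ => (hF w hwQ).2)
      (fun w hwQ => (Finset.mem_filter.1 (hQ hwQ)).2) hQn ⟨g, hg1.le, hgd, hgz⟩
    exact_mod_cast h3

/-- 855's `RankIn` -/
theorem rankIn_of (hE : ExtrP (K1 2) 2) (hSw : SweptP ℂ (K1 2) 2) : D3in855.RankIn :=
  rankInAll_of hE hSw

end Crest.Agent.R065.Plane649
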