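import Crest.Agent.R065.Slice2_417
import Crest.Agent.R065.OrdP_639
import Crest.Agent.R065.SplDefs_795
import Crest.Agent.R065.M4defs_96

/-!
# Row 65: the RANK LEMMA from the extremal variety and the swept theorem (helper417)

`rankGen` : helper272's rank lemma (#14572), general form of helper649 (#15845).
-/

set_option autoImplicit false

open MvPolynomial Module

namespace Crest.Agent.R065.Rank417

open Crest.Agent.R065.HF669 Crest.Agent.R065.Base348 Crest.Agent.R065.Cramer234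
  Crest.Agent.R065.Slice417 Crest.Agent.R065.Wt639 Crest.Agent.R065.Glue795

section order

variable {e : ℕ} {k K : Type*} [Field k] [Field K] [Algebra k K]

/-- `f ∈ I_m(Om)` -/
def IsI {d : ℕ} (m : ℕ) (Om : Finset (Pt d k)) (f : MvPolynomial (Pr d ⊕ Fin d) k) : Prop :=
  f.totalDegree ≤ m ∧ ∀ w ∈ Om, res w f = 0

/-- order of `f|F_z` along the leaf of `z` and `w` -/
noncomputable def ordAt (S : Pr e → K) (z w : Pt (e + 1) k)
    (f : MvPolynomial (Pr (e + 1) ⊕ Fin (e + 1)) k) : ℕ∞ :=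
  ((shift (pZ S z w) (slice S (res z f)) : MvPolynomial (Fin e) K) :
    MvPowerSeries (Fin e) K).order

/-- the order function of the rank lemma -/
noncomputable def oo (S : Pr e → K) (m : ℕ) (Om : Finset (Pt (e + 1) k)) (z w : Pt (e + 1) k) :
    ℕ∞ :=
  ⨅ f : {f : MvPolynomial (Pr (e + 1) ⊕ Fin (e + 1)) k // IsI m Om f}, ordAt S z w f.1

lemma oo_le {S : Pr e → K} {m : ℕ} {Om : Finset (Pt (e + 1) k)} {z w : Pt (e + 1) k}
    {f : MvPolynomial (Pr (e + 1) ⊕ Fin (e + 1)) k} (hf : IsI m Om f) :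
    oo S m Om z w ≤ ordAt S z w f :=
  iInf_le (fun f : {f : MvPolynomial (Pr (e + 1) ⊕ Fin (e + 1)) k // IsI m Om f} =>
    ordAt S z w f.1) ⟨f, hf⟩

lemma not_ord_iff {S : Pr e → K} {z w : Pt (e + 1) k}
    {f : MvPolynomial (Pr (e + 1) ⊕ Fin (e + 1)) k} {a : ℕ} :
    ¬ HF669.Ord (a + 1) (shift (pZ S z w) (slice S (res z f))) ↔ ordAt S z w f ≤ a := by
  unfold HF669.Ord ordAt
  rw [not_le]
  push_cast
  exact ENat.lt_add_one_iff (ENat.natCast_ne_top a)

lemma exists_of_oo_le {S : Pr e → K} {m : ℕ} {Om : Finset (Pt (e + 1) k)} {z w : Pt (e + 1) k}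
    {a : ℕ} (h : oo S m Om z w ≤ a) :
    ∃ f, IsI m Om f ∧ ¬ HF669.Ord (a + 1) (shift (pZ S z w) (slice S (res z f))) := by
  by_contra hcon
  push Not at hcon
  have h1 : ((a + 1 : ℕ) : ℕ∞) ≤ oo S m Om z w := by
    refine le_iInf fun f => ?_
    exact hcon f.1 f.2
  have h2 := h1.trans h
  have h3 : a + 1 ≤ a := by exact_mod_cast h2
  omega

/-- **comparison of orders** (272): the functions `F w` of the rank bound -/
lemma exists_fun [DecidableEq (Pt (e + 1) k)] {S : Pr e → K} {m : ℕ} {Om : Finset (Pt (e + 1) k)} {z w : Pt (e + 1) k}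
    {f₀ : MvPolynomial (Pr (e + 1) ⊕ Fin (e + 1)) k} (hf₀ : IsI m Om f₀)
    (ho : oo S m (Om.erase w) w z ≤ oo S m (Om.erase w) z w) {a : ℕ}
    (ha : ¬ HF669.Ord (a + 1) (shift (pZ S z w) (slice S (res z f₀)))) :
    ∃ f, IsI m (Om.erase w) f ∧
      ¬ HF669.Ord (a + 1) (shift (pZ S z w) (slice S (res w f))) := by
  have h1 : oo S m (Om.erase w) z w ≤ ordAt S z w f₀ :=
    oo_le ⟨hf₀.1, fun v hv => hf₀.2 v (Finset.mem_of_mem_erase hv)⟩
  have h2 := exists_of_oo_le ((ho.trans h1).trans (not_ord_iff.1 ha))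
  simpa only [pZ_comm S w z] using h2

end order

/-- `C(n + r, r) ≤ (n + 1) ^ r` -/
lemma choose_le_pow (n r : ℕ) : (n + r).choose r ≤ (n + 1) ^ r := by
  induction r with
  | zero => simp
  | succ r ih =>
    have h1 : (n + (r + 1)).choose (r + 1) * (r + 1) = (n + r).choose r * (n + r + 1) := by
      have := Nat.add_one_mul_choose_eq (n + r) r
      rw [← add_assoc, ← this, mul_comm]
    have h2 : (n + r).choose r * (n + r + 1) ≤ (n + 1) ^ r * ((n + 1) * (r + 1)) :=
      Nat.mul_le_mul ih (by nlinarith)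
    refine Nat.le_of_mul_le_mul_right ?_ (Nat.succ_pos r)
    calc (n + (r + 1)).choose (r + 1) * (r + 1) = (n + r).choose r * (n + r + 1) := h1
      _ ≤ (n + 1) ^ r * ((n + 1) * (r + 1)) := h2
      _ = (n + 1) ^ (r + 1) * (r + 1) := by ring

/-- a prime of codimension one containing a polynomial of degree one is principal -/
lemma dvd_of_codim_one {K : Type*} [Field K] [Infinite K] {e : ℕ}
    {P : Ideal (MvPolynomial (Fin e) K)} [hP : P.IsPrime] (hdim : dimP P + 1 = e)
    {l : MvPolynomial (Fin e) K} (hl : l ∈ P) (hl0 : l ≠ 0) (hl1 : l.totalDegree ≤ 1) :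
    l.totalDegree = 1 ∧ Irreducible l ∧ P = Ideal.span {l} := by
  classical
  have hC : ∀ c : K, c ≠ 0 → (C c : MvPolynomial (Fin e) K) ∉ P := fun c hc => C_notMem hP.ne_top hc
  have hdeg : l.totalDegree = 1 := by
    refine le_antisymm hl1 (Nat.one_le_iff_ne_zero.2 fun h0 => ?_)
    rw [totalDegree_eq_zero_iff_eq_C] at h0
    refine hC (coeff 0 l) (fun hc => hl0 (by rw [h0, hc, C_0])) ?_
    rw [← h0]; exact hl
  have hirr : Irreducible l := by
    refine ⟨fun hu => ?_, fun a b hab => ?_⟩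
    · rw [Ideal.eq_top_of_isUnit_mem P hl hu] at hP
      exact hP.ne_top rfl
    · have ha0 : a ≠ 0 := by rintro rfl; exact hl0 (by rw [hab, zero_mul])
      have hb0 : b ≠ 0 := by rintro rfl; exact hl0 (by rw [hab, mul_zero])
      have h1 : a.totalDegree + b.totalDegree = 1 := by
        rw [← totalDegree_mul_of_isDomain ha0 hb0, ← hab, hdeg]
      have hunit : ∀ c : MvPolynomial (Fin e) K, c ≠ 0 → c.totalDegree = 0 → IsUnit c := by
        intro c hc hc0
        rw [totalDegree_eq_zero_iff_eq_C] at hc0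
        rw [hc0]
        exact (isUnit_iff_ne_zero.2 fun h => hc (by rw [hc0, h, C_0])).map C
      rcases Nat.eq_zero_or_pos a.totalDegree with h2 | h2
      · exact Or.inl (hunit a ha0 h2)
      · exact Or.inr (hunit b hb0 (by omega))
  refine ⟨hdeg, hirr, ?_⟩
  have hprime : (Ideal.span {l}).IsPrime :=
    (Ideal.span_singleton_prime hl0).2 hirr.prime
  have hle : Ideal.span {l} ≤ P := (Ideal.span_singleton_le_iff_mem _).2 hl
  have hlt : (⊥ : Ideal (MvPolynomial (Fin e) K)) < Ideal.span {l} := by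
    rw [bot_lt_iff_ne_bot, Ne, Ideal.span_singleton_eq_bot]
    exact hl0
  have h2 := dimP_lt hlt
  rw [dimP_bot, Fintype.card_fin] at h2
  exact (eq_of_le_of_dimP_le hle (by omega)).symm

section main

variable {e : ℕ} {k K : Type} [Field k] [CharZero k] [Field K]
  [Algebra (MvPolynomial (Pr e) k) K] [IsFractionRing (MvPolynomial (Pr e) k) K] [Algebra k K]
  [IsScalarTower k (MvPolynomial (Pr e) k) K]

/-- the generic point of `so(e)` -/
noncomputable def SS (e : ℕ) (k : Type) [Field k] (K : Type) [Field K]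
    [Algebra (MvPolynomial (Pr e) k) K] (p : Pr e) : K :=
  algebraMap (MvPolynomial (Pr e) k) K (X p)

lemma algebraicIndependent_SS : AlgebraicIndependent k (SS e k K) := by
  have h : ∀ f : MvPolynomial (Pr e) k, aeval (SS e k K) f =
      algebraMap (MvPolynomial (Pr e) k) K f := by
    intro f
    have h3 := MvPolynomial.aeval_algebraMap_apply (A := MvPolynomial (Pr e) k) K X f
    rw [aeval_X_left_apply] at h3
    exact h3
  intro f g hfg
  have h1 : aeval (SS e k K) f = aeval (SS e k K) g := hfg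
  rw [h, h] at h1
  exact IsFractionRing.injective (MvPolynomial (Pr e) k) K h1

lemma thz_eq (v : Pt e k) : thz k K v = pS (SS e k K) v := rfl

open scoped Classical in
/-- **RANK LEMMA**, general form -/
theorem rankGen [DecidableEq (Pt (e + 1) k)] [Infinite k] [Infinite K] (hE : ExtrP K e) (hSw : SweptP k K e) (he : 0 < e) :
    ∃ C : ℝ, 0 < C ∧ ∀ (m : ℕ) (Om : Finset (Pt (e + 1) k)) (z : Pt (e + 1) k)
      (f₀ : MvPolynomial (Pr (e + 1) ⊕ Fin (e + 1)) k), 1 ≤ m → IsI m Om f₀ → res z f₀ ≠ 0 →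
      ∀ Sg ⊆ Om,
      (∀ w ∈ Sg, Null w z ∧ w.1 (Fin.last e) ≠ z.1 (Fin.last e) ∧
        oo (SS e k K) m (Om.erase w) w z ≤ oo (SS e k K) m (Om.erase w) z w) →
      ∀ ν : ℝ, 1 ≤ ν →
      (∀ Q ⊆ Sg, (∀ w ∈ Q, ∀ w' ∈ Q, Null w w') →
        (∃ g : MvPolynomial (Fin e) K, g.totalDegree = 1 ∧ Irreducible g ∧
          g ∣ slice (SS e k K) (res z f₀) ∧ ∀ w ∈ Q, eval (pZ (SS e k K) z w) g = 0) →
        (Q.card : ℝ) ≤ ν) →
      (Sg.card : ℝ) ≤ C * ((m : ℝ) ^ e + m * ν) := by
  have hcharK : CharZero K := charZero_of_injective_algebraMap (algebraMap k K).injective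
  have h2K : NeZero (2 : K) := ⟨two_ne_zero⟩
  obtain ⟨Ce, hSw⟩ := hSw
  obtain ⟨C, hE⟩ := hE (max Ce 1)
  refine ⟨(C : ℝ) * (16 * 3 ^ e) + 1, by positivity, ?_⟩
  intro m Om z f₀ hm hf₀ hz Sg hSg hw ν hν hex
  set S : Pr e → K := SS e k K with hS
  set h : MvPolynomial (Fin e) K := slice S (res z f₀) with hh
  have hm' : (1 : ℝ) ≤ m := by exact_mod_cast hm
  have hpos : (0 : ℝ) ≤ (m : ℝ) ^ e + m * ν := by positivity
  rcases Sg.eq_empty_or_nonempty with rfl | hne
  · rw [Finset.card_empty, Nat.cast_zero]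
    positivity
  have hh0 : h ≠ 0 := by
    intro h0
    apply hz
    apply slice_injective (algebraicIndependent_SS (e := e) (k := k) (K := K))
    rw [map_zero]
    exact h0
  have hhm : h.totalDegree ≤ m := slice_totalDegree_le S _ (res_mem_W z f₀ hf₀.1)
  obtain ⟨P, hP, hhP, Dd, hmDd, hflag, hgap, hcount⟩ := hE (Pt (e + 1) k) Sg
    (fun w => pZ S z w) m h hm hh0 hhm (fun w hwS => eval_slice_res_eq_zero S (hw w hwS).2.1
      (hw w hwS).1 (hf₀.2 w (hSg hwS))) hne
  set V := onI Sg (fun w => pZ S z w) P with hV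
  set a := ordP P h with ha
  have hVSg : V ⊆ Sg := Finset.filter_subset _ _
  have hVP : ∀ w ∈ V, ∀ g ∈ P, eval (pZ S z w) g = 0 := fun w hwV => (Finset.mem_filter.1 hwV).2
  have hP0 : P ≠ ⊥ := by
    rintro rfl
    exact hh0 (by simpa using hhP)
  have hdim : dimP P + 1 ≤ e := by
    have h1 := dimP_lt (bot_lt_iff_ne_bot.2 hP0)
    rw [dimP_bot, Fintype.card_fin] at h1
    omega
  -- `V` is not empty
  have hVne : V.Nonempty := by
    rw [Finset.nonempty_iff_ne_empty]
    intro hemp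
    rw [hemp, Finset.card_empty, zero_mul, mul_zero, Nat.le_zero] at hcount
    have h1 := Finset.card_pos.2 hne
    have h2 := degP_pos P
    rcases Nat.mul_eq_zero.1 hcount with h3 | h3
    · omega
    · rcases Nat.mul_eq_zero.1 h3 with h4 | h4 <;> omega
  have hDd1 : 1 ≤ Dd := hm.trans hmDd
  -- a good derivative
  obtain ⟨u, huP, hudeg, hu⟩ := exists_good_derivative hP.ne_top hh0
  have hugap : 8 * (zeI V (fun w => pZ S z w) u).card < V.card := by
    by_contra hc
    push Not at hc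
    refine huP (hgap u ?_ hc)
    calc u.totalDegree ≤ h.totalDegree - ordP P h := hudeg
      _ ≤ m := (Nat.sub_le _ _).trans hhm
      _ ≤ 1 * Dd := by rw [one_mul]; exact hmDd
      _ ≤ max Ce 1 * Dd := Nat.mul_le_mul_right _ (le_max_right _ _)
  rcases hSw P hP hP0 (Pt (e + 1) k) V (fun w => dir (w - z)) Dd hVne hDd1
    (fun w hwV g hg => hVP w hwV g hg) hflag
    (fun g hg hg' => hgap g (hg.trans (Nat.mul_le_mul_right _ (le_max_left _ _))) hg') with
    ⟨hdim1, ⟨l, hlP, hl0, hl1⟩, hnull⟩ | ⟨Q, hQ, hQdim, hQdeg, hQcard⟩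
  · -- pairwise null
    obtain ⟨hdeg, hirr, hspan⟩ := dvd_of_codim_one hdim1 hlP hl0 hl1
    have h1 : (V.card : ℝ) ≤ ν := by
      refine hex V hVSg (fun w hwV w' hwV' => ?_) ⟨l, hdeg, hirr, ?_, fun w hwV => hVP w hwV l hlP⟩
      · exact null_of_dir (hw w (hVSg hwV)).1 (hw w' (hVSg hwV')).1 (hw w (hVSg hwV)).2.1
          (hw w' (hVSg hwV')).2.1 (hnull w hwV w' hwV')
      · rw [← Ideal.mem_span_singleton, ← hspan]; exact hhP
    have h2 : Sg.card ≤ C * (V.card * m ^ 1) := by
      have he1 : e - dimP P = 1 := by omega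
      rw [he1] at hcount
      refine le_trans ?_ hcount
      have h3 := degP_pos P
      have h4 : 1 ≤ (1 + ordP P h) * degP P := Nat.one_le_iff_ne_zero.2 (by positivity)
      exact Nat.le_mul_of_pos_right _ h4
    have h3 : (Sg.card : ℝ) ≤ C * (V.card * m) := by
      rw [pow_one] at h2
      exact_mod_cast h2
    calc (Sg.card : ℝ) ≤ C * (V.card * m) := h3
      _ ≤ C * (ν * m) := by gcongr
      _ ≤ C * (16 * 3 ^ e) * (m * ν) := by
          have h4 : (1 : ℝ) ≤ 16 * 3 ^ e := by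
            have : (1 : ℝ) ≤ 3 ^ e := one_le_pow₀ (by norm_num)
            linarith
          have h5 : (0 : ℝ) ≤ C * (m * ν) := by positivity
          nlinarith
      _ ≤ (C * (16 * 3 ^ e) + 1) * ((m : ℝ) ^ e + m * ν) := by
          have h6 : (0 : ℝ) ≤ C * (16 * 3 ^ e) := by positivity
          have h7 : (0 : ℝ) ≤ (m : ℝ) ^ e := by positivity
          have h8 : (0 : ℝ) ≤ m * ν := by positivity
          nlinarith [mul_nonneg h6 h7]
  · -- the constant variety
    set VM := V.filter fun w => ∀ g ∈ Q, eval (Pins348.toFn (dir (w - z))) g = 0 with hVM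
    set V' := VM.filter fun w => eval (pZ S z w) u ≠ 0 with hV'
    have h1 : V.card ≤ 8 * V'.card := by
      have h2 : VM.card ≤ V'.card + (zeI V (fun w => pZ S z w) u).card := by
        rw [hV', ← Finset.card_filter_add_card_filter_not (s := VM)
          (fun w => eval (pZ S z w) u ≠ 0)]
        refine Nat.add_le_add_left (Finset.card_le_card ?_) _
        intro w hwm
        rw [Finset.mem_filter, not_not] at hwm
        exact Finset.mem_filter.2 ⟨(Finset.mem_filter.1 hwm.1).1, hwm.2⟩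
      omega
    have hV'V : V' ⊆ V := (Finset.filter_subset _ _).trans (Finset.filter_subset _ _)
    -- the functions
    have h2 : ∀ w, ∃ f, w ∈ V' → IsI m (Om.erase w) f ∧
        ¬ HF669.Ord (a + 1) (shift (pZ S z w) (slice S (res w f))) := by
      intro w
      by_cases hwV : w ∈ V'
      · obtain ⟨f, hf⟩ := exists_fun hf₀ (hw w (hVSg (hV'V hwV))).2.2
          (hu _ (Finset.mem_filter.1 hwV).2)
        exact ⟨f, fun _ => hf⟩
      · exact ⟨0, fun hc => absurd hc hwV⟩
    choose F hF using h2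
    have h3 := card_le_rank (K := K) he S a m z V' (fun w hwV => (hw w (hVSg (hV'V hwV))).2.1)
      (fun w hwV => (hw w (hVSg (hV'V hwV))).1) F (fun w hwV => (hF w hwV).1.1)
      (fun w hwV w' hwV' hne' => (hF w hwV).1.2 w'
        (Finset.mem_erase.2 ⟨hne', hSg (hVSg (hV'V hwV'))⟩))
      (fun w hwV => (hF w hwV).2) Q
      (fun w hwV g hg => (Finset.mem_filter.1 (Finset.mem_filter.1 hwV).1).2 g hg)
    have ham : a ≤ m := (ordP_le_totalDegree hP.ne_top hh0).trans hhm
    have h4 : HF Q (m + a) ≤ 2 * degP P * (3 * m) ^ dimP P := by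
      calc HF Q (m + a) ≤ degP Q * (m + a + dimP Q).choose (dimP Q) := HF_le_degP Q _
        _ ≤ 2 * degP P * (3 * m) ^ dimP P := by
          rw [hQdim]
          refine Nat.mul_le_mul hQdeg ((choose_le_pow _ _).trans (Nat.pow_le_pow_left ?_ _))
          omega
    have h5 : V.card ≤ 8 * ((a + 1) * (2 * degP P * (3 * m) ^ dimP P)) :=
      h1.trans (Nat.mul_le_mul_left _ (h3.trans (Nat.mul_le_mul_left _ h4)))
    have h6 : Sg.card * ((1 + a) * degP P) ≤
        (C * (16 * 3 ^ e) * m ^ e) * ((1 + a) * degP P) := by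
      calc Sg.card * ((1 + a) * degP P) ≤ C * (V.card * m ^ (e - dimP P)) := hcount
        _ ≤ C * (8 * ((a + 1) * (2 * degP P * (3 * m) ^ dimP P)) * m ^ (e - dimP P)) :=
          Nat.mul_le_mul_left _ (Nat.mul_le_mul_right _ h5)
        _ = C * (16 * 3 ^ dimP P * (m ^ dimP P * m ^ (e - dimP P))) * ((1 + a) * degP P) := by
          rw [mul_pow]; ring
        _ = C * (16 * 3 ^ dimP P * m ^ e) * ((1 + a) * degP P) := by
          rw [← pow_add, Nat.add_sub_cancel' (by omega)]
        _ ≤ C * (16 * 3 ^ e * m ^ e) * ((1 + a) * degP P) := by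
          have : 3 ^ dimP P ≤ 3 ^ e := Nat.pow_le_pow_right (by norm_num) (by omega)
          gcongr
        _ = (C * (16 * 3 ^ e) * m ^ e) * ((1 + a) * degP P) := by ring
    have h7 : Sg.card ≤ C * (16 * 3 ^ e) * m ^ e := by
      refine Nat.le_of_mul_le_mul_right h6 ?_
      have := degP_pos P
      positivity
    have h8 : (Sg.card : ℝ) ≤ C * (16 * 3 ^ e) * (m : ℝ) ^ e := by exact_mod_cast h7
    have h9 : (0 : ℝ) ≤ C * (16 * 3 ^ e) := by positivity
    have h10 : (0 : ℝ) ≤ m * ν := by positivity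
    have h11 : (0 : ℝ) ≤ (m : ℝ) ^ e := by positivity
    nlinarith [mul_nonneg h9 h10]

end main

end Crest.Agent.R065.Rank417
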