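import Crest.Agent.R065.Hyp_348

/-!
# Row 65: regularity by quantiles (helper382 #12062 (a)-(d)), finite combinatorics of distances
-/

set_option autoImplicit false

namespace Crest.Agent.R065.Reg348

open Finset Crest.Agent.R065.Top348 Crest.Agent.R065.Pins348 Crest.Agent.R065.Hyp348

variable {d : ℕ} (P : Finset (EuclideanSpace ℝ (Fin d)))

lemma Rc_le (p b : EuclideanSpace ℝ (Fin d)) : Rc P p b ≤ P.card := by
  classical
  unfold Rc
  exact card_le_card (filter_subset _ _)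

open Classical in
lemma exists_quantile (b : EuclideanSpace ℝ (Fin d)) :
    ∃ l : ℕ, 3 * P.card ≤ 4 * (P.filter fun p => Rc P p b ≤ l).card := by
  refine ⟨P.card, ?_⟩
  rw [filter_true_of_mem fun p _ => Rc_le P p b]
  omega

open Classical in
/-- the `3/4` quantile -/
noncomputable def lam (b : EuclideanSpace ℝ (Fin d)) : ℕ := Nat.find (exists_quantile P b)

open Classical in
lemma lam_spec1 (b : EuclideanSpace ℝ (Fin d)) :
    3 * P.card ≤ 4 * (P.filter fun p => Rc P p b ≤ lam P b).card :=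
  Nat.find_spec (exists_quantile P b)

open Classical in
lemma lam_spec2 (b : EuclideanSpace ℝ (Fin d)) :
    P.card ≤ 4 * (P.filter fun p => lam P b ≤ Rc P p b).card := by
  rcases Nat.eq_zero_or_pos (lam P b) with h | h
  · rw [h, filter_true_of_mem fun p _ => Nat.zero_le _]; omega
  · have h1 := Nat.find_min (exists_quantile P b) (m := lam P b - 1)
      (by have : Nat.find (exists_quantile P b) = lam P b := rfl
          omega)
    rw [not_le] at h1
    have h2 := card_filter_add_card_filter_not (s := P) (fun p => Rc P p b ≤ lam P b - 1)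
    have h3 : (P.filter fun p => ¬ Rc P p b ≤ lam P b - 1) =
        P.filter fun p => lam P b ≤ Rc P p b := by
      apply filter_congr
      intro p _
      omega
    rw [h3] at h2
    omega

lemma good_of_lam {τ : ℕ} {b : EuclideanSpace ℝ (Fin d)} (h : P.card ≤ τ * lam P b) :
    Good P τ b := by
  classical
  refine (lam_spec2 P b).trans (Nat.mul_le_mul_left 4 (card_le_card ?_))
  intro p hp
  rw [mem_filter] at hp
  unfold pinsOf
  rw [mem_filter]
  exact ⟨hp.1, h.trans (Nat.mul_le_mul_left τ hp.2)⟩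

open Classical in
/-- regular pairs -/
noncomputable def Bs : Finset (EuclideanSpace ℝ (Fin d) × EuclideanSpace ℝ (Fin d)) :=
  (P ×ˢ P).filter fun p => Rc P p.1 p.2 ≤ lam P p.1 ∧ Rc P p.1 p.2 ≤ lam P p.2

lemma mem_Bs {p : EuclideanSpace ℝ (Fin d) × EuclideanSpace ℝ (Fin d)} :
    p ∈ Bs P ↔ (p.1 ∈ P ∧ p.2 ∈ P) ∧ Rc P p.1 p.2 ≤ lam P p.1 ∧ Rc P p.1 p.2 ≤ lam P p.2 := by
  classical
  unfold Bs; rw [mem_filter, mem_product]

open Classical in
lemma exists_median : ∃ l : ℕ, P.card ≤ 2 * (P.filter fun b => lam P b ≤ l).card := by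
  refine ⟨P.sup (lam P), ?_⟩
  rw [filter_true_of_mem fun p hp => le_sup hp]
  omega

lemma card_Bs : P.card ^ 2 ≤ 8 * (Bs P).card := by
  classical
  set l0 := Nat.find (exists_median P) with hl0
  have hU : P.card ≤ 2 * (P.filter fun b => lam P b ≤ l0).card := Nat.find_spec (exists_median P)
  have hV : P.card ≤ 2 * (P.filter fun b => l0 ≤ lam P b).card := by
    rcases Nat.eq_zero_or_pos l0 with h | h
    · rw [h, filter_true_of_mem fun p _ => Nat.zero_le _]; omega
    · have h1 := Nat.find_min (exists_median P) (m := l0 - 1) (by omega)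
      rw [not_le] at h1
      have h2 := card_filter_add_card_filter_not (s := P) (fun b => lam P b ≤ l0 - 1)
      have h3 : (P.filter fun b => ¬ lam P b ≤ l0 - 1) = P.filter fun b => l0 ≤ lam P b := by
        apply filter_congr
        intro p _
        omega
      rw [h3] at h2
      omega
  set U := P.filter fun b => lam P b ≤ l0 with hUdef
  set V := P.filter fun b => l0 ≤ lam P b with hVdef
  have key : ∀ b ∈ U, P.card ≤ 4 * (V.filter fun a => Rc P a b ≤ lam P b).card := by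
    intro b _
    have h1 := lam_spec1 P b
    have h2 : (P.filter fun p => Rc P p b ≤ lam P b).card ≤
        (V.filter fun a => Rc P a b ≤ lam P b).card + (P \ V).card := by
      rw [← card_union_of_disjoint]
      · apply card_le_card
        intro p hp
        rw [mem_filter] at hp
        rw [mem_union, mem_filter, mem_sdiff]
        by_cases hpV : p ∈ V
        · exact Or.inl ⟨hpV, hp.2⟩
        · exact Or.inr ⟨hp.1, hpV⟩
      · rw [disjoint_left]
        intro p hp hp'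
        exact (mem_sdiff.1 hp').2 (mem_filter.1 hp).1
    have h3 : (P \ V).card = P.card - V.card := card_sdiff_of_subset (filter_subset _ _)
    have h4 : V.card ≤ P.card := card_le_card (filter_subset _ _)
    omega
  have h5 : ∑ b ∈ U, (V.filter fun a => Rc P a b ≤ lam P b).card ≤ (Bs P).card := by
    rw [← card_sigma]
    refine card_le_card_of_injOn (fun p => (p.2, p.1)) ?_ ?_
    · rintro ⟨b, a⟩ hp
      simp only [coe_sigma, Set.mem_sigma_iff, mem_coe, mem_filter] at hp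
      obtain ⟨hb, ha, hab⟩ := hp
      rw [mem_coe, mem_Bs]
      have hb' := mem_filter.1 hb
      have ha' := mem_filter.1 ha
      exact ⟨⟨ha'.1, hb'.1⟩, (hab.trans hb'.2).trans ha'.2, hab⟩
    · rintro ⟨b, a⟩ _ ⟨b', a'⟩ _ h
      simp only [Prod.mk.injEq] at h
      obtain ⟨rfl, rfl⟩ := h
      rfl
  have h6 : U.card * P.card ≤ 4 * (Bs P).card := by
    calc U.card * P.card = ∑ b ∈ U, P.card := by rw [sum_const, smul_eq_mul]
      _ ≤ ∑ b ∈ U, 4 * (V.filter fun a => Rc P a b ≤ lam P b).card := sum_le_sum key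
      _ = 4 * ∑ b ∈ U, (V.filter fun a => Rc P a b ≤ lam P b).card := by rw [mul_sum]
      _ ≤ _ := Nat.mul_le_mul_left 4 h5
  calc P.card ^ 2 = P.card * P.card := sq _
    _ ≤ 2 * U.card * P.card := Nat.mul_le_mul_right _ hU
    _ = 2 * (U.card * P.card) := by ring
    _ ≤ 2 * (4 * (Bs P).card) := Nat.mul_le_mul_left 2 h6
    _ = 8 * (Bs P).card := by ring

open Classical in
/-- partners of `z` -/
noncomputable def Nb (z : EuclideanSpace ℝ (Fin d) × EuclideanSpace ℝ (Fin d)) :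
    Finset (EuclideanSpace ℝ (Fin d) × EuclideanSpace ℝ (Fin d)) :=
  (P ×ˢ P).filter fun w => dist z.1 w.1 = dist z.2 w.2 ∧ (z.1, w.1) ∈ Bs P ∧ (z.2, w.2) ∈ Bs P

lemma mem_Nb {z w : EuclideanSpace ℝ (Fin d) × EuclideanSpace ℝ (Fin d)} :
    w ∈ Nb P z ↔ (w.1 ∈ P ∧ w.2 ∈ P) ∧ dist z.1 w.1 = dist z.2 w.2 ∧ (z.1, w.1) ∈ Bs P ∧
      (z.2, w.2) ∈ Bs P := by
  classical
  unfold Nb; rw [mem_filter, mem_product]

open Classical in
/-- all distances, including `0` -/
noncomputable def dists : Finset ℝ := (P ×ˢ P).image fun p => dist p.1 p.2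

lemma card_dists : (dists P).card ≤ nd P + 1 := by
  classical
  have h : (dists P : Set ℝ) ⊆
      insert 0 {t : ℝ | ∃ p ∈ P, ∃ q ∈ P, p ≠ q ∧ dist p q = t} := by
    intro r hr
    obtain ⟨⟨p, q⟩, hpq, rfl⟩ := mem_image.1 (mem_coe.1 hr)
    rw [mem_product] at hpq
    by_cases h : p = q
    · left; simp [h]
    · right; exact ⟨p, hpq.1, q, hpq.2, h, rfl⟩
  have h1 := Set.ncard_le_ncard h ((nd_set_finite P).insert 0)
  rw [Set.ncard_coe_finset] at h1
  exact h1.trans (Set.ncard_insert_le _ _)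

lemma sum_Nb : (Bs P).card ^ 2 ≤ (dists P).card * ∑ z ∈ P ×ˢ P, (Nb P z).card := by
  classical
  have h1 : (Bs P).card = ∑ r ∈ dists P, ((Bs P).filter fun p => dist p.1 p.2 = r).card := by
    apply card_eq_sum_card_fiberwise
    intro p hp
    rw [mem_coe, mem_Bs] at hp
    exact mem_coe.2 (mem_image.2 ⟨p, mem_product.2 hp.1, rfl⟩)
  have h2 : ∑ r ∈ dists P, ((Bs P).filter fun p => dist p.1 p.2 = r).card ^ 2 ≤
      ∑ z ∈ P ×ˢ P, (Nb P z).card := by
    rw [← card_sigma]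
    have h3 : ∑ r ∈ dists P, ((Bs P).filter fun p => dist p.1 p.2 = r).card ^ 2 =
        ((dists P).sigma fun r => ((Bs P).filter fun p => dist p.1 p.2 = r) ×ˢ
          ((Bs P).filter fun p => dist p.1 p.2 = r)).card := by
      rw [card_sigma]
      refine sum_congr rfl fun r _ => ?_
      rw [card_product, sq]
    rw [h3]
    refine card_le_card_of_injOn
      (fun x => ⟨(x.2.1.1, x.2.2.1), (x.2.1.2, x.2.2.2)⟩) ?_ ?_
    · rintro ⟨r, ⟨⟨a, b⟩, ⟨c, e⟩⟩⟩ hx
      simp only [coe_sigma, Set.mem_sigma_iff, mem_coe, mem_product, mem_filter] at hx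
      obtain ⟨_, ⟨h1, h1'⟩, h2, h2'⟩ := hx
      simp only [coe_sigma, Set.mem_sigma_iff, mem_coe, mem_product]
      have m1 := (mem_Bs P).1 h1
      have m2 := (mem_Bs P).1 h2
      refine ⟨⟨m1.1.1, m2.1.1⟩, ?_⟩
      rw [mem_Nb]
      exact ⟨⟨m1.1.2, m2.1.2⟩, h1'.trans h2'.symm, h1, h2⟩
    · rintro ⟨r, ⟨⟨a, b⟩, ⟨c, e⟩⟩⟩ hx ⟨r', ⟨⟨a', b'⟩, ⟨c', e'⟩⟩⟩ hx' h
      simp only [coe_sigma, Set.mem_sigma_iff, mem_coe, mem_product, mem_filter] at hx hx'
      obtain ⟨_, ⟨h1, h1'⟩, h2, h2'⟩ := hx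
      obtain ⟨_, ⟨g1, g1'⟩, g2, g2'⟩ := hx'
      simp only [Sigma.mk.injEq, Prod.mk.injEq, heq_eq_eq] at h
      obtain ⟨⟨rfl, rfl⟩, rfl, rfl⟩ := h
      have : r = r' := h1'.symm.trans g1'
      subst this
      rfl
  calc (Bs P).card ^ 2 = (∑ r ∈ dists P, ((Bs P).filter fun p => dist p.1 p.2 = r).card) ^ 2 := by
        rw [← h1]
    _ ≤ (dists P).card * ∑ r ∈ dists P, ((Bs P).filter fun p => dist p.1 p.2 = r).card ^ 2 :=
        sq_sum_le_card_mul_sum_sq
    _ ≤ _ := Nat.mul_le_mul_left _ h2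

variable {P}

/-- general row bound -/
lemma card_le_of_rows {Y : Finset (EuclideanSpace ℝ (Fin d) × EuclideanSpace ℝ (Fin d))}
    (hY : ∀ w ∈ Y, w.1 ∈ P) {l : ℕ}
    (h : ∀ b ∈ P, ∀ e, (b, e) ∈ Y → ∃ S : Finset (EuclideanSpace ℝ (Fin d)),
      S.card ≤ l ∧ ∀ e', (b, e') ∈ Y → e' ∈ S) : Y.card ≤ P.card * l := by
  classical
  have h1 : Y.card = ∑ b ∈ P, (Y.filter fun w => w.1 = b).card := by
    apply card_eq_sum_card_fiberwise
    intro w hw
    exact hY w hw
  rw [h1, ← smul_eq_mul, ← sum_const]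
  refine sum_le_sum fun b hb => ?_
  rcases (Y.filter fun w => w.1 = b).eq_empty_or_nonempty with he | ⟨⟨b', e⟩, hw⟩
  · rw [he]; simp
  · rw [mem_filter] at hw
    obtain ⟨hw1, hw2⟩ := hw
    simp only at hw2
    subst hw2
    obtain ⟨S, hS, hS'⟩ := h b' hb e hw1
    refine le_trans (card_le_card_of_injOn (fun w => w.2) ?_ ?_) hS
    · rintro ⟨b, e'⟩ hw
      rw [mem_coe, mem_filter] at hw
      obtain ⟨hw, rfl⟩ := hw
      exact hS' e' hw
    · rintro ⟨b, e'⟩ hw ⟨c, e''⟩ hw' heq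
      rw [mem_coe, mem_filter] at hw hw'
      exact Prod.ext (hw.2.trans hw'.2.symm) heq

/-- general column bound -/
lemma card_le_of_cols {Y : Finset (EuclideanSpace ℝ (Fin d) × EuclideanSpace ℝ (Fin d))}
    (hY : ∀ w ∈ Y, w.2 ∈ P) {l : ℕ}
    (h : ∀ e ∈ P, ∀ b, (b, e) ∈ Y → ∃ S : Finset (EuclideanSpace ℝ (Fin d)),
      S.card ≤ l ∧ ∀ b', (b', e) ∈ Y → b' ∈ S) : Y.card ≤ P.card * l := by
  classical
  have h1 : (Y.map (Equiv.prodComm _ _).toEmbedding).card ≤ P.card * l := by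
    apply card_le_of_rows (P := P)
    · intro w hw
      obtain ⟨⟨b, e⟩, hv, rfl⟩ := mem_map.1 hw
      exact hY _ hv
    · intro e he b hb
      obtain ⟨⟨b', e'⟩, hv, hv'⟩ := mem_map.1 hb
      simp only [Equiv.toEmbedding_apply, Equiv.prodComm_apply, Prod.swap_prod_mk,
        Prod.mk.injEq] at hv'
      obtain ⟨rfl, rfl⟩ := hv'
      obtain ⟨S, hS, hS'⟩ := h _ he _ hv
      refine ⟨S, hS, fun e'' h'' => ?_⟩
      obtain ⟨⟨b2, e2⟩, hv2, hv2'⟩ := mem_map.1 h''
      simp only [Equiv.toEmbedding_apply, Equiv.prodComm_apply, Prod.swap_prod_mk,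
        Prod.mk.injEq] at hv2'
      obtain ⟨rfl, rfl⟩ := hv2'
      exact hS' _ hv2
  rwa [card_map] at h1

open Classical in
/-- the sphere around `p` of radius `dist p b` inside `P` -/
noncomputable def sph (P : Finset (EuclideanSpace ℝ (Fin d))) (p b : EuclideanSpace ℝ (Fin d)) :
    Finset (EuclideanSpace ℝ (Fin d)) := P.filter fun q => dist p q = dist p b

lemma card_sph (p b : EuclideanSpace ℝ (Fin d)) : (sph P p b).card = Rc P p b := rfl

lemma mem_sph {p b q : EuclideanSpace ℝ (Fin d)} :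
    q ∈ sph P p b ↔ q ∈ P ∧ dist p q = dist p b := by
  classical
  unfold sph; rw [mem_filter]

lemma Nb_le_lam2 (z : EuclideanSpace ℝ (Fin d) × EuclideanSpace ℝ (Fin d)) :
    (Nb P z).card ≤ P.card * lam P z.2 := by
  apply card_le_of_rows
  · intro w hw
    exact ((mem_Nb P).1 hw).1.1
  · intro b _ e he
    obtain ⟨_, h1, _, h2⟩ := (mem_Nb P).1 he
    refine ⟨sph P z.2 e, ?_, ?_⟩
    · rw [card_sph]; exact ((mem_Bs P).1 h2).2.1
    · intro e' he'
      obtain ⟨⟨_, h3⟩, h4, _, _⟩ := (mem_Nb P).1 he'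
      exact mem_sph.2 ⟨h3, h4.symm.trans h1⟩

lemma Nb_le_lam1 (z : EuclideanSpace ℝ (Fin d) × EuclideanSpace ℝ (Fin d)) :
    (Nb P z).card ≤ P.card * lam P z.1 := by
  apply card_le_of_cols
  · intro w hw
    exact ((mem_Nb P).1 hw).1.2
  · intro e _ b hb
    obtain ⟨_, h1, h2, _⟩ := (mem_Nb P).1 hb
    refine ⟨sph P z.1 b, ?_, ?_⟩
    · rw [card_sph]; exact ((mem_Bs P).1 h2).2.1
    · intro b' hb'
      obtain ⟨⟨h3, _⟩, h4, _, _⟩ := (mem_Nb P).1 hb'
      exact mem_sph.2 ⟨h3, h4.trans h1.symm⟩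

open Classical in
lemma Nb_small1 (z : EuclideanSpace ℝ (Fin d) × EuclideanSpace ℝ (Fin d)) (l : ℕ) :
    ((Nb P z).filter fun w => lam P w.1 ≤ l).card ≤ P.card * l := by
  apply card_le_of_cols
  · intro w hw
    exact ((mem_Nb P).1 (mem_filter.1 hw).1).1.2
  · intro e _ b hb
    obtain ⟨hb, hl⟩ := mem_filter.1 hb
    obtain ⟨_, h1, h2, _⟩ := (mem_Nb P).1 hb
    refine ⟨sph P z.1 b, ?_, ?_⟩
    · rw [card_sph]; exact ((mem_Bs P).1 h2).2.2.trans hl
    · intro b' hb'
      obtain ⟨⟨h3, _⟩, h4, _, _⟩ := (mem_Nb P).1 (mem_filter.1 hb').1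
      exact mem_sph.2 ⟨h3, h4.trans h1.symm⟩

open Classical in
lemma Nb_small2 (z : EuclideanSpace ℝ (Fin d) × EuclideanSpace ℝ (Fin d)) (l : ℕ) :
    ((Nb P z).filter fun w => lam P w.2 ≤ l).card ≤ P.card * l := by
  apply card_le_of_rows
  · intro w hw
    exact ((mem_Nb P).1 (mem_filter.1 hw).1).1.1
  · intro b _ e he
    obtain ⟨he, hl⟩ := mem_filter.1 he
    obtain ⟨_, h1, _, h2⟩ := (mem_Nb P).1 he
    refine ⟨sph P z.2 e, ?_, ?_⟩
    · rw [card_sph]; exact ((mem_Bs P).1 h2).2.2.trans hl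
    · intro e' he'
      obtain ⟨⟨_, h3⟩, h4, _, _⟩ := (mem_Nb P).1 (mem_filter.1 he').1
      exact mem_sph.2 ⟨h3, h4.symm.trans h1⟩

open Classical in
/-- good partners at level `τ` -/
noncomputable def Yg (P : Finset (EuclideanSpace ℝ (Fin d))) (τ : ℕ)
    (z : EuclideanSpace ℝ (Fin d) × EuclideanSpace ℝ (Fin d)) :
    Finset (EuclideanSpace ℝ (Fin d) × EuclideanSpace ℝ (Fin d)) :=
  (Nb P z).filter fun w => P.card ≤ τ * lam P w.1 ∧ P.card ≤ τ * lam P w.2

lemma mem_Yg {τ : ℕ} {z w : EuclideanSpace ℝ (Fin d) × EuclideanSpace ℝ (Fin d)} :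
    w ∈ Yg P τ z ↔ w ∈ Nb P z ∧ P.card ≤ τ * lam P w.1 ∧ P.card ≤ τ * lam P w.2 := by
  classical
  unfold Yg; rw [mem_filter]

/-- rich `z` are good at the level -/
lemma good_of_rich {τ M : ℕ} (hτ : 4 * P.card ^ 2 ≤ τ * M)
    {z : EuclideanSpace ℝ (Fin d) × EuclideanSpace ℝ (Fin d)} (hz : M ≤ (Nb P z).card) :
    Good P τ z.1 ∧ Good P τ z.2 := by
  rcases Nat.eq_zero_or_pos P.card with h0 | h0
  · constructor <;> (unfold Good; omega)
  have key : ∀ l, (Nb P z).card ≤ P.card * l → P.card ≤ τ * l := by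
    intro l hl
    have h1 : P.card * P.card ≤ P.card * (τ * l) := by
      calc P.card * P.card ≤ 4 * P.card ^ 2 := by nlinarith
        _ ≤ τ * M := hτ
        _ ≤ τ * (P.card * l) := Nat.mul_le_mul_left _ (hz.trans hl)
        _ = P.card * (τ * l) := by ring
    exact Nat.le_of_mul_le_mul_left h1 h0
  exact ⟨good_of_lam P (key _ (Nb_le_lam1 z)), good_of_lam P (key _ (Nb_le_lam2 z))⟩

/-- at least half of the partners are good -/
lemma card_Yg {τ M : ℕ} (hτ0 : 0 < τ) (hτ : 4 * P.card ^ 2 ≤ τ * M)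
    {z : EuclideanSpace ℝ (Fin d) × EuclideanSpace ℝ (Fin d)} (hz : M ≤ (Nb P z).card) :
    (Nb P z).card ≤ 2 * (Yg P τ z).card := by
  classical
  rcases Nat.eq_zero_or_pos P.card with h0 | h0
  · have := Nb_le_lam1 (P := P) z
    rw [h0] at this
    omega
  set l := (P.card - 1) / τ with hl
  have hl1 : τ * l < P.card := by
    have h9 := Nat.mul_div_le (P.card - 1) τ
    rw [← hl] at h9
    omega
  have hl2 : ∀ x, ¬ P.card ≤ τ * x → x ≤ l := by
    intro x hx
    rw [hl, Nat.le_div_iff_mul_le hτ0]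
    have : x * τ = τ * x := mul_comm _ _
    omega
  have hsmall : 4 * (P.card * l) ≤ M := by
    have h1 : τ * (4 * (P.card * l)) ≤ τ * M := by
      calc τ * (4 * (P.card * l)) = 4 * (P.card * (τ * l)) := by ring
        _ ≤ 4 * (P.card * P.card) := by gcongr
        _ = 4 * P.card ^ 2 := by ring
        _ ≤ τ * M := hτ
    exact Nat.le_of_mul_le_mul_left h1 hτ0
  have h1 := Nb_small1 (P := P) z l
  have h2 := Nb_small2 (P := P) z l
  have h3 : (Nb P z) ⊆ Yg P τ z ∪ ((Nb P z).filter fun w => lam P w.1 ≤ l) ∪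
      ((Nb P z).filter fun w => lam P w.2 ≤ l) := by
    intro w hw
    rw [mem_union, mem_union, mem_Yg, mem_filter, mem_filter]
    by_cases c1 : P.card ≤ τ * lam P w.1
    · by_cases c2 : P.card ≤ τ * lam P w.2
      · exact Or.inl (Or.inl ⟨hw, c1, c2⟩)
      · exact Or.inr ⟨hw, hl2 _ c2⟩
    · exact Or.inl (Or.inr ⟨hw, hl2 _ c1⟩)
  have h4 := (card_le_card h3).trans ((card_union_le _ _).trans
    (Nat.add_le_add_right (card_union_le _ _) _))
  omega

end Crest.Agent.R065.Reg348
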