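import Crest.Agent.R065.Skel_745
import Crest.Agent.R065.RankD_417
import Crest.Agent.R065.SweptIdx_795
import Crest.Agent.R065.Swept1_392
import Crest.Agent.R065.ExtrP_203
import Crest.Agent.R065.D3stepA_855
import Crest.Agent.R065.Exch_134
import Crest.Agent.R065.D3rot2_812

/-!
# Row 65: second level of the composition
-/

set_option autoImplicit false

namespace Crest.Agent.R065.Skel745

open Crest.Agent.R065.Base348 Crest.Agent.R065.Top348 Crest.Agent.R065.Rank417
  Crest.Agent.R065.D3 Crest.Agent.R065.D3in855 Crest.Agent.R065.Final348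

/-- `SweptP` holds over `K1` -/
theorem sweptP (e : ℕ) : Glue795.SweptP ℂ (K1 e) e := Glue795.sweptP_of Cod1q392.swept1Set

/-- the rank lemma, all `d ≥ 2` -/
theorem rankD {e : ℕ} (he : 0 < e) : M4.RankD (e + 1) :=
  rankD_of he (Extr203.extrP (K1 e) e) (sweptP e)

theorem engine3 : Engine := fun V k NN o hs irr hk => Exch134.engine V k NN o hs irr hk

/-- STEP A for `d = 3` from the two last inputs -/
theorem stepA3 (hR : RankIn) (hL : L0in) : StepA (10 ^ 9) :=
  D3rot812.stepA_of_genAll
    (D3stepA855.stepAall engine3 hR D3over789.overfull D3o1477.o1curve D3o1477.o1surf hL (10 ^ 9))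

/-- **what is left for `d = 3`**: `RankIn` and `L0in` -/
theorem main3 (hR : RankIn) (hL : L0in) : MainD3 :=
  D3a235.mainD3_of (stepA3 hR hL) (D3B235.stepB (by norm_num))

/-- **what is left**: `RankIn`, `L0in`, and the master for `d ≥ 4` -/
theorem goal_of2 (hR : RankIn) (hL : L0in) (h4 : ∀ d, 4 ≤ d → M4.RankD d → Bd d) : Goal :=
  goal_of (main3 hR hL) (fun d hd => h4 d hd (by
    obtain ⟨e, rfl⟩ : ∃ e, d = e + 1 := ⟨d - 1, by omega⟩
    exact rankD (by omega)))

end Crest.Agent.R065.Skel745
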