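import Crest.Agent.R065.L0fin_795
import Crest.Agent.R065.ExtrP_203
import Crest.Agent.R065.Swept1_392

/-!
# Row 65: LEVEL 0, unconditional (helper795)

`l0inD d : M4.L0inD d` and `l0in : D3in855.L0in`.
-/

set_option autoImplicit false

open MvPolynomial Module

namespace Crest.Agent.R065.Glue795

open Crest.Agent.R065.HF669 Crest.Agent.R065.Base348

theorem sweptP_KC (e : ℕ) : SweptP ℂ (KC e) e := sweptP_of Cod1q392.swept1Set

theorem l0inD (d : ℕ) : M4.L0inD d :=
  l0inD_of d (Extr203.extrP (KC d) d) (sweptP_KC d)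

theorem l0in : D3in855.L0in := l0in_of_D (l0inD 3)

end Crest.Agent.R065.Glue795
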