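import Crest.Agent.R065.Skel2_745
import Crest.Agent.R065.M4pre_96
import Crest.Agent.R065.Trunk_795
import Crest.Agent.R065.RankIn3f_649

/-!
# Row 65: `S0087`, composition of everything
-/

set_option autoImplicit false

namespace Crest.Agent.R065.Skel745

/-- the bound for `d ≥ 4` -/
theorem bd4 {d : ℕ} (hd : 4 ≤ d) : Final348.Bd d :=
  M4.bd4 hd (Glue795.l0inD d) (by
    obtain ⟨e, rfl⟩ : ∃ e, d = e + 1 := ⟨d - 1, by omega⟩
    exact rankD (by omega))

/-- the main theorem for `d = 3` -/
theorem mainD3 : D3.MainD3 := main3 Plane649.rankIn Glue795.l0in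

/-- **S0087** -/
theorem goal : Goal := goal_of mainD3 fun _ hd => bd4 hd

end Crest.Agent.R065.Skel745
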