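import Crest.Agent.R065.Final_348
import Crest.Agent.R065.D3fin_812
import Crest.Agent.R065.D3B_235
import Crest.Agent.R065.D3a_235
import Crest.Agent.R065.D3over_789
import Crest.Agent.R065.D3o1_477
import Crest.Agent.R065.D3rot_812

/-!
# Row 65: the top of the proof tree (interface check)

`S0087` from STEP A (`d = 3`) and the bound `Bd d` (`d ≥ 4`).
-/

set_option autoImplicit false

namespace Crest.Agent.R065.Skel745

open Crest.Agent.R065.Base348 Crest.Agent.R065.Top348 Crest.Agent.R065.Final348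
  Crest.Agent.R065.D3

/-- the frozen statement -/
def Goal : Prop :=
  ∀ (d : ℕ), 3 ≤ d → ∃ c : ℝ, 0 < c ∧ ∀ P : Finset (EuclideanSpace ℝ (Fin d)), 2 ≤ P.card →
      c * (P.card : ℝ) ^ ((2 : ℝ) / d) ≤
        ({t : ℝ | ∃ p ∈ P, ∃ q ∈ P, p ≠ q ∧ dist p q = t}.ncard : ℝ)

/-- the top level: `d = 3` from MainD3, `d ≥ 4` from `Bd d` -/
theorem goal_of (h3 : MainD3) (h4 : ∀ d, 4 ≤ d → Bd d) : Goal := by
  intro d hd
  rcases eq_or_lt_of_le hd with rfl | hd'
  · exact D3fin812.result_three h3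
  · obtain ⟨A, hA, hb⟩ := h4 d hd'
    exact result_of_bound (by omega) A hA hb

/-- `MainD3` from the generic form of STEP A; STEP B is proved -/
theorem main_of_stepA (hA : D3rot812.StepAGen (10 ^ 9)) : MainD3 :=
  D3a235.mainD3_of (D3rot812.stepA_of_gen hA) (D3B235.stepB (by norm_num))

/-- **what is left**: STEP A (generic) and `Bd d`, `d ≥ 4` -/
theorem goal_of' (hA : D3rot812.StepAGen (10 ^ 9)) (h4 : ∀ d, 4 ≤ d → Bd d) : Goal :=
  goal_of (main_of_stepA hA) h4

end Crest.Agent.R065.Skel745
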