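import Crest.Agent.R065.Slice_417

/-!
# Row 65: complements to the slice model (helper417)

* `eval_slice_res_comm` : `f|F_z` and `f|F_w` agree at the point of the leaf of `z` and `w`
* `q_sub_eq`, `null_of_dir` : null directions give null points
-/

set_option autoImplicit false

open MvPolynomial Module

namespace Crest.Agent.R065.Slice417

open Crest.Agent.R065.HF669 Crest.Agent.R065.Base348 Crest.Agent.R065.Cramer234

section field

variable {e : ℕ} {k K : Type*} [Field k] [Field K] [Algebra k K]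

lemma thX_sub (S : Pr e → K) (w z : Pt (e + 1) k) (i : Fin (e + 1)) :
    thX S (w - z) i = thX S w i - thX S z i := by
  unfold thX
  have h : (fun j => C (algebraMap k K ((w - z).1 j)) : Fin (e + 1) → MvPolynomial (Fin e) K) =
      (fun j => C (algebraMap k K (w.1 j))) - fun j => C (algebraMap k K (z.1 j)) := by
    funext j
    simp
  rw [h, act_sub_right]
  simp only [Prod.snd_sub, Pi.sub_apply, map_sub, C_sub]
  ring

lemma eval_thX [NeZero (2 : K)] (S : Pr e → K) {v : Pt (e + 1) k}
    (hρ : v.1 (Fin.last e) ≠ 0) (hv : q v = 0) (i : Fin (e + 1)) :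
    eval (pS S (dir v)) (thX S v i) = 0 := by
  rw [← constantCoeff_shift]
  induction i using Fin.lastCases with
  | last =>
    rw [shift_thX_last S hρ hv, map_mul, map_sum]
    simp
  | cast i =>
    rw [shift_thX_castSucc S hρ, map_neg, map_mul]
    simp

lemma eval_thX_eq [NeZero (2 : K)] (S : Pr e → K) {z w : Pt (e + 1) k}
    (hρ : w.1 (Fin.last e) ≠ z.1 (Fin.last e)) (hq : Null w z) (i : Fin (e + 1)) :
    eval (pZ S z w) (thX S w i) = eval (pZ S z w) (thX S z i) := by
  have h := eval_thX S (v := w - z) (by simpa [sub_eq_zero] using hρ) hq i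
  rw [thX_sub, map_sub, sub_eq_zero] at h
  exact h

lemma eval_resK (S : Pr e → K) (w : Pt (e + 1) k) (p : Fin e → K)
    (G : MvPolynomial (Fin e ⊕ Fin (e + 1)) K) :
    eval p (resK S w G) = eval (Sum.elim p fun i => eval p (thX S w i)) G := by
  have h : (eval p : MvPolynomial (Fin e) K →+* K).comp
      (resK S w : MvPolynomial (Fin e ⊕ Fin (e + 1)) K →ₐ[K] MvPolynomial (Fin e) K).toRingHom =
      eval (Sum.elim p fun i => eval p (thX S w i)) := by
    apply MvPolynomial.ringHom_ext
    · intro r; simp [resK]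
    · rintro (i | i) <;> simp [resK]
  exact congrArg (fun g : MvPolynomial (Fin e ⊕ Fin (e + 1)) K →+* K => g G) h

/-- the restrictions of `f` to the two flats agree at the point of the leaf -/
lemma eval_slice_res_comm [NeZero (2 : K)] (S : Pr e → K) {z w : Pt (e + 1) k}
    (hρ : w.1 (Fin.last e) ≠ z.1 (Fin.last e)) (hq : Null w z)
    (f : MvPolynomial (Pr (e + 1) ⊕ Fin (e + 1)) k) :
    eval (pZ S z w) (slice S (res z f)) = eval (pZ S z w) (slice S (res w f)) := by
  rw [← resK_sliceF, ← resK_sliceF, eval_resK, eval_resK]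
  simp only [eval_thX_eq S hρ hq]

/-- a polynomial vanishing on `F_w` vanishes at the point of the leaf of `z` and `w` -/
lemma eval_slice_res_eq_zero [NeZero (2 : K)] (S : Pr e → K) {z w : Pt (e + 1) k}
    (hρ : w.1 (Fin.last e) ≠ z.1 (Fin.last e)) (hq : Null w z)
    {f : MvPolynomial (Pr (e + 1) ⊕ Fin (e + 1)) k} (hf : res w f = 0) :
    eval (pZ S z w) (slice S (res z f)) = 0 := by
  rw [eval_slice_res_comm S hρ hq, hf, map_zero, map_zero]

/-- the quadratic form in terms of the directions -/
lemma q_sub_eq {v v' : Pt (e + 1) k} (hv : q v = 0) (hv' : q v' = 0)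
    (hρ : v.1 (Fin.last e) ≠ 0) (hρ' : v'.1 (Fin.last e) ≠ 0) :
    q (v - v') = v.1 (Fin.last e) * v'.1 (Fin.last e) * q (dir v - dir v') := by
  unfold q at *
  rw [Fin.sum_univ_castSucc] at hv hv' ⊢
  have e1 : ∀ j : Fin e, v.1 (Fin.last e) * v'.1 (Fin.last e) *
      ((dir v - dir v').1 j * (dir v - dir v').2 j) =
      v'.1 (Fin.last e) / v.1 (Fin.last e) * (v.1 j.castSucc * v.2 j.castSucc) +
      v.1 (Fin.last e) / v'.1 (Fin.last e) * (v'.1 j.castSucc * v'.2 j.castSucc) -
      v.1 j.castSucc * v'.2 j.castSucc - v'.1 j.castSucc * v.2 j.castSucc := by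
    intro j
    simp only [dir, Prod.fst_sub, Prod.snd_sub, Pi.sub_apply]
    field_simp
    ring
  rw [Finset.mul_sum, Finset.sum_congr rfl fun j _ => e1 j]
  simp only [Finset.sum_sub_distrib, Finset.sum_add_distrib, ← Finset.mul_sum]
  have h1 : ∑ j : Fin e, v.1 j.castSucc * v.2 j.castSucc =
      -(v.1 (Fin.last e) * v.2 (Fin.last e)) := by linear_combination hv
  have h2 : ∑ j : Fin e, v'.1 j.castSucc * v'.2 j.castSucc =
      -(v'.1 (Fin.last e) * v'.2 (Fin.last e)) := by linear_combination hv'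
  have e2 : ∀ j : Fin e, (v - v').1 j.castSucc * (v - v').2 j.castSucc =
      v.1 j.castSucc * v.2 j.castSucc + v'.1 j.castSucc * v'.2 j.castSucc -
      v.1 j.castSucc * v'.2 j.castSucc - v'.1 j.castSucc * v.2 j.castSucc := by
    intro j
    simp only [Prod.fst_sub, Prod.snd_sub, Pi.sub_apply]
    ring
  rw [Finset.sum_congr rfl fun j _ => e2 j]
  simp only [Finset.sum_sub_distrib, Finset.sum_add_distrib, h1, h2, Prod.fst_sub, Prod.snd_sub,
    Pi.sub_apply]
  field_simp
  ring

/-- null directions give null points -/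
lemma null_of_dir {z w w' : Pt (e + 1) k} (hw : Null w z) (hw' : Null w' z)
    (hρ : w.1 (Fin.last e) ≠ z.1 (Fin.last e)) (hρ' : w'.1 (Fin.last e) ≠ z.1 (Fin.last e))
    (h : Null (dir (w - z)) (dir (w' - z))) : Null w w' := by
  have h1 := q_sub_eq (v := w - z) (v' := w' - z) hw hw' (by simpa [sub_eq_zero] using hρ)
    (by simpa [sub_eq_zero] using hρ')
  rw [sub_sub_sub_cancel_right] at h1
  unfold Null at h ⊢
  rw [h1, h, mul_zero]

lemma q_ptK (v : Pt e k) : q (ptK K v) = algebraMap k K (q v) := by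
  unfold q ptK
  rw [map_sum]
  exact Finset.sum_congr rfl fun i _ => (map_mul _ _ _).symm

lemma ptK_sub (v w : Pt e k) : ptK K v - ptK K w = ptK K (v - w) := by
  unfold ptK
  ext i <;> simp

lemma null_ptK {v w : Pt e k} : Null (ptK K v) (ptK K w) ↔ Null v w := by
  unfold Null
  rw [ptK_sub, q_ptK, map_eq_zero_iff _ (algebraMap k K).injective]

end field

end Crest.Agent.R065.Slice417
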