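import Crest.Agent.R065.Hyp_348

/-!
# Row 65, `d ≥ 4`: points of `P` equidistant from a non collinear set (G0 of 237's scheme)
-/

set_option autoImplicit false

open Module

namespace Crest.Agent.R065.Sph397

open Crest.Agent.R065.Base348 Crest.Agent.R065.Top348 Crest.Agent.R065.Hyp348

open scoped InnerProductSpace

/-- isometric embedding of a small Euclidean space in a bigger one -/
lemma exists_emb {m e : ℕ} (h : m ≤ e) :
    ∃ T : EuclideanSpace ℝ (Fin m) →ₗ[ℝ] EuclideanSpace ℝ (Fin e), ∀ x y, ⟪T x, T y⟫_ℝ = ⟪x, y⟫_ℝ := by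
  refine ⟨{ toFun := fun x => WithLp.toLp 2 fun i => if hi : i.1 < m then x ⟨i.1, hi⟩ else 0
            map_add' := ?_
            map_smul' := ?_ }, ?_⟩
  · intro x y
    ext i
    by_cases hi : i.1 < m <;> simp [hi]
  · intro c x
    ext i
    by_cases hi : i.1 < m <;> simp [hi]
  · intro x y
    simp only [PiLp.inner_apply]
    symm
    refine Fintype.sum_of_injective (Fin.castLE h) (Fin.castLE_injective h) _ _ ?_ ?_
    · intro i hi
      have : ¬ i.1 < m := by
        intro hlt
        exact hi ⟨⟨i.1, hlt⟩, by ext; simp⟩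
      simp [this]
    · intro i
      simp

/-- a subspace of dimension at most `e` embeds isometrically in `E^e` -/
lemma exists_iso {d e : ℕ} (U : Submodule ℝ (EuclideanSpace ℝ (Fin d))) (h : finrank ℝ U ≤ e) :
    ∃ φ : EuclideanSpace ℝ (Fin d) →ₗ[ℝ] EuclideanSpace ℝ (Fin e),
      ∀ x ∈ U, ∀ y, ⟪φ x, φ y⟫_ℝ = ⟪x, y⟫_ℝ := by
  obtain ⟨T, hT⟩ := exists_emb h
  let b : OrthonormalBasis (Fin (finrank ℝ U)) ℝ U := stdOrthonormalBasis ℝ U
  refine ⟨T ∘ₗ b.repr.toLinearEquiv.toLinearMap ∘ₗ (U.orthogonalProjectionOnto).toLinearMap, ?_⟩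
  intro x hx y
  change ⟪T (b.repr (U.orthogonalProjectionOnto x)), T (b.repr (U.orthogonalProjectionOnto y))⟫_ℝ = _
  rw [hT, LinearIsometryEquiv.inner_map_map]
  have h1 : U.orthogonalProjectionOnto x = ⟨x, hx⟩ :=
    Submodule.orthogonalProjectionOnto_mem_subspace_eq_self (⟨x, hx⟩ : U)
  rw [h1, Submodule.inner_orthogonalProjectionOnto_eq_of_mem_left]

/-- circle: at most two points at a given distance from `b₀` -/
lemma circle_two (Q : Finset (EuclideanSpace ℝ (Fin 2))) (p : EuclideanSpace ℝ (Fin 2)) (s γ : ℝ)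
    (hγ : γ ≠ 0) (h1 : ∀ v ∈ Q, ⟪v, v⟫_ℝ = s) (h2 : ∀ v ∈ Q, ⟪v, p⟫_ℝ = γ) : Q.card ≤ 2 := by
  classical
  have e1 : ∀ v ∈ Q, v 0 ^ 2 + v 1 ^ 2 = s := by
    intro v hv
    have := h1 v hv
    simp only [PiLp.inner_apply, Fin.sum_univ_two, RCLike.inner_apply, conj_trivial] at this
    linarith
  have e2 : ∀ v ∈ Q, p 0 * v 0 + p 1 * v 1 = γ := by
    intro v hv
    have := h2 v hv
    simp only [PiLp.inner_apply, Fin.sum_univ_two, RCLike.inner_apply, conj_trivial] at this
    linarith
  by_cases hp : p 0 ^ 2 + p 1 ^ 2 = 0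
  · have hp0 : p 0 = 0 := by nlinarith [sq_nonneg (p 0), sq_nonneg (p 1)]
    have hp1 : p 1 = 0 := by nlinarith [sq_nonneg (p 0), sq_nonneg (p 1)]
    have : Q = ∅ := by
      refine Finset.eq_empty_of_forall_notMem fun v hv => ?_
      have := e2 v hv
      rw [hp0, hp1] at this
      exact hγ (by linarith)
    simp [this]
  · set u : EuclideanSpace ℝ (Fin 2) → ℝ := fun v => p 0 * v 1 - p 1 * v 0 with hu
    have hinj : Set.InjOn u (Q : Set (EuclideanSpace ℝ (Fin 2))) := by
      intro v hv w hw hvw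
      simp only [hu] at hvw
      have hv2 := e2 v hv
      have hw2 := e2 w hw
      have a0 : (p 0 ^ 2 + p 1 ^ 2) * (v 0 - w 0) = 0 := by
        linear_combination p 0 * hv2 - p 0 * hw2 - p 1 * hvw
      have a1 : (p 0 ^ 2 + p 1 ^ 2) * (v 1 - w 1) = 0 := by
        linear_combination p 1 * hv2 - p 1 * hw2 + p 0 * hvw
      have b0 := (mul_eq_zero.1 a0).resolve_left hp
      have b1 := (mul_eq_zero.1 a1).resolve_left hp
      ext i
      fin_cases i
      · simpa using sub_eq_zero.1 b0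
      · simpa using sub_eq_zero.1 b1
    have husq : ∀ v ∈ Q, u v ^ 2 = (p 0 ^ 2 + p 1 ^ 2) * s - γ ^ 2 := by
      intro v hv
      have hv1 := e1 v hv
      have hv2 := e2 v hv
      simp only [hu]
      rw [← hv1, ← hv2]
      ring
    by_cases hQ : Q.Nonempty
    · obtain ⟨v0, hv0⟩ := hQ
      have hsub : Q.image u ⊆ {u v0, - u v0} := by
        intro x hx
        obtain ⟨v, hv, rfl⟩ := Finset.mem_image.1 hx
        have : u v ^ 2 = u v0 ^ 2 := by rw [husq v hv, husq v0 hv0]
        rcases sq_eq_sq_iff_eq_or_eq_neg.1 this with h | h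
        · simp [h]
        · simp [h]
      rw [← Finset.card_image_of_injOn hinj]
      exact (Finset.card_le_card hsub).trans Finset.card_le_two
    · rw [Finset.not_nonempty_iff_eq_empty] at hQ
      simp [hQ]

lemma dist_le_nd {d : ℕ} (P : Finset (EuclideanSpace ℝ (Fin d))) (D : Finset ℝ)
    (hD : ∀ s ∈ D, ∃ p ∈ P, ∃ q ∈ P, p ≠ q ∧ dist p q = s) : D.card ≤ nd P := by
  unfold nd
  rw [← Set.ncard_coe_finset]
  exact Set.ncard_le_ncard (fun s hs => hD s hs) (nd_set_finite P)

/-- differences of points equidistant from `A` are orthogonal to `A` -/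
lemma sub_mem_orth {d : ℕ} (A : Set (EuclideanSpace ℝ (Fin d))) (r : EuclideanSpace ℝ (Fin d) → ℝ)
    {b b' : EuclideanSpace ℝ (Fin d)} (hb : ∀ a ∈ A, dist b a = r a) (hb' : ∀ a ∈ A, dist b' a = r a) :
    b - b' ∈ (vectorSpan ℝ A)ᗮ := by
  rw [Submodule.mem_orthogonal]
  have key : ∀ a ∈ A, 2 * ⟪a, b - b'⟫_ℝ = ‖b‖ ^ 2 - ‖b'‖ ^ 2 := by
    intro a ha
    have h1 : dist b a ^ 2 = dist b' a ^ 2 := by rw [hb a ha, hb' a ha]
    rw [dist_eq_norm, dist_eq_norm, @norm_sub_sq_real, @norm_sub_sq_real] at h1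
    rw [inner_sub_right, real_inner_comm b a, real_inner_comm b' a]
    linarith
  intro u hu
  unfold vectorSpan at hu
  induction hu using Submodule.span_induction with
  | mem x hx =>
    obtain ⟨a, ha, a', ha', rfl⟩ := hx
    simp only [vsub_eq_sub]
    rw [inner_sub_left]
    linarith [key a ha, key a' ha']
  | zero => simp
  | add x y _ _ hx hy => rw [inner_add_left, hx, hy, add_zero]
  | smul c x _ hx => rw [real_inner_smul_left, hx, mul_zero]

lemma finrank_orth_le {d : ℕ} (A : Set (EuclideanSpace ℝ (Fin (d + 2)))) (hA : ¬ Collinear ℝ A) :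
    finrank ℝ (vectorSpan ℝ A)ᗮ ≤ d := by
  have h1 : 2 ≤ finrank ℝ (vectorSpan ℝ A) := by
    by_contra hcon
    push Not at hcon
    exact hA (collinear_iff_finrank_le_one.2 (by omega))
  have h2 := (vectorSpan ℝ A).finrank_add_finrank_orthogonal
  rw [finrank_euclideanSpace, Fintype.card_fin] at h2
  omega

open scoped Classical in
/-- **spheres**: few points of `P` are equidistant from all points of a non collinear set -/
theorem spheres (d : ℕ) (hd : 4 ≤ d)
    (IH : ∀ e, 3 ≤ e → e < d → ∃ c : ℝ, 0 < c ∧ ∀ P : Finset (EuclideanSpace ℝ (Fin e)),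
      2 ≤ P.card → c * (P.card : ℝ) ^ ((2 : ℝ) / e) ≤ (nd P : ℝ)) :
    ∃ C : ℝ, 1 ≤ C ∧ ∀ P : Finset (EuclideanSpace ℝ (Fin d)), 2 ≤ P.card →
      ∀ (A : Set (EuclideanSpace ℝ (Fin d))), ¬ Collinear ℝ A →
      ∀ r : EuclideanSpace ℝ (Fin d) → ℝ,
      ((P.filter fun b => ∀ a ∈ A, dist b a = r a).card : ℝ) ≤
        C * (nd P : ℝ) ^ (((d : ℝ) - 2) / 2) := by
  obtain ⟨e, rfl⟩ : ∃ e, d = e + 2 := ⟨d - 2, by omega⟩
  have he : 2 ≤ e := by omega
  have hexp : (((e + 2 : ℕ) : ℝ) - 2) / 2 = (e : ℝ) / 2 := by push_cast; ring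
  rw [hexp]
  -- general part: isometric image in `E^e`
  have gen : ∀ P : Finset (EuclideanSpace ℝ (Fin (e + 2))),
      ∀ (A : Set (EuclideanSpace ℝ (Fin (e + 2)))), ¬ Collinear ℝ A →
      ∀ r : EuclideanSpace ℝ (Fin (e + 2)) → ℝ,
      ∃ φ : EuclideanSpace ℝ (Fin (e + 2)) →ₗ[ℝ] EuclideanSpace ℝ (Fin e),
        ∀ b ∈ P.filter (fun b => ∀ a ∈ A, dist b a = r a),
        ∀ b' ∈ P.filter (fun b => ∀ a ∈ A, dist b a = r a), ∀ y,
          ⟪φ (b - b'), φ y⟫_ℝ = ⟪b - b', y⟫_ℝ := by
    intro P A hA r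
    obtain ⟨φ, hφ⟩ := exists_iso (vectorSpan ℝ A)ᗮ (finrank_orth_le A hA)
    refine ⟨φ, fun b hb b' hb' y => hφ _ ?_ y⟩
    exact sub_mem_orth A r (Finset.mem_filter.1 hb).2 (Finset.mem_filter.1 hb').2
  rcases Nat.lt_or_ge 2 e with he3 | he2
  · -- `e ≥ 3`
    obtain ⟨c, hc, hIH⟩ := IH e he3 (by omega)
    refine ⟨max 1 ((1 / c) ^ ((e : ℝ) / 2)), le_max_left _ _, fun P hP A hA r => ?_⟩
    obtain ⟨φ, hφ⟩ := gen P A hA r
    set S := P.filter fun b => ∀ a ∈ A, dist b a = r a with hS
    have hnd : (1 : ℝ) ≤ nd P := by exact_mod_cast nd_pos hP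
    have hpow : (1 : ℝ) ≤ (nd P : ℝ) ^ ((e : ℝ) / 2) := Real.one_le_rpow hnd (by positivity)
    by_cases hS2 : 2 ≤ S.card
    · have hdist : ∀ b ∈ S, ∀ b' ∈ S, dist (φ b) (φ b') = dist b b' := by
        intro b hb b' hb'
        rw [dist_eq_norm, dist_eq_norm, ← map_sub, @norm_eq_sqrt_real_inner _ _ _ (φ (b - b')),
          hφ b hb b' hb', ← norm_eq_sqrt_real_inner]
      have hinj : Set.InjOn φ (S : Set _) := by
        intro p hp q hq h
        have := hdist p hp q hq
        rw [h, dist_self] at this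
        exact dist_eq_zero.1 this.symm
      have hcard : (S.image φ).card = S.card := Finset.card_image_of_injOn hinj
      have hndle : nd (S.image φ) ≤ nd P := by
        unfold nd
        refine Set.ncard_le_ncard ?_ (nd_set_finite P)
        rintro t ⟨p', hp', q', hq', hne, rfl⟩
        obtain ⟨p, hp, rfl⟩ := Finset.mem_image.1 hp'
        obtain ⟨q, hq, rfl⟩ := Finset.mem_image.1 hq'
        refine ⟨p, (Finset.mem_filter.1 hp).1, q, (Finset.mem_filter.1 hq).1, ?_,
          (hdist p hp q hq).symm⟩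
        rintro rfl
        exact hne rfl
      have h1 := hIH (S.image φ) (by rw [hcard]; exact hS2)
      rw [hcard] at h1
      have h2 : c * (S.card : ℝ) ^ ((2 : ℝ) / (e : ℝ)) ≤ nd P :=
        h1.trans (by exact_mod_cast hndle)
      have h3 : (S.card : ℝ) ^ ((2 : ℝ) / (e : ℝ)) ≤ 1 / c * nd P := by
        rw [one_div, inv_mul_eq_div, le_div_iff₀ hc, mul_comm]; exact h2
      have h0 : (0 : ℝ) ≤ S.card := Nat.cast_nonneg _
      have he0 : (0 : ℝ) < e := by positivity
      calc (S.card : ℝ) = ((S.card : ℝ) ^ ((2 : ℝ) / (e : ℝ))) ^ ((e : ℝ) / 2) := by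
            rw [← Real.rpow_mul h0]
            have : (2 : ℝ) / e * (e / 2) = 1 := by field_simp
            rw [this, Real.rpow_one]
        _ ≤ (1 / c * nd P) ^ ((e : ℝ) / 2) :=
            Real.rpow_le_rpow (by positivity) h3 (by positivity)
        _ = (1 / c) ^ ((e : ℝ) / 2) * (nd P : ℝ) ^ ((e : ℝ) / 2) :=
            Real.mul_rpow (by positivity) (by positivity)
        _ ≤ max 1 ((1 / c) ^ ((e : ℝ) / 2)) * (nd P : ℝ) ^ ((e : ℝ) / 2) := by
            gcongr
            exact le_max_right _ _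
    · have h1 : (S.card : ℝ) ≤ 1 := by
        have : S.card ≤ 1 := by omega
        exact_mod_cast this
      calc (S.card : ℝ) ≤ 1 * 1 := by linarith
        _ ≤ max 1 ((1 / c) ^ ((e : ℝ) / 2)) * (nd P : ℝ) ^ ((e : ℝ) / 2) := by
            gcongr
            exact le_max_left _ _
  · -- `e = 2`
    obtain rfl : e = 2 := by omega
    refine ⟨3, by norm_num, fun P hP A hA r => ?_⟩
    obtain ⟨φ, hφ⟩ := gen P A hA r
    set S := P.filter fun b => ∀ a ∈ A, dist b a = r a with hS
    have hnd : (1 : ℝ) ≤ nd P := by exact_mod_cast nd_pos hP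
    have hone : ((2 : ℕ) : ℝ) / 2 = 1 := by norm_num
    rw [hone, Real.rpow_one]
    by_cases hS0 : S.Nonempty
    · obtain ⟨b0, hb0⟩ := hS0
      have hAne : A.Nonempty := by
        by_contra hcon
        rw [Set.not_nonempty_iff_eq_empty] at hcon
        exact hA (by rw [hcon]; exact collinear_empty ℝ _)
      obtain ⟨a, ha⟩ := hAne
      have hfib : ∀ s ∈ (S.erase b0).image (fun b => dist b b0),
          ((S.erase b0).filter fun b => dist b b0 = s).card ≤ 2 := by
        intro s hs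
        obtain ⟨b1, hb1, hs1⟩ := Finset.mem_image.1 hs
        have hs0 : s ≠ 0 := by
          rw [← hs1]
          exact dist_ne_zero.2 (Finset.ne_of_mem_erase hb1)
        set F := (S.erase b0).filter fun b => dist b b0 = s with hF
        have hmem : ∀ b ∈ F, b ∈ S := fun b hb =>
          Finset.mem_of_mem_erase (Finset.mem_filter.1 hb).1
        have hself : ∀ b ∈ F, ⟪φ (b - b0), φ (b - b0)⟫_ℝ = s ^ 2 := by
          intro b hb
          rw [hφ b (hmem b hb) b0 hb0, real_inner_self_eq_norm_sq, ← dist_eq_norm,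
            (Finset.mem_filter.1 hb).2]
        have hinj : Set.InjOn (fun b => φ (b - b0)) (F : Set _) := by
          intro b hb b' hb' h
          have h' : φ (b - b0) = φ (b' - b0) := h
          have h1 : φ (b - b') = 0 := by
            have : b - b' = (b - b0) - (b' - b0) := by abel
            rw [this, map_sub, h', sub_self]
          have h2 := hφ b (hmem b hb) b' (hmem b' hb') (b - b')
          rw [h1, inner_zero_left] at h2
          exact sub_eq_zero.1 (inner_self_eq_zero.1 h2.symm)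
        rw [← Finset.card_image_of_injOn hinj]
        refine circle_two _ (φ (b0 - a)) (s ^ 2) (- s ^ 2 / 2) ?_ ?_ ?_
        · have : s ^ 2 ≠ 0 := pow_ne_zero _ hs0
          intro h
          apply this
          linarith
        · intro v hv
          obtain ⟨b, hb, rfl⟩ := Finset.mem_image.1 hv
          exact hself b hb
        · intro v hv
          obtain ⟨b, hb, rfl⟩ := Finset.mem_image.1 hv
          rw [hφ b (hmem b hb) b0 hb0]
          have h1 : dist b a ^ 2 = dist b0 a ^ 2 := by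
            rw [(Finset.mem_filter.1 (hmem b hb)).2 a ha, (Finset.mem_filter.1 hb0).2 a ha]
          have h2 : b - a = (b - b0) + (b0 - a) := by abel
          rw [dist_eq_norm, dist_eq_norm, h2, @norm_add_sq_real] at h1
          have h3 : ‖b - b0‖ = s := by rw [← dist_eq_norm, (Finset.mem_filter.1 hb).2]
          rw [h3] at h1
          linarith
      have h1 := Finset.card_le_mul_card_image (S.erase b0) 2 hfib
      have h2 : ((S.erase b0).image (fun b => dist b b0)).card ≤ nd P := by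
        refine dist_le_nd P _ ?_
        intro s hs
        obtain ⟨b, hb, rfl⟩ := Finset.mem_image.1 hs
        exact ⟨b, (Finset.mem_filter.1 (Finset.mem_of_mem_erase hb)).1, b0,
          (Finset.mem_filter.1 hb0).1, Finset.ne_of_mem_erase hb, rfl⟩
      have h3 : S.card = (S.erase b0).card + 1 := (Finset.card_erase_add_one hb0).symm
      have h4 : S.card ≤ 2 * nd P + 1 := by omega
      have h5 : (S.card : ℝ) ≤ 2 * nd P + 1 := by exact_mod_cast h4
      linarith
    · rw [Finset.not_nonempty_iff_eq_empty] at hS0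
      rw [hS0]
      simp

end Crest.Agent.R065.Sph397
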