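import Crest.Agent.R065.Swept_143
import Crest.Agent.R065.D3in_855
import Crest.Agent.R065.Engine_348

/-!
# Row 65: LEVEL-0 for all `d` (143 #12339 (5)) from the extremal variety and the swept theorem
-/

set_option autoImplicit false

open MvPolynomial Module

namespace Crest.Agent.R065.Spl143

open Crest.Agent.R065.HF669 Crest.Agent.R065.Base348 Crest.Agent.R065.Cramer234
  Crest.Agent.R065.Mblk474 Crest.Agent.R065.Pins348 Crest.Agent.R065.Swept143

/-! ### polynomials on `(S, θ)` as polynomials in `θ` over `K = k(S)` -/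

section toKp

variable {d : ℕ} (k : Type*) [Field k] (K : Type*) [Field K]
  [Algebra (MvPolynomial (Pr d) k) K] [Algebra k K] [IsScalarTower k (MvPolynomial (Pr d) k) K]

/-- `f(S, θ)` as a polynomial in `θ` -/
noncomputable def toKp : MvPolynomial (Pr d ⊕ Fin d) k →ₐ[k] MvPolynomial (Fin d) K :=
  aeval (Sum.elim (fun p => C (SK k K p)) X)

variable {k}

lemma totalDegree_toKp_le (f : MvPolynomial (Pr d ⊕ Fin d) k) :
    (toKp k K f).totalDegree ≤ f.totalDegree := by
  classical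
  unfold toKp
  rw [aeval_def, eval₂_eq]
  refine (totalDegree_finsetSum _ _).trans (Finset.sup_le fun n hn => ?_)
  refine (totalDegree_mul _ _).trans ?_
  have h0 : (algebraMap k (MvPolynomial (Fin d) K) (coeff n f)).totalDegree = 0 := by
    rw [IsScalarTower.algebraMap_apply k K (MvPolynomial (Fin d) K), algebraMap_eq, totalDegree_C]
  rw [h0, zero_add]
  refine (totalDegree_finsetProd _ _).trans ?_
  refine le_trans ?_ (le_totalDegree hn)
  rw [Finsupp.sum]
  refine Finset.sum_le_sum fun i _ => ?_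
  refine (totalDegree_pow _ _).trans ?_
  have h1 : ((Sum.elim (fun p => C (SK k K p)) X : Pr d ⊕ Fin d → MvPolynomial (Fin d) K)
      i).totalDegree ≤ 1 := by
    rcases i with i | i
    · simp
    · simp
  calc n i * _ ≤ n i * 1 := Nat.mul_le_mul_left _ h1
    _ = n i := mul_one _

lemma eval_toKp (z : Pt d k) (f : MvPolynomial (Pr d ⊕ Fin d) k) :
    eval (thK K z) (toKp k K f) = algebraMap (MvPolynomial (Pr d) k) K (res z f) := by
  have h1 : ((aeval (thK K z) : MvPolynomial (Fin d) K →ₐ[K] K).restrictScalars k).comp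
      (toKp k K) = (IsScalarTower.toAlgHom k (MvPolynomial (Pr d) k) K).comp (res z) := by
    apply MvPolynomial.algHom_ext
    intro i
    rcases i with i | i
    · simp [toKp, res, SK]
    · simp only [toKp, res, thK, th, toK, AlgHom.comp_apply, aeval_X, Sum.elim_inr,
        AlgHom.restrictScalars_apply, IsScalarTower.coe_toAlgHom', map_add, Pi.add_apply]
      congr 1
      · rw [IsScalarTower.algebraMap_apply k (MvPolynomial (Pr d) k) K, algebraMap_eq]
      · unfold act actX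
        rw [map_sum]
        refine Finset.sum_congr rfl fun j _ => ?_
        rw [map_mul, ← sk_map (algebraMap (MvPolynomial (Pr d) k) K)]
        change sk (SK k K) i j * algebraMap k K (z.1 j) = sk (SK k K) i j * _
        rw [IsScalarTower.algebraMap_apply k (MvPolynomial (Pr d) k) K, algebraMap_eq]
  have h2 := DFunLike.congr_fun h1 f
  rw [AlgHom.comp_apply, AlgHom.comp_apply] at h2
  exact h2

lemma toKp_ne_zero [IsFractionRing (MvPolynomial (Pr d) k) K] [Infinite k]
    {f : MvPolynomial (Pr d ⊕ Fin d) k} (hf : f ≠ 0) : toKp k K f ≠ 0 := by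
  intro h
  apply hf
  apply MvPolynomial.funext
  intro g
  rw [map_zero]
  -- the flat of `z = (0, θ)` is `{θ constant}`
  have h1 := eval_toKp K (d := d) ((0 : Fin d → k), fun i => g (Sum.inr i)) f
  rw [h, map_zero] at h1
  have h2 : res ((0 : Fin d → k), fun i => g (Sum.inr i)) f = 0 :=
    (map_eq_zero_iff _ (IsFractionRing.injective (MvPolynomial (Pr d) k) K)).1 h1.symm
  have h3 := eval_res ((0 : Fin d → k), fun i => g (Sum.inr i)) f (fun p => g (Sum.inl p))
  rw [h2, map_zero] at h3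
  have h4 : pt ((0 : Fin d → k), fun i => g (Sum.inr i)) (fun p => g (Sum.inl p)) = g := by
    funext i
    rcases i with i | i
    · rfl
    · simp [pt, act]
  rw [h4] at h3
  exact h3.symm

end toKp

/-! ### the extremal variety as an input, and LEVEL-0 -/

section l0

variable {e : ℕ} {k : Type*} [Field k] [CharZero k] [Infinite k] {K : Type*} [Field K]
  [CharZero K] [Infinite K]
  [Algebra (MvPolynomial (Pr e) k) K] [Algebra k K] [IsScalarTower k (MvPolynomial (Pr e) k) K]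
  [IsFractionRing (MvPolynomial (Pr e) k) K]

open scoped Classical in
variable (K) in
/-- the members of `Sg` whose point `θ_z` lies on `P` -/
noncomputable def onV (Sg : Finset (Pt e k)) (P : Ideal (MvPolynomial (Fin e) K)) :
    Finset (Pt e k) := Sg.filter fun z => ∀ g ∈ P, eval (thK K z) g = 0

variable (e k K) in
/-- LEAF (194): the extremal variety -/
def ExtrIn : Prop :=
  ∀ Lam : ℕ, ∃ Cc : ℕ, ∀ (T : ℕ) (h : MvPolynomial (Fin e) K) (Sg : Finset (Pt e k)), 1 ≤ T →
    h ≠ 0 → h.totalDegree ≤ T → (∀ z ∈ Sg, eval (thK K z) h = 0) → Sg.Nonempty →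
    ∃ P : Ideal (MvPolynomial (Fin e) K), P.IsPrime ∧ h ∈ P ∧
      Cut K P (onV K Sg P) (Lam * flagTop P) ∧
      Sg.card * degP P ≤ Cc * T ^ (e - dimP P) * (onV K Sg P).card

/-- LEVEL-0 in abstract form: the number of `z` with `θ_z` in the zero set of a polynomial of
degree `≤ m` -/
def L0abs (e : ℕ) (k : Type*) [Field k] [Infinite k] (K : Type*) [Field K]
    [Algebra (MvPolynomial (Pr e) k) K] [Algebra k K] : Prop :=
  ∃ C : ℝ, 0 < C ∧ ∀ (m : ℕ) (h : MvPolynomial (Fin e) K) (Sg : Finset (Pt e k)) (τ : ℕ → ℝ)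
    (ν : ℝ), 1 ≤ m → h ≠ 0 → h.totalDegree ≤ m → (∀ z ∈ Sg, eval (thK K z) h = 0) →
    (∀ r, 0 ≤ τ r) → 0 ≤ ν →
    (∀ M : Ideal (MvPolynomial (Fin e ⊕ Fin e) k), M.IsPrime → dimP M < e →
      ((onM Sg M).card : ℝ) ≤ τ (dimP M) * degP M) →
    (∀ Y ⊆ Sg, (∀ w ∈ Y, ∀ w' ∈ Y, Null w w') → (Y.card : ℝ) ≤ ν) →
    (Sg.card : ℝ) ≤ C * (∑ r ∈ Finset.range e, (m : ℝ) ^ (e - r) * τ r + m * ν)

omit [CharZero k] [Infinite k] in
lemma onM_subset {Sg Sg' : Finset (Pt e k)} (h : Sg' ⊆ Sg)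
    (M : Ideal (MvPolynomial (Fin e ⊕ Fin e) k)) : onM Sg' M ⊆ onM Sg M := by
  classical
  unfold onM
  exact Finset.filter_subset_filter _ h

/-- **LEVEL-0, abstract form** -/
theorem l0abs (hE : ExtrIn e k K) (h1 : SweptOne k K e) : L0abs e k K := by
  classical
  obtain ⟨Cc, hCc⟩ := hE (CS e)
  refine ⟨8 * Cc + 1, by positivity, ?_⟩
  intro m h Sg τ ν hm hh0 hhd hvan hτ hν hτM hνY
  have hm1 : (1 : ℝ) ≤ m := by exact_mod_cast hm
  have hsum0 : 0 ≤ ∑ r ∈ Finset.range e, (m : ℝ) ^ (e - r) * τ r :=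
    Finset.sum_nonneg fun r _ => mul_nonneg (by positivity) (hτ r)
  rcases Finset.eq_empty_or_nonempty Sg with hemp | hne
  · rw [hemp]
    simp only [Finset.card_empty, Nat.cast_zero]
    have : 0 ≤ (m : ℝ) * ν := by positivity
    positivity
  obtain ⟨P, hP, hhP, hcut, hcard⟩ := hCc m h Sg hm hh0 hhd hvan hne
  -- codimension at least one
  have hdim : dimP P + 1 ≤ e := by
    have h2 := dimP_le_card P
    rw [Fintype.card_fin] at h2
    by_contra hcon
    have h3 : dimP P = e := by omega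
    have h4 : (⊥ : Ideal (MvPolynomial (Fin e) K)) = P :=
      eq_of_le_of_dimP_le bot_le (by rw [dimP_bot, Fintype.card_fin, h3])
    rw [← h4] at hhP
    exact hh0 ((Submodule.mem_bot _).1 hhP)
  have hdeg : (1 : ℝ) ≤ degP P := by exact_mod_cast degP_pos P
  set V := onV K Sg P with hV
  have hVsub : V ⊆ Sg := Finset.filter_subset _ _
  have hVP : ∀ z ∈ V, ∀ g ∈ P, eval (thK K z) g = 0 := fun z hz =>
    (Finset.mem_filter.1 hz).2
  have hcard' : (Sg.card : ℝ) * degP P ≤ Cc * (m : ℝ) ^ (e - dimP P) * V.card := by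
    exact_mod_cast hcard
  have key : (e - dimP P = 1 ∧ ∀ z ∈ V, ∀ w ∈ V, Null z w) ∨
      ∃ M : Ideal (MvPolynomial (Fin e ⊕ Fin e) k), M.IsPrime ∧ dimP M = dimP P ∧
      degP M ≤ 2 * degP P ∧ V.card ≤ 4 * (onM V M).card := by
    rcases Nat.lt_or_ge (dimP P + 1) e with h | h
    · obtain ⟨M, a1, a2, a3, -, a5⟩ := swept_two (by omega) V hVP hcut
      exact Or.inr ⟨M, a1, a2, by omega, by omega⟩
    · rcases h1 P V hP (by omega) hVP hcut with ⟨-, hn⟩ | ⟨M, a1, a2, a3, -, a5⟩
      · exact Or.inl ⟨by omega, hn⟩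
      · exact Or.inr ⟨M, a1, a2, a3, a5⟩
  rcases key with ⟨h3, hnull⟩ | ⟨M, hM, hMdim, hMdeg, hMcard⟩
  · -- hyperplane: `dimP P = e - 1`
    have h2 := hνY V hVsub hnull
    rw [h3, pow_one] at hcard'
    have h4 : (Sg.card : ℝ) ≤ Cc * m * ν := by
      calc (Sg.card : ℝ) ≤ Sg.card * degP P := by nlinarith [Nat.cast_nonneg (α := ℝ) Sg.card]
        _ ≤ Cc * m * V.card := hcard'
        _ ≤ Cc * m * ν := by gcongr
    have h5 : 0 ≤ (m : ℝ) * ν := by positivity
    have h6 : (0 : ℝ) ≤ Cc := Nat.cast_nonneg _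
    nlinarith [mul_nonneg h6 h5, mul_nonneg h6 hsum0]
  · have h2 := hτM M hM (by rw [hMdim]; omega)
    have h3 : ((onM V M).card : ℝ) ≤ (onM Sg M).card := by
      exact_mod_cast Finset.card_le_card (onM_subset hVsub M)
    have h4 : (V.card : ℝ) ≤ 4 * (onM V M).card := by exact_mod_cast hMcard
    have h5 : (degP M : ℝ) ≤ 2 * degP P := by exact_mod_cast hMdeg
    rw [hMdim] at h2
    have h6 : (V.card : ℝ) ≤ 8 * τ (dimP P) * degP P := by
      have h7 : τ (dimP P) * degP M ≤ τ (dimP P) * (2 * degP P) :=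
        mul_le_mul_of_nonneg_left h5 (hτ _)
      linarith
    have h8 : (Sg.card : ℝ) * degP P ≤ (8 * Cc * ((m : ℝ) ^ (e - dimP P) * τ (dimP P))) *
        degP P := by
      calc (Sg.card : ℝ) * degP P ≤ Cc * (m : ℝ) ^ (e - dimP P) * V.card := hcard'
        _ ≤ Cc * (m : ℝ) ^ (e - dimP P) * (8 * τ (dimP P) * degP P) := by gcongr
        _ = _ := by ring
    have h9 : (Sg.card : ℝ) ≤ 8 * Cc * ((m : ℝ) ^ (e - dimP P) * τ (dimP P)) :=
      le_of_mul_le_mul_right h8 (by linarith)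
    have h10 : (m : ℝ) ^ (e - dimP P) * τ (dimP P) ≤
        ∑ r ∈ Finset.range e, (m : ℝ) ^ (e - r) * τ r :=
      Finset.single_le_sum (f := fun r => (m : ℝ) ^ (e - r) * τ r)
        (fun r _ => mul_nonneg (by positivity) (hτ r)) (Finset.mem_range.2 (by omega))
    have h11 : 0 ≤ (m : ℝ) * ν := by positivity
    have h12 : (0 : ℝ) ≤ Cc := Nat.cast_nonneg _
    nlinarith [mul_nonneg h12 h11, mul_nonneg h12 hsum0, mul_le_mul_of_nonneg_left h10 h12]

end l0

end Crest.Agent.R065.Spl143
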