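import Crest.Agent.R065.Prime_669
import Crest.Agent.R065.Pins_348

/-!
# Row 65, `d ≥ 4`: definitions and literal leaf statements of ENGINE X

Points are pairs `z = (a, c)` of `E d × E d`; `Z = P ×ˢ Q`.  Quadric pins, orientation of every
null pair by degree, samples at two rates (design: message 15191 of channel r65).
-/

set_option autoImplicit false

open MvPolynomial Module Finset

namespace Crest.Agent.R065.X4

open Crest.Agent.R065.HF669 Crest.Agent.R065.Base348 Crest.Agent.R065.Top348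
  Crest.Agent.R065.Pins348

/-- Euclidean space -/
abbrev E (d : ℕ) : Type := EuclideanSpace ℝ (Fin d)

variable {d : ℕ}

/-- null pairs of different points -/
def Nul (z w : E d × E d) : Prop := dist z.1 w.1 = dist z.2 w.2 ∧ z.1 ≠ w.1

lemma Nul.symm {z w : E d × E d} (h : Nul z w) : Nul w z :=
  ⟨by rw [dist_comm w.1, dist_comm w.2]; exact h.1, h.2.symm⟩

lemma nul_comm {z w : E d × E d} : Nul z w ↔ Nul w z := ⟨Nul.symm, Nul.symm⟩

lemma not_nul_self (z : E d × E d) : ¬ Nul z z := fun h => h.2 rfl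

/-- the complex point of a pair -/
noncomputable def zF (z : E d × E d) : Pt d ℂ := zc z.1 z.2

lemma zF_injective : Function.Injective (zF (d := d)) := by
  intro z w h
  obtain ⟨h1, h2⟩ := zc_injective h
  exact Prod.ext h1 h2

lemma null_zF {z w : E d × E d} : Null (zF z) (zF w) ↔ dist z.1 w.1 = dist z.2 w.2 :=
  null_zc _ _ _ _

open scoped Classical in
/-- neighbours of `z` in `Z` -/
noncomputable def nb (Z : Finset (E d × E d)) (z : E d × E d) : Finset (E d × E d) :=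
  Z.filter fun w => Nul z w

lemma mem_nb {Z : Finset (E d × E d)} {z w : E d × E d} : w ∈ nb Z z ↔ w ∈ Z ∧ Nul z w := by
  classical
  simp [nb]

/-- degree of `z` in `Z` -/
noncomputable def dg (Z : Finset (E d × E d)) (z : E d × E d) : ℕ := (nb Z z).card

/-! ### geometric hypotheses on a finite set -/

open scoped Classical in
/-- intersections of spheres with non-collinear centres contain at most `S` points of `P` -/
def SphBd (P : Finset (E d)) (S : ℕ) : Prop :=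
  ∀ (A : Finset (E d)) (ρ : E d → ℝ), ¬ Collinear ℝ (A : Set (E d)) →
    (P.filter fun b => ∀ a ∈ A, dist b a = ρ a).card ≤ S

/-- lines contain at most `l` points of `P` -/
def LineBd (P : Finset (E d)) (l : ℕ) : Prop :=
  ∀ A ⊆ P, Collinear ℝ (A : Set (E d)) → A.card ≤ l

/-- the bound in dimension `k` -/
def Bd (k : ℕ) : Prop :=
  ∃ A : ℝ, 0 < A ∧ ∀ P : Finset (E k), 2 ≤ P.card → (P.card : ℝ) ^ 2 ≤ (A * (nd P : ℝ)) ^ k

/-- X4a (96) -/
def X4a (d : ℕ) : Prop :=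
  (∀ k, 3 ≤ k → k < d → Bd k) → ∃ C : ℝ, 0 < C ∧ ∀ (P : Finset (E d)) (S : ℕ), 2 ≤ P.card →
    C * (nd P : ℝ) ^ (d - 2) ≤ (S : ℝ) ^ 2 → SphBd P S

/-! ### quadric pins -/

open scoped Classical in
/-- the points of `Sg` in the zero set of the ideal `pr` -/
noncomputable def onP (Sg : Finset (Pt d ℂ)) (pr : Ideal (MvPolynomial (Fin d ⊕ Fin d) ℂ)) :
    Finset (Pt d ℂ) :=
  Sg.filter fun w => ∀ g ∈ pr, eval (toFn w) g = 0

/-- the Bezout numbers -/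
noncomputable def tauQ (lam l : ℝ) : ℕ → ℝ
  | 0 => 1
  | 1 => max lam l
  | r + 2 => max lam l ^ 2 * lam ^ r

open scoped Classical in
/-- X4b (812, 477) -/
def X4b (d : ℕ) : Prop :=
  ∀ (P Q : Finset (E d)) (n S l D : ℕ) (lam : ℝ) (Sg : Finset (E d × E d)),
    SphBd P S → SphBd Q S → LineBd P l → LineBd Q l → 1 ≤ l → P.card ≤ n → Q.card ≤ n →
    1 ≤ D → 2 * n * S ≤ D → 1 ≤ lam → 4 * ((P ×ˢ Q).card : ℝ) ≤ lam * D → Sg ⊆ P ×ˢ Q →
    (∀ w ∈ Sg, D ≤ dg (P ×ˢ Q) w) →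
    ∀ pr : Ideal (MvPolynomial (Fin d ⊕ Fin d) ℂ), pr.IsPrime →
      ((onP (Sg.image zF) pr).card : ℝ) ≤ tauQ lam l (dimP pr) * degP pr

/-! ### cliques -/

/-- pairwise null -/
def Clique (Y : Finset (E d × E d)) : Prop :=
  ∀ z ∈ Y, ∀ w ∈ Y, dist z.1 w.1 = dist z.2 w.2

open scoped Classical in
/-- X4c (78): the probability that `p` independent uniform points of `V` contain a clique of
size `r` is at most `C(n, r) n^(d+1) (p / |V|)^r` -/
def X4c (d : ℕ) : Prop :=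
  ∀ (P Q : Finset (E d)) (V : Finset (E d × E d)) (p r : ℕ), V ⊆ P ×ˢ Q →
    ((Finset.univ.filter fun x : Fin p → V =>
      ∃ Y : Finset (E d × E d), Y.card = r ∧ Clique Y ∧ ∀ y ∈ Y, ∃ i, (x i : E d × E d) = y).card *
        V.card ^ r) ≤ P.card.choose r * Q.card ^ (d + 1) * p ^ r * V.card ^ p

/-! ### inputs from algebra -/

/-- `f ∈ I_m(Om)` -/
def IsI (m : ℕ) (Om : Finset (Pt d ℂ)) (f : MvPolynomial (Pr d ⊕ Fin d) ℂ) : Prop :=
  f.totalDegree ≤ m ∧ ∀ w ∈ Om, res w f = 0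

/-- `z` is bad for `Om` -/
def IsBad (m : ℕ) (Om : Finset (Pt d ℂ)) (z : Pt d ℂ) : Prop :=
  ∀ f : MvPolynomial (Pr d ⊕ Fin d) ℂ, IsI m Om f → res z f = 0

open scoped Classical in
/-- the rank lemma for the order function `o`, constant `C` -/
def RankFor (d : ℕ) (o : ℕ → Finset (Pt d ℂ) → Pt d ℂ → Pt d ℂ → ℕ∞) (C : ℝ) : Prop :=
  ∀ (m : ℕ) (Om : Finset (Pt d ℂ)) (z : Pt d ℂ) (ν : ℝ), 1 ≤ m → ¬ IsBad m Om z → ∀ Sg ⊆ Om,
    (∀ w ∈ Sg, Null z w ∧ w.1 ≠ z.1 ∧ o m (Om.erase w) w z ≤ o m (Om.erase w) z w) →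
    (∀ Y ⊆ Sg, (∀ w ∈ Y, ∀ w' ∈ Y, Null w w') → (Y.card : ℝ) ≤ ν) →
    (Sg.card : ℝ) ≤ C * ((m : ℝ) ^ (d - 1) + m * ν)

/-- the rank lemma (272) -/
def RankIn (d : ℕ) : Prop :=
  ∃ (o : ℕ → Finset (Pt d ℂ) → Pt d ℂ → Pt d ℂ → ℕ∞) (C : ℝ), 0 < C ∧ RankFor d o C

/-- LEVEL-0 (143) in abstract form -/
def L0abs (d : ℕ) : Prop :=
  ∃ C : ℝ, 0 < C ∧ ∀ (m : ℕ) (f : MvPolynomial (Pr d ⊕ Fin d) ℂ) (Sg : Finset (Pt d ℂ))
    (τ : ℕ → ℝ) (ν : ℝ), 1 ≤ m → f ≠ 0 → f.totalDegree ≤ m → (∀ w ∈ Sg, res w f = 0) →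
    (∀ r, 1 ≤ τ r) → 1 ≤ ν →
    (∀ pr : Ideal (MvPolynomial (Fin d ⊕ Fin d) ℂ), pr.IsPrime → dimP pr < d →
      ((onP Sg pr).card : ℝ) ≤ τ (dimP pr) * degP pr) →
    (∀ Y ⊆ Sg, (∀ w ∈ Y, ∀ w' ∈ Y, Null w w') → (Y.card : ℝ) ≤ ν) →
    (Sg.card : ℝ) ≤ C * (∑ r ∈ range d, (m : ℝ) ^ (d - r) * τ r + m * ν)

/-- general position: all `x`-coordinates are different (812's rotation output) -/
def Gen (Z : Finset (E d × E d)) : Prop :=
  ∀ z ∈ Z, ∀ w ∈ Z, z ≠ w → (zF z).1 ≠ (zF w).1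

/-- X4f, the goal -/
def Master (d : ℕ) : Prop :=
  X4a d → X4b d → X4c d → L0abs d → RankIn d → (∀ k, 3 ≤ k → k < d → Bd k) → Bd d

end Crest.Agent.R065.X4
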